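import Crest.Agent.R245.AlgMain

/-! Simultaneous diagonalisation of the complex hyperbolic form at `q0` and a Hermitian form. -/

set_option autoImplicit false

namespace Crest.Agent.R245

open Complex
open scoped ComplexConjugate

/-- the form of the complex hyperbolic plane at the base point -/
noncomputable def om0 (v w : ℂ × ℂ) : ℂ := v.1 * conj w.1 + (1/4) * (v.2 * conj w.2)

theorem exists_diag (S : ℂ × ℂ → ℂ × ℂ → ℂ)
    (hadd : ∀ x x' y, S (x + x') y = S x y + S x' y)
    (hsmul : ∀ (c : ℂ) x y, S (c • x) y = c * S x y)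
    (hconj : ∀ x y, conj (S x y) = S y x) :
    ∃ (f1 f2 : ℂ × ℂ) (t1 t2 : ℝ),
      om0 f1 f1 = 1 ∧ om0 f2 f2 = 1 ∧ om0 f1 f2 = 0 ∧ om0 f2 f1 = 0 ∧
      S f1 f1 = t1 ∧ S f2 f2 = t2 ∧ S f1 f2 = 0 ∧ S f2 f1 = 0 ∧
      ∀ ξ : ℂ × ℂ, ∃ c1 c2 : ℂ, ξ = c1 • f1 + c2 • f2 := by
  classical
  have hadd' : ∀ x y y', S x (y + y') = S x y + S x y' := by
    intro x y y'
    rw [← hconj (y + y') x, hadd, map_add, hconj, hconj]
  have hsmul' : ∀ (c : ℂ) x y, S x (c • y) = conj c * S x y := by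
    intro c x y
    rw [← hconj (c • y) x, hsmul, map_mul, hconj]
  let e : Fin 2 → ℂ × ℂ := ![(1, 0), (0, 2)]
  let A : Matrix (Fin 2) (Fin 2) ℂ := Matrix.of fun l k => S (e k) (e l)
  have hA : A.IsHermitian := by
    ext l k
    simp only [A, Matrix.conjTranspose_apply, Matrix.of_apply]
    exact hconj _ _
  let b := hA.eigenvectorBasis
  let t := hA.eigenvalues
  -- the vectors
  let f : Fin 2 → ℂ × ℂ := fun i => ((b i).ofLp 0) • e 0 + ((b i).ofLp 1) • e 1
  have hf1 : ∀ i, (f i).1 = (b i).ofLp 0 := by intro i; simp [f, e]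
  have hf2 : ∀ i, (f i).2 = 2 * (b i).ofLp 1 := by intro i; simp [f, e]; ring
  have horth : ∀ i j, (b i).ofLp 0 * conj ((b j).ofLp 0) + (b i).ofLp 1 * conj ((b j).ofLp 1)
      = if i = j then 1 else 0 := by
    intro i j
    have h := orthonormal_iff_ite.1 b.orthonormal j i
    rw [PiLp.inner_apply] at h
    simp only [Fin.sum_univ_two, RCLike.inner_apply] at h
    rw [show (if i = j then (1:ℂ) else 0) = if j = i then 1 else 0 by simp [eq_comm]]
    rw [← h]
  have hom : ∀ i j, om0 (f i) (f j) = if i = j then 1 else 0 := by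
    intro i j
    rw [← horth i j, om0, hf1, hf1, hf2, hf2]
    simp only [map_mul, Complex.conj_ofNat]
    ring
  have heig : ∀ i l, S (f i) (e l) = (t i : ℂ) * (b i).ofLp l := by
    intro i l
    have h := congrFun (hA.mulVec_eigenvectorBasis i) l
    simp only [Matrix.mulVec, dotProduct, Fin.sum_univ_two, A, Matrix.of_apply, Pi.smul_apply] at h
    have h2 : S (f i) (e l) = (b i).ofLp 0 * S (e 0) (e l) + (b i).ofLp 1 * S (e 1) (e l) := by
      show S (((b i).ofLp 0) • e 0 + ((b i).ofLp 1) • e 1) (e l) = _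
      rw [hadd, hsmul, hsmul]
    rw [h2, mul_comm ((b i).ofLp 0), mul_comm ((b i).ofLp 1)]
    rw [show ((t i : ℝ) : ℂ) * (b i).ofLp l = (t i) • (b i).ofLp l by
      rw [Complex.real_smul]]
    exact h
  have hS : ∀ i j, S (f i) (f j) = if i = j then ((t i : ℝ) : ℂ) else 0 := by
    intro i j
    have h2 : S (f i) (f j) = conj ((b j).ofLp 0) * S (f i) (e 0)
        + conj ((b j).ofLp 1) * S (f i) (e 1) := by
      show S (f i) (((b j).ofLp 0) • e 0 + ((b j).ofLp 1) • e 1) = _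
      rw [hadd', hsmul', hsmul']
    rw [h2, heig, heig]
    have := horth i j
    split_ifs at this ⊢ with hij
    · linear_combination (t i : ℂ) * this
    · linear_combination (t i : ℂ) * this
  refine ⟨f 0, f 1, t 0, t 1, ?_, ?_, ?_, ?_, ?_, ?_, ?_, ?_, ?_⟩
  · simpa using hom 0 0
  · simpa using hom 1 1
  · simpa using hom 0 1
  · simpa using hom 1 0
  · simpa using hS 0 0
  · simpa using hS 1 1
  · simpa using hS 0 1
  · simpa using hS 1 0
  · intro ξ
    let x : EuclideanSpace ℂ (Fin 2) := WithLp.toLp 2 ![ξ.1, ξ.2 / 2]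
    have hx := b.sum_repr x
    rw [Fin.sum_univ_two] at hx
    refine ⟨b.repr x 0, b.repr x 1, ?_⟩
    have h0 := congrArg (fun v : EuclideanSpace ℂ (Fin 2) => v.ofLp 0) hx
    have h1 := congrArg (fun v : EuclideanSpace ℂ (Fin 2) => v.ofLp 1) hx
    simp only [x, PiLp.add_apply, PiLp.smul_apply, smul_eq_mul, Matrix.cons_val_zero,
      Matrix.cons_val_one] at h0 h1
    refine Prod.ext ?_ ?_
    · rw [Prod.fst_add, Prod.smul_fst, Prod.smul_fst, hf1, hf1, smul_eq_mul, smul_eq_mul, h0]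
    · rw [Prod.snd_add, Prod.smul_snd, Prod.smul_snd, hf2, hf2, smul_eq_mul, smul_eq_mul]
      linear_combination -2 * h1

end Crest.Agent.R245
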