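import Crest.Agent.R245.Defs2

/-! Pure algebra for row 245: the curvature inequality in the wild region. -/

set_option autoImplicit false

namespace Crest.Agent.R245

open Complex
open scoped ContDiff ComplexConjugate

/-- the opposite-sign core: `P, Q ≥ 0`, `y ≤ μ₂`, `μ₁ ≤ (1+2y) - (1+y) x`, `μ₂ Q ≤ μ₁ P`. -/
theorem alg_core (y x μ1 μ2 P Q : ℝ) (hy : 0 ≤ y) (hx : 0 ≤ x) (hx1 : x ≤ 1)
    (hμ1 : μ1 ≤ (1 + 2 * y) - (1 + y) * x) (hμ2 : y ≤ μ2) (hP : 0 ≤ P) (hQ : 0 ≤ Q)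
    (h : μ2 * Q ≤ μ1 * P) :
    y ^ 2 * x / 8 * (P + Q) ^ 2 ≤
      4 * y * (1 + y) * (P ^ 2 - P * Q + Q ^ 2) - (μ1 * P - μ2 * Q) ^ 2 + 2 * (P + Q) ^ 2 := by
  have h1 : μ1 * P - μ2 * Q ≤ ((1 + 2 * y) - (1 + y) * x) * P - y * Q := by
    have := mul_le_mul_of_nonneg_right hμ1 hP
    have := mul_le_mul_of_nonneg_right hμ2 hQ
    linarith
  have h2 : (μ1 * P - μ2 * Q) ^ 2 ≤ (((1 + 2 * y) - (1 + y) * x) * P - y * Q) ^ 2 := by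
    apply pow_le_pow_left₀ (by linarith) h1
  have hPQ : 0 ≤ P * Q := mul_nonneg hP hQ
  have e1 : 0 ≤ y * (1 + y) * x * (2 * P - Q) ^ 2 := by positivity
  have e2 : 0 ≤ (P - 2 * y * Q) ^ 2 := by positivity
  have e3 : 0 ≤ y ^ 2 * x * (P - Q) ^ 2 := by positivity
  have e4 : 0 ≤ (1 - x) * x * (1 + y) ^ 2 * P ^ 2 := by
    have : 0 ≤ 1 - x := by linarith
    positivity
  have e5 : 0 ≤ (1 - x) * (y + y ^ 2) * Q ^ 2 := by
    have : 0 ≤ 1 - x := by linarith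
    positivity
  have e6 : 0 ≤ x * y * P ^ 2 := by positivity
  have e7 : 0 ≤ y * Q ^ 2 := by positivity
  have e8 : 0 ≤ x * P ^ 2 := by positivity
  have e9 : 0 ≤ x * y ^ 2 * P ^ 2 := by positivity
  have e10 : 0 ≤ (1 - x) * y ^ 2 * Q ^ 2 := by
    have : 0 ≤ 1 - x := by linarith
    positivity
  have e11 : 0 ≤ y ^ 2 * Q ^ 2 := by positivity
  have e12 : 0 ≤ P ^ 2 := by positivity
  have e13 : 0 ≤ Q ^ 2 := by positivity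
  nlinarith [e1, e2, e3, e4, e5, e6, e7, e8, e9, e10, e11, e12, e13, h2, hPQ]

/-- same sign core -/
theorem alg_core_same (y x μ1 μ2 P Q : ℝ) (hy : 0 ≤ y) (hx : 0 ≤ x) (hx1 : x ≤ 1)
    (hμ1 : μ1 ≤ (1 + 2 * y) - (1 + y) * x) (hμ2 : μ2 ≤ (1 + 2 * y) - (1 + y) * x)
    (hμ1' : y ≤ μ1) (hμ2' : y ≤ μ2) (hPQ : 0 ≤ P * Q) :
    y ^ 2 * x / 8 * (P + Q) ^ 2 ≤
      4 * y * (1 + y) * (P + Q) ^ 2 - (μ1 * P + μ2 * Q) ^ 2 + 2 * (P + Q) ^ 2 := by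
  set μ := (1 + 2 * y) - (1 + y) * x with hμ
  have hμ0 : 0 ≤ μ := by nlinarith
  have h1 : (μ1 * P + μ2 * Q) ^ 2 ≤ μ ^ 2 * (P + Q) ^ 2 := by
    have a1 : μ1 ^ 2 ≤ μ ^ 2 := pow_le_pow_left₀ (by linarith) hμ1 2
    have a2 : μ2 ^ 2 ≤ μ ^ 2 := pow_le_pow_left₀ (by linarith) hμ2 2
    have a3 : μ1 * μ2 ≤ μ ^ 2 := by nlinarith
    nlinarith [mul_nonneg (sub_nonneg.2 a1) (sq_nonneg P), mul_nonneg (sub_nonneg.2 a2) (sq_nonneg Q),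
      mul_nonneg (sub_nonneg.2 a3) hPQ]
  have h2 : y ^ 2 * x / 8 ≤ 4 * y * (1 + y) - μ ^ 2 + 2 := by
    have e1 : 0 ≤ (1 - x) * x * (1 + y) ^ 2 := by
      have : 0 ≤ 1 - x := by linarith
      positivity
    have e2 : 0 ≤ x * y := by positivity
    have e3 : 0 ≤ x * y ^ 2 := by positivity
    rw [hμ]
    nlinarith [e1, e2, e3]
  nlinarith [mul_le_mul_of_nonneg_right h2 (sq_nonneg (P + Q)), h1]

set_option maxHeartbeats 1000000 in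
/-- real version of `alg_main` -/
theorem alg_real (Λ y t1 t2 tm w1 w2 E : ℝ) (hΛ : 0 < Λ) (hy : 0 ≤ y) (htm : 0 < tm)
    (h1 : tm ≤ t1) (h2 : tm ≤ t2) (h1' : 4 * t1 ^ 2 ≤ Λ) (h2' : 4 * t2 ^ 2 ≤ Λ)
    (hE1 : 2 * (w1 * w2) ≤ E) (hE2 : -(2 * (w1 * w2)) ≤ E) :
    (Λ / 2 + (y * tm) ^ 3 / (8 * (Λ + y * tm))) * (w1 ^ 2 + w2 ^ 2 + E)
      ≤ Λ * (w1 ^ 2 + w2 ^ 2 + E + 3 * (w1 + w2) ^ 2)
        + y * (1 + y) * (t1 ^ 2 * w1 ^ 2 + t2 ^ 2 * w2 ^ 2 + t1 * t2 * E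
          + 3 * (t1 * w1 + t2 * w2) ^ 2)
        - (((1 + 2 * y) * t1 - y * (1 + y) * t1 ^ 2 / (Λ + y * t1)) * w1
          + ((1 + 2 * y) * t2 - y * (1 + y) * t2 ^ 2 / (Λ + y * t2)) * w2) ^ 2 := by
  have ht1 : 0 < t1 := by linarith
  have ht2 : 0 < t2 := by linarith
  have hd : 0 < Λ + y * tm := by positivity
  have hd1 : 0 < Λ + y * t1 := by positivity
  have hd2 : 0 < Λ + y * t2 := by positivity
  set x := y * tm / (Λ + y * tm) with hx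
  have hx0 : 0 ≤ x := by positivity
  have hx1 : x ≤ 1 := by rw [hx, div_le_one hd]; linarith
  have key : ∀ t : ℝ, tm ≤ t → x ≤ y * t / (Λ + y * t) ∧ y * t / (Λ + y * t) ≤ 1 := by
    intro t ht
    have ht0 : 0 < t := by linarith
    have hdt : 0 < Λ + y * t := by positivity
    constructor
    · rw [hx, div_le_div_iff₀ hd hdt]
      nlinarith [mul_nonneg hy (sub_nonneg.2 ht)]
    · rw [div_le_one hdt]; linarith
  have hg : (y * tm) ^ 3 / (8 * (Λ + y * tm)) = y ^ 2 * x / 8 * tm ^ 2 := by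
    rw [hx]; field_simp
  set μ1 := (1 + 2 * y) - (1 + y) * (y * t1 / (Λ + y * t1)) with hμ1
  set μ2 := (1 + 2 * y) - (1 + y) * (y * t2 / (Λ + y * t2)) with hμ2
  have m1 : (1 + 2 * y) * t1 - y * (1 + y) * t1 ^ 2 / (Λ + y * t1) = μ1 * t1 := by
    rw [hμ1]; field_simp
  have m2 : (1 + 2 * y) * t2 - y * (1 + y) * t2 ^ 2 / (Λ + y * t2) = μ2 * t2 := by
    rw [hμ2]; field_simp
  have u1 : μ1 ≤ (1 + 2 * y) - (1 + y) * x := by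
    have := mul_le_mul_of_nonneg_left (key t1 h1).1 (show (0:ℝ) ≤ 1 + y by linarith)
    linarith
  have u2 : μ2 ≤ (1 + 2 * y) - (1 + y) * x := by
    have := mul_le_mul_of_nonneg_left (key t2 h2).1 (show (0:ℝ) ≤ 1 + y by linarith)
    linarith
  have l1 : y ≤ μ1 := by
    have := mul_le_mul_of_nonneg_left (key t1 h1).2 (show (0:ℝ) ≤ 1 + y by linarith)
    linarith
  have l2 : y ≤ μ2 := by
    have := mul_le_mul_of_nonneg_left (key t2 h2).2 (show (0:ℝ) ≤ 1 + y by linarith)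
    linarith
  rw [hg, m1, m2]
  set g := y ^ 2 * x / 8 * tm ^ 2 with hgdef
  have hg0 : 0 ≤ g := by positivity
  have hgle : g ≤ y * (1 + y) * (t1 * t2) := by
    have e1 : tm ^ 2 ≤ t1 * t2 := by nlinarith
    have e2 : y ^ 2 * x / 8 ≤ y * (1 + y) := by nlinarith [mul_nonneg hy hy, mul_nonneg (mul_nonneg hy hy) hx0, mul_nonneg (mul_nonneg hy hy) (sub_nonneg.2 hx1)]
    have e3 : 0 ≤ y * (1 + y) := by positivity
    calc g ≤ y * (1 + y) * tm ^ 2 := mul_le_mul_of_nonneg_right e2 (sq_nonneg _)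
      _ ≤ y * (1 + y) * (t1 * t2) := mul_le_mul_of_nonneg_left e1 e3
  -- relation between (P+Q)^2 and (w1+w2)^2 for nonneg weights
  have bnd : ∀ p q : ℝ, 0 ≤ p * q → 4 * (t1 * p + t2 * q) ^ 2 ≤ Λ * (p + q) ^ 2 ∧
      tm ^ 2 * (p + q) ^ 2 ≤ (t1 * p + t2 * q) ^ 2 := by
    intro p q hpq
    constructor
    · have e1 : 4 * (t1 * t2) ≤ Λ := by linarith [sq_nonneg (t1 - t2)]
      linarith [mul_nonneg (sub_nonneg.2 h1') (sq_nonneg p), mul_nonneg (sub_nonneg.2 h2') (sq_nonneg q),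
        mul_nonneg (sub_nonneg.2 e1) hpq]
    · have e1 : tm ^ 2 ≤ t1 ^ 2 := pow_le_pow_left₀ htm.le h1 2
      have e2 : tm ^ 2 ≤ t2 ^ 2 := pow_le_pow_left₀ htm.le h2 2
      have e3 : tm ^ 2 ≤ t1 * t2 := by nlinarith
      linarith [mul_nonneg (sub_nonneg.2 e1) (sq_nonneg p), mul_nonneg (sub_nonneg.2 e2) (sq_nonneg q),
        mul_nonneg (sub_nonneg.2 e3) hpq]
  rcases le_total 0 (w1 * w2) with hs | hs
  · -- same sign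
    have hE : 0 ≤ (Λ / 2 - g + y * (1 + y) * (t1 * t2)) * (E - 2 * (w1 * w2)) :=
      mul_nonneg (by linarith) (by linarith)
    obtain ⟨b1, b2⟩ := bnd w1 w2 hs
    have hPQ : 0 ≤ (t1 * w1) * (t2 * w2) := by
      have : (t1 * w1) * (t2 * w2) = (t1 * t2) * (w1 * w2) := by ring
      rw [this]; positivity
    have hc := alg_core_same y x μ1 μ2 (t1 * w1) (t2 * w2) hy hx0 hx1 u1 u2 l1 l2 hPQ
    have hgs : g * (w1 + w2) ^ 2 ≤ y ^ 2 * x / 8 * (t1 * w1 + t2 * w2) ^ 2 := by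
      rw [hgdef, mul_assoc]
      exact mul_le_mul_of_nonneg_left b2 (by positivity)
    have hΛs : 0 ≤ Λ * (w1 + w2) ^ 2 := by positivity
    linarith [hE, hc, hgs, b1, hΛs]
  · -- opposite sign
    have hE : 0 ≤ (Λ / 2 - g + y * (1 + y) * (t1 * t2)) * (E + 2 * (w1 * w2)) :=
      mul_nonneg (by linarith) (by linarith)
    -- reduce to P, Q ≥ 0
    have main : ∀ p q : ℝ, 0 ≤ p → 0 ≤ q →
        y ^ 2 * x / 8 * (t1 * p + t2 * q) ^ 2 ≤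
          4 * y * (1 + y) * ((t1 * p) ^ 2 - (t1 * p) * (t2 * q) + (t2 * q) ^ 2)
            - (μ1 * t1 * p - μ2 * t2 * q) ^ 2 + 2 * (t1 * p + t2 * q) ^ 2 := by
      intro p q hp hq
      rcases le_total (μ2 * (t2 * q)) (μ1 * (t1 * p)) with h | h
      · have := alg_core y x μ1 μ2 (t1 * p) (t2 * q) hy hx0 hx1 u1 l2 (by positivity)
          (by positivity) h
        linarith [this]
      · have := alg_core y x μ2 μ1 (t2 * q) (t1 * p) hy hx0 hx1 u2 l1 (by positivity)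
          (by positivity) h
        linarith [this]
    have fin : ∀ p q : ℝ, 0 ≤ p → 0 ≤ q →
        (Λ / 2 + g) * (p + q) ^ 2 ≤ Λ * (p + q) ^ 2 +
          4 * y * (1 + y) * ((t1 * p) ^ 2 - (t1 * p) * (t2 * q) + (t2 * q) ^ 2)
            - (μ1 * t1 * p - μ2 * t2 * q) ^ 2 := by
      intro p q hp hq
      obtain ⟨b1, b2⟩ := bnd p q (mul_nonneg hp hq)
      have hc := main p q hp hq
      have hgs : g * (p + q) ^ 2 ≤ y ^ 2 * x / 8 * (t1 * p + t2 * q) ^ 2 := by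
        rw [hgdef, mul_assoc]
        exact mul_le_mul_of_nonneg_left b2 (by positivity)
      linarith [hc, hgs, b1]
    have hΛs : 0 ≤ Λ * (w1 + w2) ^ 2 := by positivity
    rcases le_total 0 w1 with hw1 | hw1
    · rcases le_total 0 w2 with hw2 | hw2
      · -- w1 w2 = 0
        have hz : w1 * w2 = 0 := le_antisymm hs (mul_nonneg hw1 hw2)
        rcases mul_eq_zero.1 hz with h0 | h0
        · have := fin 0 w2 le_rfl hw2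
          subst h0
          linarith [hE, this, hΛs]
        · have := fin w1 0 hw1 le_rfl
          subst h0
          linarith [hE, this, hΛs]
      · have := fin w1 (-w2) hw1 (by linarith)
        linarith [hE, this, hΛs]
    · rcases le_total 0 w2 with hw2 | hw2
      · have := fin (-w1) w2 (by linarith) hw2
        linarith [hE, this, hΛs]
      · have hz : w1 * w2 = 0 := le_antisymm hs (mul_nonneg_of_nonpos_of_nonpos hw1 hw2)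
        rcases mul_eq_zero.1 hz with h0 | h0
        · have := fin 0 (-w2) le_rfl (by linarith)
          subst h0
          linarith [hE, this, hΛs]
        · have := fin (-w1) 0 (by linarith) le_rfl
          subst h0
          linarith [hE, this, hΛs]

theorem normSq_cross (ξ1 ξ2 η1 η2 : ℂ) :
    2 * ((ξ1 * conj η1).im * (ξ2 * conj η2).im) ≤
      ‖ξ1‖ ^ 2 * ‖η2‖ ^ 2 + ‖ξ2‖ ^ 2 * ‖η1‖ ^ 2 - 2 * ((ξ1 * conj η1).re * (ξ2 * conj η2).re) ∧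
    -(2 * ((ξ1 * conj η1).im * (ξ2 * conj η2).im)) ≤
      ‖ξ1‖ ^ 2 * ‖η2‖ ^ 2 + ‖ξ2‖ ^ 2 * ‖η1‖ ^ 2 - 2 * ((ξ1 * conj η1).re * (ξ2 * conj η2).re) ∧
    ‖ξ1‖ ^ 2 * ‖η1‖ ^ 2 = (ξ1 * conj η1).re ^ 2 + (ξ1 * conj η1).im ^ 2 := by
  obtain ⟨a, b⟩ := ξ1
  obtain ⟨c, d⟩ := ξ2
  obtain ⟨e, f⟩ := η1
  obtain ⟨g, h⟩ := η2
  simp only [← Complex.normSq_eq_norm_sq, Complex.normSq_mk, Complex.mul_re, Complex.mul_im,
    Complex.conj_re, Complex.conj_im]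
  refine ⟨?_, ?_, ?_⟩
  · nlinarith [sq_nonneg (a * g - b * h - (c * e - d * f)), sq_nonneg (a * h + b * g - (c * f + d * e))]
  · nlinarith [sq_nonneg (a * g + b * h - (c * e + d * f)), sq_nonneg (b * g - a * h + (d * e - c * f))]
  · ring

set_option maxHeartbeats 1000000 in
/-- Pure algebra. `m_i = (1+2y) t_i - y(1+y) t_i²/(Λ + y t_i)`. -/
theorem alg_main (Λ y t1 t2 tm : ℝ) (hΛ : 0 < Λ) (hy : 0 ≤ y) (htm : 0 < tm)
    (h1 : tm ≤ t1) (h2 : tm ≤ t2) (h1' : 4 * t1 ^ 2 ≤ Λ) (h2' : 4 * t2 ^ 2 ≤ Λ)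
    (ξ1 ξ2 η1 η2 : ℂ) :
    (Λ / 2 + (y * tm) ^ 3 / (8 * (Λ + y * tm))) *
        ((‖ξ1‖ ^ 2 + ‖ξ2‖ ^ 2) * (‖η1‖ ^ 2 + ‖η2‖ ^ 2)
          - ((ξ1 * conj η1).re + (ξ2 * conj η2).re) ^ 2)
      ≤ Λ * ((‖ξ1‖ ^ 2 + ‖ξ2‖ ^ 2) * (‖η1‖ ^ 2 + ‖η2‖ ^ 2)
          - ((ξ1 * conj η1).re + (ξ2 * conj η2).re) ^ 2
          + 3 * ((ξ1 * conj η1).im + (ξ2 * conj η2).im) ^ 2)
        + y * (1 + y) * ((t1 * ‖ξ1‖ ^ 2 + t2 * ‖ξ2‖ ^ 2) * (t1 * ‖η1‖ ^ 2 + t2 * ‖η2‖ ^ 2)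
          - (t1 * (ξ1 * conj η1).re + t2 * (ξ2 * conj η2).re) ^ 2
          + 3 * (t1 * (ξ1 * conj η1).im + t2 * (ξ2 * conj η2).im) ^ 2)
        - (((1 + 2 * y) * t1 - y * (1 + y) * t1 ^ 2 / (Λ + y * t1)) * (ξ1 * conj η1).im
          + ((1 + 2 * y) * t2 - y * (1 + y) * t2 ^ 2 / (Λ + y * t2)) * (ξ2 * conj η2).im) ^ 2 := by
  obtain ⟨c1, c2, c3⟩ := normSq_cross ξ1 ξ2 η1 η2
  obtain ⟨-, -, c4⟩ := normSq_cross ξ2 ξ1 η2 η1
  have := alg_real Λ y t1 t2 tm (ξ1 * conj η1).im (ξ2 * conj η2).im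
    (‖ξ1‖ ^ 2 * ‖η2‖ ^ 2 + ‖ξ2‖ ^ 2 * ‖η1‖ ^ 2 - 2 * ((ξ1 * conj η1).re * (ξ2 * conj η2).re))
    hΛ hy htm h1 h2 h1' h2' c1 c2
  have a1 : (‖ξ1‖ ^ 2 + ‖ξ2‖ ^ 2) * (‖η1‖ ^ 2 + ‖η2‖ ^ 2)
          - ((ξ1 * conj η1).re + (ξ2 * conj η2).re) ^ 2 =
      (ξ1 * conj η1).im ^ 2 + (ξ2 * conj η2).im ^ 2 +
        (‖ξ1‖ ^ 2 * ‖η2‖ ^ 2 + ‖ξ2‖ ^ 2 * ‖η1‖ ^ 2
          - 2 * ((ξ1 * conj η1).re * (ξ2 * conj η2).re)) := by
    linear_combination c3 + c4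
  have a2 : (t1 * ‖ξ1‖ ^ 2 + t2 * ‖ξ2‖ ^ 2) * (t1 * ‖η1‖ ^ 2 + t2 * ‖η2‖ ^ 2)
          - (t1 * (ξ1 * conj η1).re + t2 * (ξ2 * conj η2).re) ^ 2 =
      t1 ^ 2 * (ξ1 * conj η1).im ^ 2 + t2 ^ 2 * (ξ2 * conj η2).im ^ 2 +
        t1 * t2 * (‖ξ1‖ ^ 2 * ‖η2‖ ^ 2 + ‖ξ2‖ ^ 2 * ‖η1‖ ^ 2
          - 2 * ((ξ1 * conj η1).re * (ξ2 * conj η2).re)) := by
    linear_combination t1 ^ 2 * c3 + t2 ^ 2 * c4
  rw [a1, a2]
  exact this

end Crest.Agent.R245
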