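import Crest.Agent.R245.BasePert
import Crest.Agent.R245.AlgMain
import Crest.Agent.R245.AlgDiag

/-! TASK AlgR: coordinate free form of `alg_main`. -/

set_option autoImplicit false

namespace Crest.Agent.R245

open Complex Filter Topology
open scoped ContDiff ComplexConjugate

theorem aS_q0_smooth : ContDiffAt ℝ ∞ aS q0 := aS_contDiffAt q0_mem

theorem D11_aS_om0 (v w : B2) : D11 aS v w q0 = om0 v w := by rw [aS_D11_q0, om0]

/-- expansion of a form in a basis -/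
theorem D11_basis {P : B2 → ℝ} {p : B2} (hP : ContDiffAt ℝ ∞ P p) (f1 f2 : B2)
    (c1 c2 d1 d2 : ℂ) :
    D11 P (c1 • f1 + c2 • f2) (d1 • f1 + d2 • f2) p =
      c1 * conj d1 * D11 P f1 f1 p + c1 * conj d2 * D11 P f1 f2 p
        + c2 * conj d1 * D11 P f2 f1 p + c2 * conj d2 * D11 P f2 f2 p := by
  rw [D11_add_left hP, D11_add_right hP, D11_add_right hP]
  simp only [D11_smul_left hP, D11_smul_right hP]
  ring

/-- simultaneous diagonalisation of `aS` and `φ` at `q0`. -/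
theorem exists_diagB (φ : B2 → ℝ) (hφ : ContDiffAt ℝ ∞ φ q0) :
    ∃ (f1 f2 : B2) (t1 t2 : ℝ),
      (∀ c1 c2 d1 d2 : ℂ, D11 aS (c1 • f1 + c2 • f2) (d1 • f1 + d2 • f2) q0 =
        c1 * conj d1 + c2 * conj d2) ∧
      (∀ c1 c2 d1 d2 : ℂ, D11 φ (c1 • f1 + c2 • f2) (d1 • f1 + d2 • f2) q0 =
        t1 * (c1 * conj d1) + t2 * (c2 * conj d2)) ∧
      ∀ ξ : B2, ∃ c1 c2 : ℂ, ξ = c1 • f1 + c2 • f2 := by
  obtain ⟨f1, f2, t1, t2, h1, h2, h3, h4, h5, h6, h7, h8, h9⟩ :=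
    exists_diag (fun v w => D11 φ v w q0) (fun x x' y => D11_add_left hφ x x' y)
      (fun c x y => D11_smul_left hφ c x y) (fun x y => D11_conj hφ x y)
  refine ⟨f1, f2, t1, t2, ?_, ?_, h9⟩
  · intro c1 c2 d1 d2
    rw [D11_basis aS_q0_smooth, D11_aS_om0, D11_aS_om0, D11_aS_om0, D11_aS_om0, h1, h2, h3, h4]
    ring
  · intro c1 c2 d1 d2
    rw [D11_basis hφ, h5, h6, h7, h8]
    ring

theorem algHpot_contDiffAt {A φ : B2 → ℝ} {p : B2} (hA : ContDiffAt ℝ ∞ A p)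
    (hφ : ContDiffAt ℝ ∞ φ p) (y : ℝ) : ContDiffAt ℝ ∞ (Hpot A φ y) p := by
  unfold Hpot
  exact hA.add (contDiffAt_const.mul hφ)

theorem algHpot_D11 {A φ : B2 → ℝ} {p : B2} (hA : ContDiffAt ℝ ∞ A p)
    (hφ : ContDiffAt ℝ ∞ φ p) (y : ℝ) (v w : B2) :
    D11 (Hpot A φ y) v w p = D11 A v w p + y * D11 φ v w p := by
  unfold Hpot
  rw [D11_add hA (contDiffAt_const.mul hφ), D11_const_mul hφ]

theorem D11_scal_aS (Λ α : ℝ) (v w : B2) :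
    D11 (fun b => Λ * aS b + α) v w q0 = Λ * D11 aS v w q0 := by
  have h := aS_q0_smooth
  rw [D11_add (contDiffAt_const.mul h) contDiffAt_const, D11_const_mul h, D11_const, add_zero]

theorem scal_aS_smooth (Λ α : ℝ) : ContDiffAt ℝ ∞ (fun b : B2 => Λ * aS b + α) q0 :=
  (contDiffAt_const.mul aS_q0_smooth).add contDiffAt_const

theorem norm_sq_mul_conj (c : ℂ) : c * conj c = ((‖c‖ ^ 2 : ℝ) : ℂ) := by
  rw [Complex.mul_conj, Complex.normSq_eq_norm_sq]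

set_option maxHeartbeats 1000000 in
/-- coordinate free form: `H = Λ aS + y φ`, `tm ω ≤ i∂∂̄φ ≤ tM ω` at `q0`. -/
theorem alg_form (Λ y tm tM : ℝ) (hΛ : 0 < Λ) (hy : 0 ≤ y) (htm : 0 < tm)
    (hM : 4 * tM ^ 2 ≤ Λ) (hM1 : tM ≤ Λ) (φ : B2 → ℝ) (hφ : ContDiffAt ℝ ∞ φ q0) (α : ℝ)
    (hlo : ∀ ξ, tm * (D11 aS ξ ξ q0).re ≤ (D11 φ ξ ξ q0).re)
    (hhi : ∀ ξ, (D11 φ ξ ξ q0).re ≤ tM * (D11 aS ξ ξ q0).re)
    (κ : B2 → B2)
    (hκ : ∀ v w, D11 (Hpot (fun b => Λ * aS b + α) φ y) (κ v) w q0 = D11 φ v w q0)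
    (ξ η : B2) :
    (Λ / 2 + (y * tm) ^ 3 / (8 * (Λ + y * tm))) * area aS q0 ξ η ≤
        Λ * calK aS q0 ξ η + y * (1 + y) * calK φ q0 ξ η
          - (mf (fun b => Λ * aS b + α) φ y q0 κ ξ η).im ^ 2 ∧
      (1 + y) * tm * (D11 aS ξ ξ q0).re ≤ (mf (fun b => Λ * aS b + α) φ y q0 κ ξ ξ).re ∧
      (mf (fun b => Λ * aS b + α) φ y q0 κ ξ ξ).re ≤ (1 + 2 * y) * tM * (D11 aS ξ ξ q0).re ∧
      (mf (fun b => Λ * aS b + α) φ y q0 κ ξ η).im ^ 2 ≤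
        ((1 + 2 * y) * tM) ^ 2 * 2 * area aS q0 ξ η := by
  obtain ⟨f1, f2, t1, t2, hA, hF, hsp⟩ := exists_diagB φ hφ
  have hH : ∀ c1 c2 d1 d2 : ℂ, D11 (Hpot (fun b => Λ * aS b + α) φ y)
      (c1 • f1 + c2 • f2) (d1 • f1 + d2 • f2) q0 =
        (Λ + y * t1) * (c1 * conj d1) + (Λ + y * t2) * (c2 * conj d2) := by
    intro c1 c2 d1 d2
    rw [algHpot_D11 (scal_aS_smooth Λ α) hφ, D11_scal_aS, hA, hF]
    ring
  -- bounds of t1, t2
  have hf1 : (D11 aS f1 f1 q0) = 1 ∧ D11 φ f1 f1 q0 = t1 := by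
    have e : f1 = (1:ℂ) • f1 + (0:ℂ) • f2 := by simp
    constructor
    · rw [e, hA]; simp
    · rw [e, hF]; simp
  have hf2 : (D11 aS f2 f2 q0) = 1 ∧ D11 φ f2 f2 q0 = t2 := by
    have e : f2 = (0:ℂ) • f1 + (1:ℂ) • f2 := by simp
    constructor
    · rw [e, hA]; simp
    · rw [e, hF]; simp
  have ht1 : tm ≤ t1 := by have := hlo f1; rw [hf1.1, hf1.2] at this; simpa using this
  have ht2 : tm ≤ t2 := by have := hlo f2; rw [hf2.1, hf2.2] at this; simpa using this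
  have ht1' : t1 ≤ tM := by have := hhi f1; rw [hf1.1, hf1.2] at this; simpa using this
  have ht2' : t2 ≤ tM := by have := hhi f2; rw [hf2.1, hf2.2] at this; simpa using this
  have p1 : 0 < t1 := by linarith
  have p2 : 0 < t2 := by linarith
  have q1 : 4 * t1 ^ 2 ≤ Λ := by nlinarith
  have q2 : 4 * t2 ^ 2 ≤ Λ := by nlinarith
  have d1 : 0 < Λ + y * t1 := by positivity
  have d2 : 0 < Λ + y * t2 := by positivity
  -- κ in coordinates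
  have hκc : ∀ c1 c2 : ℂ, κ (c1 • f1 + c2 • f2) =
      ((t1 / (Λ + y * t1) : ℝ) * c1) • f1 + ((t2 / (Λ + y * t2) : ℝ) * c2) • f2 := by
    intro c1 c2
    obtain ⟨k1, k2, hk⟩ := hsp (κ (c1 • f1 + c2 • f2))
    have e1 := hκ (c1 • f1 + c2 • f2) ((1:ℂ) • f1 + (0:ℂ) • f2)
    have e2 := hκ (c1 • f1 + c2 • f2) ((0:ℂ) • f1 + (1:ℂ) • f2)
    rw [hk, hH, hF] at e1 e2
    simp only [map_one, map_zero, mul_one, mul_zero, add_zero, zero_add] at e1 e2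
    rw [hk]
    have dd1 : ((Λ:ℂ) + y * t1) ≠ 0 := by exact_mod_cast d1.ne'
    have dd2 : ((Λ:ℂ) + y * t2) ≠ 0 := by exact_mod_cast d2.ne'
    have g1 : k1 = (t1 / (Λ + y * t1) : ℝ) * c1 := by
      rw [show ((t1 / (Λ + y * t1) : ℝ) : ℂ) = (t1 : ℂ) / (Λ + y * t1) by push_cast; ring,
        div_mul_eq_mul_div, eq_div_iff dd1]
      linear_combination e1
    have g2 : k2 = (t2 / (Λ + y * t2) : ℝ) * c2 := by
      rw [show ((t2 / (Λ + y * t2) : ℝ) : ℂ) = (t2 : ℂ) / (Λ + y * t2) by push_cast; ring,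
        div_mul_eq_mul_div, eq_div_iff dd2]
      linear_combination e2
    rw [g1, g2]
  set m1 : ℝ := (1 + 2 * y) * t1 - y * (1 + y) * t1 ^ 2 / (Λ + y * t1) with hm1
  set m2 : ℝ := (1 + 2 * y) * t2 - y * (1 + y) * t2 ^ 2 / (Λ + y * t2) with hm2
  have hmf : ∀ c1 c2 e1 e2 : ℂ, mf (fun b => Λ * aS b + α) φ y q0 κ (c1 • f1 + c2 • f2)
      (e1 • f1 + e2 • f2) = m1 * (c1 * conj e1) + m2 * (c2 * conj e2) := by
    intro c1 c2 e1 e2
    unfold mf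
    rw [hκc, hκc, hH, hF]
    simp only [map_mul, Complex.conj_ofReal]
    have dd1 : ((Λ:ℂ) + y * t1) ≠ 0 := by exact_mod_cast d1.ne'
    have dd2 : ((Λ:ℂ) + y * t2) ≠ 0 := by exact_mod_cast d2.ne'
    rw [hm1, hm2]
    push_cast
    field_simp
    ring
  have hm1lo : (1 + y) * tm ≤ m1 := by
    have e : m1 = y * t1 + (1 + y) * (Λ * t1 / (Λ + y * t1)) := by
      rw [hm1]; field_simp; ring
    have e2 : t1 ≤ (1 + y) * (Λ * t1 / (Λ + y * t1)) := by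
      rw [← mul_div_assoc, le_div_iff₀ d1]
      nlinarith [mul_nonneg (mul_nonneg hy p1.le) (sub_nonneg.2 (ht1'.trans hM1))]
    rw [e]; nlinarith
  have hm2lo : (1 + y) * tm ≤ m2 := by
    have e : m2 = y * t2 + (1 + y) * (Λ * t2 / (Λ + y * t2)) := by
      rw [hm2]; field_simp; ring
    have e2 : t2 ≤ (1 + y) * (Λ * t2 / (Λ + y * t2)) := by
      rw [← mul_div_assoc, le_div_iff₀ d2]
      nlinarith [mul_nonneg (mul_nonneg hy p2.le) (sub_nonneg.2 (ht2'.trans hM1))]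
    rw [e]; nlinarith
  have hm1hi : m1 ≤ (1 + 2 * y) * tM := by
    have : 0 ≤ y * (1 + y) * t1 ^ 2 / (Λ + y * t1) := by positivity
    nlinarith
  have hm2hi : m2 ≤ (1 + 2 * y) * tM := by
    have : 0 ≤ y * (1 + y) * t2 ^ 2 / (Λ + y * t2) := by positivity
    nlinarith
  have hm1p : 0 ≤ m1 := le_trans (by positivity) hm1lo
  have hm2p : 0 ≤ m2 := le_trans (by positivity) hm2lo
  obtain ⟨c1, c2, rfl⟩ := hsp ξ
  obtain ⟨e1, e2, rfl⟩ := hsp η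
  have main := alg_main Λ y t1 t2 tm hΛ hy htm ht1 ht2 q1 q2 c1 c2 e1 e2
  have hre : ∀ a b : ℂ, (a * conj a).re = ‖a‖ ^ 2 ∧ (b * conj b).re = ‖b‖ ^ 2 := by
    intro a b
    rw [norm_sq_mul_conj, norm_sq_mul_conj]
    exact ⟨Complex.ofReal_re _, Complex.ofReal_re _⟩
  obtain ⟨n1, n2⟩ := hre c1 c2
  obtain ⟨n3, n4⟩ := hre e1 e2
  refine ⟨?_, ?_, ?_, ?_⟩
  · rw [hmf]
    unfold area calK
    rw [hA, hA, hA, hF, hF, hF]
    simp only [Complex.add_re, Complex.add_im, Complex.re_ofReal_mul, Complex.im_ofReal_mul,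
      n1, n2, n3, n4]
    exact main
  · rw [hmf, hA]
    simp only [Complex.add_re, Complex.re_ofReal_mul, n1, n2]
    linarith [mul_le_mul_of_nonneg_right hm1lo (sq_nonneg ‖c1‖),
      mul_le_mul_of_nonneg_right hm2lo (sq_nonneg ‖c2‖)]
  · rw [hmf, hA]
    simp only [Complex.add_re, Complex.re_ofReal_mul, n1, n2]
    linarith [mul_le_mul_of_nonneg_right hm1hi (sq_nonneg ‖c1‖),
      mul_le_mul_of_nonneg_right hm2hi (sq_nonneg ‖c2‖)]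
  · rw [hmf]
    unfold area
    rw [hA, hA, hA]
    simp only [Complex.add_re, Complex.add_im, Complex.re_ofReal_mul, Complex.im_ofReal_mul,
      n1, n2, n3, n4]
    obtain ⟨g1, g2, g3⟩ := normSq_cross c1 c2 e1 e2
    obtain ⟨-, -, g4⟩ := normSq_cross c2 c1 e2 e1
    set w1 := (c1 * conj e1).im
    set w2 := (c2 * conj e2).im
    set r1 := (c1 * conj e1).re
    set r2 := (c2 * conj e2).re
    have harea : (‖c1‖ ^ 2 + ‖c2‖ ^ 2) * (‖e1‖ ^ 2 + ‖e2‖ ^ 2) - (r1 + r2) ^ 2 =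
        w1 ^ 2 + w2 ^ 2 + (‖c1‖ ^ 2 * ‖e2‖ ^ 2 + ‖c2‖ ^ 2 * ‖e1‖ ^ 2 - 2 * (r1 * r2)) := by
      linear_combination g3 + g4
    rw [harea]
    set E := ‖c1‖ ^ 2 * ‖e2‖ ^ 2 + ‖c2‖ ^ 2 * ‖e1‖ ^ 2 - 2 * (r1 * r2)
    have hE0 : 0 ≤ E := by linarith
    set M := (1 + 2 * y) * tM
    have hMp : 0 ≤ M := le_trans hm1p hm1hi
    have s1 : m1 ^ 2 ≤ M ^ 2 := pow_le_pow_left₀ hm1p hm1hi 2
    have s2 : m2 ^ 2 ≤ M ^ 2 := pow_le_pow_left₀ hm2p hm2hi 2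
    have s3 : (m1 * w1 + m2 * w2) ^ 2 ≤ 2 * (m1 ^ 2 * w1 ^ 2 + m2 ^ 2 * w2 ^ 2) := by
      nlinarith [sq_nonneg (m1 * w1 - m2 * w2)]
    have s4 := mul_le_mul_of_nonneg_right s1 (sq_nonneg w1)
    have s5 := mul_le_mul_of_nonneg_right s2 (sq_nonneg w2)
    have s6 : 0 ≤ M ^ 2 * E := by positivity
    linarith [s3, s4, s5, s6]

end Crest.Agent.R245
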