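import Crest.Agent.R245.Defs2

/-! Row 245: affine automorphisms of `{rho3 > 0}` moving `p0` to `x` (helper707). -/

set_option autoImplicit false

namespace Crest.Agent.R245

open Complex Filter Topology
open scoped ContDiff ComplexConjugate

/-! ### the affine automorphisms of `{rho3 > 0}` -/

/-- linear part of the automorphism moving `p0` to `x` -/
noncomputable def Lx3 (x : V3) : V3 →ₗ[ℂ] V3 where
  toFun q := ![(Real.sqrt (rho3 x) : ℂ) * q 0,
    2 * I * conj (x 0) * (Real.sqrt (rho3 x) : ℂ) * q 0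
      + 2 * I * conj (x 2) * (Real.sqrt (rho3 x) : ℂ) * q 2 + (rho3 x : ℂ) * q 1,
    (Real.sqrt (rho3 x) : ℂ) * q 2]
  map_add' q r := by
    ext i; fin_cases i <;> simp <;> ring
  map_smul' c q := by
    ext i; fin_cases i <;> simp <;> ring

/-- its inverse -/
noncomputable def Lx3i (x : V3) : V3 →ₗ[ℂ] V3 where
  toFun q := ![(Real.sqrt (rho3 x) : ℂ)⁻¹ * q 0,
    (rho3 x : ℂ)⁻¹ * (q 1 - 2 * I * conj (x 0) * q 0 - 2 * I * conj (x 2) * q 2),
    (Real.sqrt (rho3 x) : ℂ)⁻¹ * q 2]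
  map_add' q r := by
    ext i; fin_cases i <;> simp <;> ring
  map_smul' c q := by
    ext i; fin_cases i <;> simp <;> ring

noncomputable def Lxe (x : V3) (hx : 0 < rho3 x) : V3 ≃L[ℂ] V3 :=
  LinearEquiv.toContinuousLinearEquiv
    { Lx3 x with
      invFun := Lx3i x
      left_inv := fun q => by
        have h1 : (Real.sqrt (rho3 x) : ℂ) ≠ 0 := by
          exact_mod_cast (Real.sqrt_pos.2 hx).ne'
        have h2 : (rho3 x : ℂ) ≠ 0 := by exact_mod_cast hx.ne'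
        ext i; fin_cases i <;> simp [Lx3, Lx3i] <;> field_simp <;> ring
      right_inv := fun q => by
        have h1 : (Real.sqrt (rho3 x) : ℂ) ≠ 0 := by
          exact_mod_cast (Real.sqrt_pos.2 hx).ne'
        have h2 : (rho3 x : ℂ) ≠ 0 := by exact_mod_cast hx.ne'
        ext i; fin_cases i <;> simp [Lx3, Lx3i] <;> field_simp <;> ring }

/-- translation part -/
noncomputable def tx3 (x : V3) : V3 :=
  ![x 0, ((x 1).re : ℂ) + I * ((‖x 0‖ ^ 2 + ‖x 2‖ ^ 2 : ℝ) : ℂ), x 2]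

lemma Lxe_apply (x : V3) (hx : 0 < rho3 x) (q : V3) : Lxe x hx q = Lx3 x q := rfl

lemma norm_sq_eq (z : ℂ) : ‖z‖ ^ 2 = z.re ^ 2 + z.im ^ 2 := by
  rw [Complex.sq_norm, Complex.normSq_apply]; ring

lemma rho3_gx (x : V3) (hx : 0 < rho3 x) (q : V3) :
    rho3 (Lxe x hx q + tx3 x) = rho3 x * rho3 q := by
  rw [Lxe_apply]
  have h1 : (Real.sqrt (rho3 x)) ^ 2 = rho3 x := Real.sq_sqrt hx.le
  have e0 : (Lx3 x q + tx3 x) 0 = (Real.sqrt (rho3 x) : ℂ) * q 0 + x 0 := by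
    simp [Lx3, tx3]
  have e1 : (Lx3 x q + tx3 x) 1 = (2 * I * conj (x 0) * (Real.sqrt (rho3 x) : ℂ) * q 0
      + 2 * I * conj (x 2) * (Real.sqrt (rho3 x) : ℂ) * q 2 + (rho3 x : ℂ) * q 1)
      + (((x 1).re : ℂ) + I * ((‖x 0‖ ^ 2 + ‖x 2‖ ^ 2 : ℝ) : ℂ)) := by
    simp [Lx3, tx3]
  have e2 : (Lx3 x q + tx3 x) 2 = (Real.sqrt (rho3 x) : ℂ) * q 2 + x 2 := by
    simp [Lx3, tx3]
  set s := Real.sqrt (rho3 x) with hs
  set r := rho3 x with hr
  unfold rho3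
  rw [e0, e1, e2]
  simp only [norm_sq_eq, Complex.add_re, Complex.add_im, Complex.mul_re, Complex.mul_im,
    Complex.ofReal_re, Complex.ofReal_im, Complex.I_re, Complex.I_im, Complex.conj_re,
    Complex.conj_im]
  norm_num
  rw [← h1]
  ring

lemma gx_p0 (x : V3) (hx : 0 < rho3 x) : Lxe x hx p0 + tx3 x = x := by
  rw [Lxe_apply]
  ext i
  fin_cases i
  · simp [Lx3, tx3, p0]
  · simp [Lx3, tx3, p0]
    apply Complex.ext
    · simp [← Complex.ofReal_pow]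
    · simp [rho3, ← Complex.ofReal_pow]
  · simp [Lx3, tx3, p0]

lemma rho3_p0 : rho3 p0 = 1 := by simp [rho3, p0]

lemma rho3_contDiff : ContDiff ℝ ∞ rho3 := by
  have h : ∀ i : Fin 3, ContDiff ℝ ∞ (fun x : V3 => x i) := fun i => contDiff_apply ℝ ℂ i
  have h1 : ContDiff ℝ ∞ (fun x : V3 => (x 1).im) := Complex.imCLM.contDiff.comp (h 1)
  have h2 : ∀ i : Fin 3, ContDiff ℝ ∞ (fun x : V3 => ‖x i‖ ^ 2) := fun i => (h i).norm_sq ℂ
  exact (h1.sub (h2 0)).sub (h2 2)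

lemma a3_p0 : a3 p0 = 0 := by simp [a3, rho3_p0]

lemma a3_contDiffAt {x : V3} (hx : 0 < rho3 x) : ContDiffAt ℝ ∞ a3 x := by
  unfold a3
  exact (rho3_contDiff.contDiffAt.log hx.ne').neg

lemma a3_gx (x : V3) (hx : 0 < rho3 x) (q : V3) (hq : 0 < rho3 q) :
    a3 (Lxe x hx q + tx3 x) = a3 x + a3 q := by
  unfold a3
  rw [rho3_gx, Real.log_mul hx.ne' hq.ne']; ring

end Crest.Agent.R245
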