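import Crest.Agent.R245.LemmaH

/-! TASK BasePertA: `aS` at `q0`. -/

set_option autoImplicit false

namespace Crest.Agent.R245

open Complex Filter Topology
open scoped ContDiff ComplexConjugate

private theorem rho_contDiff : ContDiff ℝ ∞ rho := by
  unfold rho
  have h1 : ContDiff ℝ ∞ (fun b : B2 => b.2.im) :=
    Complex.imCLM.contDiff.comp contDiff_snd
  have h2 : ContDiff ℝ ∞ (fun b : B2 => ‖b.1‖ ^ 2) := contDiff_fst.norm_sq ℝ
  exact h1.sub h2

theorem isOpen_Dom : IsOpen Dom := isOpen_lt continuous_const rho_contDiff.continuous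

theorem q0_mem : q0 ∈ Dom := by
  simp [Dom, rho, q0]

theorem aS_contDiffAt {p : B2} (hp : p ∈ Dom) : ContDiffAt ℝ ∞ aS p := by
  unfold aS
  have h : rho p ≠ 0 := ne_of_gt hp
  exact (rho_contDiff.contDiffAt.log h).neg

theorem aS_contDiffOn : ContDiffOn ℝ ∞ aS Dom := fun _ hp => (aS_contDiffAt hp).contDiffWithinAt

/-! ### derivatives -/

/-- `∂_Y ρ` -/
private noncomputable def rX (Y q : B2) : ℂ := -(I/2) * Y.2 - Y.1 * conj q.1
/-- `∂̄_Y ρ` -/
private noncomputable def rXb (Y q : B2) : ℂ := (I/2) * conj Y.2 - conj Y.1 * q.1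
/-- `1/ρ` -/
private noncomputable def ri (q : B2) : ℂ := (((rho q)⁻¹ : ℝ) : ℂ)

private structure HD (u : B2 → ℂ) (p : B2) (a b : B2 → ℂ) : Prop where
  d : DifferentiableAt ℝ u p
  z : ∀ X, dz X u p = a X
  zb : ∀ X, dzb X u p = b X

private theorem HD.mul {u v : B2 → ℂ} {p : B2} {a b a' b' : B2 → ℂ} (hu : HD u p a b)
    (hv : HD v p a' b') : HD (fun q => u q * v q) p (fun X => a X * v p + u p * a' X)
      (fun X => b X * v p + u p * b' X) where
  d := hu.d.mul hv.d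
  z X := by rw [dz_mul hu.d hv.d, hu.z, hv.z]
  zb X := by rw [dzb_mul hu.d hv.d, hu.zb, hv.zb]

private theorem HD.add {u v : B2 → ℂ} {p : B2} {a b a' b' : B2 → ℂ} (hu : HD u p a b)
    (hv : HD v p a' b') : HD (fun q => u q + v q) p (fun X => a X + a' X)
      (fun X => b X + b' X) where
  d := hu.d.add hv.d
  z X := by rw [dz_add hu.d hv.d, hu.z, hv.z]
  zb X := by rw [dzb_add hu.d hv.d, hu.zb, hv.zb]

private theorem HD.cmul {u : B2 → ℂ} {p : B2} {a b : B2 → ℂ} (c : ℂ) (hu : HD u p a b) :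
    HD (fun q => c * u q) p (fun X => c * a X) (fun X => c * b X) where
  d := hu.d.const_mul c
  z X := by rw [dz_const_mul c hu.d, hu.z]
  zb X := by rw [dzb_const_mul c hu.d, hu.zb]

private theorem HD_const (c : ℂ) (p : B2) : HD (fun _ => c) p (fun _ => 0) (fun _ => 0) where
  d := differentiableAt_const c
  z _ := dz_const c
  zb _ := dzb_const c

private theorem HD_fst (p : B2) : HD (fun q => q.1) p (fun X => X.1) (fun _ => 0) where
  d := differentiableAt_fst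
  z X := by
    rw [dz_hol differentiableAt_fst]
    simp [fderiv_fst]
  zb X := dzb_hol differentiableAt_fst

private theorem HD_conj {u : B2 → ℂ} {p : B2} {a b : B2 → ℂ} (hu : HD u p a b) :
    HD (fun q => conj (u q)) p (fun X => conj (b X)) (fun X => conj (a X)) where
  d := (Complex.conjCLE.differentiableAt (x := u p)).comp p hu.d
  z X := by rw [dz_conj, hu.zb]
  zb X := by rw [dzb_conj, hu.z]

private theorem HD_rX (Y p : B2) : HD (rX Y) p (fun _ => 0) (fun X => -(Y.1 * conj X.1)) := by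
  have h := (HD_const (-(I/2) * Y.2) p).add ((HD_conj (HD_fst p)).cmul (-Y.1))
  have e : (fun q : B2 => -(I/2) * Y.2 + -Y.1 * conj q.1) = rX Y := by
    ext q; unfold rX; ring
  rw [e] at h
  refine ⟨h.d, fun X => ?_, fun X => ?_⟩
  · rw [h.z]; simp
  · rw [h.zb]; simp

private theorem HD_rXb (Y p : B2) : HD (rXb Y) p (fun X => -(X.1 * conj Y.1)) (fun _ => 0) := by
  have h := (HD_const ((I/2) * conj Y.2) p).add ((HD_fst p).cmul (-conj Y.1))
  have e : (fun q : B2 => (I/2) * conj Y.2 + -conj Y.1 * q.1) = rXb Y := by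
    ext q; unfold rXb; ring
  rw [e] at h
  refine ⟨h.d, fun X => ?_, fun X => ?_⟩
  · rw [h.z]; ring
  · rw [h.zb]; simp

private theorem rho_diffAt (p : B2) : DifferentiableAt ℝ rho p :=
  rho_contDiff.contDiffAt.differentiableAt (by simp)

private theorem HD_rho (p : B2) : HD (fun q => ((rho q : ℝ) : ℂ)) p (fun X => rX X p)
    (fun X => rXb X p) := by
  have h2 : HD (fun q : B2 => q.2) p (fun X => X.2) (fun _ => 0) :=
    { d := differentiableAt_snd
      z := fun X => by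
        rw [dz_hol differentiableAt_snd]
        simp [fderiv_snd]
      zb := fun X => dzb_hol differentiableAt_snd }
  have h := ((h2.cmul (-(I/2))).add ((HD_conj h2).cmul (I/2))).add
    (((HD_fst p).mul (HD_conj (HD_fst p))).cmul (-1))
  have e : (fun q : B2 => ((-(I/2)) * q.2 + (I/2) * conj q.2) + (-1) * (q.1 * conj q.1)) =
      fun q => ((rho q : ℝ) : ℂ) := by
    ext q
    have e1 : q.1 * conj q.1 = ((‖q.1‖ ^ 2 : ℝ) : ℂ) := by
      rw [Complex.mul_conj, Complex.normSq_eq_norm_sq]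
    rw [e1]
    unfold rho
    push_cast
    apply Complex.ext <;> simp
    ring
  rw [e] at h
  refine ⟨h.d, fun X => ?_, fun X => ?_⟩
  · rw [h.z]; unfold rX; simp; ring
  · rw [h.zb]; unfold rXb; simp; ring

private theorem HD_ri {p : B2} (hp : p ∈ Dom) : HD ri p (fun X => -(ri p) ^ 2 * rX X p)
    (fun X => -(ri p) ^ 2 * rXb X p) := by
  have h0 : rho p ≠ 0 := ne_of_gt hp
  have hf : DifferentiableAt ℝ (fun t : ℝ => t⁻¹) (rho p) := differentiableAt_inv h0
  have hd : deriv (fun t : ℝ => t⁻¹) (rho p) = -((rho p)⁻¹) ^ 2 := by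
    rw [deriv_inv]; simp
  refine ⟨?_, fun X => ?_, fun X => ?_⟩
  · exact differentiableAt_ofReal ((rho_diffAt p).inv h0)
  · have := dz_comp_real (X := X) (fun t : ℝ => t⁻¹) rho hf (rho_diffAt p)
    unfold ri
    rw [this, hd, (HD_rho p).z]
    push_cast; ring
  · have := dzb_comp_real (X := X) (fun t : ℝ => t⁻¹) rho hf (rho_diffAt p)
    unfold ri
    rw [this, hd, (HD_rho p).zb]
    push_cast; ring

private theorem dzb_aS {p : B2} (hp : p ∈ Dom) (W : B2) :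
    dzb W (fun q => (aS q : ℂ)) p = -(ri p * rXb W p) := by
  have h0 : rho p ≠ 0 := ne_of_gt hp
  have hf : DifferentiableAt ℝ (fun t : ℝ => - Real.log t) (rho p) :=
    (Real.differentiableAt_log h0).neg
  have hd : deriv (fun t : ℝ => - Real.log t) (rho p) = -((rho p)⁻¹) := by
    rw [deriv.fun_neg, Real.deriv_log]
  have := dzb_comp_real (X := W) (fun t : ℝ => - Real.log t) rho hf (rho_diffAt p)
  unfold aS ri
  rw [this, hd, (HD_rho p).zb]
  push_cast; ring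

private theorem ev_dzb_aS {p : B2} (hp : p ∈ Dom) (W : B2) :
    dzb W (fun q => (aS q : ℂ)) =ᶠ[𝓝 p] fun q => (-1) * (ri q * rXb W q) := by
  filter_upwards [isOpen_Dom.mem_nhds hp] with q hq
  rw [dzb_aS hq]; ring

/-- `D11 aS` on `Dom` -/
private theorem D11_aS {p : B2} (hp : p ∈ Dom) (X Y : B2) :
    D11 aS X Y p = (ri p) ^ 2 * (rX X p * rXb Y p) + ri p * (X.1 * conj Y.1) := by
  unfold D11
  rw [dz_congr (ev_dzb_aS hp Y), (((HD_ri hp).mul (HD_rXb Y p)).cmul (-1)).z]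
  ring

private theorem D21_aS {p : B2} (hp : p ∈ Dom) (X Y Z : B2) :
    D21 aS X Y Z p = -2 * (ri p) ^ 3 * (rX X p * rX Y p * rXb Z p)
      - (ri p) ^ 2 * (rX Y p * (X.1 * conj Z.1) + rX X p * (Y.1 * conj Z.1)) := by
  have ev : dz Y (dzb Z (fun q => (aS q : ℂ))) =ᶠ[𝓝 p]
      fun q => (ri q * ri q) * (rX Y q * rXb Z q) + (Y.1 * conj Z.1) * ri q := by
    filter_upwards [isOpen_Dom.mem_nhds hp] with q hq
    have := D11_aS hq Y Z
    unfold D11 at this
    rw [this]; ring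
  unfold D21
  rw [dz_congr ev,
    ((((HD_ri hp).mul (HD_ri hp)).mul ((HD_rX Y p).mul (HD_rXb Z p))).add
      ((HD_ri hp).cmul (Y.1 * conj Z.1))).z]
  ring

private theorem ev_dzb_dzb_aS {p : B2} (hp : p ∈ Dom) (Z W : B2) :
    dzb Z (dzb W (fun q => (aS q : ℂ))) =ᶠ[𝓝 p]
      fun q => (ri q * ri q) * (rXb Z q * rXb W q) := by
  filter_upwards [isOpen_Dom.mem_nhds hp] with q hq
  rw [dzb_congr (ev_dzb_aS hq W), (((HD_ri hq).mul (HD_rXb W q)).cmul (-1)).zb]
  ring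

private theorem ev_dz_dzb_dzb_aS {p : B2} (hp : p ∈ Dom) (Y Z W : B2) :
    dz Y (dzb Z (dzb W (fun q => (aS q : ℂ)))) =ᶠ[𝓝 p]
      fun q => (-2) * ((ri q * ri q) * (ri q) * (rX Y q * (rXb Z q * rXb W q)))
        + (-1) * ((ri q * ri q) * ((Y.1 * conj Z.1) * rXb W q + (Y.1 * conj W.1) * rXb Z q)) := by
  filter_upwards [isOpen_Dom.mem_nhds hp] with q hq
  rw [dz_congr (ev_dzb_dzb_aS hq Z W),
    (((HD_ri hq).mul (HD_ri hq)).mul ((HD_rXb Z q).mul (HD_rXb W q))).z]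
  ring

private theorem D22_aS {p : B2} (hp : p ∈ Dom) (X Y Z W : B2) :
    D22 aS X Y Z W p = 6 * (ri p) ^ 4 * (rX X p * rX Y p * rXb Z p * rXb W p)
      + 2 * (ri p) ^ 3 * (rX Y p * (X.1 * conj Z.1) * rXb W p
          + rX Y p * rXb Z p * (X.1 * conj W.1)
          + rX X p * (Y.1 * conj Z.1) * rXb W p + rX X p * rXb Z p * (Y.1 * conj W.1))
      + (ri p) ^ 2 * (Y.1 * conj Z.1 * (X.1 * conj W.1) + X.1 * conj Z.1 * (Y.1 * conj W.1)) := by
  unfold D22
  rw [dz_congr (ev_dz_dzb_dzb_aS hp Y Z W),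
    (((((HD_ri hp).mul (HD_ri hp)).mul (HD_ri hp)).mul
        ((HD_rX Y p).mul ((HD_rXb Z p).mul (HD_rXb W p)))).cmul (-2)
      |>.add ((((HD_ri hp).mul (HD_ri hp)).mul
        (((HD_rXb W p).cmul (Y.1 * conj Z.1)).add ((HD_rXb Z p).cmul (Y.1 * conj W.1)))).cmul
          (-1))).z]
  ring

private theorem ri_q0 : ri q0 = 1 := by
  unfold ri rho q0; simp

private theorem rX_q0 (X : B2) : rX X q0 = -(I/2) * X.2 := by
  unfold rX q0; simp

private theorem rXb_q0 (X : B2) : rXb X q0 = (I/2) * conj X.2 := by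
  unfold rXb q0; simp

theorem aS_D11_q0 (ξ η : B2) :
    D11 aS ξ η q0 = ξ.1 * conj η.1 + (1/4) * (ξ.2 * conj η.2) := by
  rw [D11_aS q0_mem, ri_q0, rX_q0, rXb_q0]
  linear_combination (-(1/4) * ξ.2 * conj η.2) * I_mul_I

theorem aS_D21_q0 (ξ η ζ : B2) :
    D21 aS ξ η ζ q0 = (I/4) * (ξ.2 * η.2 * conj ζ.2)
      + (I/2) * ((ξ.1 * η.2 + η.1 * ξ.2) * conj ζ.1) := by
  rw [D21_aS q0_mem, ri_q0, rX_q0, rX_q0, rXb_q0]
  linear_combination (-(I/4) * ξ.2 * η.2 * conj ζ.2) * I_mul_I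

/-- Christoffel vector of `aS` at `q0` -/
noncomputable def gam0 (ξ η : B2) : B2 :=
  ((I/2) * (ξ.1 * η.2 + η.1 * ξ.2), I * (ξ.2 * η.2))

theorem isGam_gam0 (ξ η : B2) : IsGam aS q0 ξ η (gam0 ξ η) := by
  intro Z
  rw [aS_D11_q0, aS_D21_q0]
  unfold gam0
  ring

/-- complex hyperbolic plane: `-K = 𝒦_ω` -/
theorem aS_negK_q0 (ξ η : B2) :
    negK aS q0 ξ η (gam0 ξ ξ) (gam0 ξ η) (gam0 η η) = calK aS q0 ξ η := by
  unfold negK calK
  rw [D22_aS q0_mem, D22_aS q0_mem]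
  simp only [aS_D11_q0, ri_q0, rX_q0, rXb_q0, gam0]
  obtain ⟨⟨a1, a2⟩, ⟨b1, b2⟩⟩ := ξ
  obtain ⟨⟨c1, c2⟩, ⟨d1, d2⟩⟩ := η
  simp [pow_succ, conj_two]
  ring

end Crest.Agent.R245
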