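import Crest.Agent.R245.Shear2

/-! TASK BasePertB: curvature of a perturbation of `lam * aS` at `q0`. -/

set_option autoImplicit false

namespace Crest.Agent.R245

namespace BP

open Complex Filter Topology
open scoped ContDiff ComplexConjugate

theorem aS_D11_self_re (ξ : B2) :
    (D11 aS ξ ξ q0).re = ‖ξ.1‖ ^ 2 + (1/4) * ‖ξ.2‖ ^ 2 := by
  rw [aS_D11_q0, Complex.mul_conj, Complex.mul_conj, Complex.normSq_eq_norm_sq,
    Complex.normSq_eq_norm_sq]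
  rw [show ((1 / 4 : ℂ) * ((‖ξ.2‖ ^ 2 : ℝ) : ℂ)) = (((1/4) * ‖ξ.2‖ ^ 2 : ℝ) : ℂ) by push_cast; ring]
  rw [← Complex.ofReal_add, Complex.ofReal_re]

theorem norm_sq_le_aS (ξ : B2) : ‖ξ‖ ^ 2 ≤ 4 * (D11 aS ξ ξ q0).re := by
  rw [aS_D11_self_re]
  rcases le_total ‖ξ.1‖ ‖ξ.2‖ with h | h
  · rw [Prod.norm_def, max_eq_right h]
    nlinarith [sq_nonneg ‖ξ.1‖, sq_nonneg ‖ξ.2‖]
  · rw [Prod.norm_def, max_eq_left h]
    nlinarith [sq_nonneg ‖ξ.1‖, sq_nonneg ‖ξ.2‖]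

theorem norm_gam0_le (ξ η : B2) : ‖gam0 ξ η‖ ≤ ‖ξ‖ * ‖η‖ := by
  have h1 : ‖ξ.1‖ ≤ ‖ξ‖ := norm_fst_le ξ
  have h2 : ‖ξ.2‖ ≤ ‖ξ‖ := norm_snd_le ξ
  have h3 : ‖η.1‖ ≤ ‖η‖ := norm_fst_le η
  have h4 : ‖η.2‖ ≤ ‖η‖ := norm_snd_le η
  have p1 : ‖ξ.1‖ * ‖η.2‖ ≤ ‖ξ‖ * ‖η‖ := mul_le_mul h1 h4 (norm_nonneg _) (norm_nonneg _)
  have p2 : ‖η.1‖ * ‖ξ.2‖ ≤ ‖ξ‖ * ‖η‖ := by
    rw [mul_comm ‖ξ‖]; exact mul_le_mul h3 h2 (norm_nonneg _) (norm_nonneg _)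
  have p3 : ‖ξ.2‖ * ‖η.2‖ ≤ ‖ξ‖ * ‖η‖ := mul_le_mul h2 h4 (norm_nonneg _) (norm_nonneg _)
  unfold gam0
  rw [Prod.norm_def]
  refine max_le ?_ ?_
  · show ‖(I / 2) * (ξ.1 * η.2 + η.1 * ξ.2)‖ ≤ _
    rw [norm_mul]
    have hI : ‖(I / 2 : ℂ)‖ = 1 / 2 := by simp
    rw [hI]
    have := norm_add_le (ξ.1 * η.2) (η.1 * ξ.2)
    rw [norm_mul, norm_mul] at this
    linarith
  · show ‖I * (ξ.2 * η.2)‖ ≤ _
    rw [norm_mul, norm_mul, Complex.norm_I, one_mul]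
    exact p3

section
variable {lam mu e : ℝ} {E : B2 → ℝ}

theorem contDiffAt_Hp (hE : ContDiffAt ℝ ∞ E q0) :
    ContDiffAt ℝ ∞ (fun b => lam * aS b + E b) q0 :=
  (contDiffAt_const.mul (aS_contDiffAt q0_mem)).add hE

theorem D11_Hp (hE : ContDiffAt ℝ ∞ E q0) (X Y : B2) :
    D11 (fun b => lam * aS b + E b) X Y q0 = lam * D11 aS X Y q0 + D11 E X Y q0 := by
  rw [D11_add (P := fun b => lam * aS b) (contDiffAt_const.mul (aS_contDiffAt q0_mem)) hE,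
    D11_const_mul (aS_contDiffAt q0_mem)]

theorem D21_Hp (hE : ContDiffAt ℝ ∞ E q0) (X Y Z : B2) :
    D21 (fun b => lam * aS b + E b) X Y Z q0 = lam * D21 aS X Y Z q0 + D21 E X Y Z q0 := by
  rw [D21_add (P := fun b => lam * aS b) (contDiffAt_const.mul (aS_contDiffAt q0_mem)) hE,
    D21_const_mul (aS_contDiffAt q0_mem)]

theorem D22_Hp (hE : ContDiffAt ℝ ∞ E q0) (X Y Z W : B2) :
    D22 (fun b => lam * aS b + E b) X Y Z W q0 = lam * D22 aS X Y Z W q0 + D22 E X Y Z W q0 := by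
  rw [D22_add (P := fun b => lam * aS b) (contDiffAt_const.mul (aS_contDiffAt q0_mem)) hE,
    D22_const_mul (aS_contDiffAt q0_mem)]

theorem D11_sub_left {P : B2 → ℝ} (hP : ContDiffAt ℝ ∞ P q0) (X X' Y : B2) :
    D11 P (X - X') Y q0 = D11 P X Y q0 - D11 P X' Y q0 := by
  have := D11_add_left hP (X - X') X' Y
  rw [sub_add_cancel] at this
  rw [this]; ring

theorem D11_sub_right {P : B2 → ℝ} (hP : ContDiffAt ℝ ∞ P q0) (X Y Y' : B2) :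
    D11 P X (Y - Y') q0 = D11 P X Y q0 - D11 P X Y' q0 := by
  have := D11_add_right hP X (Y - Y') Y'
  rw [sub_add_cancel] at this
  rw [this]; ring

/-- the error of the Christoffel vector -/
theorem gam_err (hE : ContDiffAt ℝ ∞ E q0) {X Y γ : B2}
    (h : IsGam (fun b => lam * aS b + E b) q0 X Y γ) (Z : B2) :
    D11 (fun b => lam * aS b + E b) (γ - gam0 X Y) Z q0
      = D21 E X Y Z q0 - D11 E (gam0 X Y) Z q0 := by
  rw [D11_sub_left (contDiffAt_Hp hE), h Z, D21_Hp hE, D11_Hp hE, isGam_gam0 X Y Z]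
  ring

theorem gam_err_le (he : 0 ≤ e) (hE : ContDiffAt ℝ ∞ E q0) (hJ : JetB E e) {X Y γ : B2}
    (h : IsGam (fun b => lam * aS b + E b) q0 X Y γ) (Z : B2) :
    ‖D11 (fun b => lam * aS b + E b) (γ - gam0 X Y) Z q0‖ ≤ 2 * e * ‖X‖ * ‖Y‖ * ‖Z‖ := by
  rw [gam_err hE h]
  have h1 : ‖D21 E X Y Z q0‖ ≤ e * ‖X‖ * ‖Y‖ * ‖Z‖ := by
    refine (D21_le hE X Y Z).trans ?_
    have := hJ 3 (by norm_num) (by norm_num)
    gcongr
  have h2 : ‖D11 E (gam0 X Y) Z q0‖ ≤ e * (‖X‖ * ‖Y‖) * ‖Z‖ := by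
    refine (D11_le hE _ Z).trans ?_
    have := hJ 2 (by norm_num) (by norm_num)
    have hg := norm_gam0_le X Y
    gcongr
  calc _ ≤ ‖D21 E X Y Z q0‖ + ‖D11 E (gam0 X Y) Z q0‖ := norm_sub_le _ _
    _ ≤ e * ‖X‖ * ‖Y‖ * ‖Z‖ + e * (‖X‖ * ‖Y‖) * ‖Z‖ := add_le_add h1 h2
    _ = _ := by ring

theorem gam_err_norm_le (he : 0 ≤ e) (hmu : 0 < mu) (hE : ContDiffAt ℝ ∞ E q0) (hJ : JetB E e)
    (hpos : ∀ ξ, mu * (D11 aS ξ ξ q0).re ≤ (D11 (fun b => lam * aS b + E b) ξ ξ q0).re)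
    {X Y γ : B2} (h : IsGam (fun b => lam * aS b + E b) q0 X Y γ) :
    ‖γ - gam0 X Y‖ ≤ 8 * e / mu * ‖X‖ * ‖Y‖ := by
  have h1 := hpos (γ - gam0 X Y)
  have h2 := gam_err_le he hE hJ h (γ - gam0 X Y)
  have h3 : (D11 (fun b => lam * aS b + E b) (γ - gam0 X Y) (γ - gam0 X Y) q0).re ≤ _ :=
    (Complex.re_le_norm _).trans h2
  have h4 := norm_sq_le_aS (γ - gam0 X Y)
  have h5 : mu * ‖γ - gam0 X Y‖ ^ 2 ≤ 8 * e * ‖X‖ * ‖Y‖ * ‖γ - gam0 X Y‖ := by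
    have : mu * ‖γ - gam0 X Y‖ ^ 2 ≤ mu * (4 * (D11 aS (γ - gam0 X Y) (γ - gam0 X Y) q0).re) :=
      mul_le_mul_of_nonneg_left h4 hmu.le
    nlinarith
  rcases (norm_nonneg (γ - gam0 X Y)).eq_or_lt with h0 | h0
  · rw [← h0]; positivity
  · have h6 : mu * ‖γ - gam0 X Y‖ ≤ 8 * e * ‖X‖ * ‖Y‖ := by
      have : (mu * ‖γ - gam0 X Y‖) * ‖γ - gam0 X Y‖ ≤ (8 * e * ‖X‖ * ‖Y‖) * ‖γ - gam0 X Y‖ := by
        nlinarith
      exact le_of_mul_le_mul_right this h0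
    rw [show 8 * e / mu * ‖X‖ * ‖Y‖ = (8 * e * ‖X‖ * ‖Y‖) / mu by ring, le_div_iff₀ hmu]
    linarith

theorem base_pert_crude (he : 0 ≤ e) (hmu : 0 < mu) (hE : ContDiffAt ℝ ∞ E q0) (hJ : JetB E e)
    (hpos : ∀ ξ, mu * (D11 aS ξ ξ q0).re ≤ (D11 (fun b => lam * aS b + E b) ξ ξ q0).re)
    {ξ η γ11 γ12 γ22 : B2} (h11 : IsGam (fun b => lam * aS b + E b) q0 ξ ξ γ11)
    (h12 : IsGam (fun b => lam * aS b + E b) q0 ξ η γ12)
    (h22 : IsGam (fun b => lam * aS b + E b) q0 η η γ22) :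
    |negK (fun b => lam * aS b + E b) q0 ξ η γ11 γ12 γ22 - lam * calK aS q0 ξ η|
      ≤ 32 * (e + e ^ 2 / mu) * (‖ξ‖ ^ 2 * ‖η‖ ^ 2) := by
  have hH := contDiffAt_Hp (lam := lam) hE
  set N : ℝ := ‖ξ‖ ^ 2 * ‖η‖ ^ 2 with hN
  have hNn : 0 ≤ N := by positivity
  -- the decomposition
  have key : negK (fun b => lam * aS b + E b) q0 ξ η γ11 γ12 γ22 - lam * calK aS q0 ξ η
      = (D22 E ξ η ξ η q0).re - (D11 E (gam0 ξ η) (gam0 ξ η) q0).re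
        - 2 * (D11 (fun b => lam * aS b + E b) (γ12 - gam0 ξ η) (gam0 ξ η) q0).re
        - (D11 (fun b => lam * aS b + E b) (γ12 - gam0 ξ η) (γ12 - gam0 ξ η) q0).re
        - (D22 E ξ ξ η η q0).re + (D11 E (gam0 ξ ξ) (gam0 η η) q0).re
        + (D11 (fun b => lam * aS b + E b) (γ11 - gam0 ξ ξ) (gam0 η η) q0).re
        + (D11 (fun b => lam * aS b + E b) (γ22 - gam0 η η) (gam0 ξ ξ) q0).re
        + (D11 (fun b => lam * aS b + E b) (γ11 - gam0 ξ ξ) (γ22 - gam0 η η) q0).re := by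
    rw [← aS_negK_q0]
    unfold negK
    rw [D22_Hp hE, D22_Hp hE]
    simp only [D11_sub_left hH, D11_sub_right hH]
    have a1 := D11_re_symm hH γ12 (gam0 ξ η)
    have a2 := D11_re_symm hH γ22 (gam0 ξ ξ)
    have a3 := D11_re_symm hH (gam0 η η) (gam0 ξ ξ)
    have b1 := congrArg Complex.re (D11_Hp (lam := lam) hE (gam0 ξ η) (gam0 ξ η))
    have b2 := congrArg Complex.re (D11_Hp (lam := lam) hE (gam0 ξ ξ) (gam0 η η))
    rw [Complex.add_re, Complex.re_ofReal_mul] at b1 b2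
    simp only [Complex.add_re, Complex.sub_re, Complex.re_ofReal_mul] at *
    linarith
  -- bounds
  have t1 : |(D22 E ξ η ξ η q0).re| ≤ e * N := by
    refine (Complex.abs_re_le_norm _).trans ((D22_le hE ξ η ξ η).trans ?_)
    have := hJ 4 (by norm_num) (by norm_num)
    calc _ ≤ e * ‖ξ‖ * ‖η‖ * ‖ξ‖ * ‖η‖ := by gcongr
      _ = _ := by rw [hN]; ring
  have t2 : |(D22 E ξ ξ η η q0).re| ≤ e * N := by
    refine (Complex.abs_re_le_norm _).trans ((D22_le hE ξ ξ η η).trans ?_)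
    have := hJ 4 (by norm_num) (by norm_num)
    calc _ ≤ e * ‖ξ‖ * ‖ξ‖ * ‖η‖ * ‖η‖ := by gcongr
      _ = _ := by rw [hN]; ring
  have gxy := norm_gam0_le ξ η
  have gxx := norm_gam0_le ξ ξ
  have gyy := norm_gam0_le η η
  have j2 := hJ 2 (by norm_num) (by norm_num)
  have t3 : |(D11 E (gam0 ξ η) (gam0 ξ η) q0).re| ≤ e * N := by
    refine (Complex.abs_re_le_norm _).trans ((D11_le hE _ _).trans ?_)
    calc _ ≤ e * (‖ξ‖ * ‖η‖) * (‖ξ‖ * ‖η‖) := by gcongr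
      _ = _ := by rw [hN]; ring
  have t4 : |(D11 E (gam0 ξ ξ) (gam0 η η) q0).re| ≤ e * N := by
    refine (Complex.abs_re_le_norm _).trans ((D11_le hE _ _).trans ?_)
    calc _ ≤ e * (‖ξ‖ * ‖ξ‖) * (‖η‖ * ‖η‖) := by gcongr
      _ = _ := by rw [hN]; ring
  have t5 : |(D11 (fun b => lam * aS b + E b) (γ12 - gam0 ξ η) (gam0 ξ η) q0).re| ≤ 2 * e * N := by
    refine (Complex.abs_re_le_norm _).trans ((gam_err_le he hE hJ h12 _).trans ?_)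
    calc _ ≤ 2 * e * ‖ξ‖ * ‖η‖ * (‖ξ‖ * ‖η‖) := by gcongr
      _ = _ := by rw [hN]; ring
  have t6 : |(D11 (fun b => lam * aS b + E b) (γ11 - gam0 ξ ξ) (gam0 η η) q0).re| ≤ 2 * e * N := by
    refine (Complex.abs_re_le_norm _).trans ((gam_err_le he hE hJ h11 _).trans ?_)
    calc _ ≤ 2 * e * ‖ξ‖ * ‖ξ‖ * (‖η‖ * ‖η‖) := by gcongr
      _ = _ := by rw [hN]; ring
  have t7 : |(D11 (fun b => lam * aS b + E b) (γ22 - gam0 η η) (gam0 ξ ξ) q0).re| ≤ 2 * e * N := by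
    refine (Complex.abs_re_le_norm _).trans ((gam_err_le he hE hJ h22 _).trans ?_)
    calc _ ≤ 2 * e * ‖η‖ * ‖η‖ * (‖ξ‖ * ‖ξ‖) := by gcongr
      _ = _ := by rw [hN]; ring
  have n12 := gam_err_norm_le he hmu hE hJ hpos h12
  have n22 := gam_err_norm_le he hmu hE hJ hpos h22
  have t8 : |(D11 (fun b => lam * aS b + E b) (γ12 - gam0 ξ η) (γ12 - gam0 ξ η) q0).re|
      ≤ 16 * (e ^ 2 / mu) * N := by
    refine (Complex.abs_re_le_norm _).trans ((gam_err_le he hE hJ h12 _).trans ?_)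
    calc _ ≤ 2 * e * ‖ξ‖ * ‖η‖ * (8 * e / mu * ‖ξ‖ * ‖η‖) := by gcongr
      _ = _ := by rw [hN]; ring
  have t9 : |(D11 (fun b => lam * aS b + E b) (γ11 - gam0 ξ ξ) (γ22 - gam0 η η) q0).re|
      ≤ 16 * (e ^ 2 / mu) * N := by
    refine (Complex.abs_re_le_norm _).trans ((gam_err_le he hE hJ h11 _).trans ?_)
    calc _ ≤ 2 * e * ‖ξ‖ * ‖ξ‖ * (8 * e / mu * ‖η‖ * ‖η‖) := by gcongr
      _ = _ := by rw [hN]; ring
  rw [key]
  rw [abs_le] at *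
  have hem : 0 ≤ e * N := by positivity
  constructor <;> nlinarith

end

theorem shear_exists (ξ η : B2) : ∃ t : ℝ,
    ‖ξ‖ ^ 2 * ‖η + (t : ℂ) • ξ‖ ^ 2 ≤ 16 * area aS q0 ξ η := by
  have ha : ContDiffAt ℝ ∞ aS q0 := aS_contDiffAt q0_mem
  rcases eq_or_ne ((D11 aS ξ ξ q0).re) 0 with h0 | h0
  · refine ⟨0, ?_⟩
    have h1 := norm_sq_le_aS ξ
    rw [h0] at h1
    have h2 : ‖ξ‖ ^ 2 = 0 := le_antisymm (by linarith) (by positivity)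
    have h3 : ξ = 0 := by
      rw [← norm_eq_zero]; exact pow_eq_zero_iff (by norm_num) |>.1 h2
    have h4 : area aS q0 ξ η = 0 := by
      have h5 : D11 aS (0 : B2) η q0 = 0 := by rw [aS_D11_q0]; simp
      unfold area
      rw [h0, h3, h5]
      simp
    rw [h2, h4]; simp
  · refine ⟨-((D11 aS ξ η q0).re / (D11 aS ξ ξ q0).re), ?_⟩
    set t : ℝ := -((D11 aS ξ η q0).re / (D11 aS ξ ξ q0).re) with ht
    rw [← area_shear ha t ξ η]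
    have h1 : (D11 aS ξ (η + (t : ℂ) • ξ) q0).re = 0 := by
      rw [D11_shear_re ha, ht]
      field_simp
      ring
    have h2 : area aS q0 ξ (η + (t : ℂ) • ξ)
        = (D11 aS ξ ξ q0).re * (D11 aS (η + (t : ℂ) • ξ) (η + (t : ℂ) • ξ) q0).re := by
      unfold area
      rw [h1]; ring
    rw [h2]
    have h3 := norm_sq_le_aS ξ
    have h4 := norm_sq_le_aS (η + (t : ℂ) • ξ)
    calc ‖ξ‖ ^ 2 * ‖η + (t : ℂ) • ξ‖ ^ 2
        ≤ (4 * (D11 aS ξ ξ q0).re) * (4 * (D11 aS (η + (t : ℂ) • ξ) (η + (t : ℂ) • ξ) q0).re) := by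
          have : 0 ≤ (D11 aS ξ ξ q0).re := by
            rw [aS_D11_self_re]; positivity
          gcongr
      _ = _ := by ring

end BP

open BP
open scoped ContDiff ComplexConjugate

/-- the squared area controls: `|S| ≤ e` for a Hermitian-symmetric Kähler-type tensor. -/
theorem base_pert : ∃ C₀ : ℝ, 0 < C₀ ∧ ∀ (lam mu e : ℝ) (E : B2 → ℝ), 0 ≤ lam → 0 < mu → 0 ≤ e →
    ContDiffAt ℝ ∞ E q0 → JetB E e →
    (∀ ξ, mu * (D11 aS ξ ξ q0).re ≤ (D11 (fun b => lam * aS b + E b) ξ ξ q0).re) →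
    ∀ ξ η γ11 γ12 γ22, IsGam (fun b => lam * aS b + E b) q0 ξ ξ γ11 →
      IsGam (fun b => lam * aS b + E b) q0 ξ η γ12 →
      IsGam (fun b => lam * aS b + E b) q0 η η γ22 →
      |negK (fun b => lam * aS b + E b) q0 ξ η γ11 γ12 γ22 - lam * calK aS q0 ξ η|
        ≤ C₀ * (e + e ^ 2 / mu) * area aS q0 ξ η := by
  refine ⟨512, by norm_num, ?_⟩
  intro lam mu e E _ hmu he hE hJ hpos ξ η γ11 γ12 γ22 h11 h12 h22
  have ha : ContDiffAt ℝ ∞ aS q0 := aS_contDiffAt q0_mem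
  have hH := contDiffAt_Hp (lam := lam) hE
  obtain ⟨t, ht⟩ := shear_exists ξ η
  have h := base_pert_crude he hmu hE hJ hpos h11 (IsGam_shear12 hH t h11 h12)
    (IsGam_shear22 hH t h11 h12 h22)
  rw [negK_shear hH, calK_shear ha] at h
  refine h.trans ?_
  have : 0 ≤ e + e ^ 2 / mu := by positivity
  calc 32 * (e + e ^ 2 / mu) * (‖ξ‖ ^ 2 * ‖η + (t : ℂ) • ξ‖ ^ 2)
      ≤ 32 * (e + e ^ 2 / mu) * (16 * area aS q0 ξ η) := by gcongr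
    _ = _ := by ring

end Crest.Agent.R245
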