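import Crest.Agent.R245.Profile

/-! TASK BulgeA: slowly varying profile. -/

set_option autoImplicit false

namespace Crest.Agent.R245

open Complex Filter Topology
open scoped ContDiff ComplexConjugate

/-- slowly varying profile -/
theorem exists_psi (ε₁ a₀ : ℝ) (hε : 0 < ε₁) : ∃ (ψ : ℝ → ℝ) (a₁ κ : ℝ), ContDiff ℝ ∞ ψ ∧
    a₀ ≤ a₁ ∧ a₀ ≤ κ ∧ κ ≤ a₁ ∧ (∀ t, t ≤ a₀ → ψ t = 0) ∧ (∀ t, a₁ ≤ t → ψ t = t - κ) ∧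
    (∀ t, 0 ≤ deriv ψ t ∧ deriv ψ t ≤ 1) ∧ (∀ t, 0 ≤ ψ t) ∧ (∀ t, a₀ ≤ t → ψ t ≤ t - a₀) ∧
    (∀ k : ℕ, 2 ≤ k → k ≤ 4 → ∀ t, |iteratedDeriv k ψ t| ≤ ε₁) :=
  exists_psi0 ε₁ a₀ hε

end Crest.Agent.R245
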