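import Crest.Agent.R245.BulgeC

/-! TASK BulgeB: jets of the transition functions (proof in `JetTrans.lean`). -/

set_option autoImplicit false

namespace Crest.Agent.R245

open Complex Filter Topology
open scoped ContDiff ComplexConjugate

/-- the transition functions have small normalized jets -/
theorem jet_transition (χ : ℂ → ℝ) (hχ : ContDiff ℝ ∞ χ) (hχc : HasCompactSupport χ)
    (hχ01 : ∀ z, 0 ≤ χ z ∧ χ z ≤ 1) (δ : ℝ) (hδ : 0 < δ) :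
    ∃ ε₁ > 0, ∃ A₀ : ℝ, 1 ≤ A₀ ∧ ∀ (a₀ : ℝ) (ψ : ℝ → ℝ), A₀ ≤ a₀ → ContDiff ℝ ∞ ψ →
      (∀ t, t ≤ a₀ → ψ t = 0) → (∀ t, 0 ≤ deriv ψ t ∧ deriv ψ t ≤ 1) →
      (∀ k : ℕ, 2 ≤ k → k ≤ 4 → ∀ t, |iteratedDeriv k ψ t| ≤ ε₁) →
      ∀ p ∈ Dom, JetB (fun q => χ (gp p q).1 * ψ (aS (gp p q))
        - (χ p.1 * deriv ψ (aS p)) * aS q) δ := jet_transition' χ hχ hχc hχ01 δ hδ

end Crest.Agent.R245
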