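import Crest.Agent.R245.GpAff

/-! TASK BulgeC: normalisation maps: `KB_hart_gp` is in `GpAff.lean`; `aS_gp`, `gp_q0`, `rho_gp`,
`gp_mem` are in `JetTrans.lean` (helper694; proofs also by helper475, helper899). -/
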