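import Crest.Agent.R245.HPot

/-! TASK LemmaH1: derivatives of `hart A φ`. -/

set_option autoImplicit false
set_option linter.unusedSectionVars false

namespace Crest.Agent.R245.HP

open Complex Filter Topology
open scoped ContDiff ComplexConjugate

/-- the profile `f(t) = -log(1-e^t)` and its derivatives in terms of `y = e^t/(1-e^t)`. -/
noncomputable def fpr (t : ℝ) : ℝ := - Real.log (1 - Real.exp t)
noncomputable def ypr (t : ℝ) : ℝ := Real.exp t / (1 - Real.exp t)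
noncomputable def ypr2 (t : ℝ) : ℝ := ypr t * (1 + ypr t)
noncomputable def ypr3 (t : ℝ) : ℝ := ypr t * (1 + ypr t) * (1 + 2 * ypr t)
noncomputable def ypr4 (t : ℝ) : ℝ :=
  ypr t * (1 + ypr t) * (1 + 2 * ypr t) ^ 2 + 2 * (ypr t * (1 + ypr t)) ^ 2

theorem ev_neg {t : ℝ} (ht : t < 0) : ∀ᶠ s in 𝓝 t, s < 0 := eventually_lt_nhds ht

theorem one_sub_exp_pos {t : ℝ} (ht : t < 0) : 0 < 1 - Real.exp t := by
  have := Real.exp_lt_one_iff.2 ht; linarith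

theorem hasDerivAt_fpr {t : ℝ} (ht : t < 0) : HasDerivAt fpr (ypr t) t := by
  have h1 := one_sub_exp_pos ht
  have h2 : HasDerivAt (fun t => 1 - Real.exp t) (-Real.exp t) t := by
    simpa using (Real.hasDerivAt_exp t).const_sub 1
  have h3 := (h2.log h1.ne').neg
  refine h3.congr_deriv ?_
  unfold ypr; ring

theorem hasDerivAt_ypr {t : ℝ} (ht : t < 0) : HasDerivAt ypr (ypr2 t) t := by
  have h1 := one_sub_exp_pos ht
  have h2 : HasDerivAt (fun t => 1 - Real.exp t) (-Real.exp t) t := by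
    simpa using (Real.hasDerivAt_exp t).const_sub 1
  have h3 := (Real.hasDerivAt_exp t).div h2 h1.ne'
  refine h3.congr_deriv ?_
  unfold ypr2 ypr
  field_simp
  ring

theorem hasDerivAt_ypr2 {t : ℝ} (ht : t < 0) : HasDerivAt ypr2 (ypr3 t) t := by
  have h1 := hasDerivAt_ypr ht
  have h3 := h1.mul (h1.const_add 1)
  refine h3.congr_deriv ?_
  unfold ypr3 ypr2
  ring

theorem hasDerivAt_ypr3 {t : ℝ} (ht : t < 0) : HasDerivAt ypr3 (ypr4 t) t := by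
  have h1 := hasDerivAt_ypr ht
  have h3 := (h1.mul (h1.const_add 1)).mul ((h1.const_mul 2).const_add 1)
  refine h3.congr_deriv ?_
  simp only [Pi.mul_apply]
  unfold ypr4 ypr2
  ring

/-- `s = φ + log |ζ|²` -/
noncomputable def sS (φ : B2 → ℝ) (q : B2 × ℂ) : ℝ := φ q.1 + lz q

section

variable {A φ : B2 → ℝ} {x : B2 × ℂ}

theorem contDiffAt_base {g : B2 → ℝ} (hg : ContDiffAt ℝ ∞ g x.1) :
    ContDiffAt ℝ ∞ (fun q : B2 × ℂ => g q.1) x := hg.comp x contDiffAt_fst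

theorem five_le : (5 : WithTop ℕ∞) ≤ ∞ := WithTop.coe_le_coe.2 le_top

theorem contDiffAt_sS (hφ : ContDiffAt ℝ ∞ φ x.1) (hζ : x.2 ≠ 0) : ContDiffAt ℝ ∞ (sS φ) x :=
  (contDiffAt_base hφ).add (contDiffAt_lz hζ)

theorem exp_sS {q : B2 × ℂ} (hq : q.2 ≠ 0) : Real.exp (sS φ q) = uu φ q := by
  unfold sS lz uu
  rw [Real.exp_add, Real.exp_log (by positivity)]

theorem sS_neg (hζ : x.2 ≠ 0) (hx : uu φ x < 1) : sS φ x < 0 := by
  rw [← exp_sS hζ] at hx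
  exact Real.exp_lt_one_iff.1 hx

theorem ypr_sS (hζ : x.2 ≠ 0) : ypr (sS φ x) = yy φ x := by
  unfold ypr yy; rw [exp_sS hζ]

theorem hart_eq_ev (hζ : x.2 ≠ 0) :
    hart A φ =ᶠ[𝓝 x] fun q => A q.1 + fpr (sS φ q) := by
  have : ∀ᶠ q : B2 × ℂ in 𝓝 x, q.2 ≠ 0 := continuousAt_snd.eventually_ne hζ
  filter_upwards [this] with q hq
  unfold hart fpr
  rw [exp_sS hq]; rfl

theorem contDiffAt_fpr {t : ℝ} (ht : t < 0) : ContDiffAt ℝ ∞ fpr t := by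
  unfold fpr
  exact ((contDiffAt_const.sub Real.contDiff_exp.contDiffAt).log (one_sub_exp_pos ht).ne').neg

theorem contDiffAt_fs (hφ : ContDiffAt ℝ ∞ φ x.1) (hζ : x.2 ≠ 0) (hx : uu φ x < 1) :
    ContDiffAt ℝ ∞ (fun q => fpr (sS φ q)) x :=
  (contDiffAt_fpr (sS_neg hζ hx)).comp x (contDiffAt_sS hφ hζ)

theorem dz_sS_ev (hφ : ContDiffAt ℝ ∞ φ x.1) (hζ : x.2 ≠ 0) (X : B2 × ℂ) :
    dz X (fun q => (sS φ q : ℂ)) =ᶠ[𝓝 x] fun q =>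
      dz X.1 (fun b => (φ b : ℂ)) q.1 + dz X (fun q => (lz q : ℂ)) q := by
  have h1 : ∀ᶠ q : B2 × ℂ in 𝓝 x, q.2 ≠ 0 := continuousAt_snd.eventually_ne hζ
  have h2 : ∀ᶠ q : B2 × ℂ in 𝓝 x, ContDiffAt ℝ 5 φ q.1 :=
    continuousAt_fst.eventually ((hφ.of_le five_le).eventually
      (by decide))
  filter_upwards [h1, h2] with q hq1 hq2
  have d1 : DifferentiableAt ℝ (fun b => (φ b : ℂ)) q.1 :=
    differentiableAt_ofReal (hq2.differentiableAt (by norm_num))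
  have d2 : DifferentiableAt ℝ (fun q : B2 × ℂ => (φ q.1 : ℂ)) q :=
    DifferentiableAt.comp q (f := fun q : B2 × ℂ => q.1) (g := fun b => (φ b : ℂ)) d1
      differentiableAt_fst
  have d3 : DifferentiableAt ℝ (fun q : B2 × ℂ => (lz q : ℂ)) q :=
    differentiableAt_ofReal ((contDiffAt_lz hq1).differentiableAt (by norm_num))
  have e : (fun q => (sS φ q : ℂ)) = fun q => (φ q.1 : ℂ) + (lz q : ℂ) := by
    ext q; unfold sS; push_cast; rfl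
  rw [e, dz_add d2 d3, dz_comp_fst X d1]

theorem dz_sS (hφ : ContDiffAt ℝ ∞ φ x.1) (hζ : x.2 ≠ 0) (X : B2 × ℂ) :
    dz X (fun q => (sS φ q : ℂ)) x = Nf φ x X := by
  rw [(dz_sS_ev hφ hζ X).eq_of_nhds, dz_lz hζ]; rfl

theorem dzb_sS (hφ : ContDiffAt ℝ ∞ φ x.1) (hζ : x.2 ≠ 0) (X : B2 × ℂ) :
    dzb X (fun q => (sS φ q : ℂ)) x = conj (Nf φ x X) := by
  rw [dzb_ofReal, dz_sS hφ hζ]

theorem dz_dz_sS (hφ : ContDiffAt ℝ ∞ φ x.1) (hζ : x.2 ≠ 0) (X Y : B2 × ℂ) :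
    dz X (dz Y (fun q => (sS φ q : ℂ))) x = s20 φ x X Y := by
  rw [dz_congr (dz_sS_ev hφ hζ Y)]
  have h5 : ContDiffAt ℝ 5 φ x.1 := hφ.of_le five_le
  have c1 : ContDiffAt ℝ 4 (dz Y.1 (fun b => (φ b : ℂ))) x.1 :=
    contDiffAt_dz_le (n := 4) Y.1 (contDiffAt_ofReal h5) (by norm_num)
  have d1 : DifferentiableAt ℝ (dz Y.1 (fun b => (φ b : ℂ))) x.1 := c1.differentiableAt (by norm_num)
  have d2 : DifferentiableAt ℝ (fun q : B2 × ℂ => dz Y.1 (fun b => (φ b : ℂ)) q.1) x :=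
    DifferentiableAt.comp x (f := fun q : B2 × ℂ => q.1) d1 differentiableAt_fst
  have c3 : ContDiffAt ℝ ∞ (dz Y (fun q => (lz q : ℂ))) x :=
    contDiffAt_dz_inf Y (contDiffAt_ofReal (contDiffAt_lz hζ))
  rw [dz_add d2 (c3.differentiableAt (by norm_num)), dz_comp_fst X d1, dz_dz_lz hζ]
  unfold s20
  ring

theorem dzb_dzb_sS (hφ : ContDiffAt ℝ ∞ φ x.1) (hζ : x.2 ≠ 0) (X Y : B2 × ℂ) :
    dzb X (dzb Y (fun q => (sS φ q : ℂ))) x = conj (s20 φ x X Y) := by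
  have e1 : dzb Y (fun q => (sS φ q : ℂ)) = fun q => conj (dz Y (fun q => (sS φ q : ℂ)) q) := by
    ext q; exact dzb_ofReal Y (sS φ) q
  rw [e1, dzb_conj X (dz Y (fun q => (sS φ q : ℂ))) x, dz_dz_sS hφ hζ]

theorem D11_fst {g : B2 → ℝ} (hg : ContDiffAt ℝ ∞ g x.1) (X Y : B2 × ℂ) :
    D11 (fun q : B2 × ℂ => g q.1) X Y x = D11 g X.1 Y.1 x.1 := by
  have h := D11_comp_affine (p := x) (ContinuousLinearMap.fst ℂ B2 ℂ) (0 : B2) (f := g)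
    (by simpa using hg) X Y
  simpa using h

theorem D21_fst {g : B2 → ℝ} (hg : ContDiffAt ℝ ∞ g x.1) (X Y Z : B2 × ℂ) :
    D21 (fun q : B2 × ℂ => g q.1) X Y Z x = D21 g X.1 Y.1 Z.1 x.1 := by
  have h := D21_comp_affine (p := x) (ContinuousLinearMap.fst ℂ B2 ℂ) (0 : B2) (f := g)
    (by simpa using hg) X Y Z
  simpa using h

theorem D22_fst {g : B2 → ℝ} (hg : ContDiffAt ℝ ∞ g x.1) (X Y Z W : B2 × ℂ) :
    D22 (fun q : B2 × ℂ => g q.1) X Y Z W x = D22 g X.1 Y.1 Z.1 W.1 x.1 := by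
  have h := D22_comp_affine (p := x) (ContinuousLinearMap.fst ℂ B2 ℂ) (0 : B2) (f := g)
    (by simpa using hg) X Y Z W
  simpa using h

theorem D11_sS (hφ : ContDiffAt ℝ ∞ φ x.1) (hζ : x.2 ≠ 0) (X Y : B2 × ℂ) :
    D11 (sS φ) X Y x = D11 φ X.1 Y.1 x.1 := by
  have h := D11_add (contDiffAt_base hφ) (contDiffAt_lz hζ) X Y
  rw [D11_fst hφ, D11_lz hζ, add_zero] at h
  exact h

theorem D21_sS (hφ : ContDiffAt ℝ ∞ φ x.1) (hζ : x.2 ≠ 0) (X Y Z : B2 × ℂ) :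
    D21 (sS φ) X Y Z x = D21 φ X.1 Y.1 Z.1 x.1 := by
  have h := D21_add (contDiffAt_base hφ) (contDiffAt_lz hζ) X Y Z
  rw [D21_fst hφ, D21_lz hζ, add_zero] at h
  exact h

theorem D22_sS (hφ : ContDiffAt ℝ ∞ φ x.1) (hζ : x.2 ≠ 0) (X Y Z W : B2 × ℂ) :
    D22 (sS φ) X Y Z W x = D22 φ X.1 Y.1 Z.1 W.1 x.1 := by
  have h := D22_add (contDiffAt_base hφ) (contDiffAt_lz hζ) X Y Z W
  rw [D22_fst hφ, D22_lz hζ, add_zero] at h
  exact h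

end

section uufacts

variable {A φ : B2 → ℝ} {x : B2 × ℂ}

theorem contDiffAt_uu (hφ : ContDiffAt ℝ ∞ φ x.1) : ContDiffAt ℝ ∞ (uu φ) x := by
  unfold uu
  exact (Real.contDiff_exp.contDiffAt.comp x (contDiffAt_base hφ)).mul
    contDiff_normSq_snd.contDiffAt

theorem nuu_eq (q : B2 × ℂ) (X : B2 × ℂ) :
    nuu φ q X = q.2 * dz X.1 (fun b => (φ b : ℂ)) q.1 + X.2 := rfl

theorem dz_base (hφ : ContDiffAt ℝ ∞ φ x.1) (X : B2 × ℂ) :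
    dz X (fun q : B2 × ℂ => (φ q.1 : ℂ)) x = dz X.1 (fun b => (φ b : ℂ)) x.1 :=
  dz_comp_fst X (differentiableAt_ofReal (hφ.differentiableAt (by norm_num)))

theorem uu_cast : (fun q => (uu φ q : ℂ)) =
    fun q : B2 × ℂ => ((Real.exp (φ q.1) : ℝ) : ℂ) * (q.2 * conj q.2) := by
  ext q
  unfold uu
  rw [ofReal_mul, normSq_eq]

theorem diff_expφ (hφ : ContDiffAt ℝ 5 φ x.1) :
    DifferentiableAt ℝ (fun q : B2 × ℂ => ((Real.exp (φ q.1) : ℝ) : ℂ)) x := by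
  have h1 : DifferentiableAt ℝ (fun q : B2 × ℂ => φ q.1) x :=
    DifferentiableAt.comp x (f := fun q : B2 × ℂ => q.1) (g := φ)
      (hφ.differentiableAt (by norm_num)) differentiableAt_fst
  exact differentiableAt_ofReal h1.exp

theorem dz_expφ (hφ : ContDiffAt ℝ 5 φ x.1) (X : B2 × ℂ) :
    dz X (fun q : B2 × ℂ => ((Real.exp (φ q.1) : ℝ) : ℂ)) x =
      ((Real.exp (φ x.1) : ℝ) : ℂ) * dz X.1 (fun b => (φ b : ℂ)) x.1 := by
  have d0 : DifferentiableAt ℝ φ x.1 := hφ.differentiableAt (by norm_num)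
  have h1 : DifferentiableAt ℝ (fun q : B2 × ℂ => φ q.1) x :=
    DifferentiableAt.comp x (f := fun q : B2 × ℂ => q.1) (g := φ) d0 differentiableAt_fst
  rw [dz_comp_real Real.exp (fun q : B2 × ℂ => φ q.1) Real.differentiableAt_exp h1, Real.deriv_exp,
    dz_comp_fst X (differentiableAt_ofReal d0)]

theorem dz_uu (hφ : ContDiffAt ℝ 5 φ x.1) (X : B2 × ℂ) :
    dz X (fun q => (uu φ q : ℂ)) x =
      ((Real.exp (φ x.1) : ℝ) : ℂ) * (conj x.2 * nuu φ x X) := by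
  rw [uu_cast, dz_mul (u := fun q : B2 × ℂ => ((Real.exp (φ q.1) : ℝ) : ℂ))
    (v := fun q : B2 × ℂ => q.2 * conj q.2) (diff_expφ hφ)
    ((diffR_snd x).mul (diffR_conj (diffR_snd x))),
    dz_mul (diffR_snd x) (diffR_conj (diffR_snd x)), dz_expφ hφ, dz_snd, dz_conj_snd, nuu_eq]
  ring

theorem dzb_uu_ev (hφ : ContDiffAt ℝ 5 φ x.1) (X : B2 × ℂ) :
    dzb X (fun q => (uu φ q : ℂ)) =ᶠ[𝓝 x] fun q =>
      ((Real.exp (φ q.1) : ℝ) : ℂ) * (q.2 * conj (nuu φ q X)) := by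
  have h2 : ∀ᶠ q : B2 × ℂ in 𝓝 x, ContDiffAt ℝ 5 φ q.1 :=
    continuousAt_fst.eventually (hφ.eventually (by decide))
  filter_upwards [h2] with q hq
  rw [dzb_ofReal, dz_uu hq]
  simp only [map_mul, conj_conj, conj_ofReal]

theorem dz_conj_nuu (hφ : ContDiffAt ℝ 5 φ x.1) (X Z : B2 × ℂ) :
    DifferentiableAt ℝ (fun q : B2 × ℂ => conj (nuu φ q Z)) x ∧
    dz X (fun q : B2 × ℂ => conj (nuu φ q Z)) x = conj x.2 * D11 φ X.1 Z.1 x.1 := by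
  have hφC := contDiffAt_ofReal hφ
  have d1 : DifferentiableAt ℝ (dz Z.1 (fun b => (φ b : ℂ))) x.1 :=
    (contDiffAt_dz_le (n := 4) Z.1 hφC (by norm_num)).differentiableAt (by norm_num)
  have d2 : DifferentiableAt ℝ (fun q : B2 × ℂ => dz Z.1 (fun b => (φ b : ℂ)) q.1) x :=
    DifferentiableAt.comp x (f := fun q : B2 × ℂ => q.1) d1 differentiableAt_fst
  have d3 : DifferentiableAt ℝ (fun q : B2 × ℂ => nuu φ q Z) x := by
    unfold nuu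
    exact ((diffR_snd x).mul d2).add_const _
  refine ⟨diffR_conj d3, ?_⟩
  rw [dz_conj X (fun q : B2 × ℂ => nuu φ q Z) x]
  have e1 : dzb X (fun q : B2 × ℂ => nuu φ q Z) x =
      x.2 * dzb X.1 (dz Z.1 (fun b => (φ b : ℂ))) x.1 := by
    have e2 : (fun q : B2 × ℂ => nuu φ q Z) =
        fun q => (q.2 * dz Z.1 (fun b => (φ b : ℂ)) q.1) + Z.2 := rfl
    rw [e2, dzb_add (u := fun q : B2 × ℂ => q.2 * dz Z.1 (fun b => (φ b : ℂ)) q.1)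
      ((diffR_snd x).mul d2) (differentiableAt_const _), dzb_const,
      dzb_mul (diffR_snd x) d2, dzb_snd, dzb_comp_fst X d1]
    ring
  rw [e1, map_mul]
  congr 1
  unfold D11
  rw [← dz_dzb_comm (hφC.of_le (by norm_num))]
  have e3 : dzb Z.1 (fun q => (φ q : ℂ)) = fun q => conj (dz Z.1 (fun q => (φ q : ℂ)) q) := by
    ext q; exact dzb_ofReal Z.1 φ q
  rw [e3, dz_conj X.1 (dz Z.1 (fun q => (φ q : ℂ))) x.1,
    ← dz_dzb_comm (hφC.of_le (by norm_num))]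

theorem D11_uu (hφ : ContDiffAt ℝ 5 φ x.1) (X Z : B2 × ℂ) :
    D11 (uu φ) X Z x = ((Real.exp (φ x.1) : ℝ) : ℂ) * (nuu φ x X * conj (nuu φ x Z))
      + (uu φ x : ℂ) * D11 φ X.1 Z.1 x.1 := by
  unfold D11
  rw [dz_congr (dzb_uu_ev hφ Z)]
  obtain ⟨d1, e1⟩ := dz_conj_nuu hφ X Z
  have k1 := dz_mul (X := X) (u := fun q : B2 × ℂ => ((Real.exp (φ q.1) : ℝ) : ℂ))
    (v := fun q : B2 × ℂ => q.2 * conj (nuu φ q Z)) (diff_expφ hφ) ((diffR_snd x).mul d1)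
  have k2 := dz_mul (X := X) (diffR_snd x) d1
  rw [k1, k2, dz_expφ hφ, dz_snd, e1]
  have e2 : (uu φ x : ℂ) = ((Real.exp (φ x.1) : ℝ) : ℂ) * (x.2 * conj x.2) := by
    unfold uu; rw [ofReal_mul, normSq_eq]
  rw [e2, nuu_eq x X]
  unfold D11
  ring

theorem contDiffAt_log_uu (hφ : ContDiffAt ℝ ∞ φ x.1) (hx : uu φ x < 1) :
    ContDiffAt ℝ ∞ (fun q => - Real.log (1 - uu φ q)) x :=
  ((contDiffAt_const.sub (contDiffAt_uu hφ)).log (by linarith [hx] : (1 : ℝ) - uu φ x ≠ 0)).neg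

end uufacts

end Crest.Agent.R245.HP

namespace Crest.Agent.R245

open HP Complex Filter Topology
open scoped ContDiff ComplexConjugate

/-- the metric of `hart A φ` -/
theorem hart_D11 (A φ : B2 → ℝ) (x : B2 × ℂ) (hA : ContDiffAt ℝ ∞ A x.1)
    (hφ : ContDiffAt ℝ ∞ φ x.1) (hx : uu φ x < 1) (X Y : B2 × ℂ) :
    D11 (hart A φ) X Y x = D11 A X.1 Y.1 x.1 + (yy φ x : ℂ) * D11 φ X.1 Y.1 x.1
      + ((Real.exp (φ x.1) / (1 - uu φ x) ^ 2 : ℝ) : ℂ) * nuu φ x X * conj (nuu φ x Y) := by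
  have hφ5 : ContDiffAt ℝ 5 φ x.1 := hφ.of_le five_le
  have e : hart A φ = fun q => A q.1 + (fun q => - Real.log (1 - uu φ q)) q := by
    ext q; unfold hart uu; ring
  have h1' : ∀ t : ℝ, t < 1 → HasDerivAt (fun t => - Real.log (1 - t)) ((1 - t)⁻¹) t := by
    intro t ht
    have h2 : HasDerivAt (fun t : ℝ => 1 - t) (-1) t := by simpa using (hasDerivAt_id t).const_sub 1
    refine (h2.log (by linarith : (1 : ℝ) - t ≠ 0)).neg.congr_deriv ?_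
    ring
  have h2' : ∀ t : ℝ, t < 1 → HasDerivAt (fun t : ℝ => (1 - t)⁻¹) (((1 - t) ^ 2)⁻¹) t := by
    intro t ht
    have h2 : HasDerivAt (fun t : ℝ => 1 - t) (-1) t := by simpa using (hasDerivAt_id t).const_sub 1
    refine (h2.inv (by linarith : (1 : ℝ) - t ≠ 0)).congr_deriv ?_
    ring
  have hev : ∀ᶠ t in 𝓝 (uu φ x), t < 1 := eventually_lt_nhds hx
  have h11 := D11_comp (f := fun t => - Real.log (1 - t)) (f1 := fun t => (1 - t)⁻¹)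
    (f2 := fun t => ((1 - t) ^ 2)⁻¹) X Y ((contDiffAt_uu hφ).of_le five_le)
    (hev.mono h1') (hev.mono h2')
  rw [e, D11_add (contDiffAt_base hA) (contDiffAt_log_uu hφ hx), D11_fst hA]
  have h12 : D11 (fun q => - Real.log (1 - uu φ q)) X Y x =
      D11 (fun q => (fun t => - Real.log (1 - t)) (uu φ q)) X Y x := rfl
  rw [h12, h11, D11_uu hφ5, dz_uu hφ5, dzb_ofReal, dz_uu hφ5]
  have hne : (1 : ℂ) - (uu φ x : ℂ) ≠ 0 := by
    have : (1 : ℝ) - uu φ x ≠ 0 := by linarith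
    exact_mod_cast this
  have e2 : (uu φ x : ℂ) = ((Real.exp (φ x.1) : ℝ) : ℂ) * (x.2 * conj x.2) := by
    unfold uu; rw [ofReal_mul, normSq_eq]
  have e3 : (yy φ x : ℂ) = (uu φ x : ℂ) / (1 - (uu φ x : ℂ)) := by
    unfold yy; push_cast; rfl
  rw [e3]
  simp only [map_mul, conj_conj, conj_ofReal]
  push_cast
  field_simp
  have e4 : (cexp (φ x.1 : ℂ)) * (x.2 * conj x.2) = (uu φ x : ℂ) := by
    rw [e2]; push_cast; rfl
  linear_combination (cexp (φ x.1 : ℂ) * nuu φ x X * conj (nuu φ x Y)) * e4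

/-- same in terms of `aa` for `ζ ≠ 0` -/
theorem hart_D11' (A φ : B2 → ℝ) (x : B2 × ℂ) (hA : ContDiffAt ℝ ∞ A x.1)
    (hφ : ContDiffAt ℝ ∞ φ x.1) (hx : uu φ x < 1) (hζ : x.2 ≠ 0) (X Y : B2 × ℂ) :
    D11 (hart A φ) X Y x = D11 (Hpot A φ (yy φ x)) X.1 Y.1 x.1 + aa φ x X * conj (aa φ x Y) := by
  rw [hart_D11 A φ x hA hφ hx]
  have hu0 : 0 ≤ uu φ x := by unfold uu; positivity
  have hy0 : 0 ≤ yy φ x := div_nonneg hu0 (by linarith)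
  have e1 : D11 (Hpot A φ (yy φ x)) X.1 Y.1 x.1 =
      D11 A X.1 Y.1 x.1 + (yy φ x : ℂ) * D11 φ X.1 Y.1 x.1 := by
    have hc : ContDiffAt ℝ ∞ (fun b => yy φ x * φ b) x.1 := contDiffAt_const.mul hφ
    have h := D11_add hA hc X.1 Y.1
    rw [D11_const_mul hφ] at h
    exact h
  rw [e1]
  unfold aa
  rw [map_mul, conj_ofReal, map_div₀]
  have hsq : ((Real.sqrt (yy φ x * (1 + yy φ x)) : ℝ) : ℂ) *
      ((Real.sqrt (yy φ x * (1 + yy φ x)) : ℝ) : ℂ) = ((yy φ x * (1 + yy φ x) : ℝ) : ℂ) := by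
    rw [← ofReal_mul, Real.mul_self_sqrt (by positivity)]
  have hyy : ((yy φ x * (1 + yy φ x) : ℝ) : ℂ) =
      ((Real.exp (φ x.1) / (1 - uu φ x) ^ 2 : ℝ) : ℂ) * (x.2 * conj x.2) := by
    rw [← normSq_eq, ← ofReal_mul]
    congr 1
    unfold yy
    have : (1 : ℝ) - uu φ x ≠ 0 := by linarith
    field_simp
    unfold uu; ring
  have hc : conj x.2 ≠ 0 := by simpa using hζ
  calc D11 A X.1 Y.1 x.1 + (yy φ x : ℂ) * D11 φ X.1 Y.1 x.1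
      + ((Real.exp (φ x.1) / (1 - uu φ x) ^ 2 : ℝ) : ℂ) * nuu φ x X * conj (nuu φ x Y)
      = D11 A X.1 Y.1 x.1 + (yy φ x : ℂ) * D11 φ X.1 Y.1 x.1 +
        (((Real.exp (φ x.1) / (1 - uu φ x) ^ 2 : ℝ) : ℂ) * (x.2 * conj x.2)) *
          (nuu φ x X / x.2 * (conj (nuu φ x Y) / conj x.2)) := by
        field_simp
    _ = _ := by
        rw [← hyy, ← hsq]; ring

theorem hart_D21 (A φ : B2 → ℝ) (x : B2 × ℂ) (hA : ContDiffAt ℝ ∞ A x.1)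
    (hφ : ContDiffAt ℝ ∞ φ x.1) (hx : uu φ x < 1) (hζ : x.2 ≠ 0) (X Y Z : B2 × ℂ) :
    D21 (hart A φ) X Y Z x = D21 A X.1 Y.1 Z.1 x.1 + (yy φ x : ℂ) * D21 φ X.1 Y.1 Z.1 x.1
      + (yy φ x * (1 + yy φ x) : ℂ) * (D11 φ X.1 Z.1 x.1 * Nf φ x Y + D11 φ Y.1 Z.1 x.1 * Nf φ x X
          + s20 φ x X Y * conj (Nf φ x Z))
      + (yy φ x * (1 + yy φ x) * (1 + 2 * yy φ x) : ℂ) * (Nf φ x X * Nf φ x Y * conj (Nf φ x Z)) := by
  have ht := sS_neg hζ hx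
  have hs := contDiffAt_sS hφ hζ
  have hs5 : ContDiffAt ℝ 5 (sS φ) x := hs.of_le five_le
  have h1 : ∀ᶠ t in 𝓝 (sS φ x), HasDerivAt fpr (ypr t) t :=
    (ev_neg ht).mono fun t h => hasDerivAt_fpr h
  have h2 : ∀ᶠ t in 𝓝 (sS φ x), HasDerivAt ypr (ypr2 t) t :=
    (ev_neg ht).mono fun t h => hasDerivAt_ypr h
  have h3 : ∀ᶠ t in 𝓝 (sS φ x), HasDerivAt ypr2 (ypr3 t) t :=
    (ev_neg ht).mono fun t h => hasDerivAt_ypr2 h
  rw [D21_congr (hart_eq_ev hζ), D21_add (contDiffAt_base hA)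
    (contDiffAt_fs hφ hζ hx), D21_fst hA, D21_comp X Y Z hs5 h1 h2 h3, D21_sS hφ hζ, D11_sS hφ hζ,
    D11_sS hφ hζ, dz_sS hφ hζ, dz_sS hφ hζ, dzb_sS hφ hζ, dz_dz_sS hφ hζ]
  unfold ypr2 ypr3
  rw [ypr_sS hζ]
  push_cast
  ring

theorem hart_D22 (A φ : B2 → ℝ) (x : B2 × ℂ) (hA : ContDiffAt ℝ ∞ A x.1)
    (hφ : ContDiffAt ℝ ∞ φ x.1) (hx : uu φ x < 1) (hζ : x.2 ≠ 0) (X Y Z W : B2 × ℂ) :
    D22 (hart A φ) X Y Z W x = D22 A X.1 Y.1 Z.1 W.1 x.1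
      + (yy φ x : ℂ) * D22 φ X.1 Y.1 Z.1 W.1 x.1
      + (yy φ x * (1 + yy φ x) : ℂ) *
        (D21 φ X.1 Y.1 Z.1 x.1 * conj (Nf φ x W) + D21 φ X.1 Y.1 W.1 x.1 * conj (Nf φ x Z)
          + D11 φ X.1 Z.1 x.1 * D11 φ Y.1 W.1 x.1 + D11 φ X.1 W.1 x.1 * D11 φ Y.1 Z.1 x.1
          + s20 φ x X Y * conj (s20 φ x Z W)
          + Nf φ x Y * conj (D21 φ Z.1 W.1 X.1 x.1) + Nf φ x X * conj (D21 φ Z.1 W.1 Y.1 x.1))
      + (yy φ x * (1 + yy φ x) * (1 + 2 * yy φ x) : ℂ) *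
        (s20 φ x X Y * conj (Nf φ x Z) * conj (Nf φ x W)
          + D11 φ X.1 Z.1 x.1 * Nf φ x Y * conj (Nf φ x W)
          + D11 φ X.1 W.1 x.1 * Nf φ x Y * conj (Nf φ x Z)
          + D11 φ Y.1 Z.1 x.1 * Nf φ x X * conj (Nf φ x W)
          + D11 φ Y.1 W.1 x.1 * Nf φ x X * conj (Nf φ x Z)
          + Nf φ x X * Nf φ x Y * conj (s20 φ x Z W))
      + (yy φ x * (1 + yy φ x) * (1 + 2 * yy φ x) ^ 2 + 2 * (yy φ x * (1 + yy φ x)) ^ 2 : ℂ) *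
        (Nf φ x X * Nf φ x Y * conj (Nf φ x Z) * conj (Nf φ x W)) := by
  have ht := sS_neg hζ hx
  have hs := contDiffAt_sS hφ hζ
  have hs5 : ContDiffAt ℝ 5 (sS φ) x := hs.of_le five_le
  have h1 : ∀ᶠ t in 𝓝 (sS φ x), HasDerivAt fpr (ypr t) t :=
    (ev_neg ht).mono fun t h => hasDerivAt_fpr h
  have h2 : ∀ᶠ t in 𝓝 (sS φ x), HasDerivAt ypr (ypr2 t) t :=
    (ev_neg ht).mono fun t h => hasDerivAt_ypr h
  have h3 : ∀ᶠ t in 𝓝 (sS φ x), HasDerivAt ypr2 (ypr3 t) t :=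
    (ev_neg ht).mono fun t h => hasDerivAt_ypr2 h
  have h4 : ∀ᶠ t in 𝓝 (sS φ x), HasDerivAt ypr3 (ypr4 t) t :=
    (ev_neg ht).mono fun t h => hasDerivAt_ypr3 h
  rw [D22_congr (hart_eq_ev hζ), D22_add (contDiffAt_base hA)
    (contDiffAt_fs hφ hζ hx), D22_fst hA, D22_comp X Y Z W hs5 h1 h2 h3 h4, D22_sS hφ hζ,
    D21_sS hφ hζ, D21_sS hφ hζ, D11_sS hφ hζ, D11_sS hφ hζ, D11_sS hφ hζ, D11_sS hφ hζ,
    dz_sS hφ hζ, dz_sS hφ hζ, dzb_sS hφ hζ, dzb_sS hφ hζ, dz_dz_sS hφ hζ, dzb_dzb_sS hφ hζ,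
    dz_dzb_dzb_real hs5, dz_dzb_dzb_real hs5, D21_sS hφ hζ, D21_sS hφ hζ]
  unfold ypr2 ypr3 ypr4
  rw [ypr_sS hζ]
  push_cast
  ring

end Crest.Agent.R245
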