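import Crest.Agent.R245.BulgeMake0
import Crest.Agent.R245.LemmaH1

/-! Row 245: curvature of the bulge. -/

set_option autoImplicit false

namespace Crest.Agent.R245

open Complex Filter Topology
open scoped ContDiff ComplexConjugate

namespace BD

theorem hart_cd {A φ : B2 → ℝ} {y : B2 × ℂ} (hA : ContDiffAt ℝ ∞ A y.1)
    (hφ : ContDiffAt ℝ ∞ φ y.1) (hu : Real.exp (φ y.1) * ‖y.2‖ ^ 2 < 1) :
    ContDiffAt ℝ ∞ (hart A φ) y := by
  have h1 : ContDiffAt ℝ ∞ (fun x : B2 × ℂ => A x.1) y := hA.comp y contDiffAt_fst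
  have h2 : ContDiffAt ℝ ∞ (fun x : B2 × ℂ => φ x.1) y := hφ.comp y contDiffAt_fst
  have h3 : ContDiffAt ℝ ∞ (fun x : B2 × ℂ => ‖x.2‖ ^ 2) y := contDiffAt_snd.norm_sq ℝ
  have h4 : ContDiffAt ℝ ∞ (fun x : B2 × ℂ => 1 - Real.exp (φ x.1) * ‖x.2‖ ^ 2) y :=
    contDiffAt_const.sub (h2.exp.mul h3)
  exact h1.sub (h4.log (by linarith))

theorem dz_zero_dir' (u : B2 → ℂ) (p : B2) : dz (0 : B2) u p = 0 := by
  have := dz_vec_smul (0:ℂ) (0 : B2) u p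
  simpa using this

theorem hart_PD' {A φ : B2 → ℝ} {y : B2 × ℂ} (hA : ContDiffAt ℝ ∞ A y.1)
    (hφ : ContDiffAt ℝ ∞ φ y.1) (hu : Real.exp (φ y.1) * ‖y.2‖ ^ 2 < 1)
    (hApos : ∀ ξ, ξ ≠ 0 → 0 < (D11 A ξ ξ y.1).re) (hφnn : ∀ ξ, 0 ≤ (D11 φ ξ ξ y.1).re) :
    PD (hart A φ) y := by
  intro X hX
  have hu' : uu φ y < 1 := hu
  have hu0 : 0 ≤ uu φ y := by unfold uu; positivity
  have hyy : 0 ≤ yy φ y := by
    unfold yy
    apply div_nonneg hu0; linarith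
  rw [hart_D11 A φ y hA hφ hu' X X]
  set E : ℝ := Real.exp (φ y.1) / (1 - uu φ y) ^ 2 with hE
  have hEpos : 0 < E := by
    rw [hE]
    have : 0 < 1 - uu φ y := by linarith
    positivity
  have h5 : (((E : ℝ) : ℂ) * nuu φ y X * conj (nuu φ y X)).re
      = E * ‖nuu φ y X‖ ^ 2 := by
    rw [mul_assoc, Complex.mul_conj, Complex.normSq_eq_norm_sq, ← Complex.ofReal_mul,
      Complex.ofReal_re]
  rw [Complex.add_re, Complex.add_re, h5, Complex.re_ofReal_mul]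
  have h4 := hφnn X.1
  have h8 : 0 ≤ yy φ y * (D11 φ X.1 X.1 y.1).re := mul_nonneg hyy h4
  by_cases hX1 : X.1 = 0
  · have hX2 : X.2 ≠ 0 := fun h => hX (Prod.ext hX1 h)
    have hn : nuu φ y X = X.2 := by
      unfold nuu
      rw [hX1, dz_zero_dir']; simp
    rw [hn]
    have : 0 < ‖X.2‖ := norm_pos_iff.2 hX2
    have h6 : 0 < E * ‖X.2‖ ^ 2 := by positivity
    have h7 : (D11 A X.1 X.1 y.1).re = 0 := by
      rw [hX1]
      have := D11_smul_left hA (0:ℂ) (0:B2) (0:B2)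
      simp only [smul_zero, zero_mul] at this
      rw [this, Complex.zero_re]
    linarith
  · have h7 := hApos X.1 hX1
    have h9 : 0 ≤ E * ‖nuu φ y X‖ ^ 2 := by positivity
    linarith

theorem aS_pos {p : B2} (hp : p ∈ Dom) {ξ : B2} (hξ : ξ ≠ 0) : 0 < (D11 aS ξ ξ p).re := by
  have hr : 0 < rho p := hp
  set X := (gpL p hr).symm ξ with hX
  have hξ' : gpL p hr X = ξ := by simp [hX]
  have hX0 : X ≠ 0 := by
    intro h
    rw [h, map_zero] at hξ'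
    exact hξ hξ'.symm
  rw [← hξ', D11_aS_gp p hp]
  have h1 := norm_sq_le_aS_bl X
  have h2 : 0 < ‖X‖ := norm_pos_iff.2 hX0
  nlinarith [sq_nonneg ‖X‖, mul_pos h2 h2]

theorem aS_nonneg' {p : B2} (hp : p ∈ Dom) (ξ : B2) : 0 ≤ (D11 aS ξ ξ p).re := by
  have hr : 0 < rho p := hp
  have hξ' : gpL p hr ((gpL p hr).symm ξ) = ξ := by simp
  rw [← hξ', D11_aS_gp p hp]
  exact aS_q0_nonneg _

variable (d : BD)

theorem A_cd {p : B2} (hp : p ∈ Dom) : ContDiffAt ℝ ∞ d.A p :=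
  d.A_smooth.contDiffAt (isOpen_Dom'.mem_nhds hp)

theorem φ_cd {p : B2} (hp : p ∈ Dom) : ContDiffAt ℝ ∞ d.φ p :=
  d.φ_smooth.contDiffAt (isOpen_Dom'.mem_nhds hp)

theorem PD_hart {y : B2 × ℂ} (hy : y ∈ HartD d.φ) : PD (hart d.A d.φ) y := by
  refine hart_PD' (d.A_cd hy.1) (d.φ_cd hy.1) hy.2 ?_ ?_
  · intro ξ hξ
    have h1 := d.posA hy.1 ξ
    have h2 := aS_pos hy.1 hξ
    linarith
  · intro ξ
    have h1 := d.posφ hy.1 ξ
    have h2 := aS_nonneg' hy.1 ξ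
    have h3 := d.hs0
    have : 0 ≤ d.s / 2 * (D11 aS ξ ξ y.1).re := by positivity
    linarith

/-- curvature statement with abstract inputs -/
theorem curv {δ1 c1 B1 c2 B2' : ℝ} (hδ1 : (d.Λ - 1) * d.δ ≤ δ1) (hδ1' : d.δ ≤ δ1)
    (R1 : ∀ (A φ : B2 → ℝ) (θ : ℝ), 0 ≤ θ → θ ≤ 1 →
      ContDiffAt ℝ ∞ A q0 → ContDiffAt ℝ ∞ φ q0 →
      JetB (fun b => A b - (1 + (d.Λ - 1) * θ) * aS b) δ1 →
      JetB (fun b => φ b - (1 - (1 - d.s) * θ) * aS b) δ1 →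
      ∀ ζ : ℂ, ζ ≠ 0 → Real.exp (φ q0) * ‖ζ‖ ^ 2 < 1 → KB (hart A φ) (q0, ζ) c1 B1)
    (R2 : ∀ (u : B2 → ℝ) (α β : ℝ), ContDiffAt ℝ ∞ u q0 → JetB u d.CW →
        (∀ ξ, -(d.η / 2) * (D11 aS ξ ξ q0).re ≤ (D11 u ξ ξ q0).re) →
        ∀ ζ : ℂ, ζ ≠ 0 → Real.exp (d.τ * (d.η * aS q0 + u q0) + β) * ‖ζ‖ ^ 2 < 1 →
          KB (hart (fun b => d.Λ * aS b + α) (fun b => d.τ * (d.η * aS b + u b) + β))
            (q0, ζ) c2 B2')
    {y : B2 × ℂ} (hy : y ∈ HartD d.φ) :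
    KB (hart d.A d.φ) y (min c1 c2) (max B1 B2') := by
  -- nonzero fibre coordinate
  have main : ∀ ζ : ℂ, ζ ≠ 0 → ((y.1, ζ) : B2 × ℂ) ∈ HartD d.φ →
      KB (hart d.A d.φ) (y.1, ζ) (min c1 c2) (max B1 B2') := by
    intro ζ hζ hmem
    set p := y.1 with hpdef
    have hp : p ∈ Dom := hy.1
    have hcd : ContDiffAt ℝ ∞ (hart d.A d.φ) (p, ζ) := hart_cd (d.A_cd hp) (d.φ_cd hp) hmem.2
    have hpd : PD (hart d.A d.φ) (p, ζ) := d.PD_hart hmem
    have hval : d.φ (gp p q0) = d.φ p := by rw [gp_q0 p hp]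
    by_cases hcase : rho p ≤ 1 / d.M ∧ ‖p.1‖ ≤ 1/8
    · -- wild region
      refine KB_mono hcd hpd (min_le_right _ _) (le_max_right _ _) ?_
      rw [← KB_hart_gp d.A d.φ p hp ζ]
      have eA := d.A_gp_deep hp hcase.1 hcase.2
      have eφ := d.φ_gp_deep hp hcase.1 hcase.2
      have e : hart (fun q => d.A (gp p q)) (fun q => d.φ (gp p q)) =ᶠ[𝓝 ((q0, ζ) : B2 × ℂ)]
          hart (fun b => d.Λ * aS b + (d.Λ * aS p - (d.Λ - 1) * d.κ))
            (fun b => d.τ * (d.η * aS b + d.Φ (gp p b)) + (d.s * aS p + (1 - d.s) * d.κ)) := by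
        have t : Tendsto (fun x : B2 × ℂ => x.1) (𝓝 (q0, ζ)) (𝓝 q0) := continuousAt_fst
        filter_upwards [t.eventually eA, t.eventually eφ] with x hx1 hx2
        simp only [hart] at *
        rw [hx1, hx2]
      rw [KB_congr e]
      apply R2 _ _ _ (d.Φ_cd hp) (d.ΦJ p hp) (d.ΦL_gp hp) ζ hζ
      have h0 := eφ.self_of_nhds
      simp only at h0
      rw [← h0, hval]
      exact hmem.2
    · -- transition region
      refine KB_mono hcd hpd (min_le_left _ _) (le_max_left _ _) ?_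
      rw [← KB_hart_gp d.A d.φ p hp ζ]
      have hΦ : (fun q => d.Φ (gp p q)) =ᶠ[𝓝 q0] fun _ => (0:ℝ) := by
        have h : 1 / d.M < rho p ∨ 1/8 < ‖p.1‖ := by
          by_contra hcon
          push Not at hcon
          exact hcase hcon
        exact (d.Φ_zero_ev hp h).comp_tendsto (tendsto_gp p hp)
      have hs4 := d.hs4
      have hs0 := d.hs0
      have hδ0 := d.hδ0
      have hΛ1 : 0 ≤ d.Λ - 1 := by linarith [d.hΛ]
      apply R1 _ _ (d.θ p) (d.θ_mem p).1 (d.θ_mem p).2 (contDiffAt_comp_gp hp d.A_smooth)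
        (contDiffAt_comp_gp hp d.φ_smooth)
      · have e : (fun b => d.A (gp p b) - (1 + (d.Λ - 1) * d.θ p) * aS b) =ᶠ[𝓝 q0]
            fun b => aS p + (d.Λ - 1) * d.E p b := by
          filter_upwards [d.A_gp hp] with q hq
          rw [hq]; ring
        refine JetB_congr e (JetB_const_add (contDiffAt_const.mul (d.E_cd hp)) _
          (JetB_mono ?_ (JetB_const_mul (d.E_cd hp) _ (d.E_jet hp))))
        rw [abs_of_nonneg hΛ1]; exact hδ1
      · have e : (fun b => d.φ (gp p b) - (1 - (1 - d.s) * d.θ p) * aS b) =ᶠ[𝓝 q0]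
            fun b => aS p + (-(1 - d.s)) * d.E p b := by
          filter_upwards [d.φ_gp hp, hΦ] with q hq hq2
          rw [hq, hq2]; ring
        refine JetB_congr e (JetB_const_add (contDiffAt_const.mul (d.E_cd hp)) _
          (JetB_mono ?_ (JetB_const_mul (d.E_cd hp) _ (d.E_jet hp))))
        rw [abs_neg, abs_of_nonneg (by linarith)]
        nlinarith
      · exact hζ
      · rw [hval]; exact hmem.2
  by_cases hζ : y.2 = 0
  · have hcd : ContDiffAt ℝ ∞ (hart d.A d.φ) y := hart_cd (d.A_cd hy.1) (d.φ_cd hy.1) hy.2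
    refine KB_of_frequently hcd (d.PD_hart hy) ?_
    have t : Tendsto (fun ζ : ℂ => ((y.1, ζ) : B2 × ℂ)) (𝓝[≠] 0) (𝓝 y) := by
      have h1 : Tendsto (fun ζ : ℂ => ((y.1, ζ) : B2 × ℂ)) (𝓝 0) (𝓝 (y.1, 0)) :=
        (continuous_const.prodMk continuous_id).tendsto 0
      have h2 : ((y.1, 0) : B2 × ℂ) = y := by rw [← hζ]
      rw [h2] at h1
      exact h1.mono_left nhdsWithin_le_nhds
    refine t.frequently (Eventually.frequently ?_)
    have hev : ∀ᶠ ζ : ℂ in 𝓝 0, Real.exp (d.φ y.1) * ‖ζ‖ ^ 2 < 1 := by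
      have hc : Continuous (fun ζ : ℂ => Real.exp (d.φ y.1) * ‖ζ‖ ^ 2) := by fun_prop
      apply hc.continuousAt.eventually_lt_const
      simp
    filter_upwards [hev.filter_mono nhdsWithin_le_nhds, self_mem_nhdsWithin] with ζ h1 h2
    exact main ζ h2 ⟨hy.1, h1⟩
  · exact main y.2 hζ hy

/-- gradient bound -/
theorem gradφ : ∃ C, ∀ b ∈ Dom, ∀ ξ : B2, |fderiv ℝ d.φ b ξ| ≤ C * Real.sqrt (D11 aS ξ ξ b).re := by
  refine ⟨2 * (‖iteratedFDeriv ℝ 1 aS q0‖ + d.δ + d.τ * d.CW), fun p hp ξ => ?_⟩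
  refine grad_transport hp d.φ_smooth ?_ ξ
  have hs4 := d.hs4
  have hs0 := d.hs0
  have hδ0 := d.hδ0
  have hθ := d.θ_mem p
  have c1 : ContDiffAt ℝ ∞ (fun q => (1 - (1 - d.s) * d.θ p) * aS q) q0 :=
    contDiffAt_const.mul aS_cd_q0
  have c2 : ContDiffAt ℝ ∞ (fun q => (-(1 - d.s)) * d.E p q) q0 :=
    contDiffAt_const.mul (d.E_cd hp)
  have c3 : ContDiffAt ℝ ∞ (fun q => d.τ * d.Φ (gp p q)) q0 :=
    contDiffAt_const.mul (d.Φ_cd hp)
  have e : (fun q => d.φ (gp p q)) =ᶠ[𝓝 q0] fun q => (((1 - (1 - d.s) * d.θ p) * aS q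
      + (-(1 - d.s)) * d.E p q) + d.τ * d.Φ (gp p q)) - (-aS p) := by
    filter_upwards [d.φ_gp hp] with q hq
    rw [hq]; ring
  rw [(e.iteratedFDeriv ℝ 1).eq_of_nhds, jet_sub_const le_rfl ((c1.add c2).add c3)]
  have s1 : iteratedFDeriv ℝ 1 (fun q => ((1 - (1 - d.s) * d.θ p) * aS q
      + (-(1 - d.s)) * d.E p q) + d.τ * d.Φ (gp p q)) q0
      = iteratedFDeriv ℝ 1 (fun q => (1 - (1 - d.s) * d.θ p) * aS q
        + (-(1 - d.s)) * d.E p q) q0 + iteratedFDeriv ℝ 1 (fun q => d.τ * d.Φ (gp p q)) q0 :=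
    iteratedFDeriv_add_apply ((c1.add c2).of_le (by exact_mod_cast le_top))
      (c3.of_le (by exact_mod_cast le_top))
  have s2 : iteratedFDeriv ℝ 1 (fun q => (1 - (1 - d.s) * d.θ p) * aS q
        + (-(1 - d.s)) * d.E p q) q0
      = iteratedFDeriv ℝ 1 (fun q => (1 - (1 - d.s) * d.θ p) * aS q) q0
        + iteratedFDeriv ℝ 1 (fun q => (-(1 - d.s)) * d.E p q) q0 :=
    iteratedFDeriv_add_apply (c1.of_le (by exact_mod_cast le_top))
      (c2.of_le (by exact_mod_cast le_top))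
  have s3 : iteratedFDeriv ℝ 1 (fun q => (1 - (1 - d.s) * d.θ p) * aS q) q0
      = (1 - (1 - d.s) * d.θ p) • iteratedFDeriv ℝ 1 aS q0 :=
    iteratedFDeriv_const_smul_apply' (a := (1 - (1 - d.s) * d.θ p))
      (aS_cd_q0.of_le (by exact_mod_cast le_top))
  have b1 : ‖iteratedFDeriv ℝ 1 (fun q => (1 - (1 - d.s) * d.θ p) * aS q) q0‖
      ≤ ‖iteratedFDeriv ℝ 1 aS q0‖ := by
    rw [s3, norm_smul, Real.norm_eq_abs]
    have h1 : |1 - (1 - d.s) * d.θ p| ≤ 1 := by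
      rw [abs_le]; constructor <;> nlinarith [hθ.1, hθ.2]
    calc |1 - (1 - d.s) * d.θ p| * ‖iteratedFDeriv ℝ 1 aS q0‖
        ≤ 1 * ‖iteratedFDeriv ℝ 1 aS q0‖ := by gcongr
      _ = _ := one_mul _
  have b2 : ‖iteratedFDeriv ℝ 1 (fun q => (-(1 - d.s)) * d.E p q) q0‖ ≤ d.δ := by
    have := JetB_const_mul (d.E_cd hp) (-(1 - d.s)) (d.E_jet hp) 1 le_rfl (by norm_num)
    refine this.trans ?_
    rw [abs_neg, abs_of_nonneg (by linarith)]
    nlinarith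
  have b3 : ‖iteratedFDeriv ℝ 1 (fun q => d.τ * d.Φ (gp p q)) q0‖ ≤ d.τ * d.CW := by
    have := JetB_const_mul (d.Φ_cd hp) d.τ (d.ΦJ p hp) 1 le_rfl (by norm_num)
    refine this.trans ?_
    rw [abs_of_pos d.hτ0]
  rw [s1, s2]
  calc _ ≤ (‖iteratedFDeriv ℝ 1 (fun q => (1 - (1 - d.s) * d.θ p) * aS q) q0‖
        + ‖iteratedFDeriv ℝ 1 (fun q => (-(1 - d.s)) * d.E p q) q0‖)
        + ‖iteratedFDeriv ℝ 1 (fun q => d.τ * d.Φ (gp p q)) q0‖ :=
          (norm_add_le _ _).trans (add_le_add_left (norm_add_le _ _) _)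
    _ ≤ _ := by linarith

end BD

end Crest.Agent.R245
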