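import Crest.Agent.R245.BulgeB
import Crest.Agent.R245.BasePertA

/-! Row 245: auxiliary lemmas for the construction of a bulge. -/

set_option autoImplicit false

namespace Crest.Agent.R245

open Complex Filter Topology
open scoped ContDiff ComplexConjugate

theorem tendsto_gp (p : B2) (hp : p ∈ Dom) : Tendsto (gp p) (𝓝 q0) (𝓝 p) := by
  have hr : 0 < rho p := hp
  have h1 : Continuous (gp p) := by
    rw [gp_fun_eq p hr]
    exact (gpL p hr).continuous.add continuous_const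
  have := h1.tendsto q0
  rwa [gp_q0 p hp] at this

theorem contDiff_gp (p : B2) (hp : p ∈ Dom) : ContDiff ℝ ∞ (gp p) := by
  have hr : 0 < rho p := hp
  rw [gp_fun_eq p hr]
  exact (((gpL p hr : B2 →L[ℂ] B2).restrictScalars ℝ).contDiff).add contDiff_const

theorem contDiffAt_comp_gp {f : B2 → ℝ} {p : B2} (hp : p ∈ Dom) (hf : ContDiffOn ℝ ∞ f Dom) :
    ContDiffAt ℝ ∞ (fun q => f (gp p q)) q0 := by
  have h1 : ContDiffAt ℝ ∞ f (gp p q0) := by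
    rw [gp_q0 p hp]; exact hf.contDiffAt (isOpen_Dom'.mem_nhds hp)
  exact h1.comp q0 (contDiff_gp p hp).contDiffAt

/-- `aS (gp p ·) = aS p + aS` near `q0` -/
theorem aS_gp_ev (p : B2) (hp : p ∈ Dom) :
    (fun q => aS (gp p q)) =ᶠ[𝓝 q0] fun q => aS p + aS q := by
  filter_upwards [isOpen_Dom'.mem_nhds q0_mem'] with q hq using aS_gp p hp q hq

theorem aS_cd_q0 : ContDiffAt ℝ ∞ aS q0 := aS_smooth'.contDiffAt (isOpen_Dom'.mem_nhds q0_mem')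

theorem D11_const_add' {V : Type*} [NormedAddCommGroup V] [NormedSpace ℝ V] [NormedSpace ℂ V]
    [IsScalarTower ℝ ℂ V] {P : V → ℝ} {p : V} (hP : ContDiffAt ℝ ∞ P p) (r : ℝ) (X Y : V) :
    D11 (fun q => r + P q) X Y p = D11 P X Y p := by
  rw [D11_add (P := fun _ => r) contDiffAt_const hP, D11_const, zero_add]

theorem D11_aS_gp (p : B2) (hp : p ∈ Dom) (X Y : B2) :
    D11 aS (gpL p hp X) (gpL p hp Y) p = D11 aS X Y q0 := by
  rw [← D11_gp p hp aS X Y, D11_congr (aS_gp_ev p hp), D11_const_add' aS_cd_q0]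

/-- transport of lower Levi bounds -/
theorem levi_transport {f : B2 → ℝ} {p : B2} (hp : p ∈ Dom) {c : ℝ}
    (h : ∀ ξ, c * (D11 aS ξ ξ q0).re ≤ (D11 (fun q => f (gp p q)) ξ ξ q0).re) (ξ : B2) :
    c * (D11 aS ξ ξ p).re ≤ (D11 f ξ ξ p).re := by
  have h1 := h ((gpL p hp).symm ξ)
  rw [D11_gp p hp, ← D11_aS_gp p hp] at h1
  simpa using h1

/-- converse transport -/
theorem levi_transport' {f : B2 → ℝ} {p : B2} (hp : p ∈ Dom) {c : ℝ}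
    (h : ∀ ξ, c * (D11 aS ξ ξ p).re ≤ (D11 f ξ ξ p).re) (ξ : B2) :
    c * (D11 aS ξ ξ q0).re ≤ (D11 (fun q => f (gp p q)) ξ ξ q0).re := by
  have h1 := h (gpL p hp ξ)
  rw [D11_gp p hp, ← D11_aS_gp p hp]
  exact h1

theorem D11_aS_q0_re (ξ : B2) : (D11 aS ξ ξ q0).re = ‖ξ.1‖ ^ 2 + (1/4) * ‖ξ.2‖ ^ 2 := by
  rw [aS_D11_q0]
  have h1 : ξ.1 * conj ξ.1 = ((‖ξ.1‖ ^ 2 : ℝ) : ℂ) := by
    rw [Complex.mul_conj, Complex.normSq_eq_norm_sq]
  have h2 : ξ.2 * conj ξ.2 = ((‖ξ.2‖ ^ 2 : ℝ) : ℂ) := by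
    rw [Complex.mul_conj, Complex.normSq_eq_norm_sq]
  rw [h1, h2]
  have : (((‖ξ.1‖ ^ 2 : ℝ) : ℂ) + 1 / 4 * ((‖ξ.2‖ ^ 2 : ℝ) : ℂ))
      = ((‖ξ.1‖ ^ 2 + (1/4) * ‖ξ.2‖ ^ 2 : ℝ) : ℂ) := by push_cast; ring
  rw [this, Complex.ofReal_re]

theorem norm_sq_le_aS_bl (ξ : B2) : ‖ξ‖ ^ 2 ≤ 4 * (D11 aS ξ ξ q0).re := by
  rw [D11_aS_q0_re, Prod.norm_def]
  rcases le_total ‖ξ.1‖ ‖ξ.2‖ with h | h
  · rw [max_eq_right h]; nlinarith [sq_nonneg ‖ξ.1‖]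
  · rw [max_eq_left h]; nlinarith [sq_nonneg ‖ξ.2‖, sq_nonneg ‖ξ.1‖]

theorem aS_q0_nonneg (ξ : B2) : 0 ≤ (D11 aS ξ ξ q0).re := by
  rw [D11_aS_q0_re]; positivity

theorem norm_le_sqrt_aS (ξ : B2) : ‖ξ‖ ≤ 2 * Real.sqrt (D11 aS ξ ξ q0).re := by
  have h1 := norm_sq_le_aS_bl ξ
  have h2 := aS_q0_nonneg ξ
  have h3 : ‖ξ‖ = Real.sqrt (‖ξ‖ ^ 2) := (Real.sqrt_sq (norm_nonneg _)).symm
  rw [h3]
  calc Real.sqrt (‖ξ‖ ^ 2) ≤ Real.sqrt (4 * (D11 aS ξ ξ q0).re) := Real.sqrt_le_sqrt h1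
    _ = 2 * Real.sqrt (D11 aS ξ ξ q0).re := by
      rw [Real.sqrt_mul (by norm_num)]
      congr 1
      rw [show (4:ℝ) = 2 ^ 2 by norm_num, Real.sqrt_sq (by norm_num)]

/-- Levi form bound from the jet bound -/
theorem levi_of_jet {E : B2 → ℝ} {e : ℝ} (hE : ContDiffAt ℝ ∞ E q0) (h : JetB E e) (ξ : B2) :
    |(D11 E ξ ξ q0).re| ≤ 4 * e * (D11 aS ξ ξ q0).re := by
  have h1 := D11_le hE ξ ξ
  have h2 := h 2 (by norm_num) (by norm_num)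
  have h3 := Complex.abs_re_le_norm (D11 E ξ ξ q0)
  have h4 := norm_sq_le_aS_bl ξ
  have he : 0 ≤ e := (norm_nonneg _).trans h2
  calc |(D11 E ξ ξ q0).re| ≤ ‖D11 E ξ ξ q0‖ := h3
    _ ≤ ‖iteratedFDeriv ℝ 2 E q0‖ * ‖ξ‖ * ‖ξ‖ := h1
    _ = ‖iteratedFDeriv ℝ 2 E q0‖ * ‖ξ‖ ^ 2 := by ring
    _ ≤ e * (4 * (D11 aS ξ ξ q0).re) := by gcongr
    _ = 4 * e * (D11 aS ξ ξ q0).re := by ring

theorem JetB_congr {u v : B2 → ℝ} (h : u =ᶠ[𝓝 q0] v) {C : ℝ} (hv : JetB v C) : JetB u C := by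
  intro k h1 h2
  rw [(h.iteratedFDeriv ℝ k).eq_of_nhds]
  exact hv k h1 h2

theorem JetB_mono {u : B2 → ℝ} {C C' : ℝ} (h : C ≤ C') (hu : JetB u C) : JetB u C' :=
  fun k h1 h2 => (hu k h1 h2).trans h

theorem JetB_const_add {u : B2 → ℝ} (hu : ContDiffAt ℝ ∞ u q0) (r : ℝ) {C : ℝ} (h : JetB u C) :
    JetB (fun b => r + u b) C := by
  intro k h1 h2
  have e : (fun b => r + u b) = fun b => u b - (-r) := by funext b; ring
  rw [e, jet_sub_const h1 hu]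
  exact h k h1 h2

theorem JetB_const_mul {u : B2 → ℝ} (hu : ContDiffAt ℝ ∞ u q0) (c : ℝ) {C : ℝ} (h : JetB u C) :
    JetB (fun b => c * u b) (|c| * C) := by
  intro k h1 h2
  have e : iteratedFDeriv ℝ k (fun b => c * u b) q0 = c • iteratedFDeriv ℝ k u q0 :=
    iteratedFDeriv_const_smul_apply' (a := c) (hu.of_le (by exact_mod_cast le_top))
  rw [e, norm_smul, Real.norm_eq_abs]
  exact mul_le_mul_of_nonneg_left (h k h1 h2) (abs_nonneg _)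

/-- gradient bound at a point from the normalized first jet -/
theorem grad_transport {f : B2 → ℝ} {p : B2} (hp : p ∈ Dom) (hf : ContDiffOn ℝ ∞ f Dom) {C : ℝ}
    (h : ‖iteratedFDeriv ℝ 1 (fun q => f (gp p q)) q0‖ ≤ C) (ξ : B2) :
    |fderiv ℝ f p ξ| ≤ 2 * C * Real.sqrt (D11 aS ξ ξ p).re := by
  have hr : 0 < rho p := hp
  set X := (gpL p hp).symm ξ with hX
  have hξ : gpL p hp X = ξ := by simp [hX]
  have h1 : ContDiffAt ℝ ∞ f p := hf.contDiffAt (isOpen_Dom'.mem_nhds hp)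
  have hd : DifferentiableAt ℝ f (gp p q0) := by
    rw [gp_q0 p hp]; exact h1.differentiableAt (by simp)
  have hg : HasFDerivAt (gp p) ((gpL p hp : B2 →L[ℂ] B2).restrictScalars ℝ) q0 := by
    rw [gp_fun_eq p hr]
    exact (((gpL p hp : B2 →L[ℂ] B2).restrictScalars ℝ).hasFDerivAt).add_const _
  have h2 : fderiv ℝ (fun q => f (gp p q)) q0 X = fderiv ℝ f p ξ := by
    have h3 : HasFDerivAt (fun q => f (gp p q))
        ((fderiv ℝ f (gp p q0)).comp ((gpL p hp : B2 →L[ℂ] B2).restrictScalars ℝ)) q0 :=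
      hd.hasFDerivAt.comp q0 hg
    rw [h3.fderiv, gp_q0 p hp]
    show fderiv ℝ f p (gpL p hp X) = _
    rw [hξ]
  have h3 : ‖fderiv ℝ (fun q => f (gp p q)) q0‖ ≤ C := by
    rw [← norm_iteratedFDeriv_one]; exact h
  have h4 : (D11 aS ξ ξ p).re = (D11 aS X X q0).re := by
    rw [← D11_aS_gp p hp, hξ]
  rw [← h2, h4]
  have hC : 0 ≤ C := (norm_nonneg _).trans h3
  calc |fderiv ℝ (fun q => f (gp p q)) q0 X| = ‖fderiv ℝ (fun q => f (gp p q)) q0 X‖ := rfl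
    _ ≤ ‖fderiv ℝ (fun q => f (gp p q)) q0‖ * ‖X‖ := ContinuousLinearMap.le_opNorm _ _
    _ ≤ C * (2 * Real.sqrt (D11 aS X X q0).re) := by
      gcongr
      exact norm_le_sqrt_aS X
    _ = 2 * C * Real.sqrt (D11 aS X X q0).re := by ring

end Crest.Agent.R245
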