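import Crest.Agent.R245.CurvS

/-! TASK CurvR1: curvature in the transition region. -/

set_option autoImplicit false

namespace Crest.Agent.R245

open Complex Filter Topology
open scoped ContDiff ComplexConjugate

/-- the area estimate -/
theorem r1_area {Λ s δ g σ y : ℝ} {EA Eφ : B2 → ℝ} (hs : 0 < s) (hsσ : s ≤ σ) (hσ1 : σ ≤ 1)
    (hg1 : 1 ≤ g) (hgΛ : g ≤ Λ) (hy : 0 ≤ y) (hδs : 8 * δ ≤ s)
    (hEA : ContDiffAt ℝ ∞ EA q0) (hEφ : ContDiffAt ℝ ∞ Eφ q0)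
    (hJA : JetB EA δ) (hJφ : JetB Eφ δ) (X Y u : B2) (α β : ℂ)
    (hu : u = conj α • Y - conj β • X) :
    s ^ 2 / 8 * ((1 + y) * (D11 aS u u q0).re + (α * conj β).im ^ 2
        + (1 + y) ^ 2 * area aS q0 X Y) ≤
      area (fun b => (g + y * σ) * aS b + (EA b + y * Eφ b)) q0 X Y
      + (D11 (fun b => (g + y * σ) * aS b + (EA b + y * Eφ b)) u u q0).re
      - 2 * (α * conj β).im *
        (D11 (fun b => (g + y * σ) * aS b + (EA b + y * Eφ b)) X Y q0).im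
      + (α * conj β).im ^ 2 ∧
    area (fun b => (g + y * σ) * aS b + (EA b + y * Eφ b)) q0 X Y
      + (D11 (fun b => (g + y * σ) * aS b + (EA b + y * Eφ b)) u u q0).re
      - 2 * (α * conj β).im *
        (D11 (fun b => (g + y * σ) * aS b + (EA b + y * Eφ b)) X Y q0).im
      + (α * conj β).im ^ 2 ≤
    8 * Λ ^ 2 * ((1 + y) * (D11 aS u u q0).re + (α * conj β).im ^ 2
        + (1 + y) ^ 2 * area aS q0 X Y) := by
  have hs1 : s ≤ 1 := hsσ.trans hσ1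
  have hΛ : 1 ≤ Λ := hg1.trans hgΛ
  have hW : 1 ≤ 1 + y := by linarith
  have hD : s * (1 + y) ≤ g + y * σ := by
    have h2 : y * s ≤ y * σ := mul_le_mul_of_nonneg_left hsσ hy
    linarith
  have hDΛ : g + y * σ ≤ Λ * (1 + y) := by
    have h2 : y * σ ≤ y * Λ := mul_le_mul_of_nonneg_left (hσ1.trans hΛ) hy
    linarith
  have hEH : ContDiffAt ℝ ∞ (fun b => EA b + y * Eφ b) q0 := hEA.add (contDiffAt_const.mul hEφ)
  have hJH := r1_jetH hEA hEφ hJA hJφ hy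
  have hHs : ContDiffAt ℝ ∞ (fun b => (g + y * σ) * aS b + (EA b + y * Eφ b)) q0 :=
    (contDiffAt_const.mul aS_at).add hEH
  have hD0 : 0 < g + y * σ := lt_of_lt_of_le (by positivity) hD
  have hb := fun v => r1_Hb hD hW hδs hEH hJH v
  have H0 : ∀ v, 0 ≤ (D11 (fun b => (g + y * σ) * aS b + (EA b + y * Eφ b)) v v q0).re := by
    intro v
    exact le_trans (mul_nonneg (by linarith) (om_nonneg v)) (hb v).1
  have hup : ∀ v, (D11 (fun b => (g + y * σ) * aS b + (EA b + y * Eφ b)) v v q0).re ≤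
      2 * Λ * (1 + y) * (D11 aS v v q0).re := by
    intro v
    refine (hb v).2.trans ?_
    apply mul_le_mul_of_nonneg_right _ (om_nonneg v)
    have : 0 ≤ Λ * (1 + y) := by positivity
    linarith
  exact Herm.area_bounds (om := fun X Y => D11 aS X Y q0)
    (H := fun X Y => D11 (fun b => (g + y * σ) * aS b + (EA b + y * Eφ b)) X Y q0)
    (l := (g + y * σ) / 2) herm_aS om_pd (herm_D11 hHs) H0 hs hs1 hΛ hW (by linarith)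
    (fun v => (hb v).1) hup X Y u α β hu

/-- the curvature estimate -/
theorem r1_curv {Λ s δ C c g σ y : ℝ} {EA Eφ : B2 → ℝ} (hs : 0 < s) (hsσ : s ≤ σ) (hσ1 : σ ≤ 1)
    (hg1 : 1 ≤ g) (hgΛ : g ≤ Λ) (hy : 0 ≤ y) (hδ0 : 0 ≤ δ) (hδs : 8 * δ ≤ s)
    (hC44 : 44 / s ^ 2 ≤ C) (hC112 : 112 ≤ C)
    (hc : c = 3 / (4 * Λ * (1 + 3 * Λ / s) ^ 2)) (hc0 : 0 < c) (hc1 : c ≤ 1)
    (hδC : C * δ ≤ c * s ^ 2 / 32)
    (hEA : ContDiffAt ℝ ∞ EA q0) (hEφ : ContDiffAt ℝ ∞ Eφ q0)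
    (hJA : JetB EA δ) (hJφ : JetB Eφ δ) {κ : B2 → B2}
    (hκ : ∀ v w, D11 (fun b => (g + y * σ) * aS b + (EA b + y * Eφ b)) (κ v) w q0 =
      D11 (fun b => σ * aS b + Eφ b) v w q0)
    (X Y u : B2) (q KH XX : ℝ)
    (hKH : |KH - (g + y * σ) * calK aS q0 X Y| ≤ C * δ * (1 + y) * area aS q0 X Y)
    (hX : |XX| ≤ C * δ * (1 + y) * Real.sqrt (area aS q0 X Y) * Real.sqrt (D11 aS u u q0).re) :
    (c * s ^ 2 / 4) * ((1 + y) * (D11 aS u u q0).re + q ^ 2 + (1 + y) ^ 2 * area aS q0 X Y) ≤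
      (mf (fun b => g * aS b + EA b) (fun b => σ * aS b + Eφ b) y q0 κ u u).re + 4 * q ^ 2
      + 4 * q * (mf (fun b => g * aS b + EA b) (fun b => σ * aS b + Eφ b) y q0 κ X Y).im
      + y * (1 + y) * calK (fun b => σ * aS b + Eφ b) q0 X Y + KH + XX ∧
    (mf (fun b => g * aS b + EA b) (fun b => σ * aS b + Eφ b) y q0 κ u u).re + 4 * q ^ 2
      + 4 * q * (mf (fun b => g * aS b + EA b) (fun b => σ * aS b + Eφ b) y q0 κ X Y).im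
      + y * (1 + y) * calK (fun b => σ * aS b + Eφ b) q0 X Y + KH + XX ≤
    (20 * Λ) * ((1 + y) * (D11 aS u u q0).re + q ^ 2 + (1 + y) ^ 2 * area aS q0 X Y) := by
  have hEH : ContDiffAt ℝ ∞ (fun b => EA b + y * Eφ b) q0 := hEA.add (contDiffAt_const.mul hEφ)
  have hJH := r1_jetH hEA hEφ hJA hJφ hy
  have hHs : ContDiffAt ℝ ∞ (fun b => (g + y * σ) * aS b + (EA b + y * Eφ b)) q0 :=
    (contDiffAt_const.mul aS_at).add hEH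
  have hφs : ContDiffAt ℝ ∞ (fun b => σ * aS b + Eφ b) q0 :=
    (contDiffAt_const.mul aS_at).add hEφ
  exact Herm.curv_bounds (om := fun X Y => D11 aS X Y q0)
    (φ := fun X Y => D11 (fun b => σ * aS b + Eφ b) X Y q0)
    (H := fun X Y => D11 (fun b => (g + y * σ) * aS b + (EA b + y * Eφ b)) X Y q0)
    (E := fun X Y => D11 Eφ X Y q0) (F := fun X Y => D11 (fun b => EA b + y * Eφ b) X Y q0)
    herm_aS om_pd (herm_D11 hφs) (herm_D11 hHs) hgΛ hs hsσ hσ1 hg1 hy hδ0 hδs hC44 hC112 hc hc0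
    hc1 hδC (fun v w => D11_split hEφ σ v w) (fun v w => D11_split hEH (g + y * σ) v w)
    (fun v w => jet_D11_le hEφ hJφ v w) (fun v w => jet_D11_le hEH hJH v w) hκ
    (fun v w => mf (fun b => g * aS b + EA b) (fun b => σ * aS b + Eφ b) y q0 κ v w)
    (fun v w => by unfold mf; rw [Hpot_split]) X Y u q KH XX hKH hX

/-- combination of the two estimates -/
theorem r1_combine {K Ar S c Λ s : ℝ} (hs : 0 < s) (hΛ : 1 ≤ Λ) (hc0 : 0 < c)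
    (h1 : s ^ 2 / 8 * S ≤ Ar) (h2 : Ar ≤ 8 * Λ ^ 2 * S) (h3 : (c * s ^ 2 / 4) * S ≤ K)
    (h4 : K ≤ (20 * Λ) * S) :
    c * s ^ 2 / (32 * Λ ^ 2) * Ar ≤ K ∧ K ≤ 160 * Λ / s ^ 2 * Ar := by
  constructor
  · refine le_trans ?_ h3
    have e : c * s ^ 2 / (32 * Λ ^ 2) * (8 * Λ ^ 2 * S) = c * s ^ 2 / 4 * S := by
      field_simp; ring
    rw [← e]
    exact mul_le_mul_of_nonneg_left h2 (by positivity)
  · refine le_trans h4 ?_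
    have e : 20 * Λ * S = 160 * Λ / s ^ 2 * (s ^ 2 / 8 * S) := by
      field_simp; ring
    rw [e]
    exact mul_le_mul_of_nonneg_left h1 (by positivity)

theorem r1_pd {s δ g σ y : ℝ} {EA Eφ : B2 → ℝ} (hs : 0 < s) (hsσ : s ≤ σ) (hσ1 : σ ≤ 1)
    (hg1 : 1 ≤ g) (hy : 0 ≤ y) (hδs : 8 * δ ≤ s)
    (hEA : ContDiffAt ℝ ∞ EA q0) (hEφ : ContDiffAt ℝ ∞ Eφ q0)
    (hJA : JetB EA δ) (hJφ : JetB Eφ δ) :
    PD (fun b => (g + y * σ) * aS b + (EA b + y * Eφ b)) q0 := by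
  intro v hv
  have hs1 : s ≤ 1 := hsσ.trans hσ1
  have hD : s * (1 + y) ≤ g + y * σ := by
    have h2 : y * s ≤ y * σ := mul_le_mul_of_nonneg_left hsσ hy
    linarith
  have hD0 : 0 < g + y * σ := lt_of_lt_of_le (by positivity) hD
  have hEH : ContDiffAt ℝ ∞ (fun b => EA b + y * Eφ b) q0 := hEA.add (contDiffAt_const.mul hEφ)
  have hJH := r1_jetH hEA hEφ hJA hJφ hy
  have hb := (r1_Hb hD (by linarith) hδs hEH hJH v).1
  exact lt_of_lt_of_le (mul_pos (by linarith) (om_pd v hv)) hb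

theorem r1_point {Λ s δ C c CK CX : ℝ} (hΛ : 1 ≤ Λ) (hs : 0 < s)
    (hδ0 : 0 ≤ δ) (hδs : 8 * δ ≤ s)
    (hC44 : 44 / s ^ 2 ≤ C) (hC112 : 112 ≤ C) (hCK : CK ≤ C) (hCX : CX / s ≤ C)
    (hc : c = 3 / (4 * Λ * (1 + 3 * Λ / s) ^ 2)) (hc0 : 0 < c) (hc1 : c ≤ 1)
    (hδC : C * δ ≤ c * s ^ 2 / 32)
    (hKH : ∀ (D W s δ : ℝ) (E : B2 → ℝ), 0 < s → 1 ≤ W →
      0 ≤ δ → 8 * δ ≤ s → s * W ≤ D → ContDiffAt ℝ ∞ E q0 → JetB E (δ * W) →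
      ∀ ξ η γ11 γ12 γ22, IsGam (fun b => D * aS b + E b) q0 ξ ξ γ11 →
        IsGam (fun b => D * aS b + E b) q0 ξ η γ12 →
        IsGam (fun b => D * aS b + E b) q0 η η γ22 →
        |negK (fun b => D * aS b + E b) q0 ξ η γ11 γ12 γ22 - D * calK aS q0 ξ η|
          ≤ CK * δ * W * area aS q0 ξ η)
    (hX : ∀ (g σ y s δ : ℝ) (EA Eφ : B2 → ℝ), 0 < s → s ≤ σ → σ ≤ 1 →
      1 ≤ g → 0 ≤ y → 0 ≤ δ → 8 * δ ≤ s → ContDiffAt ℝ ∞ EA q0 → ContDiffAt ℝ ∞ Eφ q0 →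
      JetB EA δ → JetB Eφ δ →
      ∀ ξ η u' g1 g2,
        IsGam (Hpot (fun b => g * aS b + EA b) (fun b => σ * aS b + Eφ b) y) q0 ξ u' g1 →
        IsGam (Hpot (fun b => g * aS b + EA b) (fun b => σ * aS b + Eφ b) y) q0 η u' g2 →
        |2 * Real.sqrt (y * (1 + y)) *
          ((D21 (fun b => σ * aS b + Eφ b) ξ u' η q0 - D11 (fun b => σ * aS b + Eφ b) g1 η q0)
            - (D21 (fun b => σ * aS b + Eφ b) η u' ξ q0
                - D11 (fun b => σ * aS b + Eφ b) g2 ξ q0)).re|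
          ≤ (CX / s) * δ * (1 + y) * Real.sqrt (area aS q0 ξ η)
              * Real.sqrt (D11 aS u' u' q0).re)
    (EA Eφ : B2 → ℝ) (g σ : ℝ) (hg1 : 1 ≤ g) (hgΛ : g ≤ Λ) (hsσ : s ≤ σ) (hσ1 : σ ≤ 1)
    (hEA : ContDiffAt ℝ ∞ EA q0) (hEφ : ContDiffAt ℝ ∞ Eφ q0)
    (hJA : JetB EA δ) (hJφ : JetB Eφ δ) (ζ : ℂ) (hζ : ζ ≠ 0)
    (hlt : uu (fun b => σ * aS b + Eφ b) (q0, ζ) < 1) :
    KB (hart (fun b => g * aS b + EA b) (fun b => σ * aS b + Eφ b)) (q0, ζ)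
      (c * s ^ 2 / (32 * Λ ^ 2)) (160 * Λ / s ^ 2) := by
  intro X Y Γxx Γxy Γyy k1 k2 k3
  have hy := r1_yy_nonneg hlt
  have hs1 : s ≤ 1 := hsσ.trans hσ1
  have hAs : ContDiffAt ℝ ∞ (fun b => g * aS b + EA b) q0 := (contDiffAt_const.mul aS_at).add hEA
  have hφs : ContDiffAt ℝ ∞ (fun b => σ * aS b + Eφ b) q0 :=
    (contDiffAt_const.mul aS_at).add hEφ
  have hHN := fun κ hH hκ => hart_negK (fun b => g * aS b + EA b) (fun b => σ * aS b + Eφ b)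
    (q0, ζ) hAs hφs hlt hζ hH κ hκ X Y Γxx Γxy Γyy k1 k2 k3
  have hHA := hart_area (fun b => g * aS b + EA b) (fun b => σ * aS b + Eφ b) (q0, ζ) hAs hφs hlt
    hζ X Y
  generalize yy (fun b => σ * aS b + Eφ b) (q0, ζ) = y at hy hHN hHA
  generalize aa (fun b => σ * aS b + Eφ b) (q0, ζ) X = α at hHN hHA
  generalize aa (fun b => σ * aS b + Eφ b) (q0, ζ) Y = β at hHN hHA
  have hEH : ContDiffAt ℝ ∞ (fun b => EA b + y * Eφ b) q0 := hEA.add (contDiffAt_const.mul hEφ)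
  have hJH := r1_jetH hEA hEφ hJA hJφ hy
  have hHs : ContDiffAt ℝ ∞ (fun b => (g + y * σ) * aS b + (EA b + y * Eφ b)) q0 :=
    (contDiffAt_const.mul aS_at).add hEH
  have hpd := r1_pd hs hsσ hσ1 hg1 hy hδs hEA hEφ hJA hJφ
  obtain ⟨κ, hκ⟩ := exists_kappa hHs hpd hφs
  obtain ⟨γ11, k11⟩ := exists_isGam hHs hpd X.1 X.1
  obtain ⟨γ12, k12⟩ := exists_isGam hHs hpd X.1 Y.1
  obtain ⟨γ22, k22⟩ := exists_isGam hHs hpd Y.1 Y.1
  obtain ⟨g1, kg1⟩ := exists_isGam hHs hpd X.1 (conj α • Y.1 - conj β • X.1)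
  obtain ⟨g2, kg2⟩ := exists_isGam hHs hpd Y.1 (conj α • Y.1 - conj β • X.1)
  have hD : s * (1 + y) ≤ g + y * σ := by
    have h2 : y * s ≤ y * σ := mul_le_mul_of_nonneg_left hsσ hy
    linarith
  have ha : 0 ≤ area aS q0 X.1 Y.1 := herm_aS.ar_nonneg om_nonneg X.1 Y.1
  have hK' := hKH (g + y * σ) (1 + y) s δ (fun b => EA b + y * Eφ b) hs (by linarith) hδ0 hδs hD
    hEH hJH X.1 Y.1 γ11 γ12 γ22 k11 k12 k22
  have hK'' := hK'.trans (show CK * δ * (1 + y) * area aS q0 X.1 Y.1 ≤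
    C * δ * (1 + y) * area aS q0 X.1 Y.1 by gcongr)
  have hX' := hX g σ y s δ EA Eφ hs hsσ hσ1 hg1 hy hδ0 hδs hEA hEφ hJA hJφ X.1 Y.1
    (conj α • Y.1 - conj β • X.1) g1 g2
  rw [Hpot_split] at hX' hHN hHA
  have hX'' := (hX' kg1 kg2).trans (show (CX / s) * δ * (1 + y) * Real.sqrt (area aS q0 X.1 Y.1)
      * Real.sqrt (D11 aS (conj α • Y.1 - conj β • X.1) (conj α • Y.1 - conj β • X.1) q0).re ≤
      C * δ * (1 + y) * Real.sqrt (area aS q0 X.1 Y.1)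
      * Real.sqrt (D11 aS (conj α • Y.1 - conj β • X.1) (conj α • Y.1 - conj β • X.1) q0).re by
    gcongr)
  have key := hHN κ hpd hκ γ11 γ12 γ22 g1 g2 k11 k12 k22 _ rfl kg1 kg2
  have keyA := hHA _ rfl
  obtain ⟨hA1, hA2⟩ := r1_area hs hsσ hσ1 hg1 hgΛ hy hδs hEA hEφ hJA hJφ X.1 Y.1
    (conj α • Y.1 - conj β • X.1) α β rfl
  obtain ⟨hC1, hC2⟩ := r1_curv hs hsσ hσ1 hg1 hgΛ hy hδ0 hδs hC44 hC112 hc hc0 hc1 hδC hEA hEφ
    hJA hJφ hκ X.1 Y.1 (conj α • Y.1 - conj β • X.1) (α * conj β).im _ _ hK'' hX''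
  rw [key, keyA]
  exact r1_combine hs hΛ hc0 hA1 hA2 hC1 hC2

theorem curvR1_core (Λ s : ℝ) (hΛ : 1 ≤ Λ) (hs : 0 < s) (hs1 : s ≤ 1) :
    ∃ δ > 0, ∃ c > 0, ∃ B : ℝ, ∀ (EA Eφ : B2 → ℝ) (g σ : ℝ), 1 ≤ g → g ≤ Λ → s ≤ σ → σ ≤ 1 →
      ContDiffAt ℝ ∞ EA q0 → ContDiffAt ℝ ∞ Eφ q0 →
      JetB EA δ → JetB Eφ δ →
      ∀ ζ : ℂ, ζ ≠ 0 → Real.exp ((fun b => σ * aS b + Eφ b) q0) * ‖ζ‖ ^ 2 < 1 →
        KB (hart (fun b => g * aS b + EA b) (fun b => σ * aS b + Eφ b)) (q0, ζ) c B := by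
  obtain ⟨CK, hCK, hKH⟩ := r1_KH
  obtain ⟨CX, hCX, hX⟩ := r1_X
  have hΛ0 : 0 < Λ := by linarith
  obtain ⟨c0, hc0⟩ : ∃ c0 : ℝ, c0 = 3 / (4 * Λ * (1 + 3 * Λ / s) ^ 2) := ⟨_, rfl⟩
  have hc0pos : 0 < c0 := by rw [hc0]; positivity
  have hc01 : c0 ≤ 1 := by
    rw [hc0, div_le_one (by positivity)]
    have h1 : 0 ≤ 3 * Λ / s := by positivity
    have h2 : 1 ≤ (1 + 3 * Λ / s) ^ 2 := by nlinarith only [h1]
    have h3 : 1 * 1 ≤ Λ * (1 + 3 * Λ / s) ^ 2 := by gcongr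
    linarith
  have hp1 : 0 < 44 / s ^ 2 := by positivity
  have hp3 : 0 < CX / s := by positivity
  obtain ⟨C, hC⟩ : ∃ C : ℝ, C = 44 / s ^ 2 + 112 + CK + CX / s := ⟨_, rfl⟩
  have hCpos : 0 < C := by rw [hC]; positivity
  obtain ⟨δ, hδ⟩ : ∃ δ : ℝ, δ = min (s / 8) (c0 * s ^ 2 / (32 * C)) := ⟨_, rfl⟩
  have hδpos : 0 < δ := by rw [hδ]; positivity
  have hδs : 8 * δ ≤ s := by
    have : δ ≤ s / 8 := by rw [hδ]; exact min_le_left _ _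
    linarith
  have hδC : C * δ ≤ c0 * s ^ 2 / 32 := by
    have h1 : δ ≤ c0 * s ^ 2 / (32 * C) := by rw [hδ]; exact min_le_right _ _
    calc C * δ ≤ C * (c0 * s ^ 2 / (32 * C)) := by gcongr
      _ = c0 * s ^ 2 / 32 := by field_simp
  refine ⟨δ, hδpos, c0 * s ^ 2 / (32 * Λ ^ 2), by positivity, 160 * Λ / s ^ 2, ?_⟩
  intro EA Eφ g σ hg1 hgΛ hsσ hσ1 hEA hEφ hJA hJφ ζ hζ hlt
  exact r1_point hΛ hs hδpos.le hδs (by rw [hC]; linarith) (by rw [hC]; linarith)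
    (by rw [hC]; linarith) (by rw [hC]; linarith) hc0 hc0pos hc01 hδC hKH hX EA Eφ g σ hg1 hgΛ
    hsσ hσ1 hEA hEφ hJA hJφ ζ hζ hlt

theorem curvR1 (Λ s : ℝ) (hΛ : 1 ≤ Λ) (hs : 0 < s) (hs1 : s ≤ 1) :
    ∃ δ > 0, ∃ c > 0, ∃ B : ℝ, ∀ (A φ : B2 → ℝ) (θ : ℝ), 0 ≤ θ → θ ≤ 1 →
      ContDiffAt ℝ ∞ A q0 → ContDiffAt ℝ ∞ φ q0 →
      JetB (fun b => A b - (1 + (Λ - 1) * θ) * aS b) δ →
      JetB (fun b => φ b - (1 - (1 - s) * θ) * aS b) δ →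
      ∀ ζ : ℂ, ζ ≠ 0 → Real.exp (φ q0) * ‖ζ‖ ^ 2 < 1 → KB (hart A φ) (q0, ζ) c B := by
  obtain ⟨δ, hδ, c, hc, B, h⟩ := curvR1_core Λ s hΛ hs hs1
  refine ⟨δ, hδ, c, hc, B, ?_⟩
  intro A φ θ hθ0 hθ1 hA hφ hJA hJφ ζ hζ hlt
  have e1 : A = fun b => (1 + (Λ - 1) * θ) * aS b + (A b - (1 + (Λ - 1) * θ) * aS b) := by
    funext b; ring
  have e2 : φ = fun b => (1 - (1 - s) * θ) * aS b + (φ b - (1 - (1 - s) * θ) * aS b) := by
    funext b; ring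
  have h1 := h (fun b => A b - (1 + (Λ - 1) * θ) * aS b)
    (fun b => φ b - (1 - (1 - s) * θ) * aS b) (1 + (Λ - 1) * θ) (1 - (1 - s) * θ)
    (by nlinarith) (by nlinarith) (by nlinarith) (by nlinarith)
    (hA.sub (contDiffAt_const.mul aS_at)) (hφ.sub (contDiffAt_const.mul aS_at)) hJA hJφ ζ hζ
    (by
      have : (fun b => (1 - (1 - s) * θ) * aS b + (φ b - (1 - (1 - s) * θ) * aS b)) q0 = φ q0 := by
        simp only []; ring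
      rw [this]; exact hlt)
  rw [← e1, ← e2] at h1
  exact h1

end Crest.Agent.R245
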