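import Crest.Agent.R245.CurvR2B

/-! TASK CurvR2: curvature in the wild region. -/

set_option autoImplicit false

namespace Crest.Agent.R245

open Complex Filter Topology
open scoped ContDiff ComplexConjugate

theorem curvR2 (η CW : ℝ) (hη : 0 < η) (hη1 : η ≤ 1) (hCW : 0 < CW) :
    ∃ Λ₀ : ℝ, 1 ≤ Λ₀ ∧ ∀ Λ : ℝ, Λ₀ ≤ Λ → ∀ τ : ℝ, 0 < τ → τ ≤ 1 → ∃ c > 0, ∃ B : ℝ,
      ∀ (u : B2 → ℝ) (α β : ℝ), ContDiffAt ℝ ∞ u q0 → JetB u CW →
        (∀ ξ, -(η / 2) * (D11 aS ξ ξ q0).re ≤ (D11 u ξ ξ q0).re) →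
        ∀ ζ : ℂ, ζ ≠ 0 → Real.exp (τ * (η * aS q0 + u q0) + β) * ‖ζ‖ ^ 2 < 1 →
          KB (hart (fun b => Λ * aS b + α) (fun b => τ * (η * aS b + u b) + β)) (q0, ζ) c B := by
  obtain ⟨Cb, hCb, hbp⟩ := base_pert
  obtain ⟨Cc, hCc, hcb⟩ := cross_bound'
  obtain ⟨K1, hK1⟩ : ∃ K1 : ℝ, K1 = Cb * (CW * (1 + 2 * CW / η)) := ⟨_, rfl⟩
  have hK1p : 0 < K1 := by rw [hK1]; positivity
  obtain ⟨C, hC⟩ : ∃ C : ℝ, C = K1 + 2 * (4 * (Cc * CW) ^ 2 / η) := ⟨_, rfl⟩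
  have hCp : 0 < C := by rw [hC]; positivity
  obtain ⟨D, hD⟩ : ∃ D : ℝ, D = η + 4 * CW := ⟨_, rfl⟩
  have hDp : 0 < D := by rw [hD]; positivity
  have hbig : 0 ≤ 256 * C ^ 2 * (1 + 8 * C / η) / η ^ 2 := by positivity
  have hD2 : 0 ≤ 4 * D ^ 2 := by positivity
  refine ⟨1 + (4 * D ^ 2 + D) + 256 * C ^ 2 * (1 + 8 * C / η) / η ^ 2, by linarith, ?_⟩
  intro Λ hΛ0 τ hτ hτ1
  have hΛ : 0 < Λ := by linarith
  have hΛD : 4 * D ^ 2 ≤ Λ := by linarith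
  have hΛD1 : D ≤ Λ := by linarith
  have hΛC : 256 * C ^ 2 * (1 + 8 * C / η) / η ^ 2 ≤ Λ := by linarith
  obtain ⟨tm, htm⟩ : ∃ tm : ℝ, tm = τ * η / 2 := ⟨_, rfl⟩
  obtain ⟨tM, htM⟩ : ∃ tM : ℝ, tM = τ * D := ⟨_, rfl⟩
  have htm0 : 0 < tm := by rw [htm]; positivity
  have htM0 : 0 < tM := by rw [htM]; positivity
  have htmM : tm ≤ tM := by
    rw [htm, htM, hD]
    have := mul_pos hτ hη
    have := mul_pos hτ hCW
    linarith
  have htMD : tM ≤ D := by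
    rw [htM]
    calc τ * D ≤ 1 * D := mul_le_mul_of_nonneg_right hτ1 hDp.le
      _ = D := one_mul D
  have h4 : 4 * tM ^ 2 ≤ Λ := by
    have : tM ^ 2 ≤ D ^ 2 := pow_le_pow_left₀ htM0.le htMD 2
    linarith
  have htMΛ : tM ≤ Λ := htMD.trans hΛD1
  refine ⟨min (min (tm/2) (tm ^ 3 / (64 * (Λ + tm)) / 2)) 1 /
      (2 * (Λ + tM) ^ 2 + 8 * tM ^ 2 + (Λ + tM) + 1), ?_,
    (2 * (2 * tM + tm/2)) / tm + 8 +
          ((4 * tM ^ 2 + 4 * (Λ + η) + K1) + (Λ + tm ^ 2)/2 + 8 * tM ^ 2) / tm ^ 2, ?_⟩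
  · apply div_pos _ (by positivity)
    exact lt_min (lt_min (by positivity) (by positivity)) one_pos
  intro u α β hu hJ hlev ζ hζ hexp
  have hφ := phi_smooth hu η τ β
  have hφlo : ∀ ξ, tm * (D11 aS ξ ξ q0).re ≤
      (D11 (fun b => τ * (η * aS b + u b) + β) ξ ξ q0).re := by
    intro ξ; rw [htm]; exact wild_phi_lo hτ hu hlev ξ
  have hφhi : ∀ ξ, (D11 (fun b => τ * (η * aS b + u b) + β) ξ ξ q0).re ≤
      tM * (D11 aS ξ ξ q0).re := by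
    intro ξ; rw [htM, hD]; exact wild_phi_hi hτ hu hJ hCW ξ
  have hφ0 : ∀ ξ, 0 ≤ (D11 (fun b => τ * (η * aS b + u b) + β) ξ ξ q0).re := fun ξ =>
    le_trans (mul_nonneg htm0.le (aS_self_nonneg ξ)) (hφlo ξ)
  obtain ⟨y, hy⟩ : ∃ y : ℝ, y = yy (fun b => τ * (η * aS b + u b) + β) (q0, ζ) := ⟨_, rfl⟩
  have hy0 : 0 ≤ y := by rw [hy]; exact yy_nonneg hexp
  have hmu : 0 < Λ + y * tm := by positivity
  have habs : (K1 + 2 * (4 * (Cc * CW) ^ 2 / η)) * (τ * y) ≤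
      Λ / 4 + (y * tm) ^ 3 / (8 * (Λ + y * tm)) / 2 := by
    rw [← hC]
    have := wild_absorb (Y := τ * y) hη hCp hΛ (by positivity) hΛC
    have e : τ * y * η / 2 = y * tm := by rw [htm]; ring
    rw [e] at this
    exact this
  obtain ⟨a1, ha1lo, ha1hi, hKB⟩ := wild_pt (Λ := Λ) (τ := τ) (η := η) (α := α) (tm := tm)
    (tM := tM) (K1 := K1) (K := Cc * CW) (y := y) hΛ hη hτ hτ1 hK1p.le (by positivity) htm htmM
    h4 htMΛ hφ hφlo hφhi hy0 (by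
      intro ξ η' γ11 γ12 γ22 k11 k12 k22
      have har : 0 ≤ area aS q0 ξ η' := HF_aS.ar_nonneg aS_self_nonneg ξ η'
      rw [wild_HE] at k11 k12 k22 ⊢
      have hE : ContDiffAt ℝ ∞ (fun b : B2 => (α + y * β) + (y * τ) * u b) q0 :=
        contDiffAt_const.add (contDiffAt_const.mul hu)
      have hJE : JetB (fun b : B2 => (α + y * β) + (y * τ) * u b) (y * τ * CW) :=
        JetB_affine hu hJ (by positivity) le_rfl _
      have hlow : ∀ ξ, (Λ + y * tm) * (D11 aS ξ ξ q0).re ≤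
          (D11 (fun b => (Λ + y * (τ * η)) * aS b + ((α + y * β) + (y * τ) * u b)) ξ ξ q0).re := by
        intro ξ
        rw [← wild_HE, wild_H_re Λ α y hφ]
        have h1 := mul_le_mul_of_nonneg_left (hφlo ξ) hy0
        linarith
      have hp := hbp (Λ + y * (τ * η)) (Λ + y * tm) (y * τ * CW)
        (fun b : B2 => (α + y * β) + (y * τ) * u b) (by positivity) hmu (by positivity)
        hE hJE hlow ξ η' γ11 γ12 γ22 k11 k12 k22
      refine hp.trans (mul_le_mul_of_nonneg_right ?_ har)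
      rw [htm, hK1]
      exact wild_e_est hCb hy0 hτ hη hCW hΛ) (by
      intro ξ η' u' g1 g2 hg1 hg2
      have hJE : JetB (fun b : B2 => β + τ * u b) (τ * CW) := JetB_affine hu hJ hτ.le le_rfl _
      have hE : ContDiffAt ℝ ∞ (fun b : B2 => β + τ * u b) q0 :=
        contDiffAt_const.add (contDiffAt_const.mul hu)
      rw [wild_phiE] at hg1 hg2 ⊢
      have hX := hcb Λ (τ * η) y (Λ + y * tm) (τ * CW) α (fun b : B2 => β + τ * u b) hΛ
        (by positivity) hy0 (by positivity) hE hJE (by rw [← wild_phiE]; exact hφ0) ξ η' u' g1 g2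
        hg1 hg2
      calc _ ≤ _ := hX
        _ = _ := by ring) habs hζ hexp hy
  have htm2 : 0 < tm ^ 2 := by positivity
  have ha1p : 0 ≤ a1 := le_trans (by positivity) ha1lo
  refine KB_mono_of_lt hKB ?_ ?_ ?_
  · have h1 : min (min (tm/2) (a1/2)) 1 /
        (2 * (Λ + tM) ^ 2 + 8 * tM ^ 2 + (Λ + tM) + 1) ≤ 1 := by
      rw [div_le_one (by positivity)]
      have : min (min (tm/2) (a1/2)) 1 ≤ 1 := min_le_right _ _
      have h2 : 0 ≤ 2 * (Λ + tM) ^ 2 + 8 * tM ^ 2 + (Λ + tM) := by positivity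
      linarith
    have h2 : 0 ≤ (2 * (2 * tM + tm/2)) / tm := by positivity
    have h3 : 0 ≤ ((4 * tM ^ 2 + 4 * (Λ + η) + K1) + a1/2 + 8 * tM ^ 2) / tm ^ 2 := by
      positivity
    linarith
  · apply div_le_div_of_nonneg_right _ (by positivity)
    apply min_le_min _ le_rfl
    apply min_le_min le_rfl
    linarith
  · gcongr

end Crest.Agent.R245
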