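import Crest.Agent.R245.WildNS
import Crest.Agent.R245.CurvR1
import Crest.Agent.R245.CurvR2
import Crest.Agent.R245.BulgeCurv

/-! TASK BulgeMake: construction of a `Bulge`. -/

set_option autoImplicit false

namespace Crest.Agent.R245

open Complex Filter Topology
open scoped ContDiff ComplexConjugate

theorem exists_bulge : Nonempty Bulge := by
  obtain ⟨CW, η, τ₀, hCW, hη, hη1, hτ₀, hτ₀1, hW⟩ := wild_exists
  -- twist
  obtain ⟨τ, hτ0, hτ4, hττ₀, hτCW⟩ : ∃ τ : ℝ, 0 < τ ∧ τ ≤ 1/4 ∧ τ ≤ τ₀ ∧ τ * CW ≤ 1/4 := by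
    refine ⟨min τ₀ (min (1/4) (1 / (4 * CW))), ?_, ?_, min_le_left _ _, ?_⟩
    · exact lt_min hτ₀ (lt_min (by norm_num) (by positivity))
    · exact (min_le_right _ _).trans (min_le_left _ _)
    · have h : min τ₀ (min (1/4) (1 / (4 * CW))) ≤ 1 / (4 * CW) :=
        (min_le_right _ _).trans (min_le_right _ _)
      calc min τ₀ (min (1/4) (1 / (4 * CW))) * CW ≤ 1 / (4 * CW) * CW := by gcongr
        _ = 1/4 := by field_simp
  have hτ1 : τ ≤ 1 := by linarith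
  set s : ℝ := τ * η with hs
  have hs0 : 0 < s := mul_pos hτ0 hη
  have hs4 : s ≤ 1/4 := by
    calc τ * η ≤ τ * 1 := by gcongr
      _ ≤ 1/4 := by linarith
  -- curvature inputs
  obtain ⟨Λ, hΛ, hR2⟩ := curvR2 η CW hη hη1 hCW
  obtain ⟨c2, hc2, B2', hR2'⟩ := hR2 Λ le_rfl τ hτ0 hτ1
  obtain ⟨δ1, hδ1, c1, hc1, B1, hR1⟩ := curvR1 Λ s hΛ hs0 (by linarith)
  obtain ⟨χ, χs, χc, χ01, χ1, χ0⟩ := exists_chi
  have hΛ0 : 0 < Λ := by linarith
  -- jet size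
  obtain ⟨δ, hδ0, hδa, hδb, hδc⟩ : ∃ δ : ℝ, 0 < δ ∧ Λ * δ ≤ δ1 ∧ δ ≤ s / 8 ∧ Λ * δ ≤ 1/8 := by
    refine ⟨min (δ1 / Λ) (min (s / 8) (1 / (8 * Λ))), ?_, ?_, ?_, ?_⟩
    · exact lt_min (by positivity) (lt_min (by positivity) (by positivity))
    · calc Λ * min (δ1 / Λ) (min (s / 8) (1 / (8 * Λ))) ≤ Λ * (δ1 / Λ) := by
            gcongr; exact min_le_left _ _
        _ = δ1 := by field_simp
    · exact (min_le_right _ _).trans (min_le_left _ _)
    · calc Λ * min (δ1 / Λ) (min (s / 8) (1 / (8 * Λ))) ≤ Λ * (1 / (8 * Λ)) := by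
            gcongr; exact (min_le_right _ _).trans (min_le_right _ _)
        _ = 1/8 := by field_simp
  obtain ⟨ε₁, hε₁, A₀, hA₀, hJ⟩ := jet_transition χ χs χc χ01 δ hδ0
  obtain ⟨ψ, a₁, κ, ψs, ha01, ha0κ, hκa1, ψ0, ψ1, ψd, ψnn, ψle, ψk⟩ :=
    exists_psi ε₁ (max A₀ 2) hε₁
  have ha2 : 2 ≤ max A₀ 2 := le_max_right _ _
  set M : ℝ := Real.exp (a₁ + 2 * κ + 2) with hM
  have hM4 : 4 ≤ M := by
    have := Real.add_one_le_exp (a₁ + 2 * κ + 2)
    linarith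
  obtain ⟨Φ, Φs, Φ0, ΦJ, ΦL, ΦG, ΦV⟩ := hW M (by linarith)
  let d : BD :=
    { CW := CW, η := η, τ := τ, Λ := Λ, s := s, κ := κ, a₁ := a₁, M := M, δ := δ
      χ := χ, ψ := ψ, Φ := Φ
      hτ0 := hτ0, hτ1 := hτ1, hCW := hCW, hη := hη, hη1 := hη1, hs := hs, hs0 := hs0
      hs4 := hs4, hτCW := hτCW, hΛ := hΛ, hδ0 := hδ0
      hδΛ := by nlinarith
      hδs := by linarith
      hM4 := hM4, hκ0 := by linarith, ha1 := by linarith
      hM := by rw [hM, Real.log_exp]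
      χs := χs, χ01 := χ01, χ1 := χ1, χ0 := χ0
      ψs := ψs, ψ0 := fun t ht => ψ0 t (ht.trans ha2), ψ1 := ψ1, ψd := ψd, ψnn := ψnn
      Jt := hJ (max A₀ 2) ψ (le_max_left _ _) ψs ψ0 ψd ψk
      Φs := Φs, Φ0 := Φ0, ΦJ := ΦJ, ΦL := ΦL, ΦG := ΦG }
  have hd1 : (d.Λ - 1) * d.δ ≤ δ1 := by
    show (Λ - 1) * δ ≤ δ1
    nlinarith
  have hd2 : d.δ ≤ δ1 := by
    show δ ≤ δ1
    nlinarith
  refine ⟨
    { A := d.A
      φ := d.φ
      smoothA := d.A_smooth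
      smoothφ := d.φ_smooth
      outA := ?_
      outφ := ?_
      φ_le := fun b hb => d.φ_le hb
      le_A := fun b _ => d.le_A
      posA := ⟨1/2, by norm_num, fun b hb ξ => d.posA hb ξ⟩
      posφ := ⟨d.s / 2, by have := d.hs0; positivity, fun b hb ξ => d.posφ hb ξ⟩
      gradφ := d.gradφ
      curv := ⟨min c1 c2, lt_min hc1 hc2, max B1 B2', fun y hy => d.curv hd1 hd2 hR1 hR2' hy⟩
      vanish := ?_ }⟩
  · intro b hb h
    simp only [BD.A, d.T_zero_of hb h]; ring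
  · intro b hb h
    simp only [BD.φ, d.T_zero_of hb h, d.Φ_zero_of hb h]; ring
  · intro F hF C hFC
    have hMpos : 0 < M := by linarith
    refine ΦV τ (min (1/64) (1 / M)) hτ0 hττ₀ (lt_min (by norm_num) (by positivity)) F hF
      (C * Real.exp ((1 - s) * κ / 2)) ?_
    intro p hp hpV
    have hr : 0 < rho p := hp
    have hrp : rho p = p.2.im - ‖p.1‖ ^ 2 := rfl
    have h1 : p.2.im < 1/64 := hpV.trans_le (min_le_left _ _)
    have h2 : p.2.im < 1 / M := hpV.trans_le (min_le_right _ _)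
    have h3 : ‖p.1‖ < 1/8 := by
      have h4 : ‖p.1‖ ^ 2 < 1/64 := by linarith
      have h5 := norm_nonneg p.1
      nlinarith
    have h4 : rho p ≤ 1 / M := by nlinarith [sq_nonneg ‖p.1‖]
    have h5 : d.a₁ + 2 * d.κ + 2 ≤ aS p := d.aS_ge hp h4
    have h6 : d.T p = aS p - κ := by
      refine d.T_deep ?_ (by linarith)
      have := d.hκ0
      linarith
    have h7 := hFC p hp (by linarith)
    have h8 : d.φ p / 2 = (1 - s) * κ / 2 + τ / 2 * (Φ p + η * aS p) := by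
      show (aS p - (1 - s) * d.T p + τ * Φ p) / 2 = _
      rw [h6, hs]; ring
    rw [h8, Real.exp_add, ← mul_assoc] at h7
    exact h7

end Crest.Agent.R245
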