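import Crest.Agent.R245.BulgeA
import Crest.Agent.R245.BulgeLem

/-! TASK BulgeMake: construction of a `Bulge`. -/

set_option autoImplicit false

namespace Crest.Agent.R245

open Complex Filter Topology
open scoped ContDiff ComplexConjugate

/-- the cutoff function in `z` -/
theorem exists_chi : ∃ χ : ℂ → ℝ, ContDiff ℝ ∞ χ ∧ HasCompactSupport χ ∧
    (∀ z, 0 ≤ χ z ∧ χ z ≤ 1) ∧ (∀ z, ‖z‖ ≤ 3/16 → χ z = 1) ∧ (∀ z, 1/4 ≤ ‖z‖ → χ z = 0) := by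
  let f : ContDiffBump (0 : ℂ) := ⟨3/16, 1/4, by norm_num, by norm_num⟩
  refine ⟨f, f.contDiff, f.hasCompactSupport, fun z => ⟨f.nonneg, f.le_one⟩, ?_, ?_⟩
  · intro z hz
    exact f.one_of_mem_closedBall (by simpa [f] using hz)
  · intro z hz
    exact f.zero_of_le_dist (by simpa [f] using hz)

/-- `T = χ(z) ψ(a)` -/
noncomputable def TT (χ : ℂ → ℝ) (ψ : ℝ → ℝ) (b : B2) : ℝ := χ b.1 * ψ (aS b)

theorem TT_smooth {χ : ℂ → ℝ} {ψ : ℝ → ℝ} (hχ : ContDiff ℝ ∞ χ) (hψ : ContDiff ℝ ∞ ψ) :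
    ContDiffOn ℝ ∞ (TT χ ψ) Dom :=
  ((hχ.comp contDiff_fst).contDiffOn).mul (hψ.comp_contDiffOn aS_smooth')

/-- the data entering the construction -/
structure BD where
  (CW η τ Λ s κ a₁ M δ : ℝ)
  (χ : ℂ → ℝ) (ψ : ℝ → ℝ) (Φ : B2 → ℝ)
  (hτ0 : 0 < τ) (hτ1 : τ ≤ 1) (hCW : 0 < CW) (hη : 0 < η) (hη1 : η ≤ 1)
  (hs : s = τ * η) (hs0 : 0 < s) (hs4 : s ≤ 1/4) (hτCW : τ * CW ≤ 1/4)
  (hΛ : 1 ≤ Λ) (hδ0 : 0 < δ) (hδΛ : 4 * ((Λ - 1) * δ) ≤ 1/2) (hδs : 4 * δ ≤ s / 2)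
  (hM4 : 4 ≤ M) (hκ0 : 0 ≤ κ) (ha1 : 2 ≤ a₁) (hM : a₁ + 2 * κ + 2 ≤ Real.log M)
  (χs : ContDiff ℝ ∞ χ) (χ01 : ∀ z, 0 ≤ χ z ∧ χ z ≤ 1) (χ1 : ∀ z, ‖z‖ ≤ 3/16 → χ z = 1)
  (χ0 : ∀ z, 1/4 ≤ ‖z‖ → χ z = 0)
  (ψs : ContDiff ℝ ∞ ψ) (ψ0 : ∀ t, t ≤ 2 → ψ t = 0) (ψ1 : ∀ t, a₁ ≤ t → ψ t = t - κ)
  (ψd : ∀ t, 0 ≤ deriv ψ t ∧ deriv ψ t ≤ 1) (ψnn : ∀ t, 0 ≤ ψ t)
  (Jt : ∀ p ∈ Dom, JetB (fun q => TT χ ψ (gp p q) - (χ p.1 * deriv ψ (aS p)) * aS q) δ)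
  (Φs : ContDiffOn ℝ ∞ Φ Dom)
  (Φ0 : ∀ p ∈ Dom, (1 / M ≤ rho p ∨ 1/8 ≤ ‖p.1‖) → Φ p = 0)
  (ΦJ : ∀ p ∈ Dom, JetB (fun q => Φ (gp p q)) CW)
  (ΦL : ∀ p ∈ Dom, ∀ ξ : B2, -(η / 2) * (D11 aS ξ ξ p).re ≤ (D11 Φ ξ ξ p).re)
  (ΦG : ∀ p ∈ Dom, 0 ≤ aS p → Φ p ≤ CW * (1 + aS p))

namespace BD

variable (d : BD)

noncomputable def T (b : B2) : ℝ := TT d.χ d.ψ b
/-- the potential `A` -/
noncomputable def A (b : B2) : ℝ := aS b + (d.Λ - 1) * d.T b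
/-- the weight `φ` -/
noncomputable def φ (b : B2) : ℝ := aS b - (1 - d.s) * d.T b + d.τ * d.Φ b
/-- the transition parameter -/
noncomputable def θ (p : B2) : ℝ := d.χ p.1 * deriv d.ψ (aS p)

theorem T_smooth : ContDiffOn ℝ ∞ d.T Dom := TT_smooth d.χs d.ψs

theorem A_smooth : ContDiffOn ℝ ∞ d.A Dom :=
  aS_smooth'.add (contDiffOn_const.mul d.T_smooth)

theorem φ_smooth : ContDiffOn ℝ ∞ d.φ Dom :=
  (aS_smooth'.sub (contDiffOn_const.mul d.T_smooth)).add (contDiffOn_const.mul d.Φs)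

theorem T_nonneg (b : B2) : 0 ≤ d.T b := mul_nonneg (d.χ01 _).1 (d.ψnn _)

theorem θ_mem (p : B2) : 0 ≤ d.θ p ∧ d.θ p ≤ 1 := by
  have h1 := d.χ01 p.1
  have h2 := d.ψd (aS p)
  refine ⟨mul_nonneg h1.1 h2.1, ?_⟩
  calc d.χ p.1 * deriv d.ψ (aS p) ≤ 1 * 1 := mul_le_mul h1.2 h2.2 h2.1 (by norm_num)
    _ = 1 := by norm_num

theorem M_pos : 0 < d.M := by linarith [d.hM4]

theorem aS_ge {p : B2} (hp : p ∈ Dom) (h : rho p ≤ 1 / d.M) : d.a₁ + 2 * d.κ + 2 ≤ aS p := by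
  have h0 : 0 < rho p := hp
  have h1 : Real.log (rho p) ≤ Real.log (1 / d.M) := Real.log_le_log h0 h
  rw [one_div, Real.log_inv] at h1
  have := d.hM
  unfold aS; linarith

theorem T_zero_of {b : B2} (hb : b ∈ Dom) (h : 1/4 ≤ ‖b.1‖ ∨ 1/4 ≤ rho b) : d.T b = 0 := by
  unfold T TT
  rcases h with h | h
  · rw [d.χ0 _ h, zero_mul]
  · have h0 : 0 < rho b := hb
    have h1 : Real.log (1/4) ≤ Real.log (rho b) := Real.log_le_log (by norm_num) h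
    have h2 : aS b ≤ 2 := by
      unfold aS
      have h3 : Real.log (1/4) = - (2 * Real.log 2) := by
        rw [one_div, Real.log_inv, show (4:ℝ) = 2 ^ 2 by norm_num, Real.log_pow]; push_cast; ring
      have h4 : Real.log 2 < 0.6931471808 := Real.log_two_lt_d9
      linarith
    rw [d.ψ0 _ h2, mul_zero]

theorem Φ_zero_of {b : B2} (hb : b ∈ Dom) (h : 1/4 ≤ ‖b.1‖ ∨ 1/4 ≤ rho b) : d.Φ b = 0 := by
  apply d.Φ0 b hb
  rcases h with h | h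
  · right; linarith
  · left
    have : 1 / d.M ≤ 1 / 4 := one_div_le_one_div_of_le (by norm_num) d.hM4
    linarith

/-- deep region: `T = a - κ` -/
theorem T_deep {b : B2} (h1 : d.a₁ ≤ aS b) (h2 : ‖b.1‖ ≤ 3/16) : d.T b = aS b - d.κ := by
  unfold T TT
  rw [d.χ1 _ h2, d.ψ1 _ h1, one_mul]

theorem T_deep_ev {p : B2} (hp : p ∈ Dom) (h1 : rho p ≤ 1 / d.M) (h2 : ‖p.1‖ ≤ 1/8) :
    d.T =ᶠ[𝓝 p] fun b => aS b - d.κ := by
  have h3 := d.aS_ge hp h1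
  have hκ := d.hκ0
  have hc : ContinuousAt aS p := (aS_smooth'.continuousOn).continuousAt (isOpen_Dom'.mem_nhds hp)
  have e1 : ∀ᶠ b in 𝓝 p, d.a₁ < aS b := hc.eventually_const_lt (by linarith)
  have e2 : ∀ᶠ b : B2 in 𝓝 p, ‖b.1‖ < 3/16 :=
    (continuous_fst.norm.continuousAt (x := p)).eventually_lt_const (by linarith)
  filter_upwards [e1, e2] with b hb1 hb2 using d.T_deep hb1.le hb2.le

/-- far from the wild region: `Φ = 0` near `p` -/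
theorem Φ_zero_ev {p : B2} (hp : p ∈ Dom) (h : 1 / d.M < rho p ∨ 1/8 < ‖p.1‖) :
    d.Φ =ᶠ[𝓝 p] fun _ => 0 := by
  have hD := isOpen_Dom'.mem_nhds hp
  rcases h with h | h
  · have e1 : ∀ᶠ b in 𝓝 p, 1 / d.M < rho b :=
      (rho_contDiff'.continuous.continuousAt).eventually_const_lt h
    filter_upwards [e1, hD] with b hb1 hb2 using d.Φ0 b hb2 (Or.inl hb1.le)
  · have e2 : ∀ᶠ b : B2 in 𝓝 p, 1/8 < ‖b.1‖ :=
      (continuous_fst.norm.continuousAt (x := p)).eventually_const_lt h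
    filter_upwards [e2, hD] with b hb1 hb2 using d.Φ0 b hb2 (Or.inr hb1.le)

/-- remainder `E = T ∘ gp p - θ a` -/
noncomputable def E (p : B2) (q : B2) : ℝ := d.T (gp p q) - d.θ p * aS q

theorem E_cd {p : B2} (hp : p ∈ Dom) : ContDiffAt ℝ ∞ (d.E p) q0 :=
  (contDiffAt_comp_gp hp d.T_smooth).sub (contDiffAt_const.mul aS_cd_q0)

theorem E_jet {p : B2} (hp : p ∈ Dom) : JetB (d.E p) d.δ := d.Jt p hp

theorem A_gp {p : B2} (hp : p ∈ Dom) : (fun q => d.A (gp p q)) =ᶠ[𝓝 q0]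
    fun q => aS p + ((1 + (d.Λ - 1) * d.θ p) * aS q + (d.Λ - 1) * d.E p q) := by
  filter_upwards [aS_gp_ev p hp] with q hq
  simp only [A, E]
  rw [hq]; ring

theorem φ_gp {p : B2} (hp : p ∈ Dom) : (fun q => d.φ (gp p q)) =ᶠ[𝓝 q0]
    fun q => aS p + ((1 - (1 - d.s) * d.θ p) * aS q + (-(1 - d.s)) * d.E p q)
      + d.τ * d.Φ (gp p q) := by
  filter_upwards [aS_gp_ev p hp] with q hq
  simp only [φ, E]
  rw [hq]; ring

theorem A_gp_deep {p : B2} (hp : p ∈ Dom) (h1 : rho p ≤ 1 / d.M) (h2 : ‖p.1‖ ≤ 1/8) :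
    (fun q => d.A (gp p q)) =ᶠ[𝓝 q0]
      fun q => d.Λ * aS q + (d.Λ * aS p - (d.Λ - 1) * d.κ) := by
  have h3 := (d.T_deep_ev hp h1 h2).comp_tendsto (tendsto_gp p hp)
  filter_upwards [aS_gp_ev p hp, h3] with q hq hq3
  simp only [Function.comp_apply] at hq3
  simp only [A]
  rw [hq3, hq]; ring

theorem φ_gp_deep {p : B2} (hp : p ∈ Dom) (h1 : rho p ≤ 1 / d.M) (h2 : ‖p.1‖ ≤ 1/8) :
    (fun q => d.φ (gp p q)) =ᶠ[𝓝 q0]
      fun q => d.τ * (d.η * aS q + d.Φ (gp p q)) + (d.s * aS p + (1 - d.s) * d.κ) := by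
  have h3 := (d.T_deep_ev hp h1 h2).comp_tendsto (tendsto_gp p hp)
  filter_upwards [aS_gp_ev p hp, h3] with q hq hq3
  simp only [Function.comp_apply] at hq3
  simp only [φ]
  rw [hq3, hq, d.hs]; ring

theorem ΦL_gp {p : B2} (hp : p ∈ Dom) (ξ : B2) :
    -(d.η / 2) * (D11 aS ξ ξ q0).re ≤ (D11 (fun q => d.Φ (gp p q)) ξ ξ q0).re :=
  levi_transport' hp (d.ΦL p hp) ξ

theorem Φ_cd {p : B2} (hp : p ∈ Dom) : ContDiffAt ℝ ∞ (fun q => d.Φ (gp p q)) q0 :=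
  contDiffAt_comp_gp hp d.Φs

theorem D11_A_gp {p : B2} (hp : p ∈ Dom) (ξ : B2) :
    (D11 (fun q => d.A (gp p q)) ξ ξ q0).re
      = (1 + (d.Λ - 1) * d.θ p) * (D11 aS ξ ξ q0).re
        + (d.Λ - 1) * (D11 (d.E p) ξ ξ q0).re := by
  have c1 : ContDiffAt ℝ ∞ (fun q => (1 + (d.Λ - 1) * d.θ p) * aS q) q0 :=
    contDiffAt_const.mul aS_cd_q0
  have c2 : ContDiffAt ℝ ∞ (fun q => (d.Λ - 1) * d.E p q) q0 :=
    contDiffAt_const.mul (d.E_cd hp)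
  rw [D11_congr (d.A_gp hp), D11_const_add' (c1.add c2), D11_add c1 c2,
    D11_const_mul aS_cd_q0, D11_const_mul (d.E_cd hp)]
  simp

theorem D11_φ_gp {p : B2} (hp : p ∈ Dom) (ξ : B2) :
    (D11 (fun q => d.φ (gp p q)) ξ ξ q0).re
      = (1 - (1 - d.s) * d.θ p) * (D11 aS ξ ξ q0).re
        - (1 - d.s) * (D11 (d.E p) ξ ξ q0).re + d.τ * (D11 (fun q => d.Φ (gp p q)) ξ ξ q0).re := by
  have c1 : ContDiffAt ℝ ∞ (fun q => (1 - (1 - d.s) * d.θ p) * aS q) q0 :=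
    contDiffAt_const.mul aS_cd_q0
  have c2 : ContDiffAt ℝ ∞ (fun q => (-(1 - d.s)) * d.E p q) q0 :=
    contDiffAt_const.mul (d.E_cd hp)
  have c3 : ContDiffAt ℝ ∞ (fun q => d.τ * d.Φ (gp p q)) q0 :=
    contDiffAt_const.mul (d.Φ_cd hp)
  have c4 : ContDiffAt ℝ ∞ (fun q => aS p + ((1 - (1 - d.s) * d.θ p) * aS q
      + (-(1 - d.s)) * d.E p q)) q0 := contDiffAt_const.add (c1.add c2)
  rw [D11_congr (d.φ_gp hp), D11_add c4 c3, D11_const_add' (c1.add c2), D11_add c1 c2,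
    D11_const_mul aS_cd_q0, D11_const_mul (d.E_cd hp), D11_const_mul (d.Φ_cd hp)]
  simp only [Complex.add_re, Complex.re_ofReal_mul]
  ring

theorem posA {p : B2} (hp : p ∈ Dom) (ξ : B2) :
    (1/2) * (D11 aS ξ ξ p).re ≤ (D11 d.A ξ ξ p).re := by
  apply levi_transport hp
  intro ξ
  rw [d.D11_A_gp hp]
  have h1 := levi_of_jet (d.E_cd hp) (d.E_jet hp) ξ
  have h2 := (d.θ_mem p).1
  have h3 := aS_q0_nonneg ξ
  have h4 := d.hδΛ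
  have h5 : 0 ≤ d.Λ - 1 := by linarith [d.hΛ]
  have h6 : -(4 * d.δ * (D11 aS ξ ξ q0).re) ≤ (D11 (d.E p) ξ ξ q0).re := by
    have := neg_abs_le (D11 (d.E p) ξ ξ q0).re
    linarith
  have h7 : (d.Λ - 1) * (-(4 * d.δ * (D11 aS ξ ξ q0).re))
      ≤ (d.Λ - 1) * (D11 (d.E p) ξ ξ q0).re := mul_le_mul_of_nonneg_left h6 h5
  have h8 : 0 ≤ (d.Λ - 1) * d.θ p * (D11 aS ξ ξ q0).re := by positivity
  have h9 : 4 * ((d.Λ - 1) * d.δ) * (D11 aS ξ ξ q0).re ≤ 1/2 * (D11 aS ξ ξ q0).re :=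
    mul_le_mul_of_nonneg_right h4 h3
  nlinarith

theorem posφ {p : B2} (hp : p ∈ Dom) (ξ : B2) :
    (d.s / 2) * (D11 aS ξ ξ p).re ≤ (D11 d.φ ξ ξ p).re := by
  apply levi_transport hp
  intro ξ
  have h3 := aS_q0_nonneg ξ
  by_cases hcase : rho p ≤ 1 / d.M ∧ ‖p.1‖ ≤ 1/8
  · have c1 : ContDiffAt ℝ ∞ (fun q => d.η * aS q) q0 := contDiffAt_const.mul aS_cd_q0
    have c2 : ContDiffAt ℝ ∞ (fun q => d.η * aS q + d.Φ (gp p q)) q0 := c1.add (d.Φ_cd hp)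
    rw [D11_congr (d.φ_gp_deep hp hcase.1 hcase.2)]
    have e : (fun q => d.τ * (d.η * aS q + d.Φ (gp p q)) + (d.s * aS p + (1 - d.s) * d.κ))
        = fun q => (d.s * aS p + (1 - d.s) * d.κ) + d.τ * (d.η * aS q + d.Φ (gp p q)) := by
      funext q; ring
    rw [e, D11_const_add' (contDiffAt_const.mul c2), D11_const_mul c2,
      D11_add c1 (d.Φ_cd hp), D11_const_mul aS_cd_q0]
    simp only [Complex.add_re, Complex.re_ofReal_mul]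
    have h1 := d.ΦL_gp hp ξ
    rw [d.hs]
    have h2 := mul_le_mul_of_nonneg_left h1 d.hτ0.le
    nlinarith
  · have hΦ : (fun q => d.Φ (gp p q)) =ᶠ[𝓝 q0] fun _ => (0:ℝ) := by
      have h : 1 / d.M < rho p ∨ 1/8 < ‖p.1‖ := by
        by_contra hcon
        push Not at hcon
        exact hcase hcon
      exact (d.Φ_zero_ev hp h).comp_tendsto (tendsto_gp p hp)
    rw [d.D11_φ_gp hp, D11_congr hΦ, D11_const]
    have h1 := levi_of_jet (d.E_cd hp) (d.E_jet hp) ξ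
    have h2 := d.θ_mem p
    have h4 := d.hδs
    have h5 := d.hs0
    have h6 := d.hs4
    have h7 : (D11 (d.E p) ξ ξ q0).re ≤ 4 * d.δ * (D11 aS ξ ξ q0).re := (le_abs_self _).trans h1
    have h8 : (1 - d.s) * (D11 (d.E p) ξ ξ q0).re ≤ 4 * d.δ * (D11 aS ξ ξ q0).re := by
      have h9 : (1 - d.s) * (D11 (d.E p) ξ ξ q0).re
          ≤ (1 - d.s) * (4 * d.δ * (D11 aS ξ ξ q0).re) :=
        mul_le_mul_of_nonneg_left h7 (by linarith)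
      have h10 : 0 ≤ 4 * d.δ * (D11 aS ξ ξ q0).re := by
        have := d.hδ0; positivity
      nlinarith
    have h9 : d.s * (D11 aS ξ ξ q0).re ≤ (1 - (1 - d.s) * d.θ p) * (D11 aS ξ ξ q0).re := by
      apply mul_le_mul_of_nonneg_right _ h3
      nlinarith [h2.1, h2.2]
    have h10 : 4 * d.δ * (D11 aS ξ ξ q0).re ≤ d.s / 2 * (D11 aS ξ ξ q0).re :=
      mul_le_mul_of_nonneg_right h4 h3
    simp only [Complex.zero_re, mul_zero, add_zero]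
    nlinarith

theorem φ_le {b : B2} (hb : b ∈ Dom) : d.φ b ≤ aS b := by
  unfold φ
  have hT := d.T_nonneg b
  have hs4 := d.hs4
  by_cases h0 : d.Φ b = 0
  · rw [h0, mul_zero, add_zero]
    have : 0 ≤ (1 - d.s) * d.T b := mul_nonneg (by linarith) hT
    linarith
  · have h1 : rho b < 1 / d.M := by
      by_contra h; push Not at h; exact h0 (d.Φ0 b hb (Or.inl h))
    have h2 : ‖b.1‖ < 1/8 := by
      by_contra h; push Not at h; exact h0 (d.Φ0 b hb (Or.inr h))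
    have h3 := d.aS_ge hb h1.le
    have hκ := d.hκ0
    have ha := d.ha1
    have h4 : d.T b = aS b - d.κ := d.T_deep (by linarith) (by linarith)
    have h5 := d.ΦG b hb (by linarith)
    have h6 : d.τ * d.Φ b ≤ (1/4) * (1 + aS b) := by
      calc d.τ * d.Φ b ≤ d.τ * (d.CW * (1 + aS b)) := mul_le_mul_of_nonneg_left h5 d.hτ0.le
        _ = (d.τ * d.CW) * (1 + aS b) := by ring
        _ ≤ (1/4) * (1 + aS b) := mul_le_mul_of_nonneg_right d.hτCW (by linarith)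
    rw [h4]
    have h7 : (3/4) * (aS b - d.κ) ≤ (1 - d.s) * (aS b - d.κ) :=
      mul_le_mul_of_nonneg_right (by linarith) (by linarith)
    linarith

theorem le_A {b : B2} : aS b ≤ d.A b := by
  unfold A
  have := mul_nonneg (show 0 ≤ d.Λ - 1 by linarith [d.hΛ]) (d.T_nonneg b)
  linarith

end BD

end Crest.Agent.R245
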