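import Mathlib
import Crest.Prelude.Def_KahlerDomain

/-!
Row 245, module [M]: completeness of a Hermitian metric from an exhaustion function with bounded gradient.
-/

set_option autoImplicit false

open Crest.GeometryTopology MeasureTheory Set Filter Topology
open scoped ComplexConjugate ContDiff

namespace Crest.Agent.R245

variable {n : ℕ} {U : Set (Fin n → ℂ)}

/-! ### Elementary facts on `riem` -/

theorem riem_self_eq (g : HermitianMetricOn n U) (p X : Fin n → ℂ) :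
    g.riem p X X = (∑ i, ∑ j, g.h i j p * X i * conj (X j)).re := rfl

theorem riem_self_pos (g : HermitianMetricOn n U) {p : Fin n → ℂ} (hp : p ∈ U) {X : Fin n → ℂ}
    (hX : X ≠ 0) : 0 < g.riem p X X := g.posDef p hp X hX

theorem riem_zero (g : HermitianMetricOn n U) (p : Fin n → ℂ) : g.riem p 0 0 = 0 := by
  simp [HermitianMetricOn.riem, HermitianMetricOn.herm]

theorem riem_self_nonneg (g : HermitianMetricOn n U) {p : Fin n → ℂ} (hp : p ∈ U) (X : Fin n → ℂ) :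
    0 ≤ g.riem p X X := by
  by_cases hX : X = 0
  · subst hX; rw [riem_zero]
  · exact (riem_self_pos g hp hX).le

theorem riem_smul_self (g : HermitianMetricOn n U) (p X : Fin n → ℂ) (c : ℝ) :
    g.riem p (c • X) (c • X) = c ^ 2 * g.riem p X X := by
  unfold HermitianMetricOn.riem HermitianMetricOn.herm
  have : (∑ i, ∑ j, g.h i j p * (c • X) i * conj ((c • X) j)) =
      ((c ^ 2 : ℝ) : ℂ) * ∑ i, ∑ j, g.h i j p * X i * conj (X j) := by
    rw [Finset.mul_sum]
    refine Finset.sum_congr rfl fun i _ => ?_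
    rw [Finset.mul_sum]
    refine Finset.sum_congr rfl fun j _ => ?_
    simp only [Pi.smul_apply, Complex.real_smul, map_mul, Complex.conj_ofReal]
    push_cast
    ring
  rw [this, Complex.re_ofReal_mul]

theorem continuousOn_riem (g : HermitianMetricOn n U) :
    ContinuousOn (fun q : (Fin n → ℂ) × (Fin n → ℂ) => g.riem q.1 q.2 q.2) (U ×ˢ univ) := by
  unfold HermitianMetricOn.riem HermitianMetricOn.herm
  refine Complex.continuous_re.comp_continuousOn ?_
  refine continuousOn_finsetSum _ fun i _ => continuousOn_finsetSum _ fun j _ => ?_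
  have h1 : ContinuousOn (fun q : (Fin n → ℂ) × (Fin n → ℂ) => g.h i j q.1) (U ×ˢ univ) :=
    (g.smooth i j).continuousOn.comp continuousOn_fst (fun q hq => hq.1)
  refine (h1.mul ?_).mul ?_
  · exact ((continuous_apply i).comp continuous_snd).continuousOn
  · exact (Complex.continuous_conj.comp ((continuous_apply j).comp continuous_snd)).continuousOn

/-- On a compact subset of `U` the metric dominates a multiple of the square of the sup norm. -/
theorem exists_lower_bound (g : HermitianMetricOn n U) {K : Set (Fin n → ℂ)} (hK : IsCompact K)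
    (hKU : K ⊆ U) : ∃ c : ℝ, 0 < c ∧ ∀ p ∈ K, ∀ X : Fin n → ℂ, c * ‖X‖ ^ 2 ≤ g.riem p X X := by
  have hcomp : IsCompact (K ×ˢ Metric.sphere (0 : Fin n → ℂ) 1) :=
    hK.prod (isCompact_sphere _ _)
  have hcont : ContinuousOn (fun q : (Fin n → ℂ) × (Fin n → ℂ) => g.riem q.1 q.2 q.2)
      (K ×ˢ Metric.sphere (0 : Fin n → ℂ) 1) :=
    (continuousOn_riem g).mono (fun q hq => ⟨hKU hq.1, mem_univ _⟩)
  rcases (K ×ˢ Metric.sphere (0 : Fin n → ℂ) 1).eq_empty_or_nonempty with he | hne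
  · refine ⟨1, one_pos, fun p hp X => ?_⟩
    by_cases hX : X = 0
    · subst hX; rw [riem_zero]; simp
    · exfalso
      have : (p, (‖X‖⁻¹ : ℝ) • X) ∈ K ×ˢ Metric.sphere (0 : Fin n → ℂ) 1 := by
        refine ⟨hp, ?_⟩
        simp [norm_smul, norm_ne_zero_iff.2 hX]
      rw [he] at this
      exact this
  · obtain ⟨q0, hq0, hmin⟩ := hcomp.exists_isMinOn hne hcont
    have hq0' : q0.2 ≠ 0 := by
      have := hq0.2
      intro h
      rw [h] at this
      simp at this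
    refine ⟨g.riem q0.1 q0.2 q0.2, riem_self_pos g (hKU hq0.1) hq0', fun p hp X => ?_⟩
    by_cases hX : X = 0
    · subst hX; rw [riem_zero]; simp
    · have hXn : ‖X‖ ≠ 0 := norm_ne_zero_iff.2 hX
      have hmem : (p, (‖X‖⁻¹ : ℝ) • X) ∈ K ×ˢ Metric.sphere (0 : Fin n → ℂ) 1 := by
        refine ⟨hp, ?_⟩
        simp [norm_smul, hXn]
      have h1 := hmin hmem
      simp only [Set.mem_ofPred_eq] at h1
      rw [riem_smul_self] at h1
      have h2 : (‖X‖⁻¹) ^ 2 * ‖X‖ ^ 2 = 1 := by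
        rw [← mul_pow, inv_mul_cancel₀ hXn, one_pow]
      have h3 : 0 ≤ ‖X‖ ^ 2 := by positivity
      calc g.riem q0.1 q0.2 q0.2 * ‖X‖ ^ 2 ≤ ((‖X‖⁻¹) ^ 2 * g.riem p X X) * ‖X‖ ^ 2 :=
            mul_le_mul_of_nonneg_right h1 h3
        _ = g.riem p X X * ((‖X‖⁻¹) ^ 2 * ‖X‖ ^ 2) := by ring
        _ = g.riem p X X := by rw [h2, mul_one]

/-! ### Speeds of C¹ curves in `U` -/

/-- the Riemannian speed of a curve. -/
noncomputable def speed (g : HermitianMetricOn n U) (γ : ℝ → (Fin n → ℂ)) (t : ℝ) : ℝ :=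
  Real.sqrt (g.riem (γ t) (deriv γ t) (deriv γ t))

theorem speed_nonneg (g : HermitianMetricOn n U) (γ : ℝ → (Fin n → ℂ)) (t : ℝ) :
    0 ≤ speed g γ t := Real.sqrt_nonneg _

theorem length_eq (g : HermitianMetricOn n U) (γ : ℝ → (Fin n → ℂ)) :
    g.length γ = ∫ t in (0:ℝ)..1, speed g γ t := rfl

theorem continuousOn_riem_curve (g : HermitianMetricOn n U) {γ : ℝ → (Fin n → ℂ)}
    (hγ : ContDiff ℝ 1 γ) (hU : ∀ t ∈ Icc (0:ℝ) 1, γ t ∈ U) :
    ContinuousOn (fun t => g.riem (γ t) (deriv γ t) (deriv γ t)) (Icc (0:ℝ) 1) := by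
  have h1 : ContinuousOn (fun t => (γ t, deriv γ t)) (Icc (0:ℝ) 1) :=
    (hγ.continuous.prodMk (hγ.continuous_deriv le_rfl)).continuousOn
  have h2 : MapsTo (fun t => (γ t, deriv γ t)) (Icc (0:ℝ) 1) (U ×ˢ (univ : Set (Fin n → ℂ))) := by
    intro t ht
    exact Set.mk_mem_prod (hU t ht) (mem_univ _)
  have := ContinuousOn.comp (g := fun q : (Fin n → ℂ) × (Fin n → ℂ) => g.riem q.1 q.2 q.2)
      (continuousOn_riem g) h1 h2
  exact this

theorem continuousOn_speed (g : HermitianMetricOn n U) {γ : ℝ → (Fin n → ℂ)}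
    (hγ : ContDiff ℝ 1 γ) (hU : ∀ t ∈ Icc (0:ℝ) 1, γ t ∈ U) :
    ContinuousOn (speed g γ) (Icc 0 1) := by
  have h4 : ContinuousOn (fun t => Real.sqrt (g.riem (γ t) (deriv γ t) (deriv γ t)))
    (Icc (0:ℝ) 1) := (continuousOn_riem_curve g hγ hU).sqrt
  exact h4

theorem length_nonneg (g : HermitianMetricOn n U) (γ : ℝ → (Fin n → ℂ)) : 0 ≤ g.length γ := by
  rw [length_eq]
  exact intervalIntegral.integral_nonneg zero_le_one fun t _ => speed_nonneg g γ t

theorem integral_speed_le (g : HermitianMetricOn n U) {γ : ℝ → (Fin n → ℂ)}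
    (hγ : ContDiff ℝ 1 γ) (hU : ∀ t ∈ Icc (0:ℝ) 1, γ t ∈ U) {s : ℝ} (hs : s ∈ Icc (0:ℝ) 1) :
    ∫ t in (0:ℝ)..s, speed g γ t ≤ g.length γ := by
  have hc := continuousOn_speed g hγ hU
  have i1 : IntervalIntegrable (speed g γ) volume 0 s :=
    (hc.mono (by rw [uIcc_of_le hs.1]; exact Icc_subset_Icc_right hs.2)).intervalIntegrable
  have i2 : IntervalIntegrable (speed g γ) volume s 1 :=
    (hc.mono (by rw [uIcc_of_le hs.2]; exact Icc_subset_Icc_left hs.1)).intervalIntegrable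
  rw [length_eq, ← intervalIntegral.integral_add_adjacent_intervals i1 i2]
  have : 0 ≤ ∫ t in s..1, speed g γ t :=
    intervalIntegral.integral_nonneg hs.2 fun t _ => speed_nonneg g γ t
  linarith

/-- If the gradient of a real function is controlled by the metric then its variation along a
curve is controlled by the length. -/
theorem abs_sub_le_length (g : HermitianMetricOn n U) (hUo : IsOpen U) {ψ : (Fin n → ℂ) → ℝ}
    (hψ : ContDiffOn ℝ 1 ψ U) {C : ℝ} (hC0 : 0 ≤ C)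
    (hC : ∀ p ∈ U, ∀ X : Fin n → ℂ, (fderiv ℝ ψ p X) ^ 2 ≤ C ^ 2 * g.riem p X X)
    {γ : ℝ → (Fin n → ℂ)} (hγ : ContDiff ℝ 1 γ) (hU : ∀ t ∈ Icc (0:ℝ) 1, γ t ∈ U)
    {s : ℝ} (hs : s ∈ Icc (0:ℝ) 1) :
    |ψ (γ s) - ψ (γ 0)| ≤ C * g.length γ := by
  have hsub : Icc (0:ℝ) s ⊆ Icc 0 1 := Icc_subset_Icc_right hs.2
  have hder : ∀ t ∈ Icc (0:ℝ) s, HasDerivAt (fun t => ψ (γ t)) (fderiv ℝ ψ (γ t) (deriv γ t)) t := by
    intro t ht
    have h1 : DifferentiableAt ℝ ψ (γ t) :=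
      (hψ.differentiableOn one_ne_zero).differentiableAt (hUo.mem_nhds (hU t (hsub ht)))
    have h2 : HasDerivAt γ (deriv γ t) t := (hγ.differentiable one_ne_zero t).hasDerivAt
    exact h1.hasFDerivAt.comp_hasDerivAt t h2
  have hcont : ContinuousOn (fun t => fderiv ℝ ψ (γ t) (deriv γ t)) (Icc (0:ℝ) s) := by
    have h1 : ContinuousOn (fun t => fderiv ℝ ψ (γ t)) (Icc (0:ℝ) s) :=
      (hψ.continuousOn_fderiv_of_isOpen hUo le_rfl).comp hγ.continuous.continuousOn
        (fun t ht => hU t (hsub ht))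
    exact h1.clm_apply (hγ.continuous_deriv le_rfl).continuousOn
  have hint : IntervalIntegrable (fun t => fderiv ℝ ψ (γ t) (deriv γ t)) volume 0 s :=
    (hcont.mono (by rw [uIcc_of_le hs.1])).intervalIntegrable
  have hFTC : ∫ t in (0:ℝ)..s, fderiv ℝ ψ (γ t) (deriv γ t) = ψ (γ s) - ψ (γ 0) := by
    refine intervalIntegral.integral_eq_sub_of_hasDerivAt (f := fun t => ψ (γ t))
      (fun t ht => ?_) hint
    rw [uIcc_of_le hs.1] at ht
    exact hder t ht
  rw [← hFTC]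
  have hsp : IntervalIntegrable (speed g γ) volume 0 s :=
    ((continuousOn_speed g hγ hU).mono (by rw [uIcc_of_le hs.1]; exact hsub)).intervalIntegrable
  calc |∫ t in (0:ℝ)..s, fderiv ℝ ψ (γ t) (deriv γ t)|
      ≤ ∫ t in (0:ℝ)..s, |fderiv ℝ ψ (γ t) (deriv γ t)| :=
        intervalIntegral.abs_integral_le_integral_abs hs.1
    _ ≤ ∫ t in (0:ℝ)..s, C * speed g γ t := by
        refine intervalIntegral.integral_mono_on hs.1 hint.abs (hsp.const_mul C) fun t ht => ?_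
        have h1 := hC (γ t) (hU t (hsub ht)) (deriv γ t)
        have h2 : |fderiv ℝ ψ (γ t) (deriv γ t)| ≤
            Real.sqrt (C ^ 2 * g.riem (γ t) (deriv γ t) (deriv γ t)) :=
          Real.abs_le_sqrt h1
        rw [Real.sqrt_mul (sq_nonneg C), Real.sqrt_sq hC0] at h2
        exact h2
    _ = C * ∫ t in (0:ℝ)..s, speed g γ t := by
        rw [intervalIntegral.integral_const_mul]
    _ ≤ C * g.length γ := mul_le_mul_of_nonneg_left (integral_speed_le g hγ hU hs) hC0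

/-- A curve staying in a compact subset of `U`: Euclidean displacement is controlled by length. -/
theorem norm_sub_le_length (g : HermitianMetricOn n U) {K : Set (Fin n → ℂ)}
    {c : ℝ} (hc : 0 < c) (hlow : ∀ p ∈ K, ∀ X : Fin n → ℂ, c ^ 2 * ‖X‖ ^ 2 ≤ g.riem p X X)
    {γ : ℝ → (Fin n → ℂ)} (hγ : ContDiff ℝ 1 γ) (hU : ∀ t ∈ Icc (0:ℝ) 1, γ t ∈ U)
    (hK : ∀ t ∈ Icc (0:ℝ) 1, γ t ∈ K) :
    ‖γ 1 - γ 0‖ ≤ c⁻¹ * g.length γ := by
  have hcont : Continuous (deriv γ) := hγ.continuous_deriv le_rfl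
  have hFTC : ∫ t in (0:ℝ)..1, deriv γ t = γ 1 - γ 0 :=
    intervalIntegral.integral_eq_sub_of_hasDerivAt
      (fun t _ => (hγ.differentiable one_ne_zero t).hasDerivAt) (hcont.intervalIntegrable _ _)
  have hsp : IntervalIntegrable (speed g γ) volume 0 1 :=
    ((continuousOn_speed g hγ hU).mono (by rw [uIcc_of_le zero_le_one])).intervalIntegrable
  rw [← hFTC]
  calc ‖∫ t in (0:ℝ)..1, deriv γ t‖ ≤ ∫ t in (0:ℝ)..1, ‖deriv γ t‖ :=
        intervalIntegral.norm_integral_le_integral_norm zero_le_one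
    _ ≤ ∫ t in (0:ℝ)..1, c⁻¹ * speed g γ t := by
        refine intervalIntegral.integral_mono_on zero_le_one
          (hcont.norm.intervalIntegrable _ _) (hsp.const_mul _) fun t ht => ?_
        have h1 := hlow (γ t) (hK t ht) (deriv γ t)
        have h2 : c * ‖deriv γ t‖ ≤ speed g γ t := by
          unfold speed
          refine Real.le_sqrt_of_sq_le ?_
          rw [mul_pow]; exact h1
        calc ‖deriv γ t‖ = c⁻¹ * (c * ‖deriv γ t‖) := by
              rw [← mul_assoc, inv_mul_cancel₀ hc.ne', one_mul]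
          _ ≤ c⁻¹ * speed g γ t := mul_le_mul_of_nonneg_left h2 (inv_nonneg.2 hc.le)
    _ = c⁻¹ * g.length γ := by
        rw [intervalIntegral.integral_const_mul, length_eq]

/-- C¹-path connectedness in the sense needed for `dist`. -/
def C1Joined (U : Set (Fin n → ℂ)) : Prop :=
  ∀ p ∈ U, ∀ q ∈ U, ∃ γ : ℝ → (Fin n → ℂ), ContDiff ℝ 1 γ ∧ γ 0 = p ∧ γ 1 = q ∧
    ∀ t ∈ Icc (0:ℝ) 1, γ t ∈ U

/-- If `dist p q < ε` there is a curve of length `< ε`. -/
theorem exists_curve_lt (g : HermitianMetricOn n U) (hJ : C1Joined U) {p q : Fin n → ℂ}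
    (hp : p ∈ U) (hq : q ∈ U) {ε : ℝ} (h : g.dist p q < ε) :
    ∃ γ : ℝ → (Fin n → ℂ), ContDiff ℝ 1 γ ∧ γ 0 = p ∧ γ 1 = q ∧
      (∀ t ∈ Icc (0:ℝ) 1, γ t ∈ U) ∧ g.length γ < ε := by
  unfold HermitianMetricOn.dist at h
  obtain ⟨γ0, h0, h1, h2, h3⟩ := hJ p hp q hq
  have hne : {ℓ : ℝ | ∃ γ : ℝ → (Fin n → ℂ), ContDiff ℝ 1 γ ∧ γ 0 = p ∧ γ 1 = q ∧
    (∀ t ∈ Set.Icc (0:ℝ) 1, γ t ∈ U) ∧ g.length γ = ℓ}.Nonempty :=
    ⟨g.length γ0, γ0, h0, h1, h2, h3, rfl⟩
  obtain ⟨ℓ, ⟨γ, k0, k1, k2, k3, k4⟩, hℓ⟩ := exists_lt_of_csInf_lt hne h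
  exact ⟨γ, k0, k1, k2, k3, by rw [k4]; exact hℓ⟩

/-- **Completeness criterion**: an exhaustion function whose gradient is bounded in the metric. -/
theorem isComplete_of_exhaustion (g : HermitianMetricOn n U) (hUo : IsOpen U) (hJ : C1Joined U)
    {ψ : (Fin n → ℂ) → ℝ} (hψ : ContDiffOn ℝ 1 ψ U) {C : ℝ} (hC0 : 0 ≤ C)
    (hC : ∀ p ∈ U, ∀ X : Fin n → ℂ, (fderiv ℝ ψ p X) ^ 2 ≤ C ^ 2 * g.riem p X X)
    (hex : ∀ R : ℝ, ∃ K : Set (Fin n → ℂ), IsCompact K ∧ K ⊆ U ∧ ∀ p ∈ U, ψ p ≤ R → p ∈ K) :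
    g.IsComplete := by
  intro u hu hCau
  have hC1 : 0 < C + 1 := by linarith
  have hδ : (0:ℝ) < 1 / (C + 1) := by positivity
  obtain ⟨N, hN⟩ := hCau (1 / (C + 1)) hδ
  -- values of `ψ` are bounded along the sequence
  have hbd : ∀ m, N ≤ m → ψ (u m) ≤ ψ (u N) + 1 := by
    intro m hm
    obtain ⟨γ, k0, k1, k2, k3, k4⟩ := exists_curve_lt g hJ (hu N) (hu m) (hN N m le_rfl hm)
    have h1 := abs_sub_le_length g hUo hψ hC0 hC k0 k3 (right_mem_Icc.2 zero_le_one)
    rw [k1, k2] at h1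
    have h2 : C * g.length γ ≤ 1 := by
      calc C * g.length γ ≤ (C + 1) * g.length γ :=
            mul_le_mul_of_nonneg_right (by linarith) (length_nonneg g γ)
        _ ≤ (C + 1) * (1 / (C + 1)) := mul_le_mul_of_nonneg_left k4.le hC1.le
        _ = 1 := by field_simp
    have h3 := le_abs_self (ψ (u m) - ψ (u N))
    linarith
  set R0 : ℝ := ψ (u N) + 1 with hR0
  obtain ⟨K, hKc, hKU, hK⟩ := hex (R0 + 1)
  obtain ⟨c', hc'0, hc'⟩ := exists_lower_bound g hKc hKU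
  set c : ℝ := Real.sqrt c' with hc
  have hcpos : 0 < c := Real.sqrt_pos.2 hc'0
  have hlow : ∀ p ∈ K, ∀ X : Fin n → ℂ, c ^ 2 * ‖X‖ ^ 2 ≤ g.riem p X X := by
    intro p hp X
    rw [hc, Real.sq_sqrt hc'0.le]
    exact hc' p hp X
  -- Euclidean Cauchy
  have hcauchy : CauchySeq u := by
    rw [Metric.cauchySeq_iff']
    intro ε hε
    have hδ' : 0 < min (1 / (C + 1)) (c * ε) := lt_min hδ (mul_pos hcpos hε)
    obtain ⟨M, hM⟩ := hCau _ hδ'
    refine ⟨max M N, fun m hm => ?_⟩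
    have hmM : M ≤ m := le_trans (le_max_left _ _) hm
    have hmN : N ≤ max M N := le_max_right _ _
    obtain ⟨γ, k0, k1, k2, k3, k4⟩ := exists_curve_lt g hJ (hu (max M N)) (hu m)
      (hM (max M N) m (le_max_left _ _) hmM)
    have hstay : ∀ t ∈ Icc (0:ℝ) 1, γ t ∈ K := by
      intro t ht
      refine hK _ (k3 t ht) ?_
      have h1 := abs_sub_le_length g hUo hψ hC0 hC k0 k3 ht
      rw [k1] at h1
      have h2 : C * g.length γ ≤ 1 := by
        calc C * g.length γ ≤ (C + 1) * g.length γ :=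
              mul_le_mul_of_nonneg_right (by linarith) (length_nonneg g γ)
          _ ≤ (C + 1) * (1 / (C + 1)) :=
              mul_le_mul_of_nonneg_left (k4.le.trans (min_le_left _ _)) hC1.le
          _ = 1 := by field_simp
      have h3 := le_abs_self (ψ (γ t) - ψ (u (max M N)))
      have h4 := hbd _ hmN
      linarith
    have h5 := norm_sub_le_length g hcpos hlow k0 k3 hstay
    rw [k1, k2] at h5
    rw [dist_eq_norm]
    calc ‖u m - u (max M N)‖ ≤ c⁻¹ * g.length γ := h5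
      _ < c⁻¹ * (c * ε) :=
          mul_lt_mul_of_pos_left (k4.trans_le (min_le_right _ _)) (inv_pos.2 hcpos)
      _ = ε := by rw [← mul_assoc, inv_mul_cancel₀ hcpos.ne', one_mul]
  obtain ⟨q, hq⟩ := cauchySeq_tendsto_of_complete hcauchy
  refine ⟨q, hKU ?_, hq⟩
  refine hKc.isClosed.mem_of_tendsto hq ?_
  filter_upwards [eventually_ge_atTop N] with m hm
  exact hK _ (hu m) (by have := hbd m hm; linarith)

/-- Joining points in the image of a `C¹` map from a normed space. -/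
theorem c1Joined_of_range {E : Type*} [NormedAddCommGroup E] [NormedSpace ℝ E]
    {Φ : E → (Fin n → ℂ)} (hΦ : ContDiff ℝ 1 Φ) (hr : Set.range Φ = U) : C1Joined U := by
  intro p hp q hq
  rw [← hr] at hp hq
  obtain ⟨x, rfl⟩ := hp
  obtain ⟨y, rfl⟩ := hq
  refine ⟨fun t => Φ (x + t • (y - x)), ?_, by simp, by simp, fun t _ => ?_⟩
  · exact hΦ.comp (contDiff_const.add (contDiff_id.smul contDiff_const))
  · rw [← hr]; exact mem_range_self _

/-- Joining points in the image of a convex set under a `C¹` map (defined everywhere). -/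
theorem c1Joined_of_image {E : Type*} [NormedAddCommGroup E] [NormedSpace ℝ E]
    {Φ : E → (Fin n → ℂ)} (hΦ : ContDiff ℝ 1 Φ) {S : Set E} (hS : Convex ℝ S)
    (hr : Φ '' S = U) : C1Joined U := by
  intro p hp q hq
  rw [← hr] at hp hq
  obtain ⟨x, hx, rfl⟩ := hp
  obtain ⟨y, hy, rfl⟩ := hq
  refine ⟨fun t => Φ (x + t • (y - x)), ?_, by simp, by simp, fun t ht => ?_⟩
  · exact hΦ.comp (contDiff_const.add (contDiff_id.smul contDiff_const))
  · rw [← hr]
    exact mem_image_of_mem _ (hS.add_smul_sub_mem hx hy ht)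

/-- If a `C¹` function `u ≥ 0` with compact sublevel sets in `U` satisfies
`|du| ≤ C √(1+u) |·|_g`, then `g` is complete.
(Proof: `√(1+u)` is `C/2`-Lipschitz for `g.dist`, so a Cauchy sequence stays in a compact set
`K = {u ≤ R}`; on the compact set `{u ≤ R+1}` the metric dominates a multiple of the Euclidean
norm, so the sequence is Cauchy in `ℂⁿ`.) -/
theorem complete_of_proper {n : ℕ} {U : Set (Fin n → ℂ)} (hU : IsOpen U)
    (g : HermitianMetricOn n U) (u : (Fin n → ℂ) → ℝ) (hu : ContDiffOn ℝ 1 u U)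
    (hu0 : ∀ p ∈ U, 0 ≤ u p) (C : ℝ)
    (hC : ∀ p ∈ U, ∀ X, |fderiv ℝ u p X| ≤ C * Real.sqrt (1 + u p) * Real.sqrt (g.riem p X X))
    (hprop : ∀ R, IsCompact {p ∈ U | u p ≤ R})
    (hconn : ∀ p ∈ U, ∀ q ∈ U, ∃ γ : ℝ → (Fin n → ℂ), ContDiff ℝ 1 γ ∧ γ 0 = p ∧ γ 1 = q ∧
      ∀ t, γ t ∈ U) :
    g.IsComplete := by
  have hpos : ∀ p ∈ U, 0 < 1 + u p := fun p hp => by have := hu0 p hp; linarith
  have hψ : ContDiffOn ℝ 1 (fun p => Real.sqrt (1 + u p)) U :=
    (contDiffOn_const.add hu).sqrt (fun p hp => (hpos p hp).ne')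
  refine isComplete_of_exhaustion g hU ?_ (ψ := fun p => Real.sqrt (1 + u p)) hψ
    (C := |C| / 2) (by positivity) ?_ ?_
  · intro p hp q hq
    obtain ⟨γ, h0, h1, h2, h3⟩ := hconn p hp q hq
    exact ⟨γ, h0, h1, h2, fun t _ => h3 t⟩
  · intro p hp X
    have hd : DifferentiableAt ℝ u p :=
      (hu.differentiableOn one_ne_zero).differentiableAt (hU.mem_nhds hp)
    have hd1 : HasFDerivAt (fun p => 1 + u p) (fderiv ℝ u p) p := hd.hasFDerivAt.const_add 1
    have hd2 := (hd1.sqrt (hpos p hp).ne').fderiv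
    rw [hd2]
    have hs : 0 < Real.sqrt (1 + u p) := Real.sqrt_pos.2 (hpos p hp)
    have hr := riem_self_nonneg g hp X
    have h1 : |fderiv ℝ u p X| ≤ |C| * Real.sqrt (1 + u p) * Real.sqrt (g.riem p X X) := by
      refine (hC p hp X).trans ?_
      have := le_abs_self C
      gcongr
    have h2 : |((1 / (2 * Real.sqrt (1 + u p))) • fderiv ℝ u p) X| ≤
        |C| / 2 * Real.sqrt (g.riem p X X) := by
      rw [smul_apply, smul_eq_mul, abs_mul, abs_of_pos (by positivity)]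
      calc 1 / (2 * Real.sqrt (1 + u p)) * |fderiv ℝ u p X|
          ≤ 1 / (2 * Real.sqrt (1 + u p)) *
            (|C| * Real.sqrt (1 + u p) * Real.sqrt (g.riem p X X)) := by gcongr
        _ = |C| / 2 * Real.sqrt (g.riem p X X) := by
            field_simp
    calc (((1 / (2 * Real.sqrt (1 + u p))) • fderiv ℝ u p) X) ^ 2
        = |((1 / (2 * Real.sqrt (1 + u p))) • fderiv ℝ u p) X| ^ 2 := (sq_abs _).symm
      _ ≤ (|C| / 2 * Real.sqrt (g.riem p X X)) ^ 2 := by gcongr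
      _ = (|C| / 2) ^ 2 * g.riem p X X := by rw [mul_pow, Real.sq_sqrt hr]
  · intro R
    refine ⟨{p ∈ U | u p ≤ R ^ 2}, hprop _, fun p hp => hp.1, fun p hp h => ⟨hp, ?_⟩⟩
    have h0 : 0 ≤ Real.sqrt (1 + u p) := Real.sqrt_nonneg _
    have h1 : Real.sqrt (1 + u p) ^ 2 ≤ R ^ 2 := by gcongr
    rw [Real.sq_sqrt (hpos p hp).le] at h1
    linarith

end Crest.Agent.R245
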