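import Mathlib

set_option autoImplicit false

namespace Crest.Agent.R245

open Complex Filter Topology
open scoped ContDiff ComplexConjugate

/-- Hermitian forms, `ℂ`-linear in the first variable. -/
structure Herm {V : Type*} [AddCommGroup V] [Module ℂ V] (S : V → V → ℂ) : Prop where
  add_left : ∀ x x' y, S (x + x') y = S x y + S x' y
  smul_left : ∀ (c : ℂ) (x y : V), S (c • x) y = c * S x y
  conj_symm : ∀ x y, conj (S x y) = S y x

namespace Herm

variable {V : Type*} [AddCommGroup V] [Module ℂ V] {S T E : V → V → ℂ}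

theorem add_right (hS : Herm S) (x y y' : V) : S x (y + y') = S x y + S x y' := by
  rw [← hS.conj_symm (y + y') x, hS.add_left, map_add, hS.conj_symm, hS.conj_symm]

theorem smul_right (hS : Herm S) (c : ℂ) (x y : V) : S x (c • y) = conj c * S x y := by
  rw [← hS.conj_symm (c • y) x, hS.smul_left, map_mul, hS.conj_symm]

theorem zero_left (hS : Herm S) (y : V) : S 0 y = 0 := by
  have := hS.smul_left 0 0 y
  simpa using this

theorem zero_right (hS : Herm S) (y : V) : S y 0 = 0 := by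
  have := hS.smul_right 0 y 0
  simpa using this

theorem im_self (hS : Herm S) (x : V) : (S x x).im = 0 := by
  have := congrArg Complex.im (hS.conj_symm x x)
  simp at this; linarith

theorem self_eq (hS : Herm S) (x : V) : S x x = ((S x x).re : ℂ) := by
  apply Complex.ext <;> simp [hS.im_self]

theorem re_symm (hS : Herm S) (x y : V) : (S y x).re = (S x y).re := by
  have := congrArg Complex.re (hS.conj_symm x y)
  simpa using this.symm

theorem im_symm (hS : Herm S) (x y : V) : (S y x).im = -(S x y).im := by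
  have := congrArg Complex.im (hS.conj_symm x y)
  simpa using this.symm

theorem add (hS : Herm S) (hT : Herm T) : Herm (fun x y => S x y + T x y) where
  add_left x x' y := by rw [hS.add_left, hT.add_left]; ring
  smul_left c x y := by rw [hS.smul_left, hT.smul_left]; ring
  conj_symm x y := by rw [map_add, hS.conj_symm, hT.conj_symm]

theorem const_mul (hS : Herm S) (r : ℝ) : Herm (fun x y => (r : ℂ) * S x y) where
  add_left x x' y := by rw [hS.add_left]; ring
  smul_left c x y := by rw [hS.smul_left]; ring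
  conj_symm x y := by rw [map_mul, hS.conj_symm, Complex.conj_ofReal]

/-- expansion of the diagonal -/
theorem self_add_smul (hS : Herm S) (x y : V) (c : ℂ) :
    (S (y + c • x) (y + c • x)).re = (S y y).re + 2 * (c * S x y).re + ‖c‖ ^ 2 * (S x x).re := by
  rw [hS.add_left, hS.add_right, hS.add_right, hS.smul_left, hS.smul_left, hS.smul_right,
    hS.smul_right, ← hS.conj_symm x y, hS.self_eq x]
  simp only [Complex.add_re, Complex.mul_re, Complex.conj_re, Complex.conj_im,
    Complex.ofReal_re, Complex.ofReal_im, Complex.mul_im, Complex.sq_norm,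
    Complex.normSq_apply]
  ring

/-- the squared area of the real parallelogram -/
def ar (S : V → V → ℂ) (x y : V) : ℝ := (S x x).re * (S y y).re - (S x y).re ^ 2

theorem ar_add_smul (hS : Herm S) (x y : V) (r : ℝ) : ar S x (y + (r : ℂ) • x) = ar S x y := by
  unfold ar
  rw [hS.self_add_smul, hS.add_right, hS.smul_right, hS.self_eq x]
  simp only [Complex.add_re, Complex.mul_re, Complex.conj_ofReal,
    Complex.ofReal_re, Complex.ofReal_im, Complex.norm_real, Real.norm_eq_abs, sq_abs]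
  ring

theorem im_add_smul (hS : Herm S) (x y : V) (r : ℝ) : (S x (y + (r : ℂ) • x)).im = (S x y).im := by
  rw [hS.add_right, hS.smul_right, hS.self_eq x]
  simp

theorem re_add_smul (hS : Herm S) (x y : V) (r : ℝ) :
    (S x (y + (r : ℂ) • x)).re = (S x y).re + r * (S x x).re := by
  rw [hS.add_right, hS.smul_right, hS.self_eq x]
  simp

/-- Cauchy-Schwarz -/
theorem cs (hS : Herm S) (h0 : ∀ x, 0 ≤ (S x x).re) (x y : V) :
    (S x y).re ^ 2 + (S x y).im ^ 2 ≤ (S x x).re * (S y y).re := by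
  rcases (h0 x).eq_or_lt with h | h
  · -- degenerate
    have key : ∀ t : ℝ, 0 ≤ (S y y).re + 2 * (t * ((S x y).re ^ 2 + (S x y).im ^ 2)) := by
      intro t
      have := h0 (y + ((t : ℂ) * conj (S x y)) • x)
      rw [hS.self_add_smul, ← h] at this
      simp only [Complex.mul_re, Complex.ofReal_re, Complex.ofReal_im, Complex.conj_re,
        Complex.conj_im, Complex.mul_im] at this
      nlinarith [this]
    by_contra hc
    push Not at hc
    rw [← h, zero_mul] at hc
    have h1 := key (-((S y y).re + 1) / (2 * ((S x y).re ^ 2 + (S x y).im ^ 2)))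
    have h2 : 2 * (-((S y y).re + 1) / (2 * ((S x y).re ^ 2 + (S x y).im ^ 2)) *
      ((S x y).re ^ 2 + (S x y).im ^ 2)) = -((S y y).re + 1) := by field_simp
    rw [h2] at h1
    linarith
  · have := h0 (y + (-(conj (S x y)) / ((S x x).re : ℂ)) • x)
    rw [hS.self_add_smul] at this
    have e1 : (-(conj (S x y)) / ((S x x).re : ℂ) * S x y).re
        = -((S x y).re ^ 2 + (S x y).im ^ 2) / (S x x).re := by
      rw [div_mul_eq_mul_div, neg_mul, ← Complex.normSq_eq_conj_mul_self, Complex.normSq_apply,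
        ← Complex.ofReal_neg, ← Complex.ofReal_div, Complex.ofReal_re]
      ring
    have e2 : ‖-(conj (S x y)) / ((S x x).re : ℂ)‖ ^ 2
        = ((S x y).re ^ 2 + (S x y).im ^ 2) / (S x x).re ^ 2 := by
      rw [norm_div, norm_neg, div_pow, RCLike.norm_conj, Complex.sq_norm, Complex.normSq_apply,
        Complex.norm_real, Real.norm_eq_abs, sq_abs]
      ring
    rw [e1, e2] at this
    have e3 : (S y y).re + 2 * (-((S x y).re ^ 2 + (S x y).im ^ 2) / (S x x).re)
      + ((S x y).re ^ 2 + (S x y).im ^ 2) / (S x x).re ^ 2 * (S x x).re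
      = ((S x x).re * (S y y).re - ((S x y).re ^ 2 + (S x y).im ^ 2)) / (S x x).re := by
      field_simp; ring
    rw [e3] at this
    have := (div_nonneg_iff.1 this)
    rcases this with h' | h'
    · linarith [h'.1]
    · linarith [h'.2]

theorem im_sq_le (hS : Herm S) (h0 : ∀ x, 0 ≤ (S x x).re) (x y : V) :
    (S x y).im ^ 2 ≤ ar S x y := by
  have := hS.cs h0 x y
  unfold ar; linarith

theorem ar_nonneg (hS : Herm S) (h0 : ∀ x, 0 ≤ (S x x).re) (x y : V) : 0 ≤ ar S x y :=
  le_trans (sq_nonneg _) (hS.im_sq_le h0 x y)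

/-- the existence of `r` with `Re T (x, y + r x) = 0` -/
theorem exists_orth (hT : Herm T) (hpd : ∀ x, x ≠ 0 → 0 < (T x x).re) (x y : V) :
    ∃ r : ℝ, (T x (y + (r : ℂ) • x)).re = 0 := by
  by_cases hx : x = 0
  · exact ⟨0, by subst hx; simp [hT.zero_left]⟩
  · refine ⟨-(T x y).re / (T x x).re, ?_⟩
    rw [hT.re_add_smul]
    have := hpd x hx
    field_simp; ring

/-- alternating forms are controlled by the area -/
theorem abs_im_le (hT : Herm T) (hpd : ∀ x, x ≠ 0 → 0 < (T x x).re) (hE : Herm E) {e : ℝ}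
    
    (h : ∀ x y, ‖E x y‖ ≤ e * Real.sqrt (T x x).re * Real.sqrt (T y y).re) (x y : V) :
    |(E x y).im| ≤ e * Real.sqrt (ar T x y) := by
  obtain ⟨r, hr⟩ := hT.exists_orth hpd x y
  rw [← hE.im_add_smul x y r, ← hT.ar_add_smul x y r]
  set y' := y + (r : ℂ) • x
  have h1 := (Complex.abs_im_le_norm (E x y')).trans (h x y')
  have h0 : ∀ x, 0 ≤ (T x x).re := fun x => by
    by_cases hx : x = 0
    · simp [hx, hT.zero_left]
    · exact (hpd x hx).le
  unfold ar
  rw [hr, zero_pow two_ne_zero, sub_zero, Real.sqrt_mul (h0 x)]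
  linarith

/-- monotonicity of the area -/
theorem ar_mono (hS : Herm S) (hT : Herm T) (hpd : ∀ x, x ≠ 0 → 0 < (T x x).re) {l : ℝ}
    (hl : 0 ≤ l) (h : ∀ x, l * (T x x).re ≤ (S x x).re) (x y : V) :
    l ^ 2 * ar T x y ≤ ar S x y := by
  have hT0 : ∀ x, 0 ≤ (T x x).re := fun x => by
    by_cases hx : x = 0
    · simp [hx, hT.zero_left]
    · exact (hpd x hx).le
  have hS0 : ∀ x, 0 ≤ (S x x).re := fun x => le_trans (mul_nonneg hl (hT0 x)) (h x)
  -- D = S - l T is nonnegative
  have hD : Herm (fun x y => S x y + ((-l : ℝ) : ℂ) * T x y) := hS.add (hT.const_mul (-l))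
  have hD0 : ∀ x, 0 ≤ (S x x + ((-l : ℝ) : ℂ) * T x x).re := by
    intro x
    have := h x
    simp only [Complex.add_re, Complex.re_ofReal_mul]
    linarith
  obtain ⟨r, hr⟩ := hT.exists_orth hpd x y
  rw [← hS.ar_add_smul x y r, ← hT.ar_add_smul x y r]
  set y' := y + (r : ℂ) • x
  have h1 := hD.cs hD0 x y'
  simp only [Complex.add_re, Complex.add_im, Complex.re_ofReal_mul, Complex.im_ofReal_mul, hr] at h1
  unfold ar
  rw [hr]
  have a1 := h x
  have a2 := h y'
  have b1 := hT0 x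
  have b2 := hT0 y'
  nlinarith [mul_nonneg (sub_nonneg.2 a1) (mul_nonneg hl b2), mul_nonneg (sub_nonneg.2 a2)
    (mul_nonneg hl b1), sq_nonneg ((S x y').im + -l * (T x y').im)]

/-- upper bound of the area -/
theorem ar_mono' (hS : Herm S) (hS0 : ∀ x, 0 ≤ (S x x).re) (hT : Herm T)
    (hpd : ∀ x, x ≠ 0 → 0 < (T x x).re) {l : ℝ}
    (hl : 0 ≤ l) (h : ∀ x, (S x x).re ≤ l * (T x x).re) (x y : V) :
    ar S x y ≤ l ^ 2 * ar T x y := by
  have hT0 : ∀ x, 0 ≤ (T x x).re := fun x => by
    by_cases hx : x = 0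
    · simp [hx, hT.zero_left]
    · exact (hpd x hx).le
  obtain ⟨r, hr⟩ := hT.exists_orth hpd x y
  rw [← hS.ar_add_smul x y r, ← hT.ar_add_smul x y r]
  set y' := y + (r : ℂ) • x
  unfold ar
  rw [hr]
  have a1 := h x
  have a2 := h y'
  have := mul_le_mul a1 a2 (hS0 y') (mul_nonneg hl (hT0 x))
  nlinarith [sq_nonneg (S x y').re]

/-- representation of conjugate linear functionals -/
theorem exists_rep [FiniteDimensional ℂ V] (hS : Herm S) (hpd : ∀ x, x ≠ 0 → 0 < (S x x).re)
    (f : V → ℂ) (hfa : ∀ x y, f (x + y) = f x + f y)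
    (hfs : ∀ (c : ℂ) (x : V), f (c • x) = conj c * f x) : ∃ v, ∀ w, S v w = f w := by
  classical
  let Ψ : V →ₗ[ℝ] Module.Dual ℂ V :=
    { toFun := fun v =>
        { toFun := fun w => S w v
          map_add' := fun w w' => hS.add_left w w' v
          map_smul' := fun c w => by simp [hS.smul_left] }
      map_add' := fun v v' => by
        ext w; simp [hS.add_right]
      map_smul' := fun r v => by
        ext w
        have : (r • v : V) = (r : ℂ) • v := by simp
        simp only [LinearMap.coe_mk, AddHom.coe_mk, RingHom.id_apply, LinearMap.smul_apply, this,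
          hS.smul_right, Complex.conj_ofReal, Complex.real_smul] }
  have hinj : Function.Injective Ψ := by
    rw [← LinearMap.ker_eq_bot, LinearMap.ker_eq_bot']
    intro v hv
    by_contra hne
    have h1 := hpd v hne
    have h2 : (Ψ v) v = 0 := by rw [hv]; rfl
    have h3 : S v v = 0 := h2
    rw [h3] at h1
    simp at h1
  have _ : FiniteDimensional ℝ V := FiniteDimensional.complexToReal V
  have _ : FiniteDimensional ℝ (Module.Dual ℂ V) :=
    Module.Finite.trans ℂ (Module.Dual ℂ V)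
  have hfr : Module.finrank ℝ V = Module.finrank ℝ (Module.Dual ℂ V) := by
    rw [← Module.finrank_mul_finrank ℝ ℂ V, ← Module.finrank_mul_finrank ℝ ℂ (Module.Dual ℂ V),
      Subspace.dual_finrank_eq]
  have hsurj := (LinearMap.injective_iff_surjective_of_finrank_eq_finrank hfr).1 hinj
  let F : Module.Dual ℂ V :=
    { toFun := fun w => conj (f w)
      map_add' := fun w w' => by simp [hfa]
      map_smul' := fun c w => by simp [hfs] }
  obtain ⟨v, hv⟩ := hsurj F
  refine ⟨v, fun w => ?_⟩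
  have h1 : (Ψ v) w = F w := by rw [hv]
  have h2 : S w v = conj (f w) := h1
  rw [← hS.conj_symm w v, h2, Complex.conj_conj]

/-- the curvature type form -/
def ck (S : V → V → ℂ) (x y : V) : ℝ :=
  (S x x).re * (S y y).re - (S x y).re ^ 2 + 3 * (S x y).im ^ 2

theorem ck_eq (S : V → V → ℂ) (x y : V) : ck S x y = ar S x y + 3 * (S x y).im ^ 2 := rfl

theorem ck_add_smul (hS : Herm S) (x y : V) (r : ℝ) : ck S x (y + (r : ℂ) • x) = ck S x y := by
  rw [ck_eq, ck_eq, hS.ar_add_smul, hS.im_add_smul]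

theorem nonneg_of_pd (hT : Herm T) (hpd : ∀ x, x ≠ 0 → 0 < (T x x).re) (x : V) :
    0 ≤ (T x x).re := by
  by_cases hx : x = 0
  · simp [hx, hT.zero_left]
  · exact (hpd x hx).le

/-- perturbation of `ck` -/
theorem ck_pert (hT : Herm T) (hpd : ∀ x, x ≠ 0 → 0 < (T x x).re) (hS : Herm S) {σ e : ℝ} (hσ : 0 ≤ σ) (he : 0 ≤ e)
    (hST : ∀ x y, S x y = (σ : ℂ) * T x y + E x y)
    (h : ∀ x y, ‖E x y‖ ≤ e * Real.sqrt (T x x).re * Real.sqrt (T y y).re) (x y : V) :
    |ck S x y - σ ^ 2 * ck T x y| ≤ (8 * σ * e + 5 * e ^ 2) * ar T x y := by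
  obtain ⟨r, hr⟩ := hT.exists_orth hpd x y
  rw [← hS.ck_add_smul x y r, ← hT.ar_add_smul x y r, ← hT.ck_add_smul x y r]
  set y' := y + (r : ℂ) • x
  have h0 := hT.nonneg_of_pd hpd
  set p := Real.sqrt (T x x).re with hp
  set t := Real.sqrt (T y' y').re with ht
  have hp0 : 0 ≤ p := Real.sqrt_nonneg _
  have ht0 : 0 ≤ t := Real.sqrt_nonneg _
  have hp2 : (T x x).re = p ^ 2 := (Real.sq_sqrt (h0 x)).symm
  have ht2 : (T y' y').re = t ^ 2 := (Real.sq_sqrt (h0 y')).symm
  have a1 : |(E x x).re| ≤ e * p * p := (Complex.abs_re_le_norm _).trans (h x x)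
  have a2 : |(E y' y').re| ≤ e * t * t := (Complex.abs_re_le_norm _).trans (h y' y')
  have a3 : |(E x y').re| ≤ e * p * t := (Complex.abs_re_le_norm _).trans (h x y')
  have a4 : |(E x y').im| ≤ e * p * t := (Complex.abs_im_le_norm _).trans (h x y')
  have a5 : |(T x y').im| ≤ p * t := by
    have := hT.cs h0 x y'
    apply abs_le_of_sq_le_sq _ (by positivity)
    rw [hp2, ht2] at this
    nlinarith [sq_nonneg (T x y').re]
  unfold ck ar
  rw [hST, hST, hST]
  simp only [Complex.add_re, Complex.add_im, Complex.re_ofReal_mul, Complex.im_ofReal_mul, hr, hp2,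
    ht2]
  set e1 := (E x x).re
  set e2 := (E y' y').re
  set e3 := (E x y').re
  set e4 := (E x y').im
  set I := (T x y').im
  have hid : (σ * p ^ 2 + e1) * (σ * t ^ 2 + e2) - (σ * 0 + e3) ^ 2 + 3 * (σ * I + e4) ^ 2
      - σ ^ 2 * (p ^ 2 * t ^ 2 - 0 ^ 2 + 3 * I ^ 2)
      = σ * p ^ 2 * e2 + σ * t ^ 2 * e1 + e1 * e2 - e3 ^ 2 + 6 * σ * (I * e4) + 3 * e4 ^ 2 := by
    ring
  rw [hid]
  have b1 : |σ * p ^ 2 * e2| ≤ σ * e * (p ^ 2 * t ^ 2) := by
    rw [abs_mul, abs_of_nonneg (by positivity : 0 ≤ σ * p ^ 2)]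
    calc σ * p ^ 2 * |e2| ≤ σ * p ^ 2 * (e * t * t) := by gcongr
      _ = _ := by ring
  have b2 : |σ * t ^ 2 * e1| ≤ σ * e * (p ^ 2 * t ^ 2) := by
    rw [abs_mul, abs_of_nonneg (by positivity : 0 ≤ σ * t ^ 2)]
    calc σ * t ^ 2 * |e1| ≤ σ * t ^ 2 * (e * p * p) := by gcongr
      _ = _ := by ring
  have b3 : |e1 * e2| ≤ e ^ 2 * (p ^ 2 * t ^ 2) := by
    rw [abs_mul]
    calc |e1| * |e2| ≤ (e * p * p) * (e * t * t) := by gcongr
      _ = _ := by ring
  have b4 : |e3 ^ 2| ≤ e ^ 2 * (p ^ 2 * t ^ 2) := by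
    rw [abs_pow]
    calc |e3| ^ 2 ≤ (e * p * t) ^ 2 := by gcongr
      _ = _ := by ring
  have b5 : |6 * σ * (I * e4)| ≤ 6 * σ * e * (p ^ 2 * t ^ 2) := by
    rw [abs_mul, abs_mul I, abs_of_nonneg (by positivity : 0 ≤ 6 * σ)]
    calc 6 * σ * (|I| * |e4|) ≤ 6 * σ * ((p * t) * (e * p * t)) := by gcongr
      _ = _ := by ring
  have b6 : |3 * e4 ^ 2| ≤ 3 * e ^ 2 * (p ^ 2 * t ^ 2) := by
    rw [abs_mul, abs_pow, abs_of_nonneg (by norm_num : (0:ℝ) ≤ 3)]
    calc 3 * |e4| ^ 2 ≤ 3 * (e * p * t) ^ 2 := by gcongr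
      _ = _ := by ring
  have e0 : p ^ 2 * t ^ 2 - 0 ^ 2 = p ^ 2 * t ^ 2 := by ring
  rw [e0]
  rw [abs_le] at b1 b2 b3 b4 b5 b6 ⊢
  constructor <;> linarith [b1.1, b1.2, b2.1, b2.2, b3.1, b3.2, b4.1, b4.2, b5.1, b5.2, b6.1, b6.2]

/-- lower bound for the total area -/
theorem gram_lower (hS : Herm S) (h0 : ∀ x, 0 ≤ (S x x).re) (x y u : V) (α β : ℂ)
    (hu : u = conj α • y - conj β • x) :
    (1 / 2) * ar S x y + (1 / 2) * (S u u).re + (α * conj β).im ^ 2 ≤
      ar S x y + (S u u).re - 2 * (α * conj β).im * (S x y).im + (α * conj β).im ^ 2 := by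
  have h1 := hS.im_sq_le h0 x y
  have h2 := h0 (β • x + (-α) • y)
  have h3 : (S (β • x + (-α) • y) (β • x + (-α) • y)).re
      = (S u u).re - 4 * (α * conj β).im * (S x y).im := by
    have hu' : u = (conj α) • y + (-(conj β)) • x := by rw [hu, neg_smul, sub_eq_add_neg]
    rw [hu']
    simp only [hS.add_left, hS.add_right, hS.smul_left, hS.smul_right, Complex.add_re,
      map_neg, Complex.conj_conj]
    rw [← hS.conj_symm x y, hS.self_eq x, hS.self_eq y]
    simp only [Complex.mul_re, Complex.mul_im, Complex.conj_re, Complex.conj_im,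
      Complex.ofReal_re, Complex.ofReal_im, Complex.neg_re, Complex.neg_im]
    ring
  rw [h3] at h2
  nlinarith

theorem gram_upper (hS : Herm S) (h0 : ∀ x, 0 ≤ (S x x).re) (x y u : V) (q : ℝ) :
    ar S x y + (S u u).re - 2 * q * (S x y).im + q ^ 2 ≤
      2 * (ar S x y + (S u u).re + q ^ 2) := by
  have h1 := hS.im_sq_le h0 x y
  have h2 := h0 u
  nlinarith [sq_nonneg (q + (S x y).im)]

end Herm

end Crest.Agent.R245
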