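import Mathlib

set_option autoImplicit false

namespace Crest.Agent.R245

/-- the coefficient `m₀` -/
theorem m0_bounds {g σ y L s : ℝ} (hs : 0 < s) (hsσ : s ≤ σ) (hσ : σ ≤ 1) (hg : 1 ≤ g)
    (hgL : g ≤ L) (hy : 0 ≤ y) :
    σ * (1 + y) ≤ (1 + 2 * y) * σ - y * (1 + y) * σ ^ 2 / (g + y * σ) ∧
      (1 + 2 * y) * σ - y * (1 + y) * σ ^ 2 / (g + y * σ) ≤ (1 + 2 * y) * σ ∧
      (1 + 2 * y) * σ - y * (1 + y) * σ ^ 2 / (g + y * σ) ≤ σ * y + g := by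
  have hσ0 : 0 < σ := lt_of_lt_of_le hs hsσ
  have hD : 0 < g + y * σ := by positivity
  have e : (1 + 2 * y) * σ - y * (1 + y) * σ ^ 2 / (g + y * σ)
      = σ * y + σ * (g * (1 + y)) / (g + y * σ) := by
    field_simp; ring
  refine ⟨?_, ?_, ?_⟩
  · rw [e]
    have : σ ≤ σ * (g * (1 + y)) / (g + y * σ) := by
      rw [le_div_iff₀ hD]
      have : g + y * σ ≤ g * (1 + y) := by nlinarith
      nlinarith
    linarith
  · have : 0 ≤ y * (1 + y) * σ ^ 2 / (g + y * σ) := by positivity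
    linarith
  · rw [e]
    have : σ * (g * (1 + y)) / (g + y * σ) ≤ g := by
      rw [div_le_iff₀ hD]
      have h1 : σ * (1 + y) ≤ g + y * σ := by nlinarith
      nlinarith
    linarith

/-- the discriminant estimate -/
theorem m0_sq {g σ y L s : ℝ} (hs : 0 < s) (hsσ : s ≤ σ) (hσ : σ ≤ 1) (hg : 1 ≤ g)
    (hgL : g ≤ L) (hy : 0 ≤ y) :
    ((1 + 2 * y) * σ - y * (1 + y) * σ ^ 2 / (g + y * σ)) ^ 2 ≤
      4 * (1 - 3 / (4 * L * (1 + 3 * L / s) ^ 2)) * (y * (1 + y) * σ ^ 2 + (g + y * σ)) := by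
  have hσ0 : 0 < σ := lt_of_lt_of_le hs hsσ
  have hL : 1 ≤ L := hg.trans hgL
  obtain ⟨h1, h2, h3⟩ := m0_bounds hs hsσ hσ hg hgL hy
  set m := (1 + 2 * y) * σ - y * (1 + y) * σ ^ 2 / (g + y * σ) with hm
  have hm0 : 0 ≤ m := le_trans (by positivity) h1
  set T := y * (1 + y) * σ ^ 2 + (g + y * σ) with hT
  have hT0 : 0 < T := by positivity
  set K := 3 * L / s with hK
  have hK0 : 0 < K := by positivity
  have hs1 : s ≤ 1 := hsσ.trans hσ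
  have hKge : 3 ≤ K := by
    rw [hK, le_div_iff₀ hs]; nlinarith
  set c := 3 / (4 * L * (1 + K) ^ 2) with hc
  have hden : 0 < 4 * L * (1 + K) ^ 2 := by positivity
  rcases le_total y K with hyK | hyK
  · -- bounded range
    have a1 : m ^ 2 ≤ ((1 + 2 * y) * σ) ^ 2 := by gcongr
    have a2 : 3 ≤ 4 * T - m ^ 2 := by
      have : ((1 + 2 * y) * σ) ^ 2 = 4 * (y * (1 + y) * σ ^ 2) + σ ^ 2 := by ring
      have h4 : σ ^ 2 ≤ 1 := by nlinarith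
      have h5 : 0 ≤ y * σ := by positivity
      rw [hT]; linarith
    have a3 : T ≤ L * (1 + K) ^ 2 := by
      have b1 : T ≤ L * (1 + y) ^ 2 := by
        have c1 : y * (1 + y) * σ ^ 2 ≤ y * (1 + y) * 1 := by
          have : σ ^ 2 ≤ 1 := by nlinarith
          gcongr
        have c2 : y * σ ≤ y * 1 := by gcongr
        have c3 : 0 ≤ (L - 1) * (2 * y + y ^ 2) := by
          apply mul_nonneg <;> nlinarith
        rw [hT]; linarith
      have b2 : (1 + y) ^ 2 ≤ (1 + K) ^ 2 := by gcongr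
      have b3 : L * (1 + y) ^ 2 ≤ L * (1 + K) ^ 2 := by gcongr
      linarith
    have a4 : 4 * c * T ≤ 3 := by
      have : 4 * c * T = 3 * T / (L * (1 + K) ^ 2) := by
        rw [hc]; field_simp
      rw [this, div_le_iff₀ (by positivity)]
      linarith
    linarith
  · -- large range
    have b0 : 3 * L ≤ σ * y := by
      have : s * K = 3 * L := by rw [hK]; field_simp
      calc 3 * L = s * K := this.symm
        _ ≤ σ * y := by gcongr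
    have b1 : m ≤ (4 / 3) * (σ * y) := by linarith
    have b2 : m ^ 2 ≤ ((4 / 3) * (σ * y)) ^ 2 := by gcongr
    have b3 : (σ * y) ^ 2 ≤ T := by
      rw [hT]
      have e1 : y * (1 + y) * σ ^ 2 = (σ * y) ^ 2 + y * σ ^ 2 := by ring
      have e2 : 0 ≤ y * σ ^ 2 := by positivity
      have e3 : 0 ≤ y * σ := by positivity
      linarith
    have b4 : c ≤ 5 / 9 := by
      rw [hc, div_le_div_iff₀ hden (by norm_num)]
      have b5 : 16 ≤ (1 + K) ^ 2 := by nlinarith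
      have b6 : 1 * 16 ≤ L * (1 + K) ^ 2 := by gcongr
      linarith
    have b7 := mul_nonneg (sub_nonneg.2 b4) hT0.le
    linarith

/-- the quadratic form part -/
theorem quad_part {c T m a I q : ℝ} (hc : 0 < c) (hc1 : c ≤ 1) (hT : 0 < T)
    (hm : m ^ 2 ≤ 4 * (1 - c) * T) (hI : I ^ 2 ≤ a) :
    c * q ^ 2 + (c / 2) * (T * a) ≤ 4 * q ^ 2 + 4 * q * (m * I) + T * (a + 3 * I ^ 2) := by
  have h1 : (1 - c / 2) * T * I ^ 2 ≤ (1 - c / 2) * T * a := by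
    apply mul_le_mul_of_nonneg_left hI
    apply mul_nonneg <;> linarith
  have h2 : 0 ≤ (4 - c) * q ^ 2 + 4 * q * (m * I) + (4 - c / 2) * T * I ^ 2 := by
    -- complete the square
    have h4c : 0 < 4 - c := by linarith
    have h3 : (4 - c) * ((4 - c) * q ^ 2 + 4 * q * (m * I) + (4 - c / 2) * T * I ^ 2)
        = ((4 - c) * q + 2 * (m * I)) ^ 2 + ((4 - c) * (4 - c / 2) * T - 4 * m ^ 2) * I ^ 2 := by
      ring
    have h4 : 0 ≤ (4 - c) * (4 - c / 2) * T - 4 * m ^ 2 := by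
      have : 16 * (1 - c) * T ≤ (4 - c) * (4 - c / 2) * T := by
        apply mul_le_mul_of_nonneg_right _ hT.le
        nlinarith
      nlinarith
    have h5 : 0 ≤ (4 - c) * ((4 - c) * q ^ 2 + 4 * q * (m * I) + (4 - c / 2) * T * I ^ 2) := by
      rw [h3]; positivity
    exact nonneg_of_mul_nonneg_right h5 h4c
  nlinarith

/-- the lower bound in the transition region; `Y = 1 + y`, `r = √a`, `v = √U` -/
theorem final_lower {C δ c s Y y m T g σ r v I q M Mi Kφ KH X : ℝ}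
    (hC : 1 ≤ C) (hc : 0 < c) (hc1 : c ≤ 1) (hs : 0 < s) (hs1 : s ≤ 1)
    (hδ0 : 0 ≤ δ) (hδ : C * δ ≤ c * s ^ 2 / 32)
    (hy : 0 ≤ y) (hY : Y = 1 + y) (hm1 : s * Y ≤ m) (hT : T = y * (1 + y) * σ ^ 2 + (g + y * σ))
    (hT1 : s ^ 2 * Y ^ 2 ≤ T) (hm : m ^ 2 ≤ 4 * (1 - c) * T) (hr : 0 ≤ r) (hv : 0 ≤ v)
    (hI : I ^ 2 ≤ r ^ 2)
    (hM : |M - m * v ^ 2| ≤ C * δ * Y * v ^ 2)
    (hMi : |Mi - m * I| ≤ C * δ * Y * r)
    (hKφ : |Kφ - σ ^ 2 * (r ^ 2 + 3 * I ^ 2)| ≤ C * δ * r ^ 2)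
    (hKH : |KH - (g + y * σ) * (r ^ 2 + 3 * I ^ 2)| ≤ C * δ * Y * r ^ 2)
    (hX : |X| ≤ C * δ * Y * r * v) :
    (c * s ^ 2 / 4) * (Y * v ^ 2 + q ^ 2 + Y ^ 2 * r ^ 2) ≤
      M + 4 * q ^ 2 + 4 * q * Mi + y * (1 + y) * Kφ + KH + X := by
  have hY1 : 1 ≤ Y := by linarith
  have hT0 : 0 < T := lt_of_lt_of_le (by positivity) hT1
  set d := C * δ with hd
  have hd0 : 0 ≤ d := by positivity
  have hs2 : s ^ 2 ≤ 1 := by nlinarith
  have hs3 : 0 < s ^ 2 := by positivity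
  -- (1)
  have h1 : s * Y * v ^ 2 - d * Y * v ^ 2 ≤ M := by
    have := (abs_le.1 hM).1
    have h : s * Y * v ^ 2 ≤ m * v ^ 2 := by gcongr
    linarith
  -- (2)
  have h2 : 4 * q * (m * I) - (c / 4) * q ^ 2 - (16 * d ^ 2 / c) * (Y ^ 2 * r ^ 2)
      ≤ 4 * q * Mi := by
    have e1 : |4 * q * (Mi - m * I)| ≤ 4 * |q| * (d * Y * r) := by
      rw [abs_mul, abs_mul]
      have : |(4:ℝ)| = 4 := by norm_num
      rw [this]
      gcongr
    have e2 : 4 * |q| * (d * Y * r) ≤ (c / 4) * q ^ 2 + (16 * d ^ 2 / c) * (Y ^ 2 * r ^ 2) := by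
      have e3 : 0 ≤ (Real.sqrt c / 2 * |q| - 4 * d / Real.sqrt c * (Y * r)) ^ 2 := sq_nonneg _
      have e4 : (Real.sqrt c) ^ 2 = c := Real.sq_sqrt hc.le
      have e5 : 0 < Real.sqrt c := Real.sqrt_pos.2 hc
      have e6 : (Real.sqrt c / 2 * |q| - 4 * d / Real.sqrt c * (Y * r)) ^ 2
          = (Real.sqrt c) ^ 2 / 4 * |q| ^ 2 + 16 * d ^ 2 / (Real.sqrt c) ^ 2 * (Y ^ 2 * r ^ 2)
            - 4 * |q| * (d * Y * r) := by
        field_simp; ring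
      rw [e6, e4, sq_abs] at e3
      linarith
    have := (abs_le.1 (e1.trans e2)).1
    linarith
  -- (3)
  have h3 : y * (1 + y) * (σ ^ 2 * (r ^ 2 + 3 * I ^ 2)) - d * (Y ^ 2 * r ^ 2) ≤
      y * (1 + y) * Kφ := by
    have := (abs_le.1 hKφ).1
    have e1 : y * (1 + y) * (σ ^ 2 * (r ^ 2 + 3 * I ^ 2) - d * r ^ 2) ≤ y * (1 + y) * Kφ := by
      apply mul_le_mul_of_nonneg_left _ (by positivity)
      linarith
    have e2 : y * (1 + y) * (d * r ^ 2) ≤ Y ^ 2 * (d * r ^ 2) := by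
      apply mul_le_mul_of_nonneg_right _ (by positivity)
      rw [hY]; nlinarith only [hy]
    linarith
  -- (4)
  have h4 : (g + y * σ) * (r ^ 2 + 3 * I ^ 2) - d * (Y ^ 2 * r ^ 2) ≤ KH := by
    have := (abs_le.1 hKH).1
    have e2 : d * Y * r ^ 2 ≤ d * (Y ^ 2 * r ^ 2) := by
      have e3 : Y * r ^ 2 ≤ Y ^ 2 * r ^ 2 := by
        apply mul_le_mul_of_nonneg_right _ (by positivity)
        nlinarith only [hY1]
      have e4 : d * (Y * r ^ 2) ≤ d * (Y ^ 2 * r ^ 2) := by gcongr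
      linarith
    linarith
  -- (5)
  have h5 : -(d / 2 * (Y ^ 2 * r ^ 2)) - d / 2 * (Y * v ^ 2) ≤ X := by
    have := (abs_le.1 hX).1
    have e1 : d * Y * r * v ≤ d * Y * ((r ^ 2 + v ^ 2) / 2) := by
      rw [mul_assoc (d * Y) r v]
      apply mul_le_mul_of_nonneg_left _ (by positivity)
      nlinarith only [sq_nonneg (r - v)]
    have e2 : Y * r ^ 2 ≤ Y ^ 2 * r ^ 2 := by
      apply mul_le_mul_of_nonneg_right _ (by positivity)
      nlinarith only [hY1]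
    have e3 : d * (Y * r ^ 2) ≤ d * (Y ^ 2 * r ^ 2) := by gcongr
    linarith
  -- quadratic part
  have h6 := quad_part (q := q) hc hc1 hT0 hm hI
  have h7 : (c / 2) * (s ^ 2 * Y ^ 2 * r ^ 2) ≤ (c / 2) * (T * r ^ 2) := by
    apply mul_le_mul_of_nonneg_left _ (by positivity)
    apply mul_le_mul_of_nonneg_right hT1 (by positivity)
  have h8 : 16 * d ^ 2 / c ≤ c * s ^ 2 / 64 := by
    rw [div_le_iff₀ hc]
    have : d ^ 2 ≤ (c * s ^ 2 / 32) ^ 2 := by gcongr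
    have e : (c * s ^ 2 / 32) ^ 2 = c ^ 2 * (s ^ 2 * s ^ 2) / 1024 := by ring
    have e2 : c ^ 2 * (s ^ 2 * s ^ 2) ≤ c ^ 2 * (s ^ 2 * 1) := by gcongr
    have e3 : c * s ^ 2 / 64 * c = c ^ 2 * (s ^ 2 * 1) / 64 := by ring
    rw [e3]; linarith
  have hYr : 0 ≤ Y ^ 2 * r ^ 2 := by positivity
  have hYv : 0 ≤ Y * v ^ 2 := by positivity
  have h9 : (16 * d ^ 2 / c) * (Y ^ 2 * r ^ 2) ≤ (c * s ^ 2 / 64) * (Y ^ 2 * r ^ 2) := by gcongr
  have h10 : d * (Y ^ 2 * r ^ 2) ≤ (c * s ^ 2 / 32) * (Y ^ 2 * r ^ 2) := by gcongr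
  have h11 : d * (Y * v ^ 2) ≤ (c * s ^ 2 / 32) * (Y * v ^ 2) := by gcongr
  have h12 : (c * s ^ 2) * (Y * v ^ 2) ≤ s * (Y * v ^ 2) := by
    apply mul_le_mul_of_nonneg_right _ hYv
    have e1 : c * s ^ 2 ≤ 1 * s ^ 2 := by gcongr
    have e2 : s ^ 2 ≤ s := by nlinarith only [hs, hs1]
    linarith
  have h13 : (c * s ^ 2) * q ^ 2 ≤ c * q ^ 2 := by
    apply mul_le_mul_of_nonneg_right _ (sq_nonneg q)
    nlinarith only [hc, hs2]
  have hq : 0 ≤ c * q ^ 2 := by positivity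
  have hcs : 0 ≤ c * s ^ 2 * (Y ^ 2 * r ^ 2) := by positivity
  have hcs2 : 0 ≤ c * s ^ 2 * (Y * v ^ 2) := by positivity
  have hcs3 : 0 ≤ c * s ^ 2 * q ^ 2 := by positivity
  have h14 : T * (r ^ 2 + 3 * I ^ 2) = y * (1 + y) * (σ ^ 2 * (r ^ 2 + 3 * I ^ 2))
      + (g + y * σ) * (r ^ 2 + 3 * I ^ 2) := by rw [hT]; ring
  linarith

/-- the upper bound -/
theorem final_upper {d Y y m L g σ r v I q M Mi Kφ KH X : ℝ}
    (hd0 : 0 ≤ d) (hd : d ≤ 1) (hL : 1 ≤ L) (hgL : g + y * σ ≤ L * Y)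
    (hg0 : 0 ≤ g + y * σ) (hσ : σ ^ 2 ≤ 1)
    (hy : 0 ≤ y) (hY : Y = 1 + y) (hm0 : 0 ≤ m) (hm1 : m ≤ 2 * Y) (hr : 0 ≤ r) (hv : 0 ≤ v)
    (hI : I ^ 2 ≤ r ^ 2)
    (hM : |M - m * v ^ 2| ≤ d * Y * v ^ 2)
    (hMi : |Mi - m * I| ≤ d * Y * r)
    (hKφ : |Kφ - σ ^ 2 * (r ^ 2 + 3 * I ^ 2)| ≤ d * r ^ 2)
    (hKH : |KH - (g + y * σ) * (r ^ 2 + 3 * I ^ 2)| ≤ d * Y * r ^ 2)
    (hX : |X| ≤ d * Y * r * v) :
    M + 4 * q ^ 2 + 4 * q * Mi + y * (1 + y) * Kφ + KH + X ≤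
      (20 * L) * (Y * v ^ 2 + q ^ 2 + Y ^ 2 * r ^ 2) := by
  have hY1 : 1 ≤ Y := by linarith
  have hYr : 0 ≤ Y ^ 2 * r ^ 2 := by positivity
  have hYv : 0 ≤ Y * v ^ 2 := by positivity
  have hIr : |I| ≤ r := abs_le_of_sq_le_sq hI hr
  have h1 : M ≤ 3 * (Y * v ^ 2) := by
    have := (abs_le.1 hM).2
    have e1 : m * v ^ 2 ≤ 2 * Y * v ^ 2 := by gcongr
    have e2 : d * Y * v ^ 2 ≤ 1 * Y * v ^ 2 := by gcongr
    linarith
  have h2 : 4 * q * Mi ≤ 6 * (q ^ 2 + Y ^ 2 * r ^ 2) := by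
    have e1 : |Mi| ≤ 3 * Y * r := by
      have f1 : |Mi| ≤ |Mi - m * I| + |m * I| := by
        have := abs_add_le (Mi - m * I) (m * I); simpa using this
      have f2 : |m * I| ≤ 2 * Y * r := by
        rw [abs_mul, abs_of_nonneg hm0]; gcongr
      have f3 : d * Y * r ≤ 1 * Y * r := by gcongr
      linarith
    have e2 : q * Mi ≤ |q| * (3 * Y * r) := by
      calc q * Mi ≤ |q * Mi| := le_abs_self _
        _ = |q| * |Mi| := abs_mul _ _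
        _ ≤ |q| * (3 * Y * r) := by gcongr
    have e3 : |q| * (Y * r) ≤ (q ^ 2 + Y ^ 2 * r ^ 2) / 2 := by
      have e4 := sq_nonneg (|q| - Y * r)
      have h := sq_abs q
      nlinarith only [e4, h]
    linarith
  have h3 : y * (1 + y) * Kφ ≤ 5 * (Y ^ 2 * r ^ 2) := by
    have := (abs_le.1 hKφ).2
    have e1 : Kφ ≤ 5 * r ^ 2 := by
      have f1 : σ ^ 2 * (r ^ 2 + 3 * I ^ 2) ≤ 1 * (r ^ 2 + 3 * r ^ 2) := by gcongr
      have f2 : d * r ^ 2 ≤ 1 * r ^ 2 := by gcongr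
      linarith
    calc y * (1 + y) * Kφ ≤ y * (1 + y) * (5 * r ^ 2) := by gcongr
      _ ≤ Y ^ 2 * (5 * r ^ 2) := by
        apply mul_le_mul_of_nonneg_right _ (by positivity)
        rw [hY]; nlinarith only [hy]
      _ = 5 * (Y ^ 2 * r ^ 2) := by ring
  have h4 : KH ≤ 5 * L * (Y ^ 2 * r ^ 2) := by
    have := (abs_le.1 hKH).2
    have f1 : (g + y * σ) * (r ^ 2 + 3 * I ^ 2) ≤ (L * Y) * (r ^ 2 + 3 * r ^ 2) := by gcongr
    have f2 : d * Y * r ^ 2 ≤ 1 * Y * r ^ 2 := by gcongr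
    have f3 : Y * r ^ 2 ≤ Y ^ 2 * r ^ 2 := by
      apply mul_le_mul_of_nonneg_right _ (by positivity)
      nlinarith only [hY1]
    have f4 : L * (Y * r ^ 2) ≤ L * (Y ^ 2 * r ^ 2) := by gcongr
    have f5 : 1 * (Y * r ^ 2) ≤ L * (Y * r ^ 2) := by gcongr
    linarith
  have h5 : X ≤ (1 / 2) * (Y ^ 2 * r ^ 2) + (1 / 2) * (Y * v ^ 2) := by
    have := (abs_le.1 hX).2
    have e1 : d * Y * r * v ≤ 1 * Y * r * v := by gcongr
    have e2 : Y * (r * v) ≤ Y * ((r ^ 2 + v ^ 2) / 2) := by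
      apply mul_le_mul_of_nonneg_left _ (by positivity)
      nlinarith only [sq_nonneg (r - v)]
    have e3 : Y * r ^ 2 ≤ Y ^ 2 * r ^ 2 := by
      apply mul_le_mul_of_nonneg_right _ (by positivity)
      nlinarith only [hY1]
    linarith
  have h6 : 1 * (Y * v ^ 2) ≤ L * (Y * v ^ 2) := by gcongr
  have h7 : 1 * q ^ 2 ≤ L * q ^ 2 := by gcongr
  have h8 : 1 * (Y ^ 2 * r ^ 2) ≤ L * (Y ^ 2 * r ^ 2) := by gcongr
  have h9 : 0 ≤ q ^ 2 := sq_nonneg q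
  linarith

end Crest.Agent.R245
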