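import Crest.Agent.R245.BasePert
import Crest.Agent.R245.CurvAux
import Crest.Agent.R245.CurvNum

set_option autoImplicit false

namespace Crest.Agent.R245

open Complex Filter Topology
open scoped ContDiff ComplexConjugate

section Gen

variable {V : Type*} [NormedAddCommGroup V] [NormedSpace ℝ V] [NormedSpace ℂ V] [IsScalarTower ℝ ℂ V]
variable {P : V → ℝ} {p : V}

theorem herm_D11 (hP : ContDiffAt ℝ ∞ P p) : Herm (fun X Y => D11 P X Y p) where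
  add_left x x' y := D11_add_left hP x x' y
  smul_left c x y := D11_smul_left hP c x y
  conj_symm x y := D11_conj hP x y

theorem area_eq_ar (P : V → ℝ) (p X Y : V) : area P p X Y = Herm.ar (fun X Y => D11 P X Y p) X Y :=
  rfl

theorem exists_isGam [FiniteDimensional ℂ V] (hP : ContDiffAt ℝ ∞ P p) (hpd : PD P p) (X Y : V) :
    ∃ Γ, IsGam P p X Y Γ :=
  (herm_D11 hP).exists_rep hpd (fun Z => D21 P X Y Z p) (fun Z Z' => D21_add_3 hP X Y Z Z')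
    (fun c Z => D21_smul_3 hP c X Y Z)

theorem exists_kappa [FiniteDimensional ℂ V] {Q : V → ℝ} (hP : ContDiffAt ℝ ∞ P p)
    (hpd : PD P p) (hQ : ContDiffAt ℝ ∞ Q p) :
    ∃ κ : V → V, ∀ v w, D11 P (κ v) w p = D11 Q v w p := by
  choose κ hκ using fun v => (herm_D11 hP).exists_rep hpd (fun w => D11 Q v w p)
    (fun w w' => D11_add_right hQ v w w') (fun c w => D11_smul_right hQ c v w)
  exact ⟨κ, hκ⟩

end Gen

theorem calK_eq_ck (S : B2 → ℝ) (b ξ η : B2) :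
    calK S b ξ η = Herm.ck (fun X Y => D11 S X Y b) ξ η := rfl

/-- the model form at `q0` -/
theorem om_eq (ξ : B2) : (D11 aS ξ ξ q0).re = ‖ξ.1‖ ^ 2 + (1 / 4) * ‖ξ.2‖ ^ 2 := by
  rw [aS_D11_q0]
  simp only [Complex.add_re, Complex.mul_re, Complex.conj_re, Complex.conj_im, Complex.sq_norm,
    Complex.normSq_apply]
  norm_num

theorem om_pd (ξ : B2) (hξ : ξ ≠ 0) : 0 < (D11 aS ξ ξ q0).re := by
  rw [om_eq]
  by_contra h
  push Not at h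
  have h1 : ‖ξ.1‖ = 0 := by nlinarith [sq_nonneg ‖ξ.1‖, sq_nonneg ‖ξ.2‖]
  have h2 : ‖ξ.2‖ = 0 := by nlinarith [sq_nonneg ‖ξ.1‖, sq_nonneg ‖ξ.2‖]
  exact hξ (Prod.ext (norm_eq_zero.1 h1) (norm_eq_zero.1 h2))

theorem om_nonneg (ξ : B2) : 0 ≤ (D11 aS ξ ξ q0).re := by
  rw [om_eq]; positivity

theorem norm_le_om (ξ : B2) : ‖ξ‖ ≤ 2 * Real.sqrt (D11 aS ξ ξ q0).re := by
  rw [om_eq]
  have h1 : ‖ξ.1‖ ≤ 2 * Real.sqrt (‖ξ.1‖ ^ 2 + (1 / 4) * ‖ξ.2‖ ^ 2) := by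
    have : ‖ξ.1‖ ≤ Real.sqrt (‖ξ.1‖ ^ 2 + (1 / 4) * ‖ξ.2‖ ^ 2) := by
      apply Real.le_sqrt_of_sq_le
      nlinarith [sq_nonneg ‖ξ.2‖]
    have := Real.sqrt_nonneg (‖ξ.1‖ ^ 2 + (1 / 4) * ‖ξ.2‖ ^ 2)
    linarith
  have h2 : ‖ξ.2‖ ≤ 2 * Real.sqrt (‖ξ.1‖ ^ 2 + (1 / 4) * ‖ξ.2‖ ^ 2) := by
    have : ‖ξ.2‖ / 2 ≤ Real.sqrt (‖ξ.1‖ ^ 2 + (1 / 4) * ‖ξ.2‖ ^ 2) := by
      apply Real.le_sqrt_of_sq_le
      nlinarith [sq_nonneg ‖ξ.1‖]
    linarith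
  rw [Prod.norm_def]
  exact max_le h1 h2

theorem aS_at : ContDiffAt ℝ ∞ aS q0 := aS_contDiffAt q0_mem

theorem herm_aS : Herm (fun X Y => D11 aS X Y q0) := herm_D11 aS_at

theorem jet_D11_le {E : B2 → ℝ} {e : ℝ} (hE : ContDiffAt ℝ ∞ E q0) (h : JetB E e) (ξ η : B2) :
    ‖D11 E ξ η q0‖ ≤ (4 * e) * Real.sqrt (D11 aS ξ ξ q0).re * Real.sqrt (D11 aS η η q0).re := by
  have h1 := D11_le hE ξ η
  have h2 := h 2 (by norm_num) (by norm_num)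
  have h3 := norm_le_om ξ
  have h4 := norm_le_om η
  have he : 0 ≤ e := le_trans (norm_nonneg _) h2
  calc ‖D11 E ξ η q0‖ ≤ ‖iteratedFDeriv ℝ 2 E q0‖ * ‖ξ‖ * ‖η‖ := h1
    _ ≤ e * (2 * Real.sqrt (D11 aS ξ ξ q0).re) * (2 * Real.sqrt (D11 aS η η q0).re) := by gcongr
    _ = _ := by ring

theorem jetB_add_smul {E F : B2 → ℝ} {e f y : ℝ} (hE : ContDiffAt ℝ ∞ E q0)
    (hF : ContDiffAt ℝ ∞ F q0) (h : JetB E e) (h' : JetB F f) (hy : 0 ≤ y) :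
    JetB (fun b => E b + y * F b) (e + y * f) := by
  intro k hk1 hk4
  have hE' : ContDiffAt ℝ k E q0 := hE.of_le (by exact_mod_cast le_top)
  have hF' : ContDiffAt ℝ k F q0 := hF.of_le (by exact_mod_cast le_top)
  have e1 : (fun b => E b + y * F b) = E + y • F := by
    funext b; simp
  rw [e1, iteratedFDeriv_add_apply (f := E) (g := y • F) hE' (hF'.const_smul y),
    iteratedFDeriv_const_smul_apply hF']
  calc ‖iteratedFDeriv ℝ k E q0 + y • iteratedFDeriv ℝ k F q0‖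
      ≤ ‖iteratedFDeriv ℝ k E q0‖ + ‖y • iteratedFDeriv ℝ k F q0‖ := norm_add_le _ _
    _ = ‖iteratedFDeriv ℝ k E q0‖ + y * ‖iteratedFDeriv ℝ k F q0‖ := by
        rw [norm_smul, Real.norm_eq_abs, abs_of_nonneg hy]
    _ ≤ e + y * f := by
        have h1 := h k hk1 hk4
        have h2 := h' k hk1 hk4
        gcongr

theorem Hpot_split (g s y : ℝ) (EA Eφ : B2 → ℝ) :
    Hpot (fun b => g * aS b + EA b) (fun b => s * aS b + Eφ b) y
      = fun b => (g + y * s) * aS b + (EA b + y * Eφ b) := by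
  funext b; simp only [Hpot]; ring

theorem D11_split {E : B2 → ℝ} (hE : ContDiffAt ℝ ∞ E q0) (g : ℝ) (X Y : B2) :
    D11 (fun b => g * aS b + E b) X Y q0 = (g : ℂ) * D11 aS X Y q0 + D11 E X Y q0 := by
  rw [D11_add (P := fun b => g * aS b) (Q := E) (contDiffAt_const.mul aS_at) hE X Y,
    D11_const_mul aS_at g X Y]

end Crest.Agent.R245
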