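import Crest.Agent.R245.CurvAux

set_option autoImplicit false

namespace Crest.Agent.R245

open Complex Filter Topology
open scoped ContDiff ComplexConjugate

namespace Herm

variable {V : Type*} [AddCommGroup V] [Module ℂ V]

/-- the form `H(κ v; κ w)` is Hermitian -/
theorem kap {φ H : V → V → ℂ} (hφ : Herm φ) (hH : Herm H) {κ : V → V}
    (hκ : ∀ v w, H (κ v) w = φ v w) : Herm (fun v w => H (κ v) (κ w)) where
  add_left x x' y := by simp only [hκ, hφ.add_left]
  smul_left c x y := by simp only [hκ, hφ.smul_left]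
  conj_symm x y := hH.conj_symm _ _

/-- estimate of `H(κ v; κ w)` -/
theorem kap_est {om φ H E F : V → V → ℂ} (hom : Herm om) (hpd : ∀ x, x ≠ 0 → 0 < (om x x).re)
    (hφ : Herm φ) (hH : Herm H) {σ D e f : ℝ} (hD : 0 < D) (hσ : 0 ≤ σ) (he : 0 ≤ e) (hf : 0 ≤ f)
    (hfD : f < D)
    (hφE : ∀ v w, φ v w = (σ : ℂ) * om v w + E v w)
    (hHF : ∀ v w, H v w = (D : ℂ) * om v w + F v w)
    (hE : ∀ v w, ‖E v w‖ ≤ e * Real.sqrt (om v v).re * Real.sqrt (om w w).re)
    (hF : ∀ v w, ‖F v w‖ ≤ f * Real.sqrt (om v v).re * Real.sqrt (om w w).re)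
    {κ : V → V} (hκ : ∀ v w, H (κ v) w = φ v w) (v w : V) :
    ‖H (κ v) (κ w) - ((σ ^ 2 / D : ℝ) : ℂ) * om v w‖ ≤
      (σ / D * e + (σ + e) * ((e + σ / D * f) / (D - f))) *
        Real.sqrt (om v v).re * Real.sqrt (om w w).re := by
  have h0 := hom.nonneg_of_pd hpd
  set z : V := κ w + ((-(σ / D) : ℝ) : ℂ) • w with hz
  have hκw : κ w = ((σ / D : ℝ) : ℂ) • w + z := by
    rw [hz, Complex.ofReal_neg, neg_smul]; abel
  -- H z x
  have hHz : ∀ x, H z x = E w x - ((σ / D : ℝ) : ℂ) * F w x := by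
    intro x
    rw [hz, hH.add_left, hH.smul_left, hκ, hφE, hHF]
    push_cast
    have hDc : (D : ℂ) ≠ 0 := by exact_mod_cast hD.ne'
    field_simp
    ring
  have hHz' : ‖H z z‖ ≤ (e + σ / D * f) * Real.sqrt (om w w).re * Real.sqrt (om z z).re := by
    rw [hHz]
    calc ‖E w z - ((σ / D : ℝ) : ℂ) * F w z‖ ≤ ‖E w z‖ + ‖((σ / D : ℝ) : ℂ) * F w z‖ :=
          norm_sub_le _ _
      _ = ‖E w z‖ + σ / D * ‖F w z‖ := by
          rw [norm_mul, Complex.norm_real, Real.norm_eq_abs, abs_of_nonneg (by positivity)]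
      _ ≤ e * Real.sqrt (om w w).re * Real.sqrt (om z z).re
          + σ / D * (f * Real.sqrt (om w w).re * Real.sqrt (om z z).re) := by
          gcongr
          · exact hE w z
          · exact hF w z
      _ = _ := by ring
  have hDf : 0 < D - f := by linarith
  have hNz : Real.sqrt (om z z).re ≤ (e + σ / D * f) / (D - f) * Real.sqrt (om w w).re := by
    rcases (Real.sqrt_nonneg (om z z).re).eq_or_lt with h | h
    · rw [← h]; positivity
    · have h1 : (D - f) * (Real.sqrt (om z z).re * Real.sqrt (om z z).re) ≤ (H z z).re := by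
        have h2 := hF z z
        have h3 := (abs_le.1 ((Complex.abs_re_le_norm (F z z)).trans h2)).1
        have h4 : (H z z).re = D * (om z z).re + (F z z).re := by
          rw [hHF]; simp
        rw [h4]
        have h5 : Real.sqrt (om z z).re * Real.sqrt (om z z).re = (om z z).re :=
          Real.mul_self_sqrt (h0 z)
        rw [mul_assoc, h5] at h3
        rw [h5]; linarith
      have h2 := (h1.trans (Complex.re_le_norm _)).trans hHz'
      have h3 : (D - f) * Real.sqrt (om z z).re ≤ (e + σ / D * f) * Real.sqrt (om w w).re := by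
        have : ((D - f) * Real.sqrt (om z z).re) * Real.sqrt (om z z).re
            ≤ ((e + σ / D * f) * Real.sqrt (om w w).re) * Real.sqrt (om z z).re := by
          linarith
        exact le_of_mul_le_mul_right this h
      rw [div_mul_eq_mul_div, le_div_iff₀ hDf]
      linarith
  have hφn : ∀ a b, ‖φ a b‖ ≤ (σ + e) * Real.sqrt (om a a).re * Real.sqrt (om b b).re := by
    intro a b
    have hn : ‖om a b‖ ≤ Real.sqrt (om a a).re * Real.sqrt (om b b).re := by
      rw [← Real.sqrt_mul (h0 a)]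
      apply Real.le_sqrt_of_sq_le
      rw [Complex.sq_norm, Complex.normSq_apply]
      have := hom.cs h0 a b
      nlinarith
    rw [hφE]
    calc ‖(σ : ℂ) * om a b + E a b‖ ≤ ‖(σ : ℂ) * om a b‖ + ‖E a b‖ := norm_add_le _ _
      _ = σ * ‖om a b‖ + ‖E a b‖ := by
          rw [norm_mul, Complex.norm_real, Real.norm_eq_abs, abs_of_nonneg hσ]
      _ ≤ σ * (Real.sqrt (om a a).re * Real.sqrt (om b b).re)
          + e * Real.sqrt (om a a).re * Real.sqrt (om b b).re := by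
          gcongr
          exact hE a b
      _ = _ := by ring
  have hmain : H (κ v) (κ w) - ((σ ^ 2 / D : ℝ) : ℂ) * om v w
      = ((σ / D : ℝ) : ℂ) * E v w + φ v z := by
    rw [hκ, hκw, hφ.add_right, hφ.smul_right, Complex.conj_ofReal, hφE v w]
    push_cast
    ring
  rw [hmain]
  calc ‖((σ / D : ℝ) : ℂ) * E v w + φ v z‖ ≤ ‖((σ / D : ℝ) : ℂ) * E v w‖ + ‖φ v z‖ :=
        norm_add_le _ _
    _ = σ / D * ‖E v w‖ + ‖φ v z‖ := by
        rw [norm_mul, Complex.norm_real, Real.norm_eq_abs, abs_of_nonneg (by positivity)]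
    _ ≤ σ / D * (e * Real.sqrt (om v v).re * Real.sqrt (om w w).re)
        + (σ + e) * Real.sqrt (om v v).re *
          ((e + σ / D * f) / (D - f) * Real.sqrt (om w w).re) := by
        gcongr
        · exact hE v w
        · exact (hφn v z).trans (by gcongr)
    _ = _ := by ring

/-- the estimate used in the transition region -/
theorem m_est {om φ H E F : V → V → ℂ} (hom : Herm om) (hpd : ∀ x, x ≠ 0 → 0 < (om x x).re)
    (hφ : Herm φ) (hH : Herm H) {g σ y s δ : ℝ}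
    (hs : 0 < s) (hsσ : s ≤ σ) (hσ : σ ≤ 1) (hg : 1 ≤ g) (hy : 0 ≤ y) (hδ0 : 0 ≤ δ)
    (hδ : 8 * δ ≤ s)
    (hφE : ∀ v w, φ v w = (σ : ℂ) * om v w + E v w)
    (hHF : ∀ v w, H v w = ((g + y * σ : ℝ) : ℂ) * om v w + F v w)
    (hE : ∀ v w, ‖E v w‖ ≤ (4 * δ) * Real.sqrt (om v v).re * Real.sqrt (om w w).re)
    (hF : ∀ v w, ‖F v w‖ ≤ (4 * (δ * (1 + y))) * Real.sqrt (om v v).re * Real.sqrt (om w w).re)
    {κ : V → V} (hκ : ∀ v w, H (κ v) w = φ v w) (v w : V) :
    ‖((1 + 2 * y) * φ v w - y * (1 + y) * H (κ v) (κ w))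
        - (((1 + 2 * y) * σ - y * (1 + y) * σ ^ 2 / (g + y * σ) : ℝ) : ℂ) * om v w‖ ≤
      (44 / s ^ 2 * δ * (1 + y)) * Real.sqrt (om v v).re * Real.sqrt (om w w).re := by
  have hσ0 : 0 < σ := lt_of_lt_of_le hs hsσ
  have hs1 : s ≤ 1 := hsσ.trans hσ
  set Y := 1 + y with hY
  have hY1 : 1 ≤ Y := by linarith
  set D := g + y * σ with hD
  have hDs : s * Y ≤ D := by
    rw [hD, hY]
    have h1 : s ≤ g := hs1.trans hg
    have h2 : s * y ≤ y * σ := by nlinarith
    linarith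
  have hsY : 0 < s * Y := by positivity
  have hD0 : 0 < D := lt_of_lt_of_le hsY hDs
  have hf : 4 * (δ * Y) ≤ D / 2 := by
    have : 8 * δ * Y ≤ s * Y := by gcongr
    linarith
  have hest := kap_est hom hpd hφ hH (σ := σ) (D := D) (e := 4 * δ) (f := 4 * (δ * Y)) hD0 hσ0.le
    (by positivity) (by positivity) (by linarith) hφE hHF hE hF hκ v w
  set N1 := Real.sqrt (om v v).re
  set N2 := Real.sqrt (om w w).re
  have hN1 : 0 ≤ N1 := Real.sqrt_nonneg _
  have hN2 : 0 ≤ N2 := Real.sqrt_nonneg _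
  -- constants
  have hK0 : σ / D ≤ 1 / (s * Y) := by
    rw [div_le_div_iff₀ hD0 hsY]
    nlinarith
  have hc1 : σ / D * (4 * δ) ≤ 4 * δ / (s * Y) := by
    calc σ / D * (4 * δ) ≤ 1 / (s * Y) * (4 * δ) := by gcongr
      _ = _ := by ring
  have hc2 : 4 * δ + σ / D * (4 * (δ * Y)) ≤ 8 * δ / s := by
    have : σ / D * (4 * (δ * Y)) ≤ 1 / (s * Y) * (4 * (δ * Y)) := by gcongr
    have e : 1 / (s * Y) * (4 * (δ * Y)) = 4 * δ / s := by field_simp
    have e2 : 4 * δ ≤ 4 * δ / s := by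
      rw [le_div_iff₀ hs]; nlinarith
    have e3 : 8 * δ / s = 4 * δ / s + 4 * δ / s := by ring
    linarith
  have hc3 : (4 * δ + σ / D * (4 * (δ * Y))) / (D - 4 * (δ * Y)) ≤ 16 * δ / (s ^ 2 * Y) := by
    have h1 : s * Y / 2 ≤ D - 4 * (δ * Y) := by linarith
    calc (4 * δ + σ / D * (4 * (δ * Y))) / (D - 4 * (δ * Y)) ≤ (8 * δ / s) / (s * Y / 2) := by
          apply div_le_div₀ (by positivity) hc2 (by positivity) h1
      _ = _ := by field_simp; ring
  have hc4 : σ / D * (4 * δ) + (σ + 4 * δ) * ((4 * δ + σ / D * (4 * (δ * Y))) / (D - 4 * (δ * Y)))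
      ≤ 36 * δ / (s ^ 2 * Y) := by
    have h1 : σ + 4 * δ ≤ 2 := by linarith
    have h2 : (σ + 4 * δ) * ((4 * δ + σ / D * (4 * (δ * Y))) / (D - 4 * (δ * Y)))
        ≤ 2 * (16 * δ / (s ^ 2 * Y)) := by
      apply mul_le_mul h1 hc3 _ (by norm_num)
      apply div_nonneg (by positivity)
      linarith
    have h3 : 4 * δ / (s * Y) ≤ 4 * δ / (s ^ 2 * Y) := by
      apply div_le_div_of_nonneg_left (by positivity) (by positivity)
      apply mul_le_mul_of_nonneg_right _ (by positivity)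
      nlinarith
    have h4 : 36 * δ / (s ^ 2 * Y) = 4 * δ / (s ^ 2 * Y) + 2 * (16 * δ / (s ^ 2 * Y)) := by ring
    linarith
  have hest' : ‖H (κ v) (κ w) - ((σ ^ 2 / D : ℝ) : ℂ) * om v w‖ ≤ 36 * δ / (s ^ 2 * Y) * N1 * N2 :=
    hest.trans (by gcongr)
  have hid : ((1 + 2 * y) * φ v w - y * Y * H (κ v) (κ w))
        - (((1 + 2 * y) * σ - y * Y * σ ^ 2 / D : ℝ) : ℂ) * om v w
      = ((1 + 2 * y : ℝ) : ℂ) * E v w
        - ((y * Y : ℝ) : ℂ) * (H (κ v) (κ w) - ((σ ^ 2 / D : ℝ) : ℂ) * om v w) := by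
    rw [hφE v w]
    push_cast
    ring
  have hcast : ((1 + (y : ℂ))) = ((Y : ℝ) : ℂ) := by rw [hY]; push_cast; ring
  rw [hcast, hid]
  calc ‖((1 + 2 * y : ℝ) : ℂ) * E v w
        - ((y * Y : ℝ) : ℂ) * (H (κ v) (κ w) - ((σ ^ 2 / D : ℝ) : ℂ) * om v w)‖
      ≤ ‖((1 + 2 * y : ℝ) : ℂ) * E v w‖
        + ‖((y * Y : ℝ) : ℂ) * (H (κ v) (κ w) - ((σ ^ 2 / D : ℝ) : ℂ) * om v w)‖ :=
        norm_sub_le _ _
    _ = (1 + 2 * y) * ‖E v w‖
        + y * Y * ‖H (κ v) (κ w) - ((σ ^ 2 / D : ℝ) : ℂ) * om v w‖ := by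
        rw [norm_mul, norm_mul, Complex.norm_real, Complex.norm_real, Real.norm_eq_abs,
          Real.norm_eq_abs, abs_of_nonneg (by positivity), abs_of_nonneg (by positivity)]
    _ ≤ (2 * Y) * (4 * δ * N1 * N2) + Y * Y * (36 * δ / (s ^ 2 * Y) * N1 * N2) := by
        gcongr
        · linarith
        · exact hE v w
        · linarith
    _ = (8 * δ * Y + 36 * δ / s ^ 2 * Y) * N1 * N2 := by
        have : Y ≠ 0 := by positivity
        field_simp
        ring
    _ ≤ (44 / s ^ 2 * δ * Y) * N1 * N2 := by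
        have h1 : 8 * δ * Y ≤ 8 / s ^ 2 * δ * Y := by
          have : 8 ≤ 8 / s ^ 2 := by
            rw [le_div_iff₀ (by positivity)]
            nlinarith
          gcongr
        have h2 : 44 / s ^ 2 * δ * Y = 8 / s ^ 2 * δ * Y + 36 * δ / s ^ 2 * Y := by ring
        gcongr
        linarith

end Herm

end Crest.Agent.R245
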