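import Mathlib

/-! Real inequalities for the wild region (CurvR2). -/

set_option autoImplicit false

namespace Crest.Agent.R245

/-- choice of `Λ₀`: the linear error is absorbed. -/
theorem wild_absorb {η C Λ Y : ℝ} (hη : 0 < η) (hC : 0 < C) (hΛ : 0 < Λ) (hY : 0 ≤ Y)
    (h : 256 * C ^ 2 * (1 + 8 * C / η) / η ^ 2 ≤ Λ) :
    C * Y ≤ Λ / 4 + (Y * η / 2) ^ 3 / (8 * (Λ + Y * η / 2)) / 2 := by
  have hg : 0 ≤ (Y * η / 2) ^ 3 / (8 * (Λ + Y * η / 2)) / 2 := by positivity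
  rcases le_or_gt (C * Y) (Λ / 4) with h1 | h1
  · linarith
  · have hY0 : 0 < Y := by
      rcases hY.eq_or_lt with h2 | h2
      · rw [← h2] at h1; simp at h1; linarith
      · exact h2
    set r := Y * η / 2 with hr
    have hr0 : 0 < r := by positivity
    have hΛr : Λ ≤ r * (8 * C / η) := by
      rw [hr]; field_simp; nlinarith
    have h3 : r ^ 3 / (8 * (r * (1 + 8 * C / η))) ≤ r ^ 3 / (8 * (Λ + r)) := by
      apply div_le_div_of_nonneg_left (by positivity) (by positivity)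
      nlinarith
    have h4 : r ^ 3 / (8 * (r * (1 + 8 * C / η))) = r ^ 2 / (8 * (1 + 8 * C / η)) := by
      have : 0 < 1 + 8 * C / η := by positivity
      field_simp
    -- r ≥ 32 C (1+8C/η)/η
    have h5 : 32 * C * (1 + 8 * C / η) / η ≤ r := by
      have a1 : Λ * η / (8 * C) ≤ r := by
        rw [div_le_iff₀ (by positivity)]
        calc Λ * η ≤ r * (8 * C / η) * η := by nlinarith
          _ = r * (8 * C) := by field_simp
      have a2 : 32 * C * (1 + 8 * C / η) / η =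
          (256 * C ^ 2 * (1 + 8 * C / η) / η ^ 2) * η / (8 * C) := by
        field_simp; ring
      rw [a2]
      refine le_trans ?_ a1
      gcongr
    have h6 : C * Y = 2 * C * r / η := by rw [hr]; field_simp
    have h7 : 2 * C * r / η ≤ r ^ 2 / (8 * (1 + 8 * C / η)) / 2 := by
      have hden : 0 < 1 + 8 * C / η := by positivity
      have b1 : r * (32 * C * (1 + 8 * C / η) / η) ≤ r * r := mul_le_mul_of_nonneg_left h5 hr0.le
      have b2 : 2 * C * r / η = r * (32 * C * (1 + 8 * C / η) / η) / (8 * (1 + 8 * C / η)) / 2 := by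
        field_simp; ring
      rw [b2]
      have b3 : r * (32 * C * (1 + 8 * C / η) / η) / (8 * (1 + 8 * C / η)) ≤
          r ^ 2 / (8 * (1 + 8 * C / η)) := by
        apply div_le_div_of_nonneg_right _ (by positivity)
        nlinarith
      linarith
    rw [h4] at h3
    rw [h6]
    linarith

/-- lower bound of the radial gain by a multiple of `(1+y)²`. -/
theorem gain_lower {Λ tm y : ℝ} (htm : 0 < tm) (hΛ : 0 < Λ) (h4 : 4 * tm ^ 2 ≤ Λ) (hy : 0 ≤ y) :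
    tm ^ 3 / (64 * (Λ + tm)) * (1 + y) ^ 2 ≤
      Λ / 4 + (y * tm) ^ 3 / (8 * (Λ + y * tm)) / 2 := by
  have hd : 0 < Λ + y * tm := by positivity
  have hg : 0 ≤ (y * tm) ^ 3 / (8 * (Λ + y * tm)) / 2 := by positivity
  rcases le_total y 1 with h | h
  · have a1 : tm ^ 3 / (64 * (Λ + tm)) ≤ Λ / 16 := by
      rw [div_le_iff₀ (by positivity)]
      nlinarith [mul_pos htm hΛ, mul_pos (mul_pos htm htm) htm, mul_nonneg htm.le (sub_nonneg.2 h4),
        mul_pos hΛ hΛ]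
    have a2 : (1 + y) ^ 2 ≤ 4 := by nlinarith
    calc tm ^ 3 / (64 * (Λ + tm)) * (1 + y) ^ 2 ≤ Λ / 16 * 4 := by
          apply mul_le_mul a1 a2 (by positivity) (by positivity)
      _ ≤ _ := by linarith
  · have a1 : tm ^ 3 / (64 * (Λ + tm)) * (1 + y) ^ 2 ≤ tm ^ 3 / (64 * (Λ + tm)) * (4 * y ^ 2) := by
      apply mul_le_mul_of_nonneg_left _ (by positivity)
      nlinarith
    have a2 : tm ^ 3 / (64 * (Λ + tm)) * (4 * y ^ 2) = (y * tm) ^ 3 / (8 * (y * (Λ + tm))) / 2 := by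
      field_simp; ring
    have a3 : (y * tm) ^ 3 / (8 * (y * (Λ + tm))) ≤ (y * tm) ^ 3 / (8 * (Λ + y * tm)) := by
      apply div_le_div_of_nonneg_left (by positivity) (by positivity)
      nlinarith
    rw [a2] at a1
    linarith

/-- the cross term is absorbed -/
theorem cross_absorb {y tm τ η K a b X : ℝ} (hy : 0 ≤ y) (hτ : 0 < τ) (hη : 0 < η)
    (htm : tm = τ * η / 2) (hK : 0 ≤ K) (ha : 0 ≤ a) (hb : 0 ≤ b)
    (hX : |X| ≤ K * τ * Real.sqrt a * Real.sqrt b) :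
    |2 * Real.sqrt (y * (1 + y)) * X| ≤
      (1 / 2) * ((1 + y) * tm * b) + 4 * K ^ 2 / η * (τ * y) * a := by
  have hs : 0 ≤ y * (1 + y) := by positivity
  set s := Real.sqrt (y * (1 + y)) with hsdef
  have hs2 : s ^ 2 = y * (1 + y) := Real.sq_sqrt hs
  have hs0 : 0 ≤ s := Real.sqrt_nonneg _
  set p := Real.sqrt a with hp
  set r := Real.sqrt b with hr
  have hp2 : p ^ 2 = a := Real.sq_sqrt ha
  have hr2 : r ^ 2 = b := Real.sq_sqrt hb
  have hp0 : 0 ≤ p := Real.sqrt_nonneg _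
  have hr0 : 0 ≤ r := Real.sqrt_nonneg _
  have h1 : |2 * s * X| ≤ 2 * s * (K * τ * p * r) := by
    rw [abs_mul, abs_of_nonneg (by positivity : (0:ℝ) ≤ 2 * s)]
    exact mul_le_mul_of_nonneg_left hX (by positivity)
  refine h1.trans ?_
  rw [← hp2, ← hr2, htm]
  -- 2 s K τ p r ≤ (1+y) τ η r²/4 + 4K²/η τ y p²
  have h1y : 0 < 1 + y := by positivity
  have key : 0 ≤ (τ / (4 * η * (1 + y))) * ((1 + y) * η * r - 4 * s * K * p) ^ 2 := by positivity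
  have e : (τ / (4 * η * (1 + y))) * ((1 + y) * η * r - 4 * s * K * p) ^ 2 =
      1 / 2 * ((1 + y) * (τ * η / 2) * r ^ 2) + 4 * K ^ 2 / η * (τ * y) * p ^ 2
        - 2 * s * (K * τ * p * r) := by
    have : (τ / (4 * η * (1 + y))) * ((1 + y) * η * r - 4 * s * K * p) ^ 2 =
      1 / 2 * ((1 + y) * (τ * η / 2) * r ^ 2) + 4 * K ^ 2 * τ / (η * (1 + y)) * s ^ 2 * p ^ 2
        - 2 * s * (K * τ * p * r) := by
      field_simp; ring
    rw [this, hs2]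
    field_simp
  linarith

set_option maxHeartbeats 1000000 in
/-- the final lower bound -/
theorem wild_lower {Λ y tm tM τ η C1 C2 a aH U UH q M mu kφ kA nH X ah : ℝ}
    (hΛ : 0 < Λ) (hy : 0 ≤ y) (hτ : 0 < τ) (hη : 0 < η) (htm : tm = τ * η / 2)
    (htM : tm ≤ tM) (h4 : 4 * tM ^ 2 ≤ Λ)
    (ha : 0 ≤ a) (hU : 0 ≤ U) (hkA : 0 ≤ kA)
    (hC : 0 < C1 + C2) (hΛ0 : 256 * (C1 + C2) ^ 2 * (1 + 8 * (C1 + C2) / η) / η ^ 2 ≤ Λ)
    (hform : (Λ / 2 + (y * tm) ^ 3 / (8 * (Λ + y * tm))) * a ≤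
      Λ * kA + y * (1 + y) * kφ - M ^ 2)
    (hmu : (1 + y) * tm * U ≤ mu)
    (hM : M ^ 2 ≤ ((1 + 2 * y) * tM) ^ 2 * 2 * a)
    (hnH : |nH - (Λ + y * (τ * η)) * kA| ≤ C1 * (τ * y) * a)
    (hX : |X| ≤ (1 / 2) * ((1 + y) * tm * U) + C2 * (τ * y) * a)
    (haH : aH ≤ (Λ + y * tM) ^ 2 * a) (hUH : UH ≤ (Λ + y * tM) * U)
    (hah : ah ≤ 2 * (aH + UH + q ^ 2))
    {c : ℝ} (hc0 : 0 ≤ c) (hc1 : c ≤ 1) (hc2 : c ≤ tm / (4 * (Λ + tM)))
    (hc3 : c ≤ tm ^ 3 / (64 * (Λ + tm)) / (10 * (Λ + tM) ^ 2)) :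
    c * ah ≤ mu + 4 * q ^ 2 + 4 * q * M + y * (1 + y) * kφ + nH + X := by
  have htm0 : 0 < tm := by rw [htm]; positivity
  have htM0 : 0 < tM := lt_of_lt_of_le htm0 htM
  have h4' : 4 * tm ^ 2 ≤ Λ := by nlinarith
  set G := (y * tm) ^ 3 / (8 * (Λ + y * tm)) with hG
  have hG0 : 0 ≤ G := by positivity
  have habs : (C1 + C2) * (τ * y) ≤ Λ / 4 + G / 2 := by
    have := wild_absorb (Y := τ * y) hη hC hΛ (by positivity) hΛ0
    have e : τ * y * η / 2 = y * tm := by rw [htm]; ring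
    rw [e] at this
    exact this
  have hgain := gain_lower htm0 hΛ h4' hy
  rw [← hG] at hgain
  set R := Λ / 4 + G / 2 with hR
  -- the lower bound of the curvature expression
  have n1 := (abs_le.1 hnH).1
  have x1 := (abs_le.1 hX).1
  have low : (1 / 2) * ((1 + y) * tm * U) + (2 * q + M) ^ 2 + R * a ≤
      mu + 4 * q ^ 2 + 4 * q * M + y * (1 + y) * kφ + nH + X := by
    have e1 : (C1 + C2) * (τ * y) * a ≤ R * a := mul_le_mul_of_nonneg_right habs ha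
    have e2 : 0 ≤ y * (τ * η) * kA := by positivity
    rw [hR] at e1
    rw [hR]
    linarith [e1, e2, n1, x1, hform, hmu]
  refine le_trans ?_ low
  -- upper bound of the area
  set N := Λ + tM with hN
  have hN0 : 0 < N := by positivity
  have b1 : Λ + y * tM ≤ (1 + y) * N := by rw [hN]; nlinarith [mul_nonneg hy hΛ.le]
  have b1' : 0 ≤ Λ + y * tM := by positivity
  have b2 : (Λ + y * tM) ^ 2 ≤ (1 + y) ^ 2 * N ^ 2 := by
    rw [← mul_pow]; exact pow_le_pow_left₀ b1' b1 2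
  have b3 : ((1 + 2 * y) * tM) ^ 2 ≤ 4 * ((1 + y) ^ 2 * N ^ 2) := by
    have : (1 + 2 * y) * tM ≤ 2 * ((1 + y) * N) := by
      rw [hN]; nlinarith [mul_nonneg hy hΛ.le, mul_nonneg hy htM0.le]
    calc ((1 + 2 * y) * tM) ^ 2 ≤ (2 * ((1 + y) * N)) ^ 2 :=
          pow_le_pow_left₀ (by positivity) this 2
      _ = _ := by ring
  have b4 : 4 * q ^ 2 ≤ 2 * (2 * q + M) ^ 2 + 2 * M ^ 2 := by
    linarith [sq_nonneg (2 * q + 2 * M)]
  have b5 : ah ≤ 10 * ((1 + y) ^ 2 * N ^ 2) * a + 2 * ((1 + y) * N) * U + (2 * q + M) ^ 2 := by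
    have c1 : aH ≤ (1 + y) ^ 2 * N ^ 2 * a := haH.trans (mul_le_mul_of_nonneg_right b2 ha)
    have c2 : UH ≤ (1 + y) * N * U := hUH.trans (mul_le_mul_of_nonneg_right b1 hU)
    have c3 : M ^ 2 ≤ 8 * ((1 + y) ^ 2 * N ^ 2) * a := by
      have := mul_le_mul_of_nonneg_right b3 ha
      linarith
    linarith [c1, c2, c3, b4]
  have d1 : c * (10 * ((1 + y) ^ 2 * N ^ 2)) ≤ R := by
    have e1 : c * (10 * N ^ 2) ≤ tm ^ 3 / (64 * (Λ + tm)) := by
      rwa [le_div_iff₀ (by positivity)] at hc3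
    calc c * (10 * ((1 + y) ^ 2 * N ^ 2)) = c * (10 * N ^ 2) * (1 + y) ^ 2 := by ring
      _ ≤ tm ^ 3 / (64 * (Λ + tm)) * (1 + y) ^ 2 := by gcongr
      _ ≤ R := hgain
  have d2 : c * (2 * ((1 + y) * N)) ≤ (1 / 2) * ((1 + y) * tm) := by
    have e1 : c * (4 * N) ≤ tm := by
      rwa [le_div_iff₀ (by positivity)] at hc2
    nlinarith
  calc c * ah ≤ c * (10 * ((1 + y) ^ 2 * N ^ 2) * a + 2 * ((1 + y) * N) * U + (2 * q + M) ^ 2) :=
        mul_le_mul_of_nonneg_left b5 hc0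
    _ = c * (10 * ((1 + y) ^ 2 * N ^ 2)) * a + c * (2 * ((1 + y) * N)) * U
          + c * (2 * q + M) ^ 2 := by ring
    _ ≤ R * a + (1 / 2) * ((1 + y) * tm) * U + 1 * (2 * q + M) ^ 2 := by gcongr
    _ = _ := by ring

set_option maxHeartbeats 1000000 in
/-- the final upper bound -/
theorem wild_upper {Λ y tm tM τ η C1 C2 a aH U UH q M mu kφ kA nH X ah : ℝ}
    (hΛ : 0 < Λ) (hy : 0 ≤ y) (hτ : 0 < τ) (hτ1 : τ ≤ 1) (hη : 0 < η) (htm : 0 < tm)
    (htM : tm ≤ tM) (htΛ : tm ≤ Λ)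
    (ha : 0 ≤ a) (hU : 0 ≤ U) (haH0 : 0 ≤ aH) (hUH0 : 0 ≤ UH)
    (hC1 : 0 ≤ C1) (hC2 : 0 ≤ C2)
    (hkA : kA ≤ 4 * a) (hkφ : kφ ≤ 4 * (tM ^ 2 * a))
    (hmu : mu ≤ (1 + 2 * y) * tM * U)
    (hM : M ^ 2 ≤ ((1 + 2 * y) * tM) ^ 2 * 2 * a)
    (hnH : |nH - (Λ + y * (τ * η)) * kA| ≤ C1 * (τ * y) * a)
    (hX : |X| ≤ (1 / 2) * ((1 + y) * tm * U) + C2 * (τ * y) * a)
    (haH : (Λ + y * tm) ^ 2 * a ≤ aH) (hUH : (Λ + y * tm) * U ≤ UH)
    (hah : (1 / 2) * aH + (1 / 2) * UH + q ^ 2 ≤ ah) :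
    mu + 4 * q ^ 2 + 4 * q * M + y * (1 + y) * kφ + nH + X ≤
      (6 + 6 * (tM / tm) + 40 * (tM / tm) ^ 2 +
        2 * (4 * (Λ + η) + C1 + C2) / tm ^ 2) * ah := by
  have htM0 : 0 < tM := lt_of_lt_of_le htm htM
  have h1y : 1 ≤ 1 + y := by linarith
  -- a ≤ aH / ((1+y)² tm²)
  have g1 : (1 + y) * tm ≤ Λ + y * tm := by nlinarith
  have g2 : (1 + y) ^ 2 * tm ^ 2 * a ≤ aH := by
    refine le_trans (mul_le_mul_of_nonneg_right ?_ ha) haH
    rw [← mul_pow]; exact pow_le_pow_left₀ (by positivity) g1 2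
  have g3 : (1 + y) * tm * U ≤ UH := (mul_le_mul_of_nonneg_right g1 hU).trans hUH
  have g2' : (1 + y) ^ 2 * a ≤ aH / tm ^ 2 := by
    rw [le_div_iff₀ (by positivity)]; linarith
  have g3' : (1 + y) * U ≤ UH / tm := by
    rw [le_div_iff₀ htm]; linarith
  -- the pieces
  have p1 : mu ≤ 2 * tM * (UH / tm) := by
    calc mu ≤ (1 + 2 * y) * tM * U := hmu
      _ ≤ 2 * tM * ((1 + y) * U) := by nlinarith [mul_nonneg htM0.le hU]
      _ ≤ _ := by gcongr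
  have p2 : M ^ 2 ≤ 8 * tM ^ 2 * (aH / tm ^ 2) := by
    calc M ^ 2 ≤ ((1 + 2 * y) * tM) ^ 2 * 2 * a := hM
      _ ≤ (2 * (1 + y) * tM) ^ 2 * 2 * a := by gcongr; linarith
      _ = 8 * tM ^ 2 * ((1 + y) ^ 2 * a) := by ring
      _ ≤ _ := by gcongr
  have p3 : y * (1 + y) * kφ ≤ 4 * tM ^ 2 * (aH / tm ^ 2) := by
    calc y * (1 + y) * kφ ≤ y * (1 + y) * (4 * (tM ^ 2 * a)) := by gcongr
      _ ≤ (1 + y) ^ 2 * (4 * (tM ^ 2 * a)) := by
          apply mul_le_mul_of_nonneg_right _ (by positivity)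
          nlinarith
      _ = 4 * tM ^ 2 * ((1 + y) ^ 2 * a) := by ring
      _ ≤ _ := by gcongr
  have yle : y ≤ (1 + y) ^ 2 := by nlinarith
  have p4 : nH ≤ (4 * (Λ + η) + C1) * (aH / tm ^ 2) := by
    have n2 := (abs_le.1 hnH).2
    have n3 : (Λ + y * (τ * η)) * kA ≤ (1 + y) ^ 2 * (4 * (Λ + η)) * a := by
      have e1 : Λ + y * (τ * η) ≤ (1 + y) ^ 2 * (Λ + η) := by
        have : τ * η ≤ η := by nlinarith
        linarith [mul_nonneg hy hΛ.le, mul_nonneg hy hη.le, mul_le_mul_of_nonneg_left this hy,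
          mul_nonneg (mul_nonneg hy hy) hΛ.le, mul_nonneg (mul_nonneg hy hy) hη.le]
      calc (Λ + y * (τ * η)) * kA ≤ (Λ + y * (τ * η)) * (4 * a) := by gcongr
        _ ≤ (1 + y) ^ 2 * (Λ + η) * (4 * a) := by gcongr
        _ = _ := by ring
    have n4 : C1 * (τ * y) * a ≤ (1 + y) ^ 2 * C1 * a := by
      have : τ * y ≤ (1 + y) ^ 2 := by nlinarith
      calc C1 * (τ * y) * a ≤ C1 * (1 + y) ^ 2 * a := by gcongr
        _ = _ := by ring
    calc nH ≤ (4 * (Λ + η) + C1) * ((1 + y) ^ 2 * a) := by linarith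
      _ ≤ _ := by gcongr
  have p5 : X ≤ (1 / 2) * UH + C2 * (aH / tm ^ 2) := by
    have x2 := (abs_le.1 hX).2
    have n4 : C2 * (τ * y) * a ≤ C2 * ((1 + y) ^ 2 * a) := by
      have : τ * y ≤ (1 + y) ^ 2 := by nlinarith
      calc C2 * (τ * y) * a ≤ C2 * (1 + y) ^ 2 * a := by gcongr
        _ = _ := by ring
    have n5 : C2 * ((1 + y) ^ 2 * a) ≤ C2 * (aH / tm ^ 2) := by gcongr
    linarith
  have p6 : 4 * q * M ≤ 2 * q ^ 2 + 2 * M ^ 2 := by linarith [sq_nonneg (q - M)]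
  set K := 4 * (Λ + η) + C1 + C2 with hK
  have hK0 : 0 ≤ K := by positivity
  have hr0 : 0 < tM / tm := by positivity
  have e1 : 2 * tM * (UH / tm) = 2 * (tM / tm) * UH := by field_simp
  have e2 : 8 * tM ^ 2 * (aH / tm ^ 2) = 8 * (tM / tm) ^ 2 * aH := by field_simp
  have e3 : 4 * tM ^ 2 * (aH / tm ^ 2) = 4 * (tM / tm) ^ 2 * aH := by field_simp
  have e4 : (4 * (Λ + η) + C1) * (aH / tm ^ 2) + C2 * (aH / tm ^ 2) = K / tm ^ 2 * aH := by
    rw [hK]; field_simp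
  rw [e1] at p1
  rw [e2] at p2
  rw [e3] at p3
  have total : mu + 4 * q ^ 2 + 4 * q * M + y * (1 + y) * kφ + nH + X ≤
      (2 * (tM / tm) + 1 / 2) * UH + 6 * q ^ 2 + (20 * (tM / tm) ^ 2 + K / tm ^ 2) * aH := by
    linarith [p1, p2, p3, p4, p5, p6, e4]
  refine total.trans ?_
  have hKt : 0 ≤ K / tm ^ 2 := by positivity
  have f1 : 2 * (4 * (Λ + η) + C1 + C2) / tm ^ 2 = 2 * (K / tm ^ 2) := by rw [hK]; ring
  rw [f1]
  set r := tM / tm
  set k := K / tm ^ 2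
  have hB : 0 ≤ 6 + 6 * r + 40 * r ^ 2 + 2 * k := by positivity
  calc (2 * r + 1 / 2) * UH + 6 * q ^ 2 + (20 * r ^ 2 + k) * aH
      ≤ (6 + 6 * r + 40 * r ^ 2 + 2 * k) * ((1 / 2) * aH + (1 / 2) * UH + q ^ 2) := by
        have z1 : 0 ≤ r * UH := by positivity
        have z2 : 0 ≤ r ^ 2 * UH := by positivity
        have z3 : 0 ≤ k * UH := by positivity
        have z4 : 0 ≤ r * aH := by positivity
        have z5 : 0 ≤ r * q ^ 2 := by positivity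
        have z6 : 0 ≤ r ^ 2 * q ^ 2 := by positivity
        have z7 : 0 ≤ k * q ^ 2 := by positivity
        linarith [z1, z2, z3, z4, z5, z6, z7]
    _ ≤ _ := mul_le_mul_of_nonneg_left hah hB

end Crest.Agent.R245
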