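import Crest.Agent.R245.BasePertA

/-! Hermitian forms on `ℂ²`: elementary area inequalities (helper file for CurvR1, CurvR2). -/

set_option autoImplicit false

namespace Crest.Agent.R245

open Complex Filter Topology
open scoped ContDiff ComplexConjugate

/-- Hermitian form on `B2` -/
structure HF (S : B2 → B2 → ℂ) : Prop where
  add_left : ∀ x x' y, S (x + x') y = S x y + S x' y
  smul_left : ∀ (c : ℂ) x y, S (c • x) y = c * S x y
  symm : ∀ x y, conj (S x y) = S y x

/-- squared real area -/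
def ar (S : B2 → B2 → ℂ) (x y : B2) : ℝ := (S x x).re * (S y y).re - (S x y).re ^ 2

theorem HF_D11 {P : B2 → ℝ} {p : B2} (hP : ContDiffAt ℝ ∞ P p) : HF (fun X Y => D11 P X Y p) where
  add_left := fun x x' y => D11_add_left hP x x' y
  smul_left := fun c x y => D11_smul_left hP c x y
  symm := fun x y => D11_conj hP x y

namespace HF

variable {S T : B2 → B2 → ℂ}

theorem add_right (h : HF S) (x y y' : B2) : S x (y + y') = S x y + S x y' := by
  rw [← h.symm, h.add_left, map_add, h.symm, h.symm]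

theorem smul_right (h : HF S) (c : ℂ) (x y : B2) : S x (c • y) = conj c * S x y := by
  rw [← h.symm, h.smul_left, map_mul, h.symm]

theorem neg_left (h : HF S) (x y : B2) : S (-x) y = - S x y := by
  have := h.smul_left (-1) x y
  simpa using this

theorem neg_right (h : HF S) (x y : B2) : S x (-y) = - S x y := by
  have := h.smul_right (-1) x y
  simpa using this

theorem sub_left (h : HF S) (x x' y : B2) : S (x - x') y = S x y - S x' y := by
  rw [sub_eq_add_neg, h.add_left, h.neg_left, sub_eq_add_neg]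

theorem sub_right (h : HF S) (x y y' : B2) : S x (y - y') = S x y - S x y' := by
  rw [sub_eq_add_neg, h.add_right, h.neg_right, sub_eq_add_neg]

theorem zero_left (h : HF S) (y : B2) : S 0 y = 0 := by
  have := h.smul_left 0 0 y
  simpa using this

theorem zero_right (h : HF S) (y : B2) : S y 0 = 0 := by
  have := h.smul_right 0 y 0
  simpa using this

theorem im_self (h : HF S) (x : B2) : (S x x).im = 0 := by
  have := congrArg Complex.im (h.symm x x)
  simp only [conj_im] at this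
  linarith

theorem re_symm (h : HF S) (x y : B2) : (S y x).re = (S x y).re := by
  rw [← h.symm x y, conj_re]

theorem im_symm (h : HF S) (x y : B2) : (S y x).im = - (S x y).im := by
  rw [← h.symm x y, conj_im]

theorem add (hS : HF S) (hT : HF T) : HF (fun x y => S x y + T x y) where
  add_left := fun x x' y => by simp only [hS.add_left, hT.add_left]; ring
  smul_left := fun c x y => by simp only [hS.smul_left, hT.smul_left]; ring
  symm := fun x y => by simp only [map_add, hS.symm, hT.symm]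

theorem sub (hS : HF S) (hT : HF T) : HF (fun x y => S x y - T x y) where
  add_left := fun x x' y => by simp only [hS.add_left, hT.add_left]; ring
  smul_left := fun c x y => by simp only [hS.smul_left, hT.smul_left]; ring
  symm := fun x y => by simp only [map_sub, hS.symm, hT.symm]

theorem const_mul (hS : HF S) (r : ℝ) : HF (fun x y => (r : ℂ) * S x y) where
  add_left := fun x x' y => by simp only [hS.add_left]; ring
  smul_left := fun c x y => by simp only [hS.smul_left]; ring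
  symm := fun x y => by simp only [map_mul, hS.symm, conj_ofReal]

/-- Cauchy–Schwarz for nonnegative forms -/
theorem cs (h : HF S) (hp : ∀ x, 0 ≤ (S x x).re) (x y : B2) :
    (S x y).re ^ 2 + (S x y).im ^ 2 ≤ (S x x).re * (S y y).re := by
  have key : ∀ t : ℂ, 0 ≤ (S x x).re - 2 * (conj t * S x y).re + ‖t‖ ^ 2 * (S y y).re := by
    intro t
    have h1 := hp (x - t • y)
    have h2 : S (x - t • y) (x - t • y)
        = S x x - conj t * S x y - (t * S y x - t * conj t * S y y) := by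
      rw [h.sub_left, h.sub_right, h.sub_right, h.smul_left, h.smul_left, h.smul_right,
        h.smul_right]
      ring
    rw [h2] at h1
    have h3 : (t * S y x).re = (conj t * S x y).re := by
      rw [← h.symm x y]
      simp only [mul_re, conj_re, conj_im]
      ring
    have h4 : (t * conj t * S y y).re = ‖t‖ ^ 2 * (S y y).re := by
      rw [Complex.mul_conj, Complex.normSq_eq_norm_sq, re_ofReal_mul]
    simp only [sub_re] at h1
    rw [h3, h4] at h1
    linarith
  have hn : (S x y).re ^ 2 + (S x y).im ^ 2 = ‖S x y‖ ^ 2 := by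
    rw [← Complex.normSq_eq_norm_sq, Complex.normSq_apply]; ring
  rw [hn]
  rcases eq_or_lt_of_le (hp y) with h0 | h0
  · -- S y y = 0
    rw [← h0, mul_zero]
    by_contra hcon
    push Not at hcon
    have hne : ‖S x y‖ ≠ 0 := fun hz => by rw [hz] at hcon; norm_num at hcon
    have := key (((((S x x).re + 1) / ‖S x y‖ ^ 2 : ℝ) : ℂ) * S x y)
    rw [← h0] at this
    have e1 : (conj (((((S x x).re + 1) / ‖S x y‖ ^ 2 : ℝ) : ℂ) * S x y) * S x y).re
        = (S x x).re + 1 := by
      rw [map_mul, conj_ofReal, mul_assoc, mul_comm (conj (S x y)), Complex.mul_conj,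
        Complex.normSq_eq_norm_sq, ← ofReal_mul, ofReal_re]
      field_simp
    rw [e1] at this
    have := hp x
    linarith
  · have := key ((((1 / (S y y).re : ℝ)) : ℂ) * S x y)
    have e1 : (conj ((((1 / (S y y).re : ℝ)) : ℂ) * S x y) * S x y).re
        = ‖S x y‖ ^ 2 / (S y y).re := by
      rw [map_mul, conj_ofReal, mul_assoc, mul_comm (conj (S x y)), Complex.mul_conj,
        Complex.normSq_eq_norm_sq, ← ofReal_mul, ofReal_re]
      ring
    have e2 : ‖(((1 / (S y y).re : ℝ)) : ℂ) * S x y‖ ^ 2 * (S y y).re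
        = ‖S x y‖ ^ 2 / (S y y).re := by
      rw [norm_mul, Complex.norm_real, Real.norm_eq_abs, mul_pow, sq_abs]
      field_simp
    rw [e1, e2] at this
    have h5 : ‖S x y‖ ^ 2 / (S y y).re ≤ (S x x).re := by linarith
    rwa [div_le_iff₀ h0] at h5

theorem ar_nonneg (h : HF S) (hp : ∀ x, 0 ≤ (S x x).re) (x y : B2) : 0 ≤ ar S x y := by
  have := h.cs hp x y
  unfold ar
  nlinarith [sq_nonneg (S x y).im]

theorem im_sq_le (h : HF S) (hp : ∀ x, 0 ≤ (S x x).re) (x y : B2) :
    (S x y).im ^ 2 ≤ ar S x y := by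
  have := h.cs hp x y
  unfold ar
  linarith

end HF

/-- mixed discriminant of two psd matrices -/
theorem mixed_nonneg {a b c a' b' c' : ℝ} (ha : 0 ≤ a) (hc : 0 ≤ c) (ha' : 0 ≤ a') (hc' : 0 ≤ c')
    (h : b ^ 2 ≤ a * c) (h' : b' ^ 2 ≤ a' * c') : 2 * (b * b') ≤ a * c' + a' * c := by
  have h1 : (2 * (b * b')) ^ 2 ≤ (a * c' + a' * c) ^ 2 := by
    have : b ^ 2 * b' ^ 2 ≤ (a * c) * (a' * c') :=
      mul_le_mul h h' (sq_nonneg _) (mul_nonneg ha hc)
    nlinarith [sq_nonneg (a * c' - a' * c)]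
  exact le_of_sq_le_sq' h1 (by positivity)
where
  le_of_sq_le_sq' {x y : ℝ} (h : x ^ 2 ≤ y ^ 2) (hy : 0 ≤ y) : x ≤ y :=
    (abs_le_of_sq_le_sq' h hy).2

theorem ar_mono {S T : B2 → B2 → ℂ} (hS : HF S) (hT : HF T) (hp : ∀ x, 0 ≤ (T x x).re)
    (hle : ∀ x, (T x x).re ≤ (S x x).re) (x y : B2) : ar T x y ≤ ar S x y := by
  have hR := hS.sub hT
  have hRp : ∀ x, 0 ≤ ((fun x y => S x y - T x y) x x).re := fun x => by
    simp only [sub_re]; linarith [hle x]
  have c1 := hT.cs hp x y
  have c2 := hR.cs hRp x y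
  simp only [sub_re, sub_im] at c2
  have m := mixed_nonneg (a := (T x x).re) (b := (T x y).re) (c := (T y y).re)
    (a' := (S x x).re - (T x x).re) (b' := (S x y).re - (T x y).re)
    (c' := (S y y).re - (T y y).re) (hp x) (hp y) (by linarith [hle x]) (by linarith [hle y])
    (by nlinarith [sq_nonneg (T x y).im]) (by nlinarith [sq_nonneg ((S x y).im - (T x y).im)])
  unfold ar
  nlinarith [sq_nonneg ((S x y).im - (T x y).im)]

theorem ar_const_mul (S : B2 → B2 → ℂ) (r : ℝ) (x y : B2) :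
    ar (fun x y => (r : ℂ) * S x y) x y = r ^ 2 * ar S x y := by
  unfold ar
  simp only [re_ofReal_mul]
  ring

/-- comparison of areas -/
theorem ar_lower {S W : B2 → B2 → ℂ} (hS : HF S) (hW : HF W) (hp : ∀ x, 0 ≤ (W x x).re)
    {μ : ℝ} (hμ : 0 ≤ μ) (hle : ∀ x, μ * (W x x).re ≤ (S x x).re) (x y : B2) :
    μ ^ 2 * ar W x y ≤ ar S x y := by
  rw [← ar_const_mul]
  refine ar_mono hS (hW.const_mul μ) (fun x => ?_) (fun x => ?_) x y
  · rw [re_ofReal_mul]; exact mul_nonneg hμ (hp x)
  · rw [re_ofReal_mul]; exact hle x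

theorem ar_upper {S W : B2 → B2 → ℂ} (hS : HF S) (hW : HF W) (hp : ∀ x, 0 ≤ (S x x).re)
    {ν : ℝ} (hle : ∀ x, (S x x).re ≤ ν * (W x x).re) (x y : B2) :
    ar S x y ≤ ν ^ 2 * ar W x y := by
  rw [← ar_const_mul]
  refine ar_mono (hW.const_mul ν) hS hp (fun x => ?_) x y
  rw [re_ofReal_mul]; exact hle x

/-- imaginary part of a small form -/
theorem im_sq_small {E W : B2 → B2 → ℂ} (hE : HF E) (hW : HF W) (hp : ∀ x, 0 ≤ (W x x).re)
    {ε : ℝ} (hε : 0 ≤ ε) (hle : ∀ x, |(E x x).re| ≤ ε * (W x x).re) (x y : B2) :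
    (E x y).im ^ 2 ≤ 9 * ε ^ 2 * ar W x y := by
  have hF := hE.add (hW.const_mul ε)
  have hFp : ∀ x, 0 ≤ ((fun x y => E x y + (ε : ℂ) * W x y) x x).re := fun x => by
    simp only [add_re, re_ofReal_mul]; linarith [(abs_le.1 (hle x)).1]
  have h1 := hF.im_sq_le hFp x y
  have h2 := ar_upper (ν := 2 * ε) hF hW hFp (fun x => by
    simp only [add_re, re_ofReal_mul]; linarith [(abs_le.1 (hle x)).2]) x y
  have h3 := hW.im_sq_le hp x y
  simp only [add_im, im_ofReal_mul] at h1
  have hA := hW.ar_nonneg hp x y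
  set i1 := (E x y).im
  set i := (W x y).im
  set A := ar W x y
  -- |i1 + ε i| ≤ 2 ε √A, |i| ≤ √A
  have e1 : |i1 + ε * i| ≤ 2 * ε * Real.sqrt A := by
    apply abs_le_of_sq_le_sq _ (by positivity)
    rw [mul_pow, Real.sq_sqrt hA]
    linarith
  have e2 : |i| ≤ Real.sqrt A := by
    apply abs_le_of_sq_le_sq _ (by positivity)
    rw [Real.sq_sqrt hA]; exact h3
  have e3 : |i1| ≤ 3 * ε * Real.sqrt A := by
    have : i1 = (i1 + ε * i) - ε * i := by ring
    rw [this]
    calc |(i1 + ε * i) - ε * i| ≤ |i1 + ε * i| + |ε * i| := abs_sub _ _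
      _ ≤ 2 * ε * Real.sqrt A + ε * Real.sqrt A := by
          rw [abs_mul, abs_of_nonneg hε]
          have := mul_le_mul_of_nonneg_left e2 hε
          linarith
      _ = _ := by ring
  have e4 : i1 ^ 2 ≤ (3 * ε * Real.sqrt A) ^ 2 := by
    rw [← sq_abs i1]
    exact pow_le_pow_left₀ (abs_nonneg _) e3 2
  calc i1 ^ 2 ≤ (3 * ε * Real.sqrt A) ^ 2 := e4
    _ = 9 * ε ^ 2 * A := by rw [mul_pow, Real.sq_sqrt hA]; ring

theorem mixed_small {E W : B2 → B2 → ℂ} (hE : HF E) (hW : HF W) (hp : ∀ x, 0 ≤ (W x x).re)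
    {ε : ℝ} (hle : ∀ x, |(E x x).re| ≤ ε * (W x x).re) (x y : B2) :
    |(W x x).re * (E y y).re + (E x x).re * (W y y).re - 2 * ((W x y).re * (E x y).re)|
      ≤ 2 * ε * ar W x y := by
  have hF := hE.add (hW.const_mul ε)
  have hFp : ∀ x, 0 ≤ ((fun x y => E x y + (ε : ℂ) * W x y) x x).re := fun x => by
    simp only [add_re, re_ofReal_mul]; linarith [(abs_le.1 (hle x)).1]
  have hG := (hW.const_mul ε).sub hE
  have hGp : ∀ x, 0 ≤ ((fun x y => (ε : ℂ) * W x y - E x y) x x).re := fun x => by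
    simp only [sub_re, re_ofReal_mul]; linarith [(abs_le.1 (hle x)).2]
  have c0 := hW.cs hp x y
  have c1 := hF.cs hFp x y
  have c2 := hG.cs hGp x y
  have f1 := hFp x
  have f2 := hFp y
  have g1 := hGp x
  have g2 := hGp y
  simp only [add_re, add_im, sub_re, sub_im, re_ofReal_mul, im_ofReal_mul] at c1 c2 f1 f2 g1 g2
  have m1 := mixed_nonneg (hp x) (hp y) f1 f2 (b := (W x y).re)
    (b' := (E x y).re + ε * (W x y).re) (by nlinarith [sq_nonneg (W x y).im])
    (by nlinarith [sq_nonneg ((E x y).im + ε * (W x y).im)])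
  have m2 := mixed_nonneg (hp x) (hp y) g1 g2 (b := (W x y).re)
    (b' := ε * (W x y).re - (E x y).re) (by nlinarith [sq_nonneg (W x y).im])
    (by nlinarith [sq_nonneg (ε * (W x y).im - (E x y).im)])
  unfold ar
  rw [abs_le]
  constructor <;> nlinarith

theorem ar_small {E W : B2 → B2 → ℂ} (hE : HF E) (hW : HF W) (hp : ∀ x, 0 ≤ (W x x).re)
    {ε : ℝ} (hε : 0 ≤ ε) (hle : ∀ x, |(E x x).re| ≤ ε * (W x x).re) (x y : B2) :
    |ar E x y| ≤ 5 * ε ^ 2 * ar W x y := by
  have hF := hE.add (hW.const_mul ε)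
  have hFp : ∀ x, 0 ≤ ((fun x y => E x y + (ε : ℂ) * W x y) x x).re := fun x => by
    simp only [add_re, re_ofReal_mul]; linarith [(abs_le.1 (hle x)).1]
  have h1 := hF.ar_nonneg hFp x y
  have h2 := ar_upper (ν := 2 * ε) hF hW hFp (fun x => by
    simp only [add_re, re_ofReal_mul]; linarith [(abs_le.1 (hle x)).2]) x y
  have h3 := mixed_small hE hW hp hle x y
  have hA := hW.ar_nonneg hp x y
  have e : ar (fun x y => E x y + (ε : ℂ) * W x y) x y = ar E x y
      + ε * ((W x x).re * (E y y).re + (E x x).re * (W y y).re - 2 * ((W x y).re * (E x y).re))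
      + ε ^ 2 * ar W x y := by
    unfold ar
    simp only [add_re, re_ofReal_mul]
    ring
  rw [e] at h1 h2
  set B := (W x x).re * (E y y).re + (E x x).re * (W y y).re - 2 * ((W x y).re * (E x y).re)
  have h4 : |ε * B| ≤ 2 * ε ^ 2 * ar W x y := by
    rw [abs_mul, abs_of_nonneg hε]
    calc ε * |B| ≤ ε * (2 * ε * ar W x y) := mul_le_mul_of_nonneg_left h3 hε
      _ = _ := by ring
  rw [abs_le] at h4 ⊢
  have hA2 : 0 ≤ ε ^ 2 * ar W x y := by positivity
  constructor <;> nlinarith [h4.1, h4.2]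

/-- curvature type expression -/
def cK (S : B2 → B2 → ℂ) (x y : B2) : ℝ := ar S x y + 3 * (S x y).im ^ 2

theorem calK_eq (S : B2 → ℝ) (b ξ η : B2) : calK S b ξ η = cK (fun X Y => D11 S X Y b) ξ η := rfl

theorem area_eq (S : B2 → ℝ) (b ξ η : B2) : area S b ξ η = ar (fun X Y => D11 S X Y b) ξ η := rfl

theorem cK_le {S W : B2 → B2 → ℂ} (hS : HF S) (hW : HF W) (hp : ∀ x, 0 ≤ (S x x).re)
    {ν : ℝ} (hle : ∀ x, (S x x).re ≤ ν * (W x x).re) (x y : B2) :
    cK S x y ≤ 4 * ν ^ 2 * ar W x y := by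
  have h1 := hS.im_sq_le hp x y
  have h2 := ar_upper hS hW hp hle x y
  unfold cK
  nlinarith

theorem cK_pert {E W : B2 → B2 → ℂ} (hE : HF E) (hW : HF W) (hp : ∀ x, 0 ≤ (W x x).re)
    {ε σ : ℝ} (hε : 0 ≤ ε) (hσ : 0 ≤ σ) (hle : ∀ x, |(E x x).re| ≤ ε * (W x x).re) (x y : B2) :
    |cK (fun x y => (σ : ℂ) * W x y + E x y) x y - σ ^ 2 * cK W x y|
      ≤ (20 * σ * ε + 32 * ε ^ 2) * ar W x y := by
  have h3 := mixed_small hE hW hp hle x y
  have h4 := ar_small hE hW hp hε hle x y
  have h5 := im_sq_small hE hW hp hε hle x y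
  have h6 := hW.im_sq_le hp x y
  have hA := hW.ar_nonneg hp x y
  have e : cK (fun x y => (σ : ℂ) * W x y + E x y) x y - σ ^ 2 * cK W x y
      = σ * ((W x x).re * (E y y).re + (E x x).re * (W y y).re - 2 * ((W x y).re * (E x y).re))
        + ar E x y + 6 * σ * ((W x y).im * (E x y).im) + 3 * (E x y).im ^ 2 := by
    unfold cK ar
    simp only [add_re, add_im, re_ofReal_mul, im_ofReal_mul]
    ring
  rw [e]
  set B := (W x x).re * (E y y).re + (E x x).re * (W y y).re - 2 * ((W x y).re * (E x y).re)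
  set A := ar W x y
  set i := (W x y).im
  set i1 := (E x y).im
  have h7 : |i * i1| ≤ 3 * ε * A := by
    apply abs_le_of_sq_le_sq _ (by positivity)
    calc (i * i1) ^ 2 = i ^ 2 * i1 ^ 2 := by ring
      _ ≤ A * (9 * ε ^ 2 * A) := mul_le_mul h6 h5 (sq_nonneg _) hA
      _ = (3 * ε * A) ^ 2 := by ring
  have h8 : |σ * B| ≤ 2 * σ * ε * A := by
    rw [abs_mul, abs_of_nonneg hσ]
    calc σ * |B| ≤ σ * (2 * ε * A) := mul_le_mul_of_nonneg_left h3 hσ
      _ = _ := by ring
  have h9 : |6 * σ * (i * i1)| ≤ 18 * σ * ε * A := by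
    rw [abs_mul, abs_of_nonneg (by positivity : 0 ≤ 6 * σ)]
    calc 6 * σ * |i * i1| ≤ 6 * σ * (3 * ε * A) := mul_le_mul_of_nonneg_left h7 (by positivity)
      _ = _ := by ring
  rw [abs_le] at h4 h8 h9 ⊢
  have h10 := sq_nonneg i1
  constructor <;> nlinarith [h4.1, h4.2, h8.1, h8.2, h9.1, h9.2]

/-- solving with a positive definite form -/
theorem HF.exists_rep {S : B2 → B2 → ℂ} (h : HF S) (hpd : ∀ x, x ≠ 0 → 0 < (S x x).re)
    (l : B2 → ℂ) (hadd : ∀ x y, l (x + y) = l x + l y)
    (hsmul : ∀ (c : ℂ) x, l (c • x) = conj c * l x) : ∃ v, ∀ w, S v w = l w := by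
  set e1 : B2 := (1, 0) with he1
  set e2 : B2 := (0, 1) with he2
  have hdec : ∀ w : B2, w = w.1 • e1 + w.2 • e2 := fun w => by
    ext <;> simp [he1, he2]
  set d : ℂ := S e1 e1 * S e2 e2 - S e1 e2 * S e2 e1 with hd
  have hd0 : d ≠ 0 := by
    intro h0
    set w : B2 := S e2 e2 • e1 - S e1 e2 • e2 with hw
    have e22 : S e2 e2 ≠ 0 := by
      intro hz
      have := hpd e2 (by rw [he2]; simp)
      rw [hz] at this
      simp at this
    have hwne : w ≠ 0 := by
      intro hz
      have := congrArg Prod.fst hz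
      simp [hw, he1, he2] at this
      exact e22 this
    have hww : S w w = conj (S e2 e2) * S e2 e2 * S e1 e1 - conj (S e2 e2) * S e1 e2 * S e2 e1
        - conj (S e1 e2) * (S e2 e2 * S e1 e2 - S e1 e2 * S e2 e2) := by
      rw [hw, h.sub_left, h.sub_right, h.sub_right, h.smul_left, h.smul_left, h.smul_left,
        h.smul_left, h.smul_right, h.smul_right, h.smul_right, h.smul_right]
      ring
    have : S w w = conj (S e2 e2) * d := by rw [hww, hd]; ring
    rw [h0, mul_zero] at this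
    have h1 := hpd w hwne
    rw [this] at h1
    simp at h1
  refine ⟨((l e1 * S e2 e2 - l e2 * S e2 e1) / d) • e1
    + ((l e2 * S e1 e1 - l e1 * S e1 e2) / d) • e2, fun w => ?_⟩
  conv_rhs => rw [hdec w, hadd, hsmul, hsmul]
  conv_lhs => rw [hdec w]
  rw [h.add_left, h.add_right, h.add_right, h.smul_left, h.smul_left, h.smul_left, h.smul_left,
    h.smul_right, h.smul_right, h.smul_right, h.smul_right]
  field_simp
  rw [hd]
  ring

end Crest.Agent.R245
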