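import Crest.Agent.R245.LemmaH
import Crest.Agent.R245.HermAlg

/-! From estimates of the terms of `hart_negK` to `KB` (helper file for CurvR1, CurvR2). -/

set_option autoImplicit false

namespace Crest.Agent.R245

open Complex Filter Topology
open scoped ContDiff ComplexConjugate

theorem aS_smooth_q0 : ContDiffAt ℝ ∞ aS q0 := aS_contDiffAt q0_mem

/-- the form of `aS` at `q0` -/
theorem aS_self (ξ : B2) : (D11 aS ξ ξ q0).re = ‖ξ.1‖ ^ 2 + (1/4) * ‖ξ.2‖ ^ 2 := by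
  rw [aS_D11_q0, Complex.mul_conj, Complex.mul_conj, Complex.normSq_eq_norm_sq,
    Complex.normSq_eq_norm_sq, add_re, ofReal_re,
    show ((1 : ℂ) / 4) = (((1 : ℝ) / 4 : ℝ) : ℂ) by push_cast; rfl, ← ofReal_mul, ofReal_re]

theorem aS_self_nonneg (ξ : B2) : 0 ≤ (D11 aS ξ ξ q0).re := by
  rw [aS_self]; positivity

theorem aS_self_pos (ξ : B2) (h : ξ ≠ 0) : 0 < (D11 aS ξ ξ q0).re := by
  rw [aS_self]
  by_cases h1 : ξ.1 = 0
  · have h2 : ξ.2 ≠ 0 := fun h2 => h (Prod.ext h1 h2)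
    have := norm_pos_iff.2 h2
    positivity
  · have := norm_pos_iff.2 h1
    positivity

theorem norm_sq_le_aS_kb (ξ : B2) : ‖ξ‖ ^ 2 ≤ 4 * (D11 aS ξ ξ q0).re := by
  rw [aS_self, Prod.norm_def]
  rcases le_total ‖ξ.1‖ ‖ξ.2‖ with h | h
  · rw [max_eq_right h]; nlinarith [sq_nonneg ‖ξ.1‖]
  · rw [max_eq_left h]; nlinarith [sq_nonneg ‖ξ.1‖, sq_nonneg ‖ξ.2‖]

theorem HF_aS : HF (fun X Y => D11 aS X Y q0) := HF_D11 aS_smooth_q0

theorem yy_nonneg {φ : B2 → ℝ} {x : B2 × ℂ} (h : uu φ x < 1) : 0 ≤ yy φ x := by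
  unfold yy
  have : 0 ≤ uu φ x := by unfold uu; positivity
  exact div_nonneg this (by linarith)

theorem kbHpot_smooth {A φ : B2 → ℝ} {p : B2} (hA : ContDiffAt ℝ ∞ A p) (hφ : ContDiffAt ℝ ∞ φ p)
    (y : ℝ) : ContDiffAt ℝ ∞ (Hpot A φ y) p := by
  unfold Hpot
  exact hA.add (contDiffAt_const.mul hφ)

theorem kbHpot_D11 {A φ : B2 → ℝ} {p : B2} (hA : ContDiffAt ℝ ∞ A p) (hφ : ContDiffAt ℝ ∞ φ p)
    (y : ℝ) (ξ η : B2) : D11 (Hpot A φ y) ξ η p = D11 A ξ η p + y * D11 φ ξ η p := by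
  have h1 : Hpot A φ y = fun q => A q + (fun q => y * φ q) q := rfl
  rw [h1, D11_add hA (contDiffAt_const.mul hφ), D11_const_mul hφ]

/-- pure real algebra of the final estimate -/
theorem finish_real {μ ν cM m1 m2 a1 a2 P Q AH J HU q M mU T cr ar0 K : ℝ} (hμ : 0 < μ)
    (hν : 0 < ν) (hcM : 0 ≤ cM) (hm1 : 0 < m1) (hm2 : 0 ≤ m2) (ha1 : 0 < a1) (ha2 : 0 ≤ a2)
    (hP : 0 ≤ P) (hQ : 0 ≤ Q)
    (f1 : μ ^ 2 * P ≤ AH) (f1' : AH ≤ ν ^ 2 * P) (f2 : J ^ 2 ≤ AH)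
    (f3 : μ * Q ≤ HU) (f3' : HU ≤ ν * Q) (f4 : 0 ≤ HU - 4 * q * J)
    (f5 : ar0 = AH + HU - 2 * q * J + q ^ 2) (f6 : M ^ 2 ≤ cM * P)
    (f7 : m1 * Q ≤ mU) (f7' : mU ≤ m2 * Q) (f8 : a1 * P ≤ T - M ^ 2) (f8' : T ≤ a2 * P)
    (f9 : |cr| ≤ m1 / 2 * Q + a1 / 2 * P) (hK : K = mU + 4 * q ^ 2 + 4 * q * M + T + cr) :
    (min (min (m1/2) (a1/2)) 1 / (2 * ν ^ 2 + cM + ν + 1)) * ar0 ≤ K ∧
    K ≤ ((2 * (m2 + m1/2)) / μ + 8 + (a2 + a1/2 + cM) / μ ^ 2) * ar0 := by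
  have hcr := abs_le.1 f9
  constructor
  · set c3 := min (min (m1/2) (a1/2)) 1 with hc3
    have hc3p : 0 < c3 := by
      rw [hc3]; exact lt_min (lt_min (by positivity) (by positivity)) one_pos
    have h31 : c3 ≤ m1/2 := (min_le_left _ _).trans (min_le_left _ _)
    have h32 : c3 ≤ a1/2 := (min_le_left _ _).trans (min_le_right _ _)
    have h33 : c3 ≤ 1 := min_le_right _ _
    set Z := P + Q + (2 * q + M) ^ 2 with hZ
    have hZ0 : 0 ≤ Z := by positivity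
    have g1 : ar0 ≤ (2 * ν ^ 2 + cM + ν + 1) * Z := by
      have : ar0 ≤ (2 * ν ^ 2 + cM) * P + ν * Q + (2 * q + M) ^ 2 := by
        rw [f5]
        linarith [sq_nonneg (q + J), sq_nonneg (q + M), pow_two (q + J), pow_two (q + M),
          show (q + J) ^ 2 = q ^ 2 + 2 * q * J + J ^ 2 by ring,
          show (q + M) ^ 2 = q ^ 2 + 2 * q * M + M ^ 2 by ring,
          show (2 * q + M) ^ 2 = 4 * q ^ 2 + 4 * q * M + M ^ 2 by ring]
      have h1 : (2 * ν ^ 2 + cM) * P ≤ (2 * ν ^ 2 + cM + ν + 1) * P :=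
        mul_le_mul_of_nonneg_right (by linarith) hP
      have h2 : ν * Q ≤ (2 * ν ^ 2 + cM + ν + 1) * Q :=
        mul_le_mul_of_nonneg_right (by nlinarith [sq_nonneg ν]) hQ
      have h3 : 1 * (2 * q + M) ^ 2 ≤ (2 * ν ^ 2 + cM + ν + 1) * (2 * q + M) ^ 2 :=
        mul_le_mul_of_nonneg_right (by nlinarith [sq_nonneg ν]) (sq_nonneg _)
      calc ar0 ≤ (2 * ν ^ 2 + cM) * P + ν * Q + (2 * q + M) ^ 2 := this
        _ ≤ (2 * ν ^ 2 + cM + ν + 1) * P + (2 * ν ^ 2 + cM + ν + 1) * Q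
            + (2 * ν ^ 2 + cM + ν + 1) * (2 * q + M) ^ 2 := by linarith
        _ = (2 * ν ^ 2 + cM + ν + 1) * Z := by rw [hZ]; ring
    have g2 : c3 * Z ≤ K := by
      have e1 : c3 * P ≤ a1/2 * P := mul_le_mul_of_nonneg_right h32 hP
      have e2 : c3 * Q ≤ m1/2 * Q := mul_le_mul_of_nonneg_right h31 hQ
      have e3 : c3 * (2 * q + M) ^ 2 ≤ 1 * (2 * q + M) ^ 2 :=
        mul_le_mul_of_nonneg_right h33 (sq_nonneg _)
      calc c3 * Z = c3 * P + c3 * Q + c3 * (2 * q + M) ^ 2 := by rw [hZ]; ring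
        _ ≤ a1/2 * P + m1/2 * Q + (2 * q + M) ^ 2 := by linarith
        _ ≤ K := by
            rw [hK]
            linarith [hcr.1, show (2 * q + M) ^ 2 = 4 * q ^ 2 + 4 * q * M + M ^ 2 by ring]
    have hC : 0 < 2 * ν ^ 2 + cM + ν + 1 := by positivity
    calc (c3 / (2 * ν ^ 2 + cM + ν + 1)) * ar0
        ≤ (c3 / (2 * ν ^ 2 + cM + ν + 1)) * ((2 * ν ^ 2 + cM + ν + 1) * Z) :=
          mul_le_mul_of_nonneg_left g1 (by positivity)
      _ = c3 * Z := by field_simp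
      _ ≤ K := g2
  · have g1 : μ ^ 2 * P + q ^ 2 + (μ / 2) * Q ≤ ar0 := by
      rw [f5]; linarith
    have g2 : K ≤ (m2 + m1/2) * Q + 8 * q ^ 2 + (a2 + a1/2 + cM) * P := by
      rw [hK]
      linarith [hcr.2, sq_nonneg (2 * q - M),
        show (2 * q - M) ^ 2 = 4 * q ^ 2 - 4 * q * M + M ^ 2 by ring]
    have hB1 : 0 ≤ (2 * (m2 + m1/2)) / μ := by positivity
    have hB3 : 0 ≤ (a2 + a1/2 + cM) / μ ^ 2 := by positivity
    set B1 := (2 * (m2 + m1/2)) / μ with hB1d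
    set B3 := (a2 + a1/2 + cM) / μ ^ 2 with hB3d
    have e1 : (m2 + m1/2) * Q = B1 * ((μ / 2) * Q) := by rw [hB1d]; field_simp
    have e3 : (a2 + a1/2 + cM) * P = B3 * (μ ^ 2 * P) := by rw [hB3d]; field_simp
    have hx1 : 0 ≤ (μ / 2) * Q := by positivity
    have hx2 : 0 ≤ μ ^ 2 * P := by positivity
    have hx3 := sq_nonneg q
    calc K ≤ B1 * ((μ / 2) * Q) + 8 * q ^ 2 + B3 * (μ ^ 2 * P) := by rw [← e1, ← e3]; exact g2
      _ ≤ (B1 + 8 + B3) * (μ ^ 2 * P + q ^ 2 + (μ / 2) * Q) := by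
          linarith [mul_nonneg hB1 hx2, mul_nonneg hB1 hx3, mul_nonneg hB3 hx1,
            mul_nonneg hB3 hx3, show (B1 + 8 + B3) * (μ ^ 2 * P + q ^ 2 + (μ / 2) * Q)
              = B1 * (μ ^ 2 * P) + B1 * q ^ 2 + B1 * ((μ / 2) * Q) + 8 * (μ ^ 2 * P) + 8 * q ^ 2
                + 8 * ((μ / 2) * Q) + B3 * (μ ^ 2 * P) + B3 * q ^ 2 + B3 * ((μ / 2) * Q) by ring]
      _ ≤ (B1 + 8 + B3) * ar0 := mul_le_mul_of_nonneg_left g1 (by positivity)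

theorem KB_finish {μ ν cM m1 m2 a1 a2 : ℝ} (hμ : 0 < μ) (hν : 0 < ν) (hcM : 0 ≤ cM)
    (hm1 : 0 < m1) (hm2 : 0 ≤ m2) (ha1 : 0 < a1) (ha2 : 0 ≤ a2)
    {A φ : B2 → ℝ} {ζ : ℂ} {y : ℝ} (hy : y = yy φ (q0, ζ))
    (hA : ContDiffAt ℝ ∞ A q0) (hφ : ContDiffAt ℝ ∞ φ q0)
    (hζ : ζ ≠ 0) (hu : Real.exp (φ q0) * ‖ζ‖ ^ 2 < 1)
    (hlo : ∀ ξ, μ * (1 + y) * (D11 aS ξ ξ q0).re ≤ (D11 (Hpot A φ y) ξ ξ q0).re)
    (hhi : ∀ ξ, (D11 (Hpot A φ y) ξ ξ q0).re ≤ ν * (1 + y) * (D11 aS ξ ξ q0).re)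
    (hmf : ∀ κ : B2 → B2, (∀ v w, D11 (Hpot A φ y) (κ v) w q0 = D11 φ v w q0) →
      (∀ ξ, m1 * (1 + y) * (D11 aS ξ ξ q0).re ≤ (mf A φ y q0 κ ξ ξ).re ∧
        (mf A φ y q0 κ ξ ξ).re ≤ m2 * (1 + y) * (D11 aS ξ ξ q0).re) ∧
      ∀ ξ η, (mf A φ y q0 κ ξ η).im ^ 2 ≤ cM * (1 + y) ^ 2 * area aS q0 ξ η ∧
        ∀ γ11 γ12 γ22, IsGam (Hpot A φ y) q0 ξ ξ γ11 → IsGam (Hpot A φ y) q0 ξ η γ12 →
          IsGam (Hpot A φ y) q0 η η γ22 →
          a1 * (1 + y) ^ 2 * area aS q0 ξ η ≤ y * (1 + y) * calK φ q0 ξ η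
              + negK (Hpot A φ y) q0 ξ η γ11 γ12 γ22 - (mf A φ y q0 κ ξ η).im ^ 2 ∧
            y * (1 + y) * calK φ q0 ξ η + negK (Hpot A φ y) q0 ξ η γ11 γ12 γ22
              ≤ a2 * (1 + y) ^ 2 * area aS q0 ξ η)
    (hcr : ∀ ξ η u' g1 g2, IsGam (Hpot A φ y) q0 ξ u' g1 → IsGam (Hpot A φ y) q0 η u' g2 →
      |2 * Real.sqrt (y * (1 + y)) *
        ((D21 φ ξ u' η q0 - D11 φ g1 η q0) - (D21 φ η u' ξ q0 - D11 φ g2 ξ q0)).re|
      ≤ m1 / 2 * (1 + y) * (D11 aS u' u' q0).re + a1 / 2 * (1 + y) ^ 2 * area aS q0 ξ η) :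
    KB (hart A φ) (q0, ζ) (min (min (m1/2) (a1/2)) 1 / (2 * ν ^ 2 + cM + ν + 1))
      ((2 * (m2 + m1/2)) / μ + 8 + (a2 + a1/2 + cM) / μ ^ 2) := by
  intro X Y Γxx Γxy Γyy h1 h2 h3
  have huu : uu φ (q0, ζ) < 1 := hu
  have hy0 : 0 ≤ y := by rw [hy]; exact yy_nonneg huu
  have hN : 0 < 1 + y := by linarith
  have hHs : ContDiffAt ℝ ∞ (Hpot A φ y) q0 := kbHpot_smooth hA hφ y
  have hHF := HF_D11 hHs
  have hφF := HF_D11 hφ
  have hHpd : ∀ ξ, ξ ≠ 0 → 0 < (D11 (Hpot A φ y) ξ ξ q0).re := fun ξ h =>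
    lt_of_lt_of_le (mul_pos (mul_pos hμ hN) (aS_self_pos ξ h)) (hlo ξ)
  have hHnn : ∀ ξ, 0 ≤ (D11 (Hpot A φ y) ξ ξ q0).re := fun ξ =>
    le_trans (mul_nonneg (mul_nonneg hμ.le hN.le) (aS_self_nonneg ξ)) (hlo ξ)
  have hex : ∀ v, ∃ κv, ∀ w, D11 (Hpot A φ y) κv w q0 = D11 φ v w q0 := fun v =>
    hHF.exists_rep hHpd (fun w => D11 φ v w q0) (fun x x' => hφF.add_right v x x')
      (fun c x => hφF.smul_right c v x)
  choose κ hκ using hex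
  have hgam : ∀ X Y : B2, ∃ Γ, IsGam (Hpot A φ y) q0 X Y Γ := fun X Y =>
    hHF.exists_rep hHpd (fun Z => D21 (Hpot A φ y) X Y Z q0) (fun x x' => D21_add_3 hHs X Y x x')
      (fun c x => D21_smul_3 hHs c X Y x)
  obtain ⟨γ11, k11⟩ := hgam X.1 X.1
  obtain ⟨γ12, k12⟩ := hgam X.1 Y.1
  obtain ⟨γ22, k22⟩ := hgam Y.1 Y.1
  set a := aa φ (q0, ζ) X with ha
  set b := aa φ (q0, ζ) Y with hb
  obtain ⟨u', hu'⟩ : ∃ u', u' = conj a • Y.1 - conj b • X.1 := ⟨_, rfl⟩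
  obtain ⟨g1, kg1⟩ := hgam X.1 u'
  obtain ⟨g2, kg2⟩ := hgam Y.1 u'
  have hform := hart_negK A φ (q0, ζ) hA hφ huu hζ (by rw [← hy]; exact hHpd) κ
    (by rw [← hy]; exact hκ) X Y Γxx Γxy Γyy h1 h2 h3 γ11 γ12 γ22 g1 g2
    (by rw [← hy]; exact k11) (by rw [← hy]; exact k12) (by rw [← hy]; exact k22) u' hu'
    (by rw [← hy]; exact kg1) (by rw [← hy]; exact kg2)
  have harea := hart_area A φ (q0, ζ) hA hφ huu hζ X Y u' hu'
  simp only [← hy, ← ha, ← hb] at hform harea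
  obtain ⟨m12, m3⟩ := hmf κ hκ
  obtain ⟨m4, m5⟩ := m3 X.1 Y.1
  obtain ⟨m6, m7⟩ := m5 γ11 γ12 γ22 k11 k12 k22
  have m8 := hcr X.1 Y.1 u' g1 g2 kg1 kg2
  obtain ⟨m9, m10⟩ := m12 u'
  have hA0 : 0 ≤ area aS q0 X.1 Y.1 := HF_aS.ar_nonneg aS_self_nonneg X.1 Y.1
  have hU0 := aS_self_nonneg u'
  have l1 := ar_lower hHF HF_aS aS_self_nonneg (mul_pos hμ hN).le hlo X.1 Y.1
  have l2 := ar_upper hHF HF_aS hHnn hhi X.1 Y.1
  have l3 := hHF.im_sq_le hHnn X.1 Y.1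
  have l4 := hHnn (a • Y.1 - b • X.1)
  -- relation between `H(u,u)` and `H(u',u')`
  have l5 : (D11 (Hpot A φ y) (a • Y.1 - b • X.1) (a • Y.1 - b • X.1) q0).re
      = (D11 (Hpot A φ y) u' u' q0).re
        - 4 * (a * conj b).im * (D11 (Hpot A φ y) X.1 Y.1 q0).im := by
    have e1 : D11 (Hpot A φ y) (a • Y.1 - b • X.1) (a • Y.1 - b • X.1) q0
        = a * conj a * D11 (Hpot A φ y) Y.1 Y.1 q0 - a * conj b * D11 (Hpot A φ y) Y.1 X.1 q0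
          - b * conj a * D11 (Hpot A φ y) X.1 Y.1 q0
          + b * conj b * D11 (Hpot A φ y) X.1 X.1 q0 := by
      have := hHF.sub_left (a • Y.1) (b • X.1) (a • Y.1 - b • X.1)
      rw [this]
      have h1 := hHF.sub_right (a • Y.1) (a • Y.1) (b • X.1)
      have h2 := hHF.sub_right (b • X.1) (a • Y.1) (b • X.1)
      rw [h1, h2]
      have r1 := hHF.smul_left a Y.1 (a • Y.1)
      have r2 := hHF.smul_left a Y.1 (b • X.1)
      have r3 := hHF.smul_left b X.1 (a • Y.1)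
      have r4 := hHF.smul_left b X.1 (b • X.1)
      have s1 := hHF.smul_right a Y.1 Y.1
      have s2 := hHF.smul_right b Y.1 X.1
      have s3 := hHF.smul_right a X.1 Y.1
      have s4 := hHF.smul_right b X.1 X.1
      rw [r1, r2, r3, r4, s1, s2, s3, s4]
      ring
    have e2 : D11 (Hpot A φ y) u' u' q0
        = conj a * a * D11 (Hpot A φ y) Y.1 Y.1 q0 - conj a * b * D11 (Hpot A φ y) Y.1 X.1 q0
          - conj b * a * D11 (Hpot A φ y) X.1 Y.1 q0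
          + conj b * b * D11 (Hpot A φ y) X.1 X.1 q0 := by
      rw [hu']
      have := hHF.sub_left (conj a • Y.1) (conj b • X.1) (conj a • Y.1 - conj b • X.1)
      rw [this]
      have h1 := hHF.sub_right (conj a • Y.1) (conj a • Y.1) (conj b • X.1)
      have h2 := hHF.sub_right (conj b • X.1) (conj a • Y.1) (conj b • X.1)
      rw [h1, h2]
      have r1 := hHF.smul_left (conj a) Y.1 (conj a • Y.1)
      have r2 := hHF.smul_left (conj a) Y.1 (conj b • X.1)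
      have r3 := hHF.smul_left (conj b) X.1 (conj a • Y.1)
      have r4 := hHF.smul_left (conj b) X.1 (conj b • X.1)
      have s1 := hHF.smul_right (conj a) Y.1 Y.1
      have s2 := hHF.smul_right (conj b) Y.1 X.1
      have s3 := hHF.smul_right (conj a) X.1 Y.1
      have s4 := hHF.smul_right (conj b) X.1 X.1
      simp only [conj_conj] at r1 r2 r3 r4 s1 s2 s3 s4
      rw [r1, r2, r3, r4, s1, s2, s3, s4]
      ring
    have e3 : D11 (Hpot A φ y) Y.1 X.1 q0 = conj (D11 (Hpot A φ y) X.1 Y.1 q0) :=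
      (hHF.symm X.1 Y.1).symm
    rw [e1, e2, e3]
    simp only [add_re, sub_re, mul_re, mul_im, conj_re, conj_im]
    ring
  rw [l5] at l4
  have key := finish_real (μ := μ) (ν := ν) (cM := cM) (m1 := m1) (m2 := m2) (a1 := a1) (a2 := a2)
    (P := (1 + y) ^ 2 * area aS q0 X.1 Y.1) (Q := (1 + y) * (D11 aS u' u' q0).re)
    (AH := area (Hpot A φ y) q0 X.1 Y.1) (J := (D11 (Hpot A φ y) X.1 Y.1 q0).im)
    (HU := (D11 (Hpot A φ y) u' u' q0).re) (q := (a * conj b).im)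
    (M := (mf A φ y q0 κ X.1 Y.1).im) (mU := (mf A φ y q0 κ u' u').re)
    (T := y * (1 + y) * calK φ q0 X.1 Y.1 + negK (Hpot A φ y) q0 X.1 Y.1 γ11 γ12 γ22)
    (cr := 2 * Real.sqrt (y * (1 + y)) *
        ((D21 φ X.1 u' Y.1 q0 - D11 φ g1 Y.1 q0) - (D21 φ Y.1 u' X.1 q0 - D11 φ g2 X.1 q0)).re)
    (ar0 := area (hart A φ) (q0, ζ) X Y) (K := negK (hart A φ) (q0, ζ) X Y Γxx Γxy Γyy)
    hμ hν hcM hm1 hm2 ha1 ha2 (by positivity) (by positivity)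
    (by rw [area_eq, area_eq]; calc _ = (μ * (1 + y)) ^ 2 * ar (fun X Y => D11 aS X Y q0) X.1 Y.1 := by ring
          _ ≤ _ := l1)
    (by rw [area_eq, area_eq]; calc _ ≤ _ := l2
          _ = _ := by ring)
    l3
    (by calc _ = μ * (1 + y) * (D11 aS u' u' q0).re := by ring
          _ ≤ _ := hlo u')
    (by calc _ ≤ _ := hhi u'
          _ = _ := by ring)
    l4
    (by rw [harea])
    (by calc _ ≤ _ := m4
          _ = _ := by ring)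
    (by calc _ = m1 * (1 + y) * (D11 aS u' u' q0).re := by ring
          _ ≤ _ := m9)
    (by calc _ ≤ _ := m10
          _ = _ := by ring)
    (by calc _ = a1 * (1 + y) ^ 2 * area aS q0 X.1 Y.1 := by ring
          _ ≤ _ := m6)
    (by calc _ ≤ _ := m7
          _ = _ := by ring)
    (by calc _ ≤ _ := m8
          _ = _ := by ring)
    (by rw [hform]; ring)
  exact key

end Crest.Agent.R245
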