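import Crest.Agent.R245.AlgR
import Crest.Agent.R245.KBFinish
import Crest.Agent.R245.CurvR2Num

/-! Lemmas for CurvR2. -/

set_option autoImplicit false

namespace Crest.Agent.R245

open Complex Filter Topology
open scoped ContDiff ComplexConjugate

theorem KB_mono_of_lt {V : Type*} [NormedAddCommGroup V] [NormedSpace ℝ V] [NormedSpace ℂ V]
    {P : V → ℝ} {p : V} {c0 B0 c B : ℝ} (h : KB P p c0 B0) (h0 : c0 < B0) (hc : c ≤ c0)
    (hB : B0 ≤ B) : KB P p c B := by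
  intro X Y Γ1 Γ2 Γ3 h1 h2 h3
  obtain ⟨a1, a2⟩ := h X Y Γ1 Γ2 Γ3 h1 h2 h3
  have ha : 0 ≤ area P p X Y := by
    by_contra hneg
    push Not at hneg
    nlinarith
  exact ⟨(mul_le_mul_of_nonneg_right hc ha).trans a1, a2.trans (mul_le_mul_of_nonneg_right hB ha)⟩

/-- jets of `const + r u` -/
theorem JetB_affine {u : B2 → ℝ} {C r e : ℝ} (hu : ContDiffAt ℝ ∞ u q0) (hJ : JetB u C)
    (hr : 0 ≤ r) (he : r * C ≤ e) (c : ℝ) : JetB (fun b => c + r * u b) e := by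
  intro k hk1 hk4
  have huk : ContDiffAt ℝ k u q0 := hu.of_le (by exact_mod_cast le_top)
  have hruk : ContDiffAt ℝ k (r • u) q0 := huk.const_smul r
  have e1 : iteratedFDeriv ℝ k (fun b => c + r * u b) q0 = r • iteratedFDeriv ℝ k u q0 := by
    have h1 : (fun b => c + r * u b) = (fun _ : B2 => c) + (r • u) := by
      funext b; simp
    rw [h1, iteratedFDeriv_add_apply contDiffAt_const hruk,
      iteratedFDeriv_const_of_ne (by omega), iteratedFDeriv_const_smul_apply huk]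
    simp
  rw [e1, norm_smul, Real.norm_eq_abs, abs_of_nonneg hr]
  exact (mul_le_mul_of_nonneg_left (hJ k hk1 hk4) hr).trans he

section
variable {u : B2 → ℝ} {η CW τ β : ℝ}

theorem phi_smooth (hu : ContDiffAt ℝ ∞ u q0) (η τ β : ℝ) :
    ContDiffAt ℝ ∞ (fun b => τ * (η * aS b + u b) + β) q0 :=
  (contDiffAt_const.mul ((contDiffAt_const.mul aS_q0_smooth).add hu)).add contDiffAt_const

theorem phi_D11 (hu : ContDiffAt ℝ ∞ u q0) (η τ β : ℝ) (v w : B2) :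
    D11 (fun b => τ * (η * aS b + u b) + β) v w q0 =
      τ * (η * D11 aS v w q0 + D11 u v w q0) := by
  have h1 : ContDiffAt ℝ ∞ (fun b => η * aS b) q0 := contDiffAt_const.mul aS_q0_smooth
  have h2 : ContDiffAt ℝ ∞ (fun b => η * aS b + u b) q0 := h1.add hu
  rw [D11_add (contDiffAt_const.mul h2) contDiffAt_const, D11_const_mul h2, D11_const,
    D11_add h1 hu, D11_const_mul aS_q0_smooth, add_zero]

theorem phi_D11_re (hu : ContDiffAt ℝ ∞ u q0) (η τ β : ℝ) (v w : B2) :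
    (D11 (fun b => τ * (η * aS b + u b) + β) v w q0).re =
      τ * (η * (D11 aS v w q0).re + (D11 u v w q0).re) := by
  rw [phi_D11 hu, Complex.re_ofReal_mul, Complex.add_re, Complex.re_ofReal_mul]

theorem u_hi (hu : ContDiffAt ℝ ∞ u q0) (hJ : JetB u CW) (hCW : 0 < CW) (ξ : B2) :
    (D11 u ξ ξ q0).re ≤ 4 * CW * (D11 aS ξ ξ q0).re := by
  have h1 := D11_le hu ξ ξ
  have h2 := norm_sq_le_aS_kb ξ
  have h3 := hJ 2 (by norm_num) (by norm_num)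
  calc (D11 u ξ ξ q0).re ≤ ‖D11 u ξ ξ q0‖ := Complex.re_le_norm _
    _ ≤ ‖iteratedFDeriv ℝ 2 u q0‖ * ‖ξ‖ * ‖ξ‖ := h1
    _ = ‖iteratedFDeriv ℝ 2 u q0‖ * ‖ξ‖ ^ 2 := by ring
    _ ≤ CW * (4 * (D11 aS ξ ξ q0).re) := by gcongr
    _ = _ := by ring

theorem calK_le {P : B2 → ℝ} (hP : ContDiffAt ℝ ∞ P q0) (h0 : ∀ ξ, 0 ≤ (D11 P ξ ξ q0).re)
    (ξ η : B2) : 0 ≤ calK P q0 ξ η ∧ calK P q0 ξ η ≤ 4 * area P q0 ξ η := by
  have h1 := (HF_D11 hP).im_sq_le h0 ξ η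
  have h2 := (HF_D11 hP).ar_nonneg h0 ξ η
  have e : calK P q0 ξ η = area P q0 ξ η + 3 * (D11 P ξ η q0).im ^ 2 := rfl
  rw [← area_eq] at h1 h2
  rw [e]
  constructor
  · positivity
  · linarith

/-- lower bound of `i∂∂̄φ` -/
theorem wild_phi_lo (hτ : 0 < τ) (hu : ContDiffAt ℝ ∞ u q0)
    (hlev : ∀ ξ, -(η / 2) * (D11 aS ξ ξ q0).re ≤ (D11 u ξ ξ q0).re) (ξ : B2) :
    τ * η / 2 * (D11 aS ξ ξ q0).re ≤
      (D11 (fun b => τ * (η * aS b + u b) + β) ξ ξ q0).re := by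
  rw [phi_D11_re hu]
  have h1 := mul_le_mul_of_nonneg_left (hlev ξ) hτ.le
  linarith

/-- upper bound of `i∂∂̄φ` -/
theorem wild_phi_hi (hτ : 0 < τ) (hu : ContDiffAt ℝ ∞ u q0) (hJ : JetB u CW) (hCW : 0 < CW)
    (ξ : B2) :
    (D11 (fun b => τ * (η * aS b + u b) + β) ξ ξ q0).re ≤
      τ * (η + 4 * CW) * (D11 aS ξ ξ q0).re := by
  rw [phi_D11_re hu]
  have h1 := mul_le_mul_of_nonneg_left (u_hi hu hJ hCW ξ) hτ.le
  linarith

theorem wild_H_re {φ : B2 → ℝ} (Λ α y : ℝ) (hφ : ContDiffAt ℝ ∞ φ q0) (ξ η : B2) :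
    (D11 (Hpot (fun b => Λ * aS b + α) φ y) ξ η q0).re =
      Λ * (D11 aS ξ η q0).re + y * (D11 φ ξ η q0).re := by
  rw [algHpot_D11 (scal_aS_smooth Λ α) hφ, D11_scal_aS, Complex.add_re, Complex.re_ofReal_mul,
    Complex.re_ofReal_mul]

theorem wild_HE (Λ α τ η β y : ℝ) (u : B2 → ℝ) :
    Hpot (fun b => Λ * aS b + α) (fun b => τ * (η * aS b + u b) + β) y =
      fun b => (Λ + y * (τ * η)) * aS b + ((α + y * β) + (y * τ) * u b) := by
  funext b; simp only [Hpot]; ring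

theorem wild_phiE (τ η β : ℝ) (u : B2 → ℝ) :
    (fun b => τ * (η * aS b + u b) + β) = fun b => (τ * η) * aS b + (β + τ * u b) := by
  funext b; ring

/-- real estimate used for `wild_negK` -/
theorem wild_e_est {Cb y τ η CW Λ : ℝ} (hCb : 0 < Cb) (hy : 0 ≤ y) (hτ : 0 < τ) (hη : 0 < η)
    (hCW : 0 < CW) (hΛ : 0 < Λ) :
    Cb * (y * τ * CW + (y * τ * CW) ^ 2 / (Λ + y * (τ * η / 2))) ≤
      Cb * (CW * (1 + 2 * CW / η)) * (τ * y) := by
  have hmu : 0 < Λ + y * (τ * η / 2) := by positivity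
  have e1 : (y * τ * CW) ^ 2 / (Λ + y * (τ * η / 2)) ≤ y * τ * CW * (2 * CW / η) := by
    rw [div_le_iff₀ hmu]
    have : y * τ * CW * (2 * CW / η) * (Λ + y * (τ * η / 2)) =
        (y * τ * CW) ^ 2 + y * τ * CW * (2 * CW / η) * Λ := by
      field_simp; ring
    rw [this]
    have : 0 ≤ y * τ * CW * (2 * CW / η) * Λ := by positivity
    linarith
  calc Cb * (y * τ * CW + (y * τ * CW) ^ 2 / (Λ + y * (τ * η / 2)))
      ≤ Cb * (y * τ * CW + y * τ * CW * (2 * CW / η)) := by gcongr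
    _ = _ := by ring

end

/-- upper bound of the gain -/
theorem gain_upper {Λ tm y : ℝ} (htm : 0 < tm) (hΛ : 0 < Λ) (hy : 0 ≤ y) :
    Λ / 4 + (y * tm) ^ 3 / (8 * (Λ + y * tm)) / 2 ≤ (Λ + tm ^ 2) * (1 + y) ^ 2 := by
  have g1 : (y * tm) ^ 3 / (8 * (Λ + y * tm)) ≤ (y * tm) ^ 2 / 8 := by
    rw [div_le_div_iff₀ (by positivity) (by norm_num)]
    have h1 : 0 ≤ (y * tm) ^ 2 * Λ := by positivity
    nlinarith [h1]
  have g2 : (y * tm) ^ 2 / 8 ≤ tm ^ 2 * (1 + y) ^ 2 := by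
    have : 0 ≤ tm ^ 2 * y := by positivity
    have : 0 ≤ tm ^ 2 * y ^ 2 := by positivity
    nlinarith [sq_nonneg tm]
  have g3 : Λ ≤ Λ * (1 + y) ^ 2 := by
    have := mul_nonneg hΛ.le hy
    have := mul_nonneg hΛ.le (sq_nonneg y)
    nlinarith
  have g4 : 0 ≤ tm ^ 2 * (1 + y) ^ 2 := by positivity
  linarith

/-- lower bound, real form -/
theorem wild_low_real {Λ G R K1 Y a f M2 nK L kA : ℝ} (hR : R = Λ / 4 + G / 2)
    (f1 : (Λ / 2 + G) * a ≤ Λ * kA + f - M2) (hb : -(K1 * Y * a) ≤ nK - (Λ + L) * kA)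
    (hK : K1 * Y * a ≤ R * a) (hL : 0 ≤ L * kA) : R * a ≤ f + nK - M2 := by
  have e3 : R * a + R * a = (Λ / 2 + G) * a := by rw [hR]; ring
  linarith

/-- upper bound, real form -/
theorem wild_upp_real {Λ η τ y tM a aφ kφ kA nK K1 : ℝ} (hΛ : 0 < Λ) (hη : 0 < η) (hτ : 0 < τ)
    (hτ1 : τ ≤ 1) (hy : 0 ≤ y) (ha : 0 ≤ a) (hK1 : 0 ≤ K1)
    (h1 : kφ ≤ 4 * aφ) (h2 : aφ ≤ tM ^ 2 * a) (h3 : kA ≤ 4 * a)
    (hb : nK - (Λ + y * (τ * η)) * kA ≤ K1 * (τ * y) * a) :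
    y * (1 + y) * kφ + nK ≤ (4 * tM ^ 2 + 4 * (Λ + η) + K1) * (1 + y) ^ 2 * a := by
  have hτy : τ * y ≤ (1 + y) ^ 2 := by nlinarith
  have e2 : y * (1 + y) * kφ ≤ 4 * tM ^ 2 * (1 + y) ^ 2 * a := by
    calc y * (1 + y) * kφ ≤ y * (1 + y) * (4 * (tM ^ 2 * a)) := by gcongr; linarith
      _ ≤ (1 + y) ^ 2 * (4 * (tM ^ 2 * a)) := by
          apply mul_le_mul_of_nonneg_right _ (by positivity)
          nlinarith
      _ = _ := by ring
  have e3 : (Λ + y * (τ * η)) * kA ≤ 4 * (Λ + η) * (1 + y) ^ 2 * a := by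
    have e4 : Λ + y * (τ * η) ≤ (Λ + η) * (1 + y) ^ 2 := by
      have h6 : τ * η ≤ η := by nlinarith
      linarith [mul_nonneg hy hΛ.le, mul_nonneg hy hη.le,
        mul_le_mul_of_nonneg_left h6 hy, mul_nonneg (mul_nonneg hy hy) hΛ.le,
        mul_nonneg (mul_nonneg hy hy) hη.le]
    calc (Λ + y * (τ * η)) * kA ≤ (Λ + y * (τ * η)) * (4 * a) := by gcongr
      _ ≤ (Λ + η) * (1 + y) ^ 2 * (4 * a) := by gcongr
      _ = _ := by ring
  have e5 : K1 * (τ * y) * a ≤ K1 * (1 + y) ^ 2 * a := by gcongr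
  linarith

end Crest.Agent.R245
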