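import Crest.Agent.R245.CurvR2A

/-! Pointwise form of CurvR2 from abstract estimates. -/

set_option autoImplicit false

namespace Crest.Agent.R245

open Complex Filter Topology
open scoped ContDiff ComplexConjugate

theorem wild_hmf {Λ τ η α tm tM K1 R y : ℝ} (hΛ : 0 < Λ) (hη : 0 < η) (hτ : 0 < τ) (hτ1 : τ ≤ 1)
    (hK1 : 0 ≤ K1) (htm0 : 0 < tm) (h4 : 4 * tM ^ 2 ≤ Λ) (htMΛ : tM ≤ Λ) (htM0 : 0 < tM)
    {φ : B2 → ℝ} (hφ : ContDiffAt ℝ ∞ φ q0)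
    (hφlo : ∀ ξ, tm * (D11 aS ξ ξ q0).re ≤ (D11 φ ξ ξ q0).re)
    (hφhi : ∀ ξ, (D11 φ ξ ξ q0).re ≤ tM * (D11 aS ξ ξ q0).re)
    (hy0 : 0 ≤ y)
    (hneg : ∀ ξ η' γ11 γ12 γ22, IsGam (Hpot (fun b => Λ * aS b + α) φ y) q0 ξ ξ γ11 →
      IsGam (Hpot (fun b => Λ * aS b + α) φ y) q0 ξ η' γ12 →
      IsGam (Hpot (fun b => Λ * aS b + α) φ y) q0 η' η' γ22 →
      |negK (Hpot (fun b => Λ * aS b + α) φ y) q0 ξ η' γ11 γ12 γ22
        - (Λ + y * (τ * η)) * calK aS q0 ξ η'| ≤ K1 * (τ * y) * area aS q0 ξ η')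
    (hR : R = Λ / 4 + (y * tm) ^ 3 / (8 * (Λ + y * tm)) / 2)
    (habs : K1 * (τ * y) ≤ R)
    (κ : B2 → B2)
    (hκ : ∀ v w, D11 (Hpot (fun b => Λ * aS b + α) φ y) (κ v) w q0 = D11 φ v w q0) :
    (∀ ξ, tm * (1 + y) * (D11 aS ξ ξ q0).re ≤ (mf (fun b => Λ * aS b + α) φ y q0 κ ξ ξ).re ∧
        (mf (fun b => Λ * aS b + α) φ y q0 κ ξ ξ).re ≤ (2 * tM) * (1 + y) * (D11 aS ξ ξ q0).re) ∧
      ∀ ξ η', (mf (fun b => Λ * aS b + α) φ y q0 κ ξ η').im ^ 2 ≤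
          (8 * tM ^ 2) * (1 + y) ^ 2 * area aS q0 ξ η' ∧
        ∀ γ11 γ12 γ22, IsGam (Hpot (fun b => Λ * aS b + α) φ y) q0 ξ ξ γ11 →
          IsGam (Hpot (fun b => Λ * aS b + α) φ y) q0 ξ η' γ12 →
          IsGam (Hpot (fun b => Λ * aS b + α) φ y) q0 η' η' γ22 →
          R * area aS q0 ξ η' ≤ y * (1 + y) * calK φ q0 ξ η'
              + negK (Hpot (fun b => Λ * aS b + α) φ y) q0 ξ η' γ11 γ12 γ22
              - (mf (fun b => Λ * aS b + α) φ y q0 κ ξ η').im ^ 2 ∧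
            y * (1 + y) * calK φ q0 ξ η'
              + negK (Hpot (fun b => Λ * aS b + α) φ y) q0 ξ η' γ11 γ12 γ22
              ≤ (4 * tM ^ 2 + 4 * (Λ + η) + K1) * (1 + y) ^ 2 * area aS q0 ξ η' := by
  have hform := fun ξ η' => alg_form Λ y tm tM hΛ hy0 htm0 h4 htMΛ φ hφ α hφlo hφhi κ hκ ξ η'
  have hφ0 : ∀ ξ, 0 ≤ (D11 φ ξ ξ q0).re := fun ξ =>
    le_trans (mul_nonneg htm0.le (aS_self_nonneg ξ)) (hφlo ξ)
  constructor
  · intro ξ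
    obtain ⟨-, f2, f3, -⟩ := hform ξ ξ
    have hT := aS_self_nonneg ξ
    constructor
    · calc tm * (1 + y) * (D11 aS ξ ξ q0).re = (1 + y) * tm * (D11 aS ξ ξ q0).re := by ring
        _ ≤ _ := f2
    · refine f3.trans (mul_le_mul_of_nonneg_right ?_ hT)
      linarith
  · intro ξ η'
    obtain ⟨f1, -, -, f4⟩ := hform ξ η'
    have har : 0 ≤ area aS q0 ξ η' := HF_aS.ar_nonneg aS_self_nonneg ξ η'
    constructor
    · calc (mf (fun b => Λ * aS b + α) φ y q0 κ ξ η').im ^ 2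
            ≤ ((1 + 2 * y) * tM) ^ 2 * 2 * area aS q0 ξ η' := f4
        _ ≤ (2 * (1 + y) * tM) ^ 2 * 2 * area aS q0 ξ η' := by gcongr; linarith
        _ = _ := by ring
    · intro γ11 γ12 γ22 k11 k12 k22
      have hb := hneg ξ η' γ11 γ12 γ22 k11 k12 k22
      obtain ⟨ck0, ck4⟩ := calK_le aS_q0_smooth aS_self_nonneg ξ η'
      obtain ⟨-, cφ4⟩ := calK_le hφ hφ0 ξ η'
      have hbl := (abs_le.1 hb).1
      have hbu := (abs_le.1 hb).2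
      have hK1Ra := mul_le_mul_of_nonneg_right habs har
      have e1 : area φ q0 ξ η' ≤ tM ^ 2 * area aS q0 ξ η' :=
        ar_upper (HF_D11 hφ) HF_aS hφ0 hφhi ξ η'
      constructor
      · have e2 : 0 ≤ y * (τ * η) * calK aS q0 ξ η' := by positivity
        exact wild_low_real (G := (y * tm) ^ 3 / (8 * (Λ + y * tm))) hR f1 hbl hK1Ra e2
      · exact wild_upp_real hΛ hη hτ hτ1 hy0 har hK1 cφ4 e1 ck4 hbu

theorem wild_pt {Λ τ η α tm tM K1 K y : ℝ} (hΛ : 0 < Λ) (hη : 0 < η) (hτ : 0 < τ) (hτ1 : τ ≤ 1)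
    (hK1 : 0 ≤ K1) (hK : 0 ≤ K) (htm : tm = τ * η / 2) (htmM : tm ≤ tM)
    (h4 : 4 * tM ^ 2 ≤ Λ) (htMΛ : tM ≤ Λ)
    {φ : B2 → ℝ} (hφ : ContDiffAt ℝ ∞ φ q0)
    (hφlo : ∀ ξ, tm * (D11 aS ξ ξ q0).re ≤ (D11 φ ξ ξ q0).re)
    (hφhi : ∀ ξ, (D11 φ ξ ξ q0).re ≤ tM * (D11 aS ξ ξ q0).re)
    (hy0 : 0 ≤ y)
    (hneg : ∀ ξ η' γ11 γ12 γ22, IsGam (Hpot (fun b => Λ * aS b + α) φ y) q0 ξ ξ γ11 →
      IsGam (Hpot (fun b => Λ * aS b + α) φ y) q0 ξ η' γ12 →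
      IsGam (Hpot (fun b => Λ * aS b + α) φ y) q0 η' η' γ22 →
      |negK (Hpot (fun b => Λ * aS b + α) φ y) q0 ξ η' γ11 γ12 γ22
        - (Λ + y * (τ * η)) * calK aS q0 ξ η'| ≤ K1 * (τ * y) * area aS q0 ξ η')
    (hcross : ∀ ξ η' u' g1 g2, IsGam (Hpot (fun b => Λ * aS b + α) φ y) q0 ξ u' g1 →
      IsGam (Hpot (fun b => Λ * aS b + α) φ y) q0 η' u' g2 →
      |((D21 φ ξ u' η' q0 - D11 φ g1 η' q0) - (D21 φ η' u' ξ q0 - D11 φ g2 ξ q0)).re| ≤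
        K * τ * Real.sqrt (area aS q0 ξ η') * Real.sqrt (D11 aS u' u' q0).re)
    (habs : (K1 + 2 * (4 * K ^ 2 / η)) * (τ * y) ≤
      Λ / 4 + (y * tm) ^ 3 / (8 * (Λ + y * tm)) / 2)
    {ζ : ℂ} (hζ : ζ ≠ 0) (hexp : Real.exp (φ q0) * ‖ζ‖ ^ 2 < 1) (hy : y = yy φ (q0, ζ)) :
    ∃ a1 : ℝ, tm ^ 3 / (64 * (Λ + tm)) ≤ a1 ∧ a1 ≤ Λ + tm ^ 2 ∧
      KB (hart (fun b => Λ * aS b + α) φ) (q0, ζ)
        (min (min (tm/2) (a1/2)) 1 / (2 * (Λ + tM) ^ 2 + 8 * tM ^ 2 + (Λ + tM) + 1))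
        ((2 * (2 * tM + tm/2)) / tm + 8 +
          ((4 * tM ^ 2 + 4 * (Λ + η) + K1) + a1/2 + 8 * tM ^ 2) / tm ^ 2) := by
  have htm0 : 0 < tm := by rw [htm]; positivity
  have htM0 : 0 < tM := lt_of_lt_of_le htm0 htmM
  have h4' : 4 * tm ^ 2 ≤ Λ := by nlinarith
  have htmΛ : tm ≤ Λ := htmM.trans htMΛ
  have h1y : 0 < 1 + y := by linarith
  obtain ⟨R, hR⟩ : ∃ R : ℝ, R = Λ / 4 + (y * tm) ^ 3 / (8 * (Λ + y * tm)) / 2 := ⟨_, rfl⟩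
  have hR0 : 0 < R := by rw [hR]; positivity
  have hKη : 0 ≤ 4 * K ^ 2 / η := by positivity
  rw [← hR] at habs
  have hlow : tm ^ 3 / (64 * (Λ + tm)) * (1 + y) ^ 2 ≤ R := by
    rw [hR]; exact gain_lower htm0 hΛ h4' hy0
  have hupp : R ≤ (Λ + tm ^ 2) * (1 + y) ^ 2 := by
    rw [hR]; exact gain_upper htm0 hΛ hy0
  have ha1R : R / (1 + y) ^ 2 * (1 + y) ^ 2 = R := by field_simp
  have ha1p : 0 < R / (1 + y) ^ 2 := by positivity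
  have habs1 : K1 * (τ * y) ≤ R := by
    refine le_trans ?_ habs
    apply mul_le_mul_of_nonneg_right _ (by positivity)
    linarith
  have habs2 : 4 * K ^ 2 / η * (τ * y) ≤ R / 2 := by
    have h0 : 0 ≤ K1 * (τ * y) := by positivity
    have h1 : (K1 + 2 * (4 * K ^ 2 / η)) * (τ * y) =
      K1 * (τ * y) + 2 * (4 * K ^ 2 / η * (τ * y)) := by ring
    linarith
  refine ⟨R / (1 + y) ^ 2, ?_, ?_, ?_⟩
  · rw [le_div_iff₀ (by positivity)]; exact hlow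
  · rw [div_le_iff₀ (by positivity)]; exact hupp
  · refine KB_finish (μ := tm) (ν := Λ + tM) (cM := 8 * tM ^ 2) (m1 := tm) (m2 := 2 * tM)
      (a1 := R / (1 + y) ^ 2) (a2 := 4 * tM ^ 2 + 4 * (Λ + η) + K1)
      htm0 (by positivity) (by positivity) htm0 (by positivity) ha1p (by positivity)
      (y := y) hy (scal_aS_smooth Λ α) hφ hζ hexp ?_ ?_ ?_ ?_
    · intro ξ
      rw [wild_H_re Λ α y hφ]
      have h1 := mul_le_mul_of_nonneg_left (hφlo ξ) hy0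
      have h2 := mul_le_mul_of_nonneg_right htmΛ (aS_self_nonneg ξ)
      linarith
    · intro ξ
      rw [wild_H_re Λ α y hφ]
      have h1 := mul_le_mul_of_nonneg_left (hφhi ξ) hy0
      have h2 := mul_nonneg htM0.le (aS_self_nonneg ξ)
      have h3 := mul_nonneg (mul_nonneg hy0 hΛ.le) (aS_self_nonneg ξ)
      linarith
    · intro κ hκ
      have := wild_hmf hΛ hη hτ hτ1 hK1 htm0 h4 htMΛ htM0 hφ hφlo hφhi hy0 hneg hR habs1 κ hκ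
      rw [ha1R]
      exact this
    · intro ξ η' u' g1 g2 hg1 hg2
      have har : 0 ≤ area aS q0 ξ η' := HF_aS.ar_nonneg aS_self_nonneg ξ η'
      have hX' := cross_absorb (y := y) (tm := tm) (τ := τ) (η := η) (K := K)
        (a := area aS q0 ξ η') (b := (D11 aS u' u' q0).re) hy0 hτ hη htm hK har
        (aS_self_nonneg u') (X := ((D21 φ ξ u' η' q0 - D11 φ g1 η' q0)
          - (D21 φ η' u' ξ q0 - D11 φ g2 ξ q0)).re) (hcross ξ η' u' g1 g2 hg1 hg2)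
      refine hX'.trans ?_
      have e1 : 4 * K ^ 2 / η * (τ * y) * area aS q0 ξ η' ≤ R / 2 * area aS q0 ξ η' :=
        mul_le_mul_of_nonneg_right habs2 har
      have e2 : R / (1 + y) ^ 2 / 2 * (1 + y) ^ 2 = R / 2 := by field_simp
      rw [e2]
      linarith

end Crest.Agent.R245
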