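import Crest.Agent.R245.CurvM
import Crest.Agent.R245.CurvNum

/-! Abstract version of the curvature estimates in the transition region (row 245). -/

set_option autoImplicit false

namespace Crest.Agent.R245

open Complex Filter Topology
open scoped ContDiff ComplexConjugate

namespace Herm

variable {V : Type*} [AddCommGroup V] [Module ℂ V]

/-- lower and upper bounds of `H = D om + F` -/
theorem H_bounds {om H F : V → V → ℂ} (om0 : ∀ x, 0 ≤ (om x x).re) {D f U : ℝ}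
    (hf : f ≤ D / 2) (hU : D + f ≤ U)
    (hHF : ∀ v w, H v w = (D : ℂ) * om v w + F v w)
    (hF : ∀ v w, ‖F v w‖ ≤ f * Real.sqrt (om v v).re * Real.sqrt (om w w).re) (v : V) :
    D / 2 * (om v v).re ≤ (H v v).re ∧ (H v v).re ≤ U * (om v v).re := by
  have h1 := (Complex.abs_re_le_norm (F v v)).trans (hF v v)
  rw [mul_assoc, Real.mul_self_sqrt (om0 v)] at h1
  have h2 : (H v v).re = D * (om v v).re + (F v v).re := by rw [hHF]; simp
  have h3 := abs_le.1 h1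
  have h4 : f * (om v v).re ≤ D / 2 * (om v v).re := mul_le_mul_of_nonneg_right hf (om0 v)
  have h5 : (D + f) * (om v v).re ≤ U * (om v v).re := mul_le_mul_of_nonneg_right hU (om0 v)
  rw [h2]
  constructor
  · linarith [h3.1]
  · linarith [h3.2]

/-- norm bound of `φ = σ om + E` -/
theorem phi_norm {om φ E : V → V → ℂ} (hom : Herm om) (om0 : ∀ x, 0 ≤ (om x x).re)
    {σ e M : ℝ} (hσ : 0 ≤ σ) (hM : σ + e ≤ M)
    (hφE : ∀ v w, φ v w = (σ : ℂ) * om v w + E v w)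
    (hE : ∀ v w, ‖E v w‖ ≤ e * Real.sqrt (om v v).re * Real.sqrt (om w w).re) (a b : V) :
    ‖φ a b‖ ≤ M * Real.sqrt (om a a).re * Real.sqrt (om b b).re := by
  have hn : ‖om a b‖ ≤ Real.sqrt (om a a).re * Real.sqrt (om b b).re := by
    rw [← Real.sqrt_mul (om0 a)]
    apply Real.le_sqrt_of_sq_le
    rw [Complex.sq_norm, Complex.normSq_apply]
    have := hom.cs om0 a b
    linarith
  rw [hφE]
  calc ‖(σ : ℂ) * om a b + E a b‖ ≤ ‖(σ : ℂ) * om a b‖ + ‖E a b‖ := norm_add_le _ _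
    _ = σ * ‖om a b‖ + ‖E a b‖ := by
        rw [norm_mul, Complex.norm_real, Real.norm_eq_abs, abs_of_nonneg hσ]
    _ ≤ σ * (Real.sqrt (om a a).re * Real.sqrt (om b b).re)
        + e * Real.sqrt (om a a).re * Real.sqrt (om b b).re := by
        gcongr
        exact hE a b
    _ = (σ + e) * (Real.sqrt (om a a).re * Real.sqrt (om b b).re) := by ring
    _ ≤ M * (Real.sqrt (om a a).re * Real.sqrt (om b b).re) := by gcongr
    _ = _ := by ring

/-- two-sided bound of the total area. `S = W |u|² + q² + W² a` -/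
theorem area_bounds {om H : V → V → ℂ} (hom : Herm om) (hpd : ∀ x, x ≠ 0 → 0 < (om x x).re)
    (hH : Herm H) (H0 : ∀ x, 0 ≤ (H x x).re) {W l s Λ : ℝ} (hs : 0 < s) (hs1 : s ≤ 1)
    (hΛ : 1 ≤ Λ) (hW : 1 ≤ W) (hl : s * W / 2 ≤ l)
    (hlow : ∀ v, l * (om v v).re ≤ (H v v).re)
    (hup : ∀ v, (H v v).re ≤ 2 * Λ * W * (om v v).re)
    (x y u : V) (α β : ℂ) (hu : u = conj α • y - conj β • x) :
    s ^ 2 / 8 * (W * (om u u).re + (α * conj β).im ^ 2 + W ^ 2 * ar om x y) ≤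
      ar H x y + (H u u).re - 2 * (α * conj β).im * (H x y).im + (α * conj β).im ^ 2 ∧
    ar H x y + (H u u).re - 2 * (α * conj β).im * (H x y).im + (α * conj β).im ^ 2 ≤
      8 * Λ ^ 2 * (W * (om u u).re + (α * conj β).im ^ 2 + W ^ 2 * ar om x y) := by
  have om0 := hom.nonneg_of_pd hpd
  have ha0 : 0 ≤ ar om x y := hom.ar_nonneg om0 x y
  have hU0 := om0 u
  have hg1 := gram_lower hH H0 x y u α β hu
  have hg2 := gram_upper hH H0 x y u (α * conj β).im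
  generalize (α * conj β).im = q at *
  have hl0 : 0 ≤ l := le_trans (by positivity) hl
  have harL := hH.ar_mono hom hpd hl0 hlow x y
  have harU := hH.ar_mono' H0 hom hpd (by positivity) hup x y
  have h1 := hlow u
  have h2 := hup u
  have hs2 : s ^ 2 ≤ 1 := by nlinarith only [hs, hs1]
  generalize ar om x y = a at *
  generalize (om u u).re = U at *
  generalize (H u u).re = HU at *
  constructor
  · refine le_trans ?_ hg1
    have e1 : (s * W / 2) ^ 2 * a ≤ l ^ 2 * a := by gcongr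
    have e2 : s * W / 2 * U ≤ l * U := by gcongr
    have e3 : s ^ 2 / 8 * (W * U) ≤ s / 4 * (W * U) := by
      apply mul_le_mul_of_nonneg_right _ (by positivity)
      nlinarith only [hs, hs1]
    have e4 : s ^ 2 / 8 * q ^ 2 ≤ 1 * q ^ 2 := by
      apply mul_le_mul_of_nonneg_right _ (by positivity)
      linarith
    have e5 : s ^ 2 / 8 * (W ^ 2 * a) = (1 / 2) * ((s * W / 2) ^ 2 * a) := by ring
    linarith
  · refine le_trans hg2 ?_
    have e3 : Λ ≤ Λ ^ 2 := by nlinarith only [hΛ]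
    have e4 : 2 * (2 * Λ * W * U) ≤ 8 * Λ ^ 2 * (W * U) := by
      have h3 : Λ * (W * U) ≤ Λ ^ 2 * (W * U) := by gcongr
      have h0 : 0 ≤ Λ ^ 2 * (W * U) := by positivity
      linarith
    have e5 : 2 * q ^ 2 ≤ 8 * Λ ^ 2 * q ^ 2 := by
      have h3 : 1 * q ^ 2 ≤ Λ ^ 2 * q ^ 2 := by
        apply mul_le_mul_of_nonneg_right _ (sq_nonneg q)
        nlinarith only [hΛ]
      have h0 : 0 ≤ q ^ 2 := sq_nonneg q
      linarith
    have e6 : 2 * ((2 * Λ * W) ^ 2 * a) = 8 * Λ ^ 2 * (W ^ 2 * a) := by ring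
    linarith

/-- curvature bounds, abstract form -/
theorem curv_bounds {om φ H E F : V → V → ℂ} (hom : Herm om)
    (hpd : ∀ x, x ≠ 0 → 0 < (om x x).re)
    (hφ : Herm φ) (hH : Herm H) {g σ y s δ C c Λ : ℝ} (hΛ : g ≤ Λ)
    (hs : 0 < s) (hsσ : s ≤ σ) (hσ : σ ≤ 1) (hg : 1 ≤ g) (hy : 0 ≤ y) (hδ0 : 0 ≤ δ)
    (hδ : 8 * δ ≤ s) (hC44 : 44 / s ^ 2 ≤ C) (hC112 : 112 ≤ C)
    (hc : c = 3 / (4 * Λ * (1 + 3 * Λ / s) ^ 2)) (hc0 : 0 < c) (hc1 : c ≤ 1)
    (hδC : C * δ ≤ c * s ^ 2 / 32)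
    (hφE : ∀ v w, φ v w = (σ : ℂ) * om v w + E v w)
    (hHF : ∀ v w, H v w = ((g + y * σ : ℝ) : ℂ) * om v w + F v w)
    (hE : ∀ v w, ‖E v w‖ ≤ (4 * δ) * Real.sqrt (om v v).re * Real.sqrt (om w w).re)
    (hF : ∀ v w, ‖F v w‖ ≤ (4 * (δ * (1 + y))) * Real.sqrt (om v v).re * Real.sqrt (om w w).re)
    {κ : V → V} (hκ : ∀ v w, H (κ v) w = φ v w) (m : V → V → ℂ)
    (hm : ∀ v w, m v w = (1 + 2 * y) * φ v w - y * (1 + y) * H (κ v) (κ w))
    (x z u : V) (q KH X : ℝ)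
    (hKH : |KH - (g + y * σ) * ck om x z| ≤ C * δ * (1 + y) * ar om x z)
    (hX : |X| ≤ C * δ * (1 + y) * Real.sqrt (ar om x z) * Real.sqrt (om u u).re) :
    (c * s ^ 2 / 4) * ((1 + y) * (om u u).re + q ^ 2 + (1 + y) ^ 2 * ar om x z) ≤
      (m u u).re + 4 * q ^ 2 + 4 * q * (m x z).im + y * (1 + y) * ck φ x z + KH + X ∧
    (m u u).re + 4 * q ^ 2 + 4 * q * (m x z).im + y * (1 + y) * ck φ x z + KH + X ≤
      (20 * Λ) * ((1 + y) * (om u u).re + q ^ 2 + (1 + y) ^ 2 * ar om x z) := by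
  have om0 := hom.nonneg_of_pd hpd
  have ha0 : 0 ≤ ar om x z := hom.ar_nonneg om0 x z
  have hs1 : s ≤ 1 := hsσ.trans hσ
  have hσ0 : 0 < σ := lt_of_lt_of_le hs hsσ
  have hCpos : 0 < C := by linarith
  have hΛ1 : 1 ≤ Λ := hg.trans hΛ
  have hy1 : (0:ℝ) ≤ 1 + y := by linarith
  have hmest : ∀ v w, ‖m v w - (((1 + 2 * y) * σ - y * (1 + y) * σ ^ 2 / (g + y * σ) : ℝ) : ℂ)
      * om v w‖ ≤ (44 / s ^ 2 * δ * (1 + y)) * Real.sqrt (om v v).re * Real.sqrt (om w w).re := by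
    intro v w
    rw [hm]
    exact m_est hom hpd hφ hH hs hsσ hσ hg hy hδ0 hδ hφE hHF hE hF hκ v w
  have Hm : Herm m := by
    have h1 := (hφ.const_mul (1 + 2 * y)).add ((kap hφ hH hκ).const_mul (-(y * (1 + y))))
    have e : m = fun v w =>
        ((1 + 2 * y : ℝ) : ℂ) * φ v w + ((-(y * (1 + y)) : ℝ) : ℂ) * H (κ v) (κ w) := by
      funext v w
      rw [hm]
      push_cast
      ring
    rw [e]; exact h1
  obtain ⟨hm1, hm2, hm3⟩ := m0_bounds hs hsσ hσ hg hΛ hy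
  have hmsq := m0_sq hs hsσ hσ hg hΛ hy
  rw [← hc] at hmsq
  generalize (1 + 2 * y) * σ - y * (1 + y) * σ ^ 2 / (g + y * σ) = m0 at *
  have h44 : 44 / s ^ 2 * δ * (1 + y) ≤ C * δ * (1 + y) := by gcongr
  have hM : |(m u u).re - m0 * (Real.sqrt (om u u).re) ^ 2| ≤
      C * δ * (1 + y) * (Real.sqrt (om u u).re) ^ 2 := by
    have h1 := (Complex.abs_re_le_norm _).trans (hmest u u)
    have h2 : (m u u - (m0 : ℂ) * om u u).re = (m u u).re - m0 * (Real.sqrt (om u u).re) ^ 2 := by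
      rw [Complex.sub_re, Complex.re_ofReal_mul, Real.sq_sqrt (om0 u)]
    rw [h2, mul_assoc, ← sq] at h1
    exact h1.trans (by gcongr)
  have hMi : |(m x z).im - m0 * (om x z).im| ≤ C * δ * (1 + y) * Real.sqrt (ar om x z) := by
    have HE : Herm (fun v w => m v w + ((-m0 : ℝ) : ℂ) * om v w) := Hm.add (hom.const_mul (-m0))
    have h1 := Herm.abs_im_le hom hpd HE (e := 44 / s ^ 2 * δ * (1 + y)) (by
      intro v w
      have := hmest v w
      have e : m v w + ((-m0 : ℝ) : ℂ) * om v w = m v w - (m0 : ℂ) * om v w := by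
        push_cast; ring
      rw [e]; exact this) x z
    have h2 : (m x z + ((-m0 : ℝ) : ℂ) * om x z).im = (m x z).im - m0 * (om x z).im := by
      rw [Complex.add_im, Complex.im_ofReal_mul]; ring
    rw [h2] at h1
    exact h1.trans (by gcongr)
  have hKφ : |ck φ x z - σ ^ 2 * ((Real.sqrt (ar om x z)) ^ 2 + 3 * (om x z).im ^ 2)| ≤
      C * δ * (Real.sqrt (ar om x z)) ^ 2 := by
    have h1 := ck_pert hom hpd hφ hσ0.le (by positivity : 0 ≤ 4 * δ) hφE hE x z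
    rw [Real.sq_sqrt ha0, ← ck_eq]
    refine h1.trans ?_
    apply mul_le_mul_of_nonneg_right _ ha0
    have h4 : 8 * σ * (4 * δ) ≤ 32 * δ := by nlinarith only [hσ, hδ0]
    have h5 : 5 * (4 * δ) ^ 2 ≤ 80 * δ := by nlinarith only [hδ0, hδ, hs1]
    have h6 : 112 * δ ≤ C * δ := by gcongr
    linarith
  have hKH' : |KH - (g + y * σ) * ((Real.sqrt (ar om x z)) ^ 2 + 3 * (om x z).im ^ 2)| ≤
      C * δ * (1 + y) * (Real.sqrt (ar om x z)) ^ 2 := by
    rw [Real.sq_sqrt ha0, ← ck_eq]; exact hKH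
  have hI : (om x z).im ^ 2 ≤ (Real.sqrt (ar om x z)) ^ 2 := by
    rw [Real.sq_sqrt ha0]; exact hom.im_sq_le om0 x z
  have hr0 : 0 ≤ Real.sqrt (ar om x z) := Real.sqrt_nonneg _
  have hv0 : 0 ≤ Real.sqrt (om u u).re := Real.sqrt_nonneg _
  have er : ar om x z = (Real.sqrt (ar om x z)) ^ 2 := (Real.sq_sqrt ha0).symm
  have ev : (om u u).re = (Real.sqrt (om u u).re) ^ 2 := (Real.sq_sqrt (om0 u)).symm
  have hT1 : s ^ 2 * (1 + y) ^ 2 ≤ y * (1 + y) * σ ^ 2 + (g + y * σ) := by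
    have e1 : s ^ 2 ≤ σ ^ 2 := by gcongr
    have e2 : s ^ 2 * (1 + y) ^ 2 ≤ σ ^ 2 * (1 + y) ^ 2 := by gcongr
    have e3 : σ ^ 2 ≤ 1 := by nlinarith only [hσ0, hσ]
    have e4 : y * σ ^ 2 ≤ y * σ := by
      apply mul_le_mul_of_nonneg_left _ hy
      nlinarith only [hσ0, hσ]
    have e5 : σ ^ 2 * (1 + y) ^ 2 = y * (1 + y) * σ ^ 2 + y * σ ^ 2 + σ ^ 2 := by ring
    linarith
  have hCδ1 : C * δ ≤ 1 := by
    have h1 : s ^ 2 ≤ 1 := by nlinarith only [hs, hs1]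
    have : c * s ^ 2 ≤ 1 * 1 := by gcongr
    linarith
  have hDΛ : g + y * σ ≤ Λ * (1 + y) := by nlinarith only [hΛ, hσ, hy, hΛ1]
  have hσ2 : σ ^ 2 ≤ 1 := by nlinarith only [hσ0, hσ]
  have hm1' : s * (1 + y) ≤ m0 := le_trans (by gcongr) hm1
  have hm0 : 0 ≤ m0 := le_trans (by positivity) hm1
  have hm2' : m0 ≤ 2 * (1 + y) := by nlinarith only [hm2, hσ, hy]
  constructor
  · have := final_lower (C := C) (δ := δ) (c := c) (s := s) (Y := 1 + y) (y := y) (m := m0)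
      (g := g) (σ := σ) (r := Real.sqrt (ar om x z)) (v := Real.sqrt (om u u).re)
      (I := (om x z).im) (q := q) (by linarith) hc0 hc1 hs hs1 hδ0 hδC hy rfl hm1' rfl hT1 hmsq
      hr0 hv0 hI hM hMi hKφ hKH' hX
    rw [← er, ← ev] at this
    exact this
  · have := final_upper (d := C * δ) (L := Λ) (Y := 1 + y) (y := y) (m := m0)
      (g := g) (σ := σ) (r := Real.sqrt (ar om x z)) (v := Real.sqrt (om u u).re)
      (I := (om x z).im) (q := q)
      (by positivity) hCδ1 hΛ1 hDΛ (by positivity) hσ2 hy rfl hm0 hm2'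
      hr0 hv0 hI hM hMi hKφ hKH' hX
    rw [← er, ← ev] at this
    exact this

end Herm

end Crest.Agent.R245
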