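import Crest.Agent.R245.CurvBase
import Crest.Agent.R245.CurvM
import Crest.Agent.R245.CurvT

/-! Auxiliary statements for the transition region (row 245). -/

set_option autoImplicit false

namespace Crest.Agent.R245

open Complex Filter Topology
open scoped ContDiff ComplexConjugate

theorem r1_yy_nonneg {φ : B2 → ℝ} {x : B2 × ℂ} (hx : uu φ x < 1) : 0 ≤ yy φ x := by
  unfold yy
  apply div_nonneg
  · unfold uu; positivity
  · linarith

theorem r1_jetH {EA Eφ : B2 → ℝ} {δ y : ℝ} (hEA : ContDiffAt ℝ ∞ EA q0)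
    (hEφ : ContDiffAt ℝ ∞ Eφ q0) (hJA : JetB EA δ) (hJφ : JetB Eφ δ) (hy : 0 ≤ y) :
    JetB (fun b => EA b + y * Eφ b) (δ * (1 + y)) := by
  have h := jetB_add_smul hEA hEφ hJA hJφ hy
  have e : δ * (1 + y) = δ + y * δ := by ring
  rw [e]; exact h

/-- lower and upper bound of `D aS + E` -/
theorem r1_Hb {E : B2 → ℝ} {D W s δ : ℝ} (hD : s * W ≤ D)
    (hW : 1 ≤ W) (hδs : 8 * δ ≤ s) (hE : ContDiffAt ℝ ∞ E q0)
    (hJ : JetB E (δ * W)) (v : B2) :
    D / 2 * (D11 aS v v q0).re ≤ (D11 (fun b => D * aS b + E b) v v q0).re ∧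
    (D11 (fun b => D * aS b + E b) v v q0).re ≤ (D + D / 2) * (D11 aS v v q0).re := by
  have hf : 4 * (δ * W) ≤ D / 2 := by
    have h1 : (8 * δ) * W ≤ s * W := mul_le_mul_of_nonneg_right hδs (by linarith)
    linarith
  exact Herm.H_bounds (om := fun X Y => D11 aS X Y q0)
    (H := fun X Y => D11 (fun b => D * aS b + E b) X Y q0)
    (F := fun X Y => D11 E X Y q0) om_nonneg hf (by linarith)
    (fun v w => D11_split hE D v w) (fun v w => jet_D11_le hE hJ v w) v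

theorem r1_KH : ∃ C₀ : ℝ, 0 < C₀ ∧ ∀ (D W s δ : ℝ) (E : B2 → ℝ), 0 < s → 1 ≤ W →
    0 ≤ δ → 8 * δ ≤ s → s * W ≤ D → ContDiffAt ℝ ∞ E q0 → JetB E (δ * W) →
    ∀ ξ η γ11 γ12 γ22, IsGam (fun b => D * aS b + E b) q0 ξ ξ γ11 →
      IsGam (fun b => D * aS b + E b) q0 ξ η γ12 →
      IsGam (fun b => D * aS b + E b) q0 η η γ22 →
      |negK (fun b => D * aS b + E b) q0 ξ η γ11 γ12 γ22 - D * calK aS q0 ξ η|
        ≤ C₀ * δ * W * area aS q0 ξ η := by
  obtain ⟨C0, hC0, hbp⟩ := base_pert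
  refine ⟨2 * C0, by positivity, ?_⟩
  intro D W s δ E hs hW hδ0 hδs hD hE hJ ξ η γ11 γ12 γ22 k1 k2 k3
  have hW0 : 0 < W := by linarith
  have hsW : 0 < s * W := by positivity
  have h0 : ∀ ξ, s * W / 2 * (D11 aS ξ ξ q0).re ≤ (D11 (fun b => D * aS b + E b) ξ ξ q0).re := by
    intro ξ
    have h1 := (r1_Hb hD hW hδs hE hJ ξ).1
    have h2 : s * W / 2 * (D11 aS ξ ξ q0).re ≤ D / 2 * (D11 aS ξ ξ q0).re := by
      apply mul_le_mul_of_nonneg_right _ (om_nonneg ξ)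
      linarith
    linarith
  have h1 := hbp D (s * W / 2) (δ * W) E (by linarith) (by positivity) (by positivity) hE hJ h0
    ξ η γ11 γ12 γ22 k1 k2 k3
  refine h1.trans ?_
  have ha : 0 ≤ area aS q0 ξ η := herm_aS.ar_nonneg om_nonneg ξ η
  apply mul_le_mul_of_nonneg_right _ ha
  have h3 : (δ * W) ^ 2 / (s * W / 2) ≤ δ * W := by
    rw [div_le_iff₀ (by positivity)]
    have : δ * (δ * W ^ 2) ≤ (s / 2) * (δ * W ^ 2) := by
      apply mul_le_mul_of_nonneg_right _ (by positivity)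
      linarith
    linarith
  calc C0 * (δ * W + (δ * W) ^ 2 / (s * W / 2)) ≤ C0 * (δ * W + δ * W) := by gcongr
    _ = 2 * C0 * δ * W := by ring

theorem r1_X : ∃ C₀ : ℝ, 0 < C₀ ∧ ∀ (g σ y s δ : ℝ) (EA Eφ : B2 → ℝ), 0 < s → s ≤ σ → σ ≤ 1 →
    1 ≤ g → 0 ≤ y → 0 ≤ δ → 8 * δ ≤ s → ContDiffAt ℝ ∞ EA q0 → ContDiffAt ℝ ∞ Eφ q0 →
    JetB EA δ → JetB Eφ δ →
    ∀ ξ η u' g1 g2,
      IsGam (Hpot (fun b => g * aS b + EA b) (fun b => σ * aS b + Eφ b) y) q0 ξ u' g1 →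
      IsGam (Hpot (fun b => g * aS b + EA b) (fun b => σ * aS b + Eφ b) y) q0 η u' g2 →
      |2 * Real.sqrt (y * (1 + y)) *
        ((D21 (fun b => σ * aS b + Eφ b) ξ u' η q0 - D11 (fun b => σ * aS b + Eφ b) g1 η q0)
          - (D21 (fun b => σ * aS b + Eφ b) η u' ξ q0
              - D11 (fun b => σ * aS b + Eφ b) g2 ξ q0)).re|
        ≤ (C₀ / s) * δ * (1 + y) * Real.sqrt (area aS q0 ξ η)
            * Real.sqrt (D11 aS u' u' q0).re := by
  obtain ⟨C1, hC1, hcb⟩ := cross_bound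
  refine ⟨10 * C1, by positivity, ?_⟩
  intro g σ y s δ EA Eφ hs hsσ hσ1 hg hy hδ0 hδs hEA hEφ hJA hJφ ξ η u' g1 g2 kg1 kg2
  have hs1 : s ≤ 1 := hsσ.trans hσ1
  have hσ0 : 0 < σ := lt_of_lt_of_le hs hsσ
  have hW : 1 ≤ 1 + y := by linarith
  have hW0 : 0 < 1 + y := by linarith
  have hD : s * (1 + y) ≤ g + y * σ := by
    have h2 : y * s ≤ y * σ := mul_le_mul_of_nonneg_left hsσ hy
    linarith
  have hEH : ContDiffAt ℝ ∞ (fun b => EA b + y * Eφ b) q0 := hEA.add (contDiffAt_const.mul hEφ)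
  have hJH := r1_jetH hEA hEφ hJA hJφ hy
  have h0 : ∀ ξ, s * (1 + y) / 2 * (D11 aS ξ ξ q0).re ≤
      (D11 (Hpot (fun b => g * aS b + EA b) (fun b => σ * aS b + Eφ b) y) ξ ξ q0).re := by
    intro ξ
    rw [Hpot_split]
    have h1 := (r1_Hb hD hW hδs hEH hJH ξ).1
    have h2 : s * (1 + y) / 2 * (D11 aS ξ ξ q0).re ≤ (g + y * σ) / 2 * (D11 aS ξ ξ q0).re := by
      apply mul_le_mul_of_nonneg_right _ (om_nonneg ξ)
      linarith
    linarith
  have hφn : ∀ ξ η, ‖D11 (fun b => σ * aS b + Eφ b) ξ η q0‖ ≤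
      2 * Real.sqrt (D11 aS ξ ξ q0).re * Real.sqrt (D11 aS η η q0).re := by
    intro ξ η
    exact Herm.phi_norm (om := fun X Y => D11 aS X Y q0)
      (φ := fun X Y => D11 (fun b => σ * aS b + Eφ b) X Y q0)
      (E := fun X Y => D11 Eφ X Y q0) (e := 4 * δ) herm_aS om_nonneg hσ0.le (by linarith)
      (fun v w => D11_split hEφ σ v w) (fun v w => jet_D11_le hEφ hJφ v w) ξ η
  have h1 := hcb g σ y (s * (1 + y) / 2) 2 δ δ EA Eφ (by linarith) hσ0.le hy (by positivity)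
    hδ0 hδ0 hEA hEφ hJA hJφ h0 hφn ξ η u' g1 g2 kg1 kg2
  have h2 : δ + (δ + y * δ) * 2 / (s * (1 + y) / 2) ≤ 5 * δ / s := by
    have e1 : (δ + y * δ) * 2 / (s * (1 + y) / 2) = 4 * δ / s := by
      field_simp; ring
    have e2 : δ ≤ δ / s := by
      rw [le_div_iff₀ hs]
      have : δ * s ≤ δ * 1 := mul_le_mul_of_nonneg_left hs1 hδ0
      linarith
    rw [e1]
    have e3 : 5 * δ / s = δ / s + 4 * δ / s := by ring
    linarith
  have h3 : Real.sqrt (y * (1 + y)) ≤ 1 + y := by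
    apply Real.sqrt_le_iff.2
    refine ⟨hW0.le, ?_⟩
    nlinarith only [hy]
  rw [abs_mul, abs_of_nonneg (by positivity : 0 ≤ 2 * Real.sqrt (y * (1 + y)))]
  have h4 : C1 * (δ + (δ + y * δ) * 2 / (s * (1 + y) / 2)) * Real.sqrt (area aS q0 ξ η)
      * Real.sqrt (D11 aS u' u' q0).re ≤ C1 * (5 * δ / s) * Real.sqrt (area aS q0 ξ η)
      * Real.sqrt (D11 aS u' u' q0).re := by
    gcongr
  have h5 := h1.trans h4
  have h6 : 0 ≤ C1 * (5 * δ / s) * Real.sqrt (area aS q0 ξ η)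
      * Real.sqrt (D11 aS u' u' q0).re := by positivity
  calc 2 * Real.sqrt (y * (1 + y)) * _ ≤ 2 * Real.sqrt (y * (1 + y)) *
        (C1 * (5 * δ / s) * Real.sqrt (area aS q0 ξ η)
          * Real.sqrt (D11 aS u' u' q0).re) := by
        apply mul_le_mul_of_nonneg_left h5 (by positivity)
    _ ≤ 2 * (1 + y) * (C1 * (5 * δ / s) * Real.sqrt (area aS q0 ξ η)
          * Real.sqrt (D11 aS u' u' q0).re) := by
        apply mul_le_mul_of_nonneg_right _ h6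
        linarith
    _ = (10 * C1 / s) * δ * (1 + y) * Real.sqrt (area aS q0 ξ η)
            * Real.sqrt (D11 aS u' u' q0).re := by ring

end Crest.Agent.R245
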