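import Mathlib

/-! Row 245: one-variable profile functions (primitive of `smoothTransition`). -/

set_option autoImplicit false

namespace Crest.Agent.R245

open Filter Topology Set
open scoped ContDiff

/-- primitive of the smooth step -/
noncomputable def gst (t : ℝ) : ℝ := ∫ s in (0:ℝ)..t, Real.smoothTransition s

theorem hasDerivAt_gst (t : ℝ) : HasDerivAt gst (Real.smoothTransition t) t :=
  intervalIntegral.integral_hasDerivAt_right
    (Real.smoothTransition.continuous.intervalIntegrable _ _)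
    (Real.smoothTransition.continuous.stronglyMeasurableAtFilter _ _)
    Real.smoothTransition.continuous.continuousAt

theorem deriv_gst : deriv gst = Real.smoothTransition := funext fun t => (hasDerivAt_gst t).deriv

theorem gst_contDiff : ContDiff ℝ ∞ gst := by
  rw [contDiff_infty_iff_deriv]
  exact ⟨fun t => (hasDerivAt_gst t).differentiableAt, by
    rw [deriv_gst]; exact Real.smoothTransition.contDiff⟩

theorem gst_mono : Monotone gst :=
  monotone_of_deriv_nonneg (fun t => (hasDerivAt_gst t).differentiableAt) (fun t => by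
    rw [deriv_gst]; exact Real.smoothTransition.nonneg t)

theorem gst_zero : gst 0 = 0 := by simp [gst]

theorem gst_of_nonpos {t : ℝ} (ht : t ≤ 0) : gst t = 0 := by
  unfold gst
  rw [intervalIntegral.integral_symm, neg_eq_zero]
  rw [show (∫ s in t..0, Real.smoothTransition s) = ∫ s in t..0, (0:ℝ) from ?_]
  · simp
  · apply intervalIntegral.integral_congr
    intro s hs
    rw [uIcc_of_le ht] at hs
    exact Real.smoothTransition.zero_of_nonpos hs.2

theorem gst_nonneg (t : ℝ) : 0 ≤ gst t := by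
  rcases le_total t 0 with h | h
  · rw [gst_of_nonpos h]
  · rw [← gst_zero]; exact gst_mono h

theorem gst_le (t : ℝ) (ht : 0 ≤ t) : gst t ≤ t := by
  have h : Monotone fun s : ℝ => s - gst s := by
    apply monotone_of_deriv_nonneg
    · intro s; exact (differentiableAt_id).sub (hasDerivAt_gst s).differentiableAt
    · intro s
      have : HasDerivAt (fun s : ℝ => s - gst s) (1 - Real.smoothTransition s) s :=
        (hasDerivAt_id s).sub (hasDerivAt_gst s)
      rw [this.deriv]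
      linarith [Real.smoothTransition.le_one s]
  have := h ht
  simp only [gst_zero] at this
  linarith

theorem gst_le_max (t : ℝ) : gst t ≤ max t 0 := by
  rcases le_total t 0 with h | h
  · rw [gst_of_nonpos h]; exact le_max_right _ _
  · exact (gst_le t h).trans (le_max_left _ _)

/-- the shift -/
noncomputable def kap0 : ℝ := 1 - gst 1

theorem kap0_nonneg : 0 ≤ kap0 := by
  have := gst_le 1 (by norm_num); unfold kap0; linarith

theorem kap0_le_one : kap0 ≤ 1 := by
  have := gst_nonneg 1; unfold kap0; linarith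

theorem gst_of_one_le {t : ℝ} (ht : 1 ≤ t) : gst t = t - kap0 := by
  have h1 : gst t = gst 1 + ∫ s in (1:ℝ)..t, Real.smoothTransition s := by
    unfold gst
    rw [intervalIntegral.integral_add_adjacent_intervals] <;>
      exact Real.smoothTransition.continuous.intervalIntegrable _ _
  have h2 : (∫ s in (1:ℝ)..t, Real.smoothTransition s) = ∫ s in (1:ℝ)..t, (1:ℝ) := by
    apply intervalIntegral.integral_congr
    intro s hs
    rw [uIcc_of_le ht] at hs
    exact Real.smoothTransition.one_of_one_le hs.1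
  rw [h1, h2]
  simp only [intervalIntegral.integral_const, smul_eq_mul, mul_one, kap0]
  ring

/-- derivatives of order `≥ 1` of the smooth step are bounded -/
theorem st_iter_bdd (k : ℕ) (hk : 1 ≤ k) : ∃ C : ℝ, 0 ≤ C ∧ ∀ t : ℝ,
    |iteratedDeriv k Real.smoothTransition t| ≤ C := by
  have hc : Continuous (iteratedDeriv k Real.smoothTransition) :=
    (Real.smoothTransition.contDiff (n := ⊤)).continuous_iteratedDeriv k (by exact_mod_cast le_top)
  obtain ⟨C, hC⟩ := isCompact_Icc (a := (0:ℝ)) (b := 1) |>.exists_bound_of_continuousOn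
    hc.continuousOn
  refine ⟨max C 0, le_max_right _ _, fun t => ?_⟩
  by_cases h : t ∈ Icc (0:ℝ) 1
  · exact (hC t h).trans (le_max_left _ _)
  · have hconst : ∃ c : ℝ, Real.smoothTransition =ᶠ[𝓝 t] fun _ => c := by
      rw [mem_Icc, not_and_or] at h
      rcases h with h | h
      · refine ⟨0, ?_⟩
        filter_upwards [Iio_mem_nhds (not_le.1 h)] with s hs
        exact Real.smoothTransition.zero_of_nonpos (le_of_lt hs)
      · refine ⟨1, ?_⟩
        filter_upwards [Ioi_mem_nhds (not_le.1 h)] with s hs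
        exact Real.smoothTransition.one_of_one_le (le_of_lt hs)
    obtain ⟨c, hc⟩ := hconst
    have h0 : iteratedDeriv k Real.smoothTransition t = 0 := by
      rw [(hc.iteratedDeriv_eq k), iteratedDeriv_const]
      rw [if_neg (by omega)]
    rw [h0, abs_zero]
    exact le_max_right _ _

theorem gst_iter_bdd : ∃ C : ℝ, 0 < C ∧ ∀ k : ℕ, 2 ≤ k → k ≤ 4 → ∀ t : ℝ,
    |iteratedDeriv k gst t| ≤ C := by
  obtain ⟨C1, h1, hC1⟩ := st_iter_bdd 1 le_rfl
  obtain ⟨C2, h2, hC2⟩ := st_iter_bdd 2 (by norm_num)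
  obtain ⟨C3, h3, hC3⟩ := st_iter_bdd 3 (by norm_num)
  refine ⟨C1 + C2 + C3 + 1, by positivity, fun k hk hk4 t => ?_⟩
  obtain ⟨j, rfl⟩ : ∃ j, k = j + 1 := ⟨k - 1, by omega⟩
  rw [iteratedDeriv_succ', deriv_gst]
  have : j = 1 ∨ j = 2 ∨ j = 3 := by omega
  rcases this with rfl | rfl | rfl
  · have := hC1 t; linarith
  · have := hC2 t; linarith
  · have := hC3 t; linarith

/-- slowly varying profile -/
theorem exists_psi0 (ε₁ a₀ : ℝ) (hε : 0 < ε₁) : ∃ (ψ : ℝ → ℝ) (a₁ κ : ℝ), ContDiff ℝ ∞ ψ ∧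
    a₀ ≤ a₁ ∧ a₀ ≤ κ ∧ κ ≤ a₁ ∧ (∀ t, t ≤ a₀ → ψ t = 0) ∧ (∀ t, a₁ ≤ t → ψ t = t - κ) ∧
    (∀ t, 0 ≤ deriv ψ t ∧ deriv ψ t ≤ 1) ∧ (∀ t, 0 ≤ ψ t) ∧ (∀ t, a₀ ≤ t → ψ t ≤ t - a₀) ∧
    (∀ k : ℕ, 2 ≤ k → k ≤ 4 → ∀ t, |iteratedDeriv k ψ t| ≤ ε₁) := by
  obtain ⟨C, hC0, hC⟩ := gst_iter_bdd
  set L : ℝ := max 1 (C / ε₁) with hL
  have hL1 : 1 ≤ L := le_max_left _ _
  have hLC : C / ε₁ ≤ L := le_max_right _ _
  have hL0 : 0 < L := by linarith
  set ψ : ℝ → ℝ := fun t => L * gst (L⁻¹ * (t - a₀)) with hψ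
  have hcd : ContDiff ℝ ∞ ψ :=
    contDiff_const.mul (gst_contDiff.comp (contDiff_const.mul (contDiff_id.sub contDiff_const)))
  have hd : ∀ t, HasDerivAt ψ (Real.smoothTransition (L⁻¹ * (t - a₀))) t := by
    intro t
    have h1 : HasDerivAt (fun t : ℝ => L⁻¹ * (t - a₀)) (L⁻¹) t := by
      simpa using ((hasDerivAt_id t).sub_const a₀).const_mul L⁻¹
    have h2 := ((hasDerivAt_gst (L⁻¹ * (t - a₀))).comp t h1).const_mul L
    have h3 : L * (Real.smoothTransition (L⁻¹ * (t - a₀)) * L⁻¹)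
        = Real.smoothTransition (L⁻¹ * (t - a₀)) := by
      rw [mul_comm, mul_assoc, inv_mul_cancel₀ hL0.ne', mul_one]
    rw [h3] at h2
    exact h2
  refine ⟨ψ, a₀ + L, a₀ + L * kap0, hcd, by linarith, ?_, ?_, ?_, ?_, ?_, ?_, ?_, ?_⟩
  · have := mul_nonneg hL0.le kap0_nonneg; linarith
  · have := mul_le_mul_of_nonneg_left kap0_le_one hL0.le; linarith
  · intro t ht
    simp only [hψ]
    rw [gst_of_nonpos, mul_zero]
    apply mul_nonpos_of_nonneg_of_nonpos (by positivity) (by linarith)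
  · intro t ht
    simp only [hψ]
    rw [gst_of_one_le]
    · field_simp; ring
    · rw [← div_eq_inv_mul, le_div_iff₀ hL0]; linarith
  · intro t
    rw [(hd t).deriv]
    exact ⟨Real.smoothTransition.nonneg _, Real.smoothTransition.le_one _⟩
  · intro t; exact mul_nonneg hL0.le (gst_nonneg _)
  · intro t ht
    simp only [hψ]
    have h1 : 0 ≤ L⁻¹ * (t - a₀) := mul_nonneg (by positivity) (by linarith)
    have := mul_le_mul_of_nonneg_left (gst_le _ h1) hL0.le
    calc L * gst (L⁻¹ * (t - a₀)) ≤ L * (L⁻¹ * (t - a₀)) := this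
      _ = t - a₀ := by field_simp
  · intro k hk hk4 t
    have hcomp : iteratedDeriv k ψ t = L * ((L⁻¹) ^ k * iteratedDeriv k gst (L⁻¹ * (t - a₀))) := by
      have e1 : ψ = fun t => L * (fun s => (fun r => gst (L⁻¹ * r)) (s - a₀)) t := by
        rfl
      rw [e1, iteratedDeriv_const_mul_field]
      have e2 := congrFun (iteratedDeriv_comp_sub_const (n := k) (f := fun r => gst (L⁻¹ * r))
        (s := a₀)) t
      rw [e2]
      have e3 := congrFun (iteratedDeriv_comp_const_mul (n := k) (f := gst)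
        (gst_contDiff.of_le (by exact_mod_cast le_top)) L⁻¹) (t - a₀)
      rw [e3]
    rw [hcomp, abs_mul, abs_mul, abs_of_pos hL0, abs_of_pos (by positivity : 0 < (L⁻¹) ^ k)]
    have h1 := hC k hk hk4 (L⁻¹ * (t - a₀))
    have h2 : L * (L⁻¹ ^ k) ≤ L⁻¹ := by
      obtain ⟨j, rfl⟩ : ∃ j, k = j + 2 := ⟨k - 2, by omega⟩
      have h3 : L⁻¹ ^ j ≤ 1 := pow_le_one₀ (by positivity) (inv_le_one_of_one_le₀ hL1)
      calc L * L⁻¹ ^ (j + 2) = (L * L⁻¹) * ((L⁻¹ ^ j) * L⁻¹) := by ring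
        _ = (L⁻¹ ^ j) * L⁻¹ := by rw [mul_inv_cancel₀ hL0.ne', one_mul]
        _ ≤ 1 * L⁻¹ := by gcongr
        _ = L⁻¹ := one_mul _
    calc L * (L⁻¹ ^ k * |iteratedDeriv k gst (L⁻¹ * (t - a₀))|)
        = (L * L⁻¹ ^ k) * |iteratedDeriv k gst (L⁻¹ * (t - a₀))| := by ring
      _ ≤ L⁻¹ * C := by gcongr
      _ ≤ ε₁ := by
        rw [inv_mul_le_iff₀ hL0]
        rw [div_le_iff₀ hε] at hLC
        linarith

/-- profile function in the cusp -/
theorem exists_beta0' (ε₂ : ℝ) (hε : 0 < ε₂) : ∃ β : ℝ → ℝ, ContDiff ℝ ∞ β ∧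
    (∀ t, -1 ≤ t → β t = t) ∧ (∀ t, 0 < deriv β t ∧ deriv β t ≤ 1) ∧
    (∀ t, 1 / (1 + |t|) ≤ deriv β t) ∧ Tendsto (deriv β) atBot (𝓝 0) ∧
    (∀ k : ℕ, 2 ≤ k → k ≤ 4 → ∀ t, |iteratedDeriv k β t| ≤ ε₂ * deriv β t) := by
  obtain ⟨C1, hC10, hC1⟩ := st_iter_bdd 1 le_rfl
  obtain ⟨C2, hC20, hC2⟩ := st_iter_bdd 2 (by norm_num)
  set K : ℝ := 6 + 6 * C1 + C2 with hK
  have hK0 : 0 < K := by positivity
  set δ : ℝ := min 1 (ε₂ / K) with hδ
  have hδ0 : 0 < δ := lt_min one_pos (by positivity)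
  have hδ1 : δ ≤ 1 := min_le_left _ _
  have hδK : δ * K ≤ ε₂ := by
    have : δ ≤ ε₂ / K := min_le_right _ _
    rwa [le_div_iff₀ hK0] at this
  clear_value δ
  -- the functions
  set S : ℝ → ℝ := fun t => Real.smoothTransition (-1 - t) with hS
  have hScd : ContDiff ℝ ∞ S :=
    (Real.smoothTransition.contDiff (n := ⊤)).comp (contDiff_const.sub contDiff_id)
  set S1 : ℝ → ℝ := deriv S with hS1
  set S2 : ℝ → ℝ := deriv S1 with hS2
  have hS1cd : ContDiff ℝ ∞ S1 := (contDiff_infty_iff_deriv.1 hScd).2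
  have hSd : ∀ t, HasDerivAt S (S1 t) t := fun t =>
    ((contDiff_infty_iff_deriv.1 hScd).1 t).hasDerivAt
  have hS1d : ∀ t, HasDerivAt S1 (S2 t) t := fun t =>
    ((contDiff_infty_iff_deriv.1 hS1cd).1 t).hasDerivAt
  have hS0 : ∀ t, 0 ≤ S t := fun t => Real.smoothTransition.nonneg _
  have hSle : ∀ t, S t ≤ 1 := fun t => Real.smoothTransition.le_one _
  have hS1b : ∀ t, |S1 t| ≤ C1 := by
    intro t
    have e1 : S1 t = iteratedDeriv 1 S t := by rw [iteratedDeriv_one]
    have e2 := congrFun (iteratedDeriv_comp_const_sub 1 Real.smoothTransition (-1)) t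
    rw [e1, hS, e2]
    simpa using hC1 (-1 - t)
  have hS2b : ∀ t, |S2 t| ≤ C2 := by
    intro t
    have e1 : S2 t = iteratedDeriv 2 S t := by
      rw [iteratedDeriv_succ, iteratedDeriv_one]
    have e2 := congrFun (iteratedDeriv_comp_const_sub 2 Real.smoothTransition (-1)) t
    rw [e1, hS, e2]
    simpa using hC2 (-1 - t)
  set h : ℝ → ℝ := fun t => gst (-1 - t) with hh
  have hhd : ∀ t, HasDerivAt h (-S t) t := by
    intro t
    have h1 : HasDerivAt (fun t : ℝ => -1 - t) (-1) t := by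
      simpa using (hasDerivAt_id t).const_sub (-1)
    have h2 := (hasDerivAt_gst (-1 - t)).comp t h1
    rw [mul_neg_one] at h2
    exact h2
  have hhcd : ContDiff ℝ ∞ h := gst_contDiff.comp (contDiff_const.sub contDiff_id)
  have hh0 : ∀ t, 0 ≤ h t := fun t => gst_nonneg _
  have hden : ∀ t, 0 < 1 + δ * h t := fun t => by have := hh0 t; positivity
  set u : ℝ → ℝ := fun t => (1 + δ * h t)⁻¹ with hu
  have hucd : ContDiff ℝ ∞ u :=
    (contDiff_const.add (contDiff_const.mul hhcd)).inv (fun t => (hden t).ne')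
  have hu0 : ∀ t, 0 < u t := fun t => inv_pos.2 (hden t)
  have hu1 : ∀ t, u t ≤ 1 := fun t => inv_le_one_of_one_le₀ (by
    have := mul_nonneg hδ0.le (hh0 t); linarith)
  have hud : ∀ t, HasDerivAt u (δ * S t * u t ^ 2) t := by
    intro t
    have h1 : HasDerivAt (fun t => 1 + δ * h t) (δ * (-S t)) t :=
      ((hhd t).const_mul δ).const_add 1
    have h2 := h1.inv (hden t).ne'
    have h3 : -(δ * (-S t)) / (1 + δ * h t) ^ 2 = δ * S t * u t ^ 2 := by
      simp only [hu]
      rw [inv_pow, div_eq_mul_inv]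
      ring
    rw [h3] at h2
    exact h2
  have hdu : deriv u = fun t => δ * S t * u t ^ 2 := funext fun t => (hud t).deriv
  have hudd : ∀ t, HasDerivAt (fun t => δ * S t * u t ^ 2)
      (δ * S1 t * u t ^ 2 + 2 * δ ^ 2 * S t ^ 2 * u t ^ 3) t := by
    intro t
    have h1 := ((hSd t).const_mul δ).mul ((hud t).pow 2)
    refine h1.congr_deriv ?_
    simp only [Pi.pow_apply]
    push_cast
    ring
  have hddu : deriv (deriv u) = fun t => δ * S1 t * u t ^ 2 + 2 * δ ^ 2 * S t ^ 2 * u t ^ 3 := by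
    rw [hdu]; exact funext fun t => (hudd t).deriv
  have huddd : ∀ t, HasDerivAt (fun t => δ * S1 t * u t ^ 2 + 2 * δ ^ 2 * S t ^ 2 * u t ^ 3)
      (δ * S2 t * u t ^ 2 + 6 * δ ^ 2 * S t * S1 t * u t ^ 3 + 6 * δ ^ 3 * S t ^ 3 * u t ^ 4) t := by
    intro t
    have h1 := (((hS1d t).const_mul δ).mul ((hud t).pow 2)).add
      ((((hSd t).pow 2).const_mul (2 * δ ^ 2)).mul ((hud t).pow 3))
    refine h1.congr_deriv ?_
    simp only [Pi.pow_apply]
    push_cast
    ring
  have hdddu : deriv (deriv (deriv u)) = fun t => δ * S2 t * u t ^ 2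
      + 6 * δ ^ 2 * S t * S1 t * u t ^ 3 + 6 * δ ^ 3 * S t ^ 3 * u t ^ 4 := by
    rw [hddu]; exact funext fun t => (huddd t).deriv
  -- the profile
  set β : ℝ → ℝ := fun t => -1 + ∫ s in (-1:ℝ)..t, u s with hβ
  have hβd : ∀ t, HasDerivAt β (u t) t := fun t =>
    (intervalIntegral.integral_hasDerivAt_right (hucd.continuous.intervalIntegrable _ _)
      (hucd.continuous.stronglyMeasurableAtFilter _ _) hucd.continuous.continuousAt).const_add _
  have hdβ : deriv β = u := funext fun t => (hβd t).deriv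
  have hβcd : ContDiff ℝ ∞ β := by
    rw [contDiff_infty_iff_deriv]
    exact ⟨fun t => (hβd t).differentiableAt, by rw [hdβ]; exact hucd⟩
  refine ⟨β, hβcd, ?_, ?_, ?_, ?_, ?_⟩
  · intro t ht
    have h1 : (∫ s in (-1:ℝ)..t, u s) = ∫ s in (-1:ℝ)..t, (1:ℝ) := by
      apply intervalIntegral.integral_congr
      intro s hs
      rw [uIcc_of_le ht] at hs
      simp only [hu, hh]
      rw [gst_of_nonpos (by linarith [hs.1])]
      simp
    simp only [hβ, h1]
    simp
  · intro t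
    rw [hdβ]; exact ⟨hu0 t, hu1 t⟩
  · intro t
    rw [hdβ]
    simp only [hu]
    rw [← one_div]
    apply one_div_le_one_div_of_le (hden t)
    have h1 : h t ≤ |t| := by
      refine (gst_le_max _).trans (max_le ?_ (abs_nonneg _))
      have := neg_abs_le t
      linarith
    have h2 : δ * h t ≤ 1 * h t := mul_le_mul_of_nonneg_right hδ1 (hh0 t)
    linarith
  · rw [hdβ]
    simp only [hu]
    apply Tendsto.inv_tendsto_atTop
    apply tendsto_atTop_add_const_left
    apply Tendsto.const_mul_atTop hδ0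
    have h1 : Tendsto (fun t : ℝ => -t - 2) atBot atTop :=
      tendsto_atTop_add_const_right _ _ tendsto_neg_atBot_atTop
    refine tendsto_atTop_mono' _ ?_ h1
    filter_upwards [eventually_le_atBot (-2)] with t ht
    simp only [hh]
    rw [gst_of_one_le (by linarith)]
    linarith [kap0_le_one]
  · intro k hk hk4 t
    rw [hdβ]
    have hut := hu0 t
    have hut1 := hu1 t
    have hu2 : u t ^ 2 ≤ u t := by nlinarith
    have hu3 : u t ^ 3 ≤ u t := by nlinarith [mul_le_mul_of_nonneg_left hu2 hut.le]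
    have hu4 : u t ^ 4 ≤ u t := by nlinarith [mul_le_mul_of_nonneg_left hu3 hut.le]
    have hs0 := hS0 t
    have hs1 := hSle t
    have hs2 : S t ^ 2 ≤ 1 := by nlinarith
    have hs3 : S t ^ 3 ≤ 1 := pow_le_one₀ hs0 hs1
    have hd2 : δ ^ 2 ≤ δ := by nlinarith
    have hd3 : δ ^ 3 ≤ δ := by nlinarith [mul_le_mul_of_nonneg_left hd2 hδ0.le]
    have hb1 := hS1b t
    have hb2 := hS2b t
    have key : ∀ c : ℝ, c ≤ K → δ * c * u t ≤ ε₂ * u t := by
      intro c hc
      apply mul_le_mul_of_nonneg_right _ hut.le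
      exact (mul_le_mul_of_nonneg_left hc hδ0.le).trans hδK
    obtain ⟨j, rfl⟩ : ∃ j, k = j + 1 := ⟨k - 1, by omega⟩
    rw [iteratedDeriv_succ', hdβ]
    have : j = 1 ∨ j = 2 ∨ j = 3 := by omega
    rcases this with rfl | rfl | rfl
    · rw [iteratedDeriv_one, hdu]
      rw [abs_of_nonneg (by positivity)]
      calc δ * S t * u t ^ 2 ≤ δ * 1 * u t := by gcongr
        _ ≤ ε₂ * u t := key 1 (by rw [hK]; linarith)
    · rw [iteratedDeriv_succ, iteratedDeriv_one, hddu]
      calc |δ * S1 t * u t ^ 2 + 2 * δ ^ 2 * S t ^ 2 * u t ^ 3|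
          ≤ |δ * S1 t * u t ^ 2| + |2 * δ ^ 2 * S t ^ 2 * u t ^ 3| := abs_add_le _ _
        _ = δ * |S1 t| * u t ^ 2 + 2 * δ ^ 2 * S t ^ 2 * u t ^ 3 := by
            rw [abs_mul, abs_mul, abs_of_pos hδ0, abs_of_nonneg (by positivity : 0 ≤ u t ^ 2),
              abs_of_nonneg (by positivity : 0 ≤ 2 * δ ^ 2 * S t ^ 2 * u t ^ 3)]
        _ ≤ δ * C1 * u t + 2 * δ * 1 * u t := by gcongr
        _ = δ * (C1 + 2) * u t := by ring
        _ ≤ ε₂ * u t := key _ (by rw [hK]; linarith)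
    · rw [iteratedDeriv_succ, iteratedDeriv_succ, iteratedDeriv_one, hdddu]
      calc |δ * S2 t * u t ^ 2 + 6 * δ ^ 2 * S t * S1 t * u t ^ 3 + 6 * δ ^ 3 * S t ^ 3 * u t ^ 4|
          ≤ |δ * S2 t * u t ^ 2| + |6 * δ ^ 2 * S t * S1 t * u t ^ 3|
            + |6 * δ ^ 3 * S t ^ 3 * u t ^ 4| := abs_add_three _ _ _
        _ = δ * |S2 t| * u t ^ 2 + 6 * δ ^ 2 * S t * |S1 t| * u t ^ 3
            + 6 * δ ^ 3 * S t ^ 3 * u t ^ 4 := by
            rw [abs_mul, abs_mul, abs_of_pos hδ0, abs_of_nonneg (by positivity : 0 ≤ u t ^ 2),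
              abs_of_nonneg (by positivity : 0 ≤ 6 * δ ^ 3 * S t ^ 3 * u t ^ 4),
              abs_mul, abs_mul, abs_of_nonneg (by positivity : 0 ≤ u t ^ 3),
              abs_of_nonneg (by positivity : 0 ≤ 6 * δ ^ 2 * S t)]
        _ ≤ δ * C2 * u t + 6 * δ * 1 * C1 * u t + 6 * δ * 1 * u t := by gcongr
        _ = δ * (C2 + 6 * C1 + 6) * u t := by ring
        _ ≤ ε₂ * u t := key _ (by rw [hK]; linarith)

end Crest.Agent.R245
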