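import Crest.Agent.R245.CurvR0
import Crest.Agent.R245.Aut3
import Crest.Agent.R245.Profile

/-! TASK Cusp: the modification `β ∘ P` in the cusp. -/

set_option autoImplicit false

namespace Crest.Agent.R245

open Complex Filter Topology
open scoped ContDiff ComplexConjugate

/-- profile function -/
theorem exists_beta0 (ε₂ : ℝ) (hε : 0 < ε₂) (_hε1 : ε₂ ≤ 1) : ∃ β : ℝ → ℝ, ContDiff ℝ ∞ β ∧
    (∀ t, -1 ≤ t → β t = t) ∧ (∀ t, 0 < deriv β t ∧ deriv β t ≤ 1) ∧
    (∀ t, 1 / (1 + |t|) ≤ deriv β t) ∧ Tendsto (deriv β) atBot (𝓝 0) ∧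
    (∀ k : ℕ, 2 ≤ k → k ≤ 4 → ∀ t, |iteratedDeriv k β t| ≤ ε₂ * deriv β t) :=
  exists_beta0' ε₂ hε

/-- the jets of `(β(a+t) - β(a))/β'(a) - t` at `t = 0`. -/
lemma beta_shift_jet {β : ℝ → ℝ} (hβ : ContDiff ℝ ∞ β) {ε : ℝ} (hε : 0 ≤ ε)
    (hd : ∀ t, 0 < deriv β t)
    (hk : ∀ k : ℕ, 2 ≤ k → k ≤ 4 → ∀ t, |iteratedDeriv k β t| ≤ ε * deriv β t) (a : ℝ)
    (i : ℕ) (hi : i ≤ 4) :
    |iteratedDeriv i (fun t => (deriv β a)⁻¹ * (β (a + t) - β a) - t) 0| ≤ ε := by
  have hr := hd a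
  set r := deriv β a with hrdef
  have hs : ContDiff ℝ ∞ (fun t => β (a + t)) := hβ.comp (contDiff_const.add contDiff_id)
  rcases i with _ | _ | j
  · simp [hε]
  · have h1 : HasDerivAt (fun t => r⁻¹ * (β (a + t) - β a) - t) (r⁻¹ * deriv β (a + 0) - 1) 0 := by
      have h2 : HasDerivAt (fun t : ℝ => a + t) 1 0 := by
        simpa using (hasDerivAt_id (0:ℝ)).const_add a
      have h3 : HasDerivAt β (deriv β (a + 0)) (a + 0) :=
        (hβ.differentiable (by simp)).differentiableAt.hasDerivAt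
      have h4 := (h3.comp (0:ℝ) h2).sub_const (β a)
      rw [mul_one] at h4
      exact (h4.const_mul r⁻¹).sub (hasDerivAt_id (0:ℝ))
    rw [zero_add, iteratedDeriv_one, h1.deriv, add_zero, ← hrdef, inv_mul_cancel₀ hr.ne', sub_self,
      abs_zero]
    exact hε
  · have e : (fun t => r⁻¹ * (β (a + t) - β a) - t)
        = (fun t => r⁻¹ * β (a + t)) - (fun t => r⁻¹ * β a + t) := by
      ext t; simp; ring
    have e2 : iteratedDeriv (j + 1 + 1) (fun t : ℝ => r⁻¹ * β a + t) 0 = 0 := by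
      rw [iteratedDeriv_succ']
      have : deriv (fun t : ℝ => r⁻¹ * β a + t) = fun _ => (1:ℝ) := by
        ext t
        exact ((hasDerivAt_id t).const_add _).deriv
      rw [this, iteratedDeriv_const]
      simp
    have c1 : ContDiffAt ℝ ((j + 1 + 1 : ℕ) : ℕ∞ω) (fun t => r⁻¹ * β (a + t)) 0 :=
      (contDiff_const.mul (hs.of_le (by exact_mod_cast le_top))).contDiffAt
    have c2 : ContDiffAt ℝ ((j + 1 + 1 : ℕ) : ℕ∞ω) (fun t : ℝ => r⁻¹ * β a + t) 0 :=
      (contDiff_const.add contDiff_fun_id).contDiffAt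
    rw [e, iteratedDeriv_sub c1 c2, e2, sub_zero,
      iteratedDeriv_const_mul_field, iteratedDeriv_comp_const_add]
    simp only [add_zero]
    rw [abs_mul, abs_of_pos (inv_pos.2 hr), inv_mul_le_iff₀ hr, mul_comm]
    exact hk (j + 1 + 1) (by omega) hi a

theorem isOpen_rho3_cusp : IsOpen {x : V3 | 0 < rho3 x} :=
  isOpen_lt continuous_const rho3_contDiff.continuous

/-- jets of a composition with `a3` at `p0`. -/
lemma comp_a3_jet (D : ℝ) (hD : ∀ i, 1 ≤ i → i ≤ 4 → ‖iteratedFDeriv ℝ i a3 p0‖ ≤ D ^ i)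
    {f : ℝ → ℝ} (hf : ContDiff ℝ ∞ f) {ε : ℝ}
    (hfi : ∀ i, i ≤ 4 → |iteratedDeriv i f 0| ≤ ε) (k : ℕ) (hk4 : k ≤ 4) :
    ‖iteratedFDeriv ℝ k (fun q => f (a3 q)) p0‖ ≤ Nat.factorial k * ε * D ^ k := by
  have hp : p0 ∈ {x : V3 | 0 < rho3 x} := by
    simp only [Set.mem_ofPred_eq, rho3_p0]; norm_num
  have h := norm_iteratedFDerivWithin_comp_le (𝕜 := ℝ) (g := f) (f := a3) (n := k)
    (s := {x : V3 | 0 < rho3 x}) (t := Set.univ) (x := p0) (N := ∞) hf.contDiffOn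
    (fun x hx => (a3_contDiffAt hx).contDiffWithinAt) (by exact_mod_cast le_top)
    uniqueDiffOn_univ isOpen_rho3_cusp.uniqueDiffOn (fun _ _ => Set.mem_univ _) hp
    (C := ε) (D := D) (fun i hi => by
      rw [iteratedFDerivWithin_univ, a3_p0, norm_iteratedFDeriv_eq_norm_iteratedDeriv]
      exact hfi i (hi.trans hk4))
    (fun i h1 hi => by
      rw [iteratedFDerivWithin_of_isOpen i isOpen_rho3_cusp hp]
      exact hD i h1 (hi.trans hk4))
  rwa [iteratedFDerivWithin_of_isOpen k isOpen_rho3_cusp hp] at h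

theorem exists_beta : ∃ β : ℝ → ℝ, ContDiff ℝ ∞ β ∧
    (∀ t, -1 ≤ t → β t = t) ∧ (∀ t, 0 < deriv β t ∧ deriv β t ≤ 1) ∧
    (∀ t, 1 / (1 + |t|) ≤ deriv β t) ∧ Tendsto (deriv β) atBot (𝓝 0) ∧
    (∀ x : V3, 0 < rho3 x → KB (fun q => β (a3 q)) x (1 / (2 * deriv β (a3 x)))
        (5 / deriv β (a3 x)) ∧
      ∀ X, (1/2) * deriv β (a3 x) * (D11 a3 X X x).re ≤ (D11 (fun q => β (a3 q)) X X x).re) := by
  obtain ⟨δ, hδ, hcurv⟩ := curvR0
  have hp : 0 < rho3 p0 := by rw [rho3_p0]; norm_num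
  -- a bound for the jets of `a3` at `p0`
  set D : ℝ := 1 + ∑ i ∈ Finset.range 5, ‖iteratedFDeriv ℝ i a3 p0‖ with hDdef
  have hD1 : 1 ≤ D := by
    have : 0 ≤ ∑ i ∈ Finset.range 5, ‖iteratedFDeriv ℝ i a3 p0‖ :=
      Finset.sum_nonneg fun _ _ => norm_nonneg _
    linarith
  have hDi : ∀ i, 1 ≤ i → i ≤ 4 → ‖iteratedFDeriv ℝ i a3 p0‖ ≤ D ^ i := by
    intro i h1 h4
    have h2 : ‖iteratedFDeriv ℝ i a3 p0‖ ≤ D := by
      have := Finset.single_le_sum (f := fun i => ‖iteratedFDeriv ℝ i a3 p0‖)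
        (fun _ _ => norm_nonneg _) (Finset.mem_range.2 (by omega : i < 5))
      linarith
    exact h2.trans (le_self_pow₀ hD1 (by omega))
  have hD0 : 0 < D := by linarith
  set ε : ℝ := min 1 (δ / (24 * D ^ 4)) with hεdef
  have hε0 : 0 < ε := lt_min one_pos (by positivity)
  have hε1 : ε ≤ 1 := min_le_left _ _
  have hεδ : 24 * ε * D ^ 4 ≤ δ := by
    have : ε ≤ δ / (24 * D ^ 4) := min_le_right _ _
    rw [le_div_iff₀ (by positivity)] at this
    linarith
  obtain ⟨β, hβs, hβ1, hβd, hβlow, hβlim, hβk⟩ := exists_beta0 ε hε0 hε1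
  refine ⟨β, hβs, hβ1, hβd, hβlow, hβlim, fun x hx => ?_⟩
  set a := a3 x with ha
  have hr : 0 < deriv β a := (hβd a).1
  set r := deriv β a with hrdef
  set P : V3 → ℝ := fun q => r⁻¹ * (β (a + a3 q) - β a) with hPdef
  have hP : ContDiffAt ℝ ∞ P p0 := by
    have h1 : ContDiff ℝ ∞ (fun t => r⁻¹ * (β (a + t) - β a)) :=
      contDiff_const.mul ((hβs.comp (contDiff_const.add contDiff_id)).sub contDiff_const)
    exact h1.contDiffAt.comp p0 (a3_contDiffAt hp)
  have hjet : ∀ k : ℕ, 1 ≤ k → k ≤ 4 →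
      ‖iteratedFDeriv ℝ k (fun x => P x - a3 x) p0‖ ≤ δ := by
    intro k h1 h4
    have hfs : ContDiff ℝ ∞ (fun t => r⁻¹ * (β (a + t) - β a) - t) :=
      (contDiff_const.mul ((hβs.comp (contDiff_const.add contDiff_id)).sub contDiff_const)).sub
        contDiff_id
    have h := comp_a3_jet D hDi hfs (ε := ε)
      (fun i hi => beta_shift_jet hβs hε0.le (fun t => (hβd t).1) hβk a i hi) k h4
    have hk24 : ((Nat.factorial k : ℕ) : ℝ) ≤ 24 := by
      have : Nat.factorial k ≤ Nat.factorial 4 := Nat.factorial_le h4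
      have h24 : Nat.factorial 4 = 24 := rfl
      rw [h24] at this
      exact_mod_cast this
    have hDk : D ^ k ≤ D ^ 4 := pow_le_pow_right₀ hD1 h4
    calc ‖iteratedFDeriv ℝ k (fun x => P x - a3 x) p0‖ ≤ Nat.factorial k * ε * D ^ k := h
      _ ≤ 24 * ε * D ^ 4 := by gcongr
      _ ≤ δ := hεδ
  obtain ⟨hKB, hlow⟩ := hcurv P hP hjet
  -- the composition with the automorphism
  have hcomp : (fun q => (fun y => β (a3 y)) (Lxe x hx q + tx3 x)) =ᶠ[𝓝 p0]
      fun q => r * P q + β a := by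
    filter_upwards [isOpen_rho3_cusp.mem_nhds hp] with q hq
    simp only [hPdef]
    rw [a3_gx x hx q hq, ← ha]
    field_simp
    ring
  have hcomp2 : (fun q => a3 (Lxe x hx q + tx3 x)) =ᶠ[𝓝 p0] fun q => a3 q + a := by
    filter_upwards [isOpen_rho3_cusp.mem_nhds hp] with q hq
    rw [a3_gx x hx q hq, ← ha]
    ring
  have hrP : ContDiffAt ℝ ∞ (fun q => r * P q) p0 := contDiffAt_const.mul hP
  constructor
  · have h1 : KB (fun q => r * P q + β a) p0 (1 / 2 / r) (5 / r) :=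
      (KB_add_const hrP (β a)).2 (KB_const_mul hP hr hKB)
    have h2 := (KB_congr hcomp _ _).2 h1
    have h3 := (KB_comp_affineEquiv (p := p0) (Lxe x hx) (tx3 x) (fun y => β (a3 y))
      (1 / 2 / r) (5 / r)).1 h2
    rw [gx_p0] at h3
    have h4 : 1 / (2 * r) = 1 / 2 / r := by field_simp
    rw [h4]
    exact h3
  · intro X
    set X' := (Lxe x hx).symm X with hX'
    have hLX : Lxe x hx X' = X := (Lxe x hx).apply_symm_apply X
    have hcdβ : ContDiffAt ℝ ∞ (fun y => β (a3 y)) x :=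
      hβs.contDiffAt.comp x (a3_contDiffAt hx)
    have e1 : D11 (fun q => (fun y => β (a3 y)) (Lxe x hx q + tx3 x)) X' X' p0
        = D11 (fun q => β (a3 q)) X X x := by
      have := D11_comp_affine (p := p0) (Lxe x hx : V3 →L[ℂ] V3) (tx3 x)
        (f := fun y => β (a3 y)) (by
          simp only [ContinuousLinearEquiv.coe_coe]
          rw [gx_p0 x hx]; exact hcdβ) X' X'
      simp only [ContinuousLinearEquiv.coe_coe] at this
      rw [this, hLX, gx_p0 x hx]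
    have e2 : D11 (fun q => a3 (Lxe x hx q + tx3 x)) X' X' p0 = D11 a3 X X x := by
      have := D11_comp_affine (p := p0) (Lxe x hx : V3 →L[ℂ] V3) (tx3 x)
        (f := a3) (by
          simp only [ContinuousLinearEquiv.coe_coe]
          rw [gx_p0 x hx]; exact a3_contDiffAt hx) X' X'
      simp only [ContinuousLinearEquiv.coe_coe] at this
      rw [this, hLX, gx_p0 x hx]
    have e3 : D11 (fun q => r * P q + β a) X' X' p0 = r * D11 P X' X' p0 := by
      rw [D11_add hrP contDiffAt_const, D11_const, add_zero, D11_const_mul hP]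
    have e4 : D11 (fun q => a3 q + a) X' X' p0 = D11 a3 X' X' p0 := by
      rw [D11_add (a3_contDiffAt hp) contDiffAt_const, D11_const, add_zero]
    rw [← e1, D11_congr hcomp, e3, ← e2, D11_congr hcomp2, e4]
    have h5 := hlow X'
    rw [Complex.re_ofReal_mul]
    nlinarith [mul_le_mul_of_nonneg_left h5 hr.le]

end Crest.Agent.R245
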