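import Mathlib
import Crest.Prelude.Def_KahlerDomain

/-!
Row 245 (S0378 + S0379): common definitions.
A pinched negatively curved complete Kähler domain in ℂ³ without non-constant bounded
holomorphic functions (plan by helper83).
-/

set_option autoImplicit false

namespace Crest.Agent.R245

open Complex
open scoped ContDiff ComplexConjugate

section Ops

variable {V : Type*} [NormedAddCommGroup V] [NormedSpace ℝ V] [NormedSpace ℂ V]

/-- `∂_X u` : the (1,0)-part of the real derivative, ℂ-linear in `X`. -/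
noncomputable def dz (X : V) (u : V → ℂ) (p : V) : ℂ :=
  (fderiv ℝ u p X - I * fderiv ℝ u p (I • X)) / 2

/-- `∂̄_X u` : the (0,1)-part of the real derivative, conjugate-linear in `X`. -/
noncomputable def dzb (X : V) (u : V → ℂ) (p : V) : ℂ :=
  (fderiv ℝ u p X + I * fderiv ℝ u p (I • X)) / 2

/-- `P(X;Ȳ)` -/
noncomputable def D11 (P : V → ℝ) (X Y : V) (p : V) : ℂ :=
  dz X (dzb Y (fun q => (P q : ℂ))) p

/-- `P(XY;Z̄)` -/
noncomputable def D21 (P : V → ℝ) (X Y Z : V) (p : V) : ℂ :=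
  dz X (dz Y (dzb Z (fun q => (P q : ℂ)))) p

/-- `P(XY;Z̄W̄)` -/
noncomputable def D22 (P : V → ℝ) (X Y Z W : V) (p : V) : ℂ :=
  dz X (dz Y (dzb Z (dzb W (fun q => (P q : ℂ))))) p

/-- squared area of `X ∧ Y` for the Riemannian metric `Re P(·;·̄)`. -/
noncomputable def area (P : V → ℝ) (p X Y : V) : ℝ :=
  (D11 P X X p).re * (D11 P Y Y p).re - (D11 P X Y p).re ^ 2

/-- `Γ` is the Christoffel vector `Γ(X,Y)` of the Kähler metric with potential `P`. -/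
def IsGam (P : V → ℝ) (p X Y Γ : V) : Prop := ∀ Z, D11 P Γ Z p = D21 P X Y Z p

/-- minus the curvature numerator `g(R(X,Y)Y,X)` of the Kähler metric with potential `P`. -/
noncomputable def negK (P : V → ℝ) (p X Y Γxx Γxy Γyy : V) : ℝ :=
  (D22 P X Y X Y p - D11 P Γxy Γxy p - D22 P X X Y Y p + D11 P Γxx Γyy p).re

/-- the sectional curvature of the metric with potential `P` lies in `[-B,-c]` at `p`. -/
def KB (P : V → ℝ) (p : V) (c B : ℝ) : Prop :=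
  ∀ X Y Γxx Γxy Γyy, IsGam P p X X Γxx → IsGam P p X Y Γxy → IsGam P p Y Y Γyy →
    c * area P p X Y ≤ negK P p X Y Γxx Γxy Γyy ∧
      negK P p X Y Γxx Γxy Γyy ≤ B * area P p X Y

/-- the potential `P` defines a positive definite metric at `p`. -/
def PD (P : V → ℝ) (p : V) : Prop := ∀ X, X ≠ 0 → 0 < (D11 P X X p).re

end Ops

/-- the base `ℂ²`, coordinates `(z, w)`. -/
abbrev B2 := ℂ × ℂ
/-- `ℂ³`, coordinates `x 0 = z, x 1 = w, x 2 = ζ`. -/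
abbrev V3 := Fin 3 → ℂ

/-- height function of the Siegel domain `Im w > |z|²`. -/
noncomputable def rho (b : B2) : ℝ := b.2.im - ‖b.1‖ ^ 2

/-- the Siegel domain `D ⊂ ℂ²`. -/
def Dom : Set B2 := {b | 0 < rho b}

/-- the potential `a = -log ρ` of the complex hyperbolic plane. -/
noncomputable def aS (b : B2) : ℝ := - Real.log (rho b)

/-- the base point `(0, i)`. -/
def q0 : B2 := (0, I)

/-- affine automorphism of `Dom` moving `q0` to `p`. -/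
noncomputable def gp (p b : B2) : B2 :=
  (p.1 + (Real.sqrt (rho p) : ℂ) * b.1,
   (p.2.re : ℂ) + I * ((‖p.1‖ ^ 2 : ℝ) : ℂ)
     + 2 * I * conj p.1 * (Real.sqrt (rho p) : ℂ) * b.1 + (rho p : ℂ) * b.2)

/-- normalized 4-jet bound at `q0`. -/
def JetB (u : B2 → ℝ) (C : ℝ) : Prop := ∀ k : ℕ, 1 ≤ k → k ≤ 4 → ‖iteratedFDeriv ℝ k u q0‖ ≤ C

/-- The Hartogs potential `A(b) - log(1 - e^{φ(b)} |ζ|²)` on `ℂ² × ℂ`. -/
noncomputable def hart (A φ : B2 → ℝ) (x : B2 × ℂ) : ℝ :=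
  A x.1 - Real.log (1 - Real.exp (φ x.1) * ‖x.2‖ ^ 2)

/-- The Hartogs domain over `Dom` with weight `φ`. -/
def HartD (φ : B2 → ℝ) : Set (B2 × ℂ) := {y | y.1 ∈ Dom ∧ Real.exp (φ y.1) * ‖y.2‖ ^ 2 < 1}

/-- the sequence `c_k`: `1/k` for `k > 0`, `i/|k|` for `k < 0`, `0` for `k = 0`. -/
noncomputable def cS (k : ℤ) : ℂ :=
  if 0 < k then ((1 / (k : ℝ) : ℝ) : ℂ) else if k < 0 then I * ((1 / ((-k : ℤ) : ℝ) : ℝ) : ℂ) else 0

/-- the affine embedding of the `k`-th chart. -/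
noncomputable def gk (k : ℤ) (y : B2 × ℂ) : V3 :=
  ![y.1.1 + k,
    y.1.2 + 2 * I * k * y.1.1 + I * k ^ 2 + 2 * I * conj (cS k) * y.2
      + I * ((‖cS k‖ ^ 2 : ℝ) : ℂ),
    y.2 + cS k]

/-- its inverse. -/
noncomputable def gki (k : ℤ) (x : V3) : B2 × ℂ :=
  ((x 0 - k,
    x 1 - 2 * I * k * x 0 + I * k ^ 2 - 2 * I * conj (cS k) * x 2
      + I * ((‖cS k‖ ^ 2 : ℝ) : ℂ)),
   x 2 - cS k)

/-- index of the chart. -/
noncomputable def kk (x : V3) : ℤ := round (x 0).re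

/-- height function of the Siegel domain of `ℂ³`. -/
noncomputable def rho3 (x : V3) : ℝ := (x 1).im - ‖x 0‖ ^ 2 - ‖x 2‖ ^ 2

/-- the domain `U`. -/
def Udom (φ : B2 → ℝ) : Set V3 := {x | gki (kk x) x ∈ HartD φ}

/-- the global potential. -/
noncomputable def Ppot (A φ : B2 → ℝ) (x : V3) : ℝ := hart A φ (gki (kk x) x)

/-- The data of a bulge. -/
structure Bulge where
  A : B2 → ℝ
  φ : B2 → ℝ
  smoothA : ContDiffOn ℝ ∞ A Dom
  smoothφ : ContDiffOn ℝ ∞ φ Dom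
  /-- outside the bulge region the structure is the standard one -/
  outA : ∀ b ∈ Dom, (1/4 ≤ ‖b.1‖ ∨ 1/4 ≤ rho b) → A b = aS b
  outφ : ∀ b ∈ Dom, (1/4 ≤ ‖b.1‖ ∨ 1/4 ≤ rho b) → φ b = aS b
  φ_le : ∀ b ∈ Dom, φ b ≤ aS b
  le_A : ∀ b ∈ Dom, aS b ≤ A b
  /-- positivity of the base forms -/
  posA : ∃ c > 0, ∀ b ∈ Dom, ∀ ξ : B2, c * (D11 aS ξ ξ b).re ≤ (D11 A ξ ξ b).re
  posφ : ∃ c > 0, ∀ b ∈ Dom, ∀ ξ : B2, c * (D11 aS ξ ξ b).re ≤ (D11 φ ξ ξ b).re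
  /-- bounded gradient of `φ` -/
  gradφ : ∃ C, ∀ b ∈ Dom, ∀ ξ : B2, |fderiv ℝ φ b ξ| ≤ C * Real.sqrt (D11 aS ξ ξ b).re
  /-- pinched negative curvature of the Hartogs metric -/
  curv : ∃ c > 0, ∃ B, ∀ y ∈ HartD φ, KB (hart A φ) y c B
  /-- the weight has no holomorphic minorant -/
  vanish : ∀ F : B2 → ℂ, DifferentiableOn ℂ F Dom → ∀ C : ℝ,
    (∀ b ∈ Dom, ‖b.1‖ < 1/4 → ‖F b‖ ≤ C * Real.exp (φ b / 2)) → ∀ b ∈ Dom, F b = 0

end Crest.Agent.R245
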