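import Crest.Agent.R245.Defs

set_option autoImplicit false

namespace Crest.Agent.R245

open Complex
open scoped ContDiff ComplexConjugate

/-- fibre rescaling `HartD φ → HartD aS`. -/
noncomputable def Smap (φ : B2 → ℝ) (y : B2 × ℂ) : B2 × ℂ :=
  (y.1, ((Real.exp ((φ y.1 - aS y.1) / 2) : ℝ) : ℂ) * y.2)

noncomputable def SmapInv (φ : B2 → ℝ) (y : B2 × ℂ) : B2 × ℂ :=
  (y.1, ((Real.exp (-(φ y.1 - aS y.1) / 2) : ℝ) : ℂ) * y.2)

/-- the diffeomorphism `U → {rho3 > 0}` -/
noncomputable def psi1 (φ : B2 → ℝ) (x : V3) : V3 := gk (kk x) (Smap φ (gki (kk x) x))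

/-- its inverse -/
noncomputable def psi1Inv (φ : B2 → ℝ) (x : V3) : V3 := gk (kk x) (SmapInv φ (gki (kk x) x))

/-- distance-like function on `{rho3 > 0}` -/
noncomputable def d3 (x : V3) : ℝ := Real.log (‖x 1 + I‖ ^ 2 / rho3 x)

/-- proper function on `U` with bounded gradient -/
noncomputable def u0 (φ : B2 → ℝ) (x : V3) : ℝ := d3 (psi1 φ x)

/-- potential of complex hyperbolic 3-space -/
noncomputable def a3 (x : V3) : ℝ := - Real.log (rho3 x)

/-- base point of `{rho3 > 0}` -/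
noncomputable def p0 : V3 := ![0, I, 0]

end Crest.Agent.R245
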