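import Crest.Agent.R245.GlobalU

/-! TASK DiffeoU: `U` is diffeomorphic to `ℝ⁶`; the proper function `u0`. -/

set_option autoImplicit false

namespace Crest.Agent.R245

open Complex Filter Topology
open scoped ContDiff ComplexConjugate

theorem kk_psi1 (φ : B2 → ℝ) (x : V3) : psi1 φ x 0 = x 0 := by
  simp [psi1, gk, Smap, gki]

theorem kk_psi1Inv (φ : B2 → ℝ) (x : V3) : psi1Inv φ x 0 = x 0 := by
  simp [psi1Inv, gk, SmapInv, gki]

theorem kk_eq_psi1 (φ : B2 → ℝ) (x : V3) : kk (psi1 φ x) = kk x := by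
  unfold kk; rw [kk_psi1]

theorem kk_eq_psi1Inv (φ : B2 → ℝ) (x : V3) : kk (psi1Inv φ x) = kk x := by
  unfold kk; rw [kk_psi1Inv]

theorem exp_half_sq (t : ℝ) : Real.exp (t / 2) ^ 2 = Real.exp t := by
  rw [← Real.exp_nat_mul]; congr 1; push_cast; ring

theorem exp_neg_aS {b : B2} (hb : b ∈ Dom) : Real.exp (-(aS b)) = rho b := by
  unfold aS; rw [neg_neg, Real.exp_log hb]

theorem exp_aS {b : B2} (hb : b ∈ Dom) : Real.exp (aS b) = (rho b)⁻¹ := by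
  unfold aS; rw [Real.exp_neg, Real.exp_log hb]

theorem Smap_norm_sq (φ : B2 → ℝ) (y : B2 × ℂ) (hy : y.1 ∈ Dom) :
    ‖(Smap φ y).2‖ ^ 2 = rho y.1 * (Real.exp (φ y.1) * ‖y.2‖ ^ 2) := by
  unfold Smap
  rw [norm_mul, Complex.norm_real, Real.norm_eq_abs, abs_of_pos (Real.exp_pos _), mul_pow,
    exp_half_sq, sub_eq_add_neg, Real.exp_add, exp_neg_aS hy]
  ring

theorem SmapInv_norm_sq (φ : B2 → ℝ) (y : B2 × ℂ) (hy : y.1 ∈ Dom) :
    Real.exp (φ y.1) * ‖(SmapInv φ y).2‖ ^ 2 = ‖y.2‖ ^ 2 / rho y.1 := by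
  unfold SmapInv
  rw [norm_mul, Complex.norm_real, Real.norm_eq_abs, abs_of_pos (Real.exp_pos _), mul_pow,
    exp_half_sq, neg_sub, sub_eq_add_neg, Real.exp_add, exp_aS hy, Real.exp_neg]
  field_simp

theorem SmapInv_Smap (φ : B2 → ℝ) (y : B2 × ℂ) : SmapInv φ (Smap φ y) = y := by
  unfold SmapInv Smap
  ext
  · rfl
  · rfl
  · simp only
    rw [← mul_assoc, ← Complex.ofReal_mul, ← Real.exp_add]
    have : -(φ y.1 - aS y.1) / 2 + (φ y.1 - aS y.1) / 2 = 0 := by ring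
    rw [this, Real.exp_zero]
    simp

theorem Smap_SmapInv (φ : B2 → ℝ) (y : B2 × ℂ) : Smap φ (SmapInv φ y) = y := by
  unfold SmapInv Smap
  ext
  · rfl
  · rfl
  · simp only
    rw [← mul_assoc, ← Complex.ofReal_mul, ← Real.exp_add]
    have : (φ y.1 - aS y.1) / 2 + -(φ y.1 - aS y.1) / 2 = 0 := by ring
    rw [this, Real.exp_zero]
    simp

theorem rho_gki (k : ℤ) (x : V3) : rho (gki k x).1 - ‖(gki k x).2‖ ^ 2 = rho3 x := by
  rw [← rho3_gk k (gki k x), gk_gki]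

theorem gki_mem_Dom {x : V3} (hx : 0 < rho3 x) (k : ℤ) : (gki k x).1 ∈ Dom := by
  have h := rho_gki k x
  have h2 : 0 ≤ ‖(gki k x).2‖ ^ 2 := by positivity
  show 0 < rho (gki k x).1
  linarith

theorem rho3_psi1_eq (φ : B2 → ℝ) {x : V3} (hx : x ∈ Udom φ) :
    rho3 (psi1 φ x) = rho (gki (kk x) x).1 *
      (1 - Real.exp (φ (gki (kk x) x).1) * ‖(gki (kk x) x).2‖ ^ 2) := by
  unfold psi1
  rw [rho3_gk, Smap_norm_sq _ _ hx.1]
  have : (Smap φ (gki (kk x) x)).1 = (gki (kk x) x).1 := rfl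
  rw [this]
  ring

theorem rho3_psi1_pos (b : Bulge) {x : V3} (hx : x ∈ Udom b.φ) : 0 < rho3 (psi1 b.φ x) := by
  rw [rho3_psi1_eq _ hx]
  exact mul_pos hx.1 (by linarith [hx.2])

theorem psi1Inv_mem (b : Bulge) {x : V3} (hx : 0 < rho3 x) : psi1Inv b.φ x ∈ Udom b.φ := by
  show gki (kk (psi1Inv b.φ x)) (psi1Inv b.φ x) ∈ HartD b.φ
  rw [kk_eq_psi1Inv]
  unfold psi1Inv
  rw [gki_gk]
  have hD := gki_mem_Dom hx (kk x)
  refine ⟨hD, ?_⟩
  have h1 := SmapInv_norm_sq b.φ (gki (kk x) x) hD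
  have h2 : (SmapInv b.φ (gki (kk x) x)).1 = (gki (kk x) x).1 := rfl
  rw [h2, h1, div_lt_one hD]
  have h := rho_gki (kk x) x
  linarith

theorem psi1Inv_psi1 (φ : B2 → ℝ) (x : V3) : psi1Inv φ (psi1 φ x) = x := by
  unfold psi1Inv
  rw [kk_eq_psi1]
  unfold psi1
  rw [gki_gk, SmapInv_Smap, gk_gki]

theorem psi1_psi1Inv (φ : B2 → ℝ) (x : V3) : psi1 φ (psi1Inv φ x) = x := by
  unfold psi1
  rw [kk_eq_psi1Inv]
  unfold psi1Inv
  rw [gki_gk, Smap_SmapInv, gk_gki]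

/-- near a point either the chart index is constant or we are in the standard part of both. -/
theorem kk_local (x : V3) : ∀ᶠ x' in 𝓝 x, kk x' = kk x ∨
    (1/4 ≤ ‖x' 0 - (kk x' : ℂ)‖ ∧ 1/4 ≤ ‖x' 0 - (kk x : ℂ)‖) := by
  have hc : Continuous fun x' : V3 => (x' 0).re := by fun_prop
  have h1 : ∀ᶠ x' in 𝓝 x, |(x' 0).re - (x 0).re| < 1/8 := by
    have := (Metric.continuous_iff.1 hc) x (1/8) (by norm_num)
    obtain ⟨δ, hδ, h⟩ := this
    filter_upwards [Metric.ball_mem_nhds x hδ] with x' hx'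
    have := h x' hx'
    rwa [Real.dist_eq] at this
  filter_upwards [h1] with x' hx'
  by_cases hk : kk x' = kk x
  · exact Or.inl hk
  right
  have e1 : |(x' 0).re - (kk x' : ℝ)| ≤ 1/2 := abs_sub_round _
  have e2 : |(x 0).re - (kk x : ℝ)| ≤ 1/2 := abs_sub_round _
  have e3 : (1:ℝ) ≤ |(kk x' : ℝ) - (kk x : ℝ)| := by
    have : (1:ℤ) ≤ |kk x' - kk x| := Int.one_le_abs (sub_ne_zero.2 hk)
    have h : ((1:ℤ):ℝ) ≤ ((|kk x' - kk x| : ℤ) : ℝ) := by exact_mod_cast this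
    push_cast at h
    exact h
  have e4 : |(x' 0).re - (kk x : ℝ)| ≥ 1/2 := by
    have := abs_sub_le (kk x' : ℝ) (x' 0).re (kk x : ℝ)
    rw [abs_sub_comm (kk x' : ℝ) (x' 0).re] at this
    linarith
  have e5 : |(x' 0).re - (kk x' : ℝ)| ≥ 3/8 := by
    have h1 := abs_sub_le (kk x' : ℝ) (x' 0).re (kk x : ℝ)
    rw [abs_sub_comm (kk x' : ℝ) (x' 0).re] at h1
    have h2 := abs_sub_le (x' 0).re (x 0).re (kk x : ℝ)
    linarith
  constructor
  · have := Complex.abs_re_le_norm (x' 0 - (kk x' : ℂ))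
    simp only [sub_re, intCast_re] at this
    linarith
  · have := Complex.abs_re_le_norm (x' 0 - (kk x : ℂ))
    simp only [sub_re, intCast_re] at this
    linarith

theorem Smap_eq_self (b : Bulge) {y : B2 × ℂ} (hD : y.1 ∈ Dom) (h : 1/4 ≤ ‖y.1.1‖) :
    Smap b.φ y = y := by
  unfold Smap
  rw [b.outφ _ hD (Or.inl h)]
  simp

theorem SmapInv_eq_self (b : Bulge) {y : B2 × ℂ} (hD : y.1 ∈ Dom) (h : 1/4 ≤ ‖y.1.1‖) :
    SmapInv b.φ y = y := by
  unfold SmapInv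
  rw [b.outφ _ hD (Or.inl h)]
  simp

theorem gki_fst_fst (k : ℤ) (x : V3) : (gki k x).1.1 = x 0 - k := rfl

theorem contDiff_gk (k : ℤ) : ContDiff ℝ ∞ (gk k) := by
  unfold gk
  rw [contDiff_pi]
  intro i
  fin_cases i <;> simp <;> fun_prop

theorem contDiff_gki (k : ℤ) : ContDiff ℝ ∞ (gki k) := by
  unfold gki
  fun_prop

theorem contDiffAt_Smap (b : Bulge) {y : B2 × ℂ} (hD : y.1 ∈ Dom) :
    ContDiffAt ℝ ∞ (Smap b.φ) y := by
  have h1 : ContDiffAt ℝ ∞ (fun y : B2 × ℂ => b.φ y.1) y :=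
    (b.smoothφ.contDiffAt (isOpen_Dom.mem_nhds hD)).comp y contDiffAt_fst
  have h2 : ContDiffAt ℝ ∞ (fun y : B2 × ℂ => aS y.1) y :=
    (aS_contDiffAt hD).comp y contDiffAt_fst
  unfold Smap
  refine contDiffAt_fst.prodMk (ContDiffAt.mul ?_ contDiffAt_snd)
  exact Complex.ofRealCLM.contDiff.contDiffAt.comp y ((h1.sub h2).div_const 2).exp

theorem contDiffAt_SmapInv (b : Bulge) {y : B2 × ℂ} (hD : y.1 ∈ Dom) :
    ContDiffAt ℝ ∞ (SmapInv b.φ) y := by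
  have h1 : ContDiffAt ℝ ∞ (fun y : B2 × ℂ => b.φ y.1) y :=
    (b.smoothφ.contDiffAt (isOpen_Dom.mem_nhds hD)).comp y contDiffAt_fst
  have h2 : ContDiffAt ℝ ∞ (fun y : B2 × ℂ => aS y.1) y :=
    (aS_contDiffAt hD).comp y contDiffAt_fst
  unfold SmapInv
  refine contDiffAt_fst.prodMk (ContDiffAt.mul ?_ contDiffAt_snd)
  exact Complex.ofRealCLM.contDiff.contDiffAt.comp y ((h1.sub h2).neg.div_const 2).exp

theorem psi1_local (b : Bulge) {x : V3} (hx : x ∈ Udom b.φ) :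
    psi1 b.φ =ᶠ[𝓝 x] fun x' => gk (kk x) (Smap b.φ (gki (kk x) x')) := by
  have hD : ∀ᶠ x' in 𝓝 x, (gki (kk x) x').1 ∈ Dom := by
    have hc : ContinuousAt (fun x' => (gki (kk x) x').1) x :=
      ((contDiff_gki (kk x)).continuous.fst).continuousAt
    exact hc.eventually_mem (isOpen_Dom.mem_nhds hx.1)
  filter_upwards [kk_local x, hD, (isOpen_Udom b).mem_nhds hx] with x' h1 h2 h3
  rcases h1 with h1 | ⟨h4, h5⟩
  · unfold psi1; rw [h1]
  · unfold psi1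
    rw [Smap_eq_self b h3.1 (by rw [gki_fst_fst]; exact h4),
      Smap_eq_self b h2 (by rw [gki_fst_fst]; exact h5), gk_gki, gk_gki]

private theorem isOpen_rho3 : IsOpen {x : V3 | 0 < rho3 x} := by
  have : Continuous rho3 := by unfold rho3; fun_prop
  exact isOpen_lt continuous_const this

theorem continuous_rho3 : Continuous rho3 := by unfold rho3; fun_prop

theorem psi1Inv_local (b : Bulge) {x : V3} (hx : 0 < rho3 x) :
    psi1Inv b.φ =ᶠ[𝓝 x] fun x' => gk (kk x) (SmapInv b.φ (gki (kk x) x')) := by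
  filter_upwards [kk_local x, isOpen_rho3.mem_nhds hx] with x' h1 h3
  rcases h1 with h1 | ⟨h4, h5⟩
  · unfold psi1Inv; rw [h1]
  · unfold psi1Inv
    rw [SmapInv_eq_self b (gki_mem_Dom h3 _) (by rw [gki_fst_fst]; exact h4),
      SmapInv_eq_self b (gki_mem_Dom h3 _) (by rw [gki_fst_fst]; exact h5), gk_gki, gk_gki]

theorem psi1_contDiffAt (b : Bulge) {x : V3} (hx : x ∈ Udom b.φ) :
    ContDiffAt ℝ ∞ (psi1 b.φ) x := by
  refine ContDiffAt.congr_of_eventuallyEq ?_ (psi1_local b hx)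
  refine (contDiff_gk (kk x)).contDiffAt.comp x ?_
  exact (contDiffAt_Smap b hx.1).comp x (contDiff_gki (kk x)).contDiffAt

theorem psi1_contDiffOn (b : Bulge) : ContDiffOn ℝ ∞ (psi1 b.φ) (Udom b.φ) :=
  fun _ hx => (psi1_contDiffAt b hx).contDiffWithinAt

theorem psi1Inv_contDiffOn (b : Bulge) : ContDiffOn ℝ ∞ (psi1Inv b.φ) {x | 0 < rho3 x} := by
  intro x hx
  refine ContDiffAt.contDiffWithinAt ?_
  refine ContDiffAt.congr_of_eventuallyEq ?_ (psi1Inv_local b hx)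
  refine (contDiff_gk (kk x)).contDiffAt.comp x ?_
  exact (contDiffAt_SmapInv b (gki_mem_Dom hx _)).comp x (contDiff_gki (kk x)).contDiffAt

/-! ### The explicit diffeomorphism `ℂ³ → {rho3 > 0}` -/

/-- `ℂ³ → {rho3 > 0}` -/
noncomputable def E3 (x : V3) : V3 :=
  ![x 0, (((x 1).re : ℝ) : ℂ) + I * ((Real.exp (x 1).im + ‖x 0‖ ^ 2 + ‖x 2‖ ^ 2 : ℝ) : ℂ), x 2]

/-- its inverse. -/
noncomputable def F3 (x : V3) : V3 :=
  ![x 0, (((x 1).re : ℝ) : ℂ) + I * ((Real.log (rho3 x) : ℝ) : ℂ), x 2]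

theorem re_add_I_mul (a c : ℝ) : ((a : ℂ) + I * (c : ℂ)).re = a := by simp

theorem im_add_I_mul (a c : ℝ) : ((a : ℂ) + I * (c : ℂ)).im = c := by simp

theorem E3_re (x : V3) : (E3 x 1).re = (x 1).re := re_add_I_mul _ _

theorem E3_im (x : V3) : (E3 x 1).im = Real.exp (x 1).im + ‖x 0‖ ^ 2 + ‖x 2‖ ^ 2 :=
  im_add_I_mul _ _

theorem F3_re (x : V3) : (F3 x 1).re = (x 1).re := re_add_I_mul _ _

theorem F3_im (x : V3) : (F3 x 1).im = Real.log (rho3 x) := im_add_I_mul _ _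

theorem rho3_E3 (x : V3) : rho3 (E3 x) = Real.exp (x 1).im := by
  have h0 : E3 x 0 = x 0 := rfl
  have h2 : E3 x 2 = x 2 := rfl
  unfold rho3
  rw [E3_im, h0, h2]
  ring

theorem rho3_E3_pos (x : V3) : 0 < rho3 (E3 x) := by rw [rho3_E3]; exact Real.exp_pos _

theorem F3_E3 (x : V3) : F3 (E3 x) = x := by
  have h := rho3_E3 x
  ext i
  fin_cases i
  · simp [F3, E3]
  · show (((E3 x 1).re : ℝ) : ℂ) + I * ((Real.log (rho3 (E3 x)) : ℝ) : ℂ) = x 1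
    rw [h, Real.log_exp, E3_re]
    apply Complex.ext <;> simp
  · simp [F3, E3]

theorem E3_F3 {x : V3} (hx : 0 < rho3 x) : E3 (F3 x) = x := by
  ext i
  fin_cases i
  · simp [F3, E3]
  · show (((F3 x 1).re : ℝ) : ℂ) + I * ((Real.exp (F3 x 1).im + ‖F3 x 0‖ ^ 2 + ‖F3 x 2‖ ^ 2 : ℝ) : ℂ)
      = x 1
    have h3 : F3 x 0 = x 0 := rfl
    have h4 : F3 x 2 = x 2 := rfl
    rw [F3_re, F3_im, h3, h4, Real.exp_log hx]
    apply Complex.ext
    · rw [re_add_I_mul]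
    · rw [im_add_I_mul]
      unfold rho3
      ring
  · simp [F3, E3]

theorem contDiff_E3 : ContDiff ℝ ∞ E3 := by
  unfold E3
  rw [contDiff_pi]
  have hre : ContDiff ℝ ∞ (fun x : V3 => (((x 1).re : ℝ) : ℂ)) :=
    Complex.ofRealCLM.contDiff.comp (Complex.reCLM.contDiff.comp (contDiff_apply ℝ ℂ 1))
  have him : ContDiff ℝ ∞ (fun x : V3 => (x 1).im) :=
    Complex.imCLM.contDiff.comp (contDiff_apply ℝ ℂ 1)
  have h0 : ContDiff ℝ ∞ (fun x : V3 => ‖x 0‖ ^ 2) :=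
    (contDiff_norm_sq ℝ).comp (contDiff_apply ℝ ℂ 0)
  have h2 : ContDiff ℝ ∞ (fun x : V3 => ‖x 2‖ ^ 2) :=
    (contDiff_norm_sq ℝ).comp (contDiff_apply ℝ ℂ 2)
  intro i
  fin_cases i
  · exact contDiff_apply ℝ ℂ 0
  · refine hre.add (contDiff_const.mul (Complex.ofRealCLM.contDiff.comp ?_))
    exact (him.exp.add h0).add h2
  · exact contDiff_apply ℝ ℂ 2

private theorem contDiff_rho3 : ContDiff ℝ ∞ rho3 := by
  unfold rho3
  have him : ContDiff ℝ ∞ (fun x : V3 => (x 1).im) :=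
    Complex.imCLM.contDiff.comp (contDiff_apply ℝ ℂ 1)
  have h0 : ContDiff ℝ ∞ (fun x : V3 => ‖x 0‖ ^ 2) :=
    (contDiff_norm_sq ℝ).comp (contDiff_apply ℝ ℂ 0)
  have h2 : ContDiff ℝ ∞ (fun x : V3 => ‖x 2‖ ^ 2) :=
    (contDiff_norm_sq ℝ).comp (contDiff_apply ℝ ℂ 2)
  exact (him.sub h0).sub h2

theorem contDiffOn_F3 : ContDiffOn ℝ ∞ F3 {x | 0 < rho3 x} := by
  unfold F3
  rw [contDiffOn_pi]
  have hre : ContDiff ℝ ∞ (fun x : V3 => (((x 1).re : ℝ) : ℂ)) :=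
    Complex.ofRealCLM.contDiff.comp (Complex.reCLM.contDiff.comp (contDiff_apply ℝ ℂ 1))
  intro i
  fin_cases i
  · exact (contDiff_apply ℝ ℂ 0).contDiffOn
  · refine hre.contDiffOn.add (contDiffOn_const.mul
      (Complex.ofRealCLM.contDiff.comp_contDiffOn ?_))
    exact contDiff_rho3.contDiffOn.log (fun x hx => ne_of_gt hx)
  · exact (contDiff_apply ℝ ℂ 2).contDiffOn

/-- the parametrization of `U` -/
noncomputable def Phi6 (b : Bulge) (x : V3) : V3 := psi1Inv b.φ (E3 x)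

/-- the chart of `U` -/
noncomputable def Psi6 (b : Bulge) (x : V3) : V3 := F3 (psi1 b.φ x)

theorem contDiff_Phi6 (b : Bulge) : ContDiff ℝ ∞ (Phi6 b) := by
  rw [contDiff_iff_contDiffAt]
  intro x
  have h1 : ContDiffAt ℝ ∞ (psi1Inv b.φ) (E3 x) :=
    (psi1Inv_contDiffOn b).contDiffAt (isOpen_rho3.mem_nhds (rho3_E3_pos x))
  exact h1.comp x contDiff_E3.contDiffAt

theorem contDiffOn_Psi6 (b : Bulge) : ContDiffOn ℝ ∞ (Psi6 b) (Udom b.φ) :=
  contDiffOn_F3.comp (psi1_contDiffOn b) (fun _ hx => rho3_psi1_pos b hx)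

theorem Phi6_mem (b : Bulge) (x : V3) : Phi6 b x ∈ Udom b.φ := psi1Inv_mem b (rho3_E3_pos x)

theorem Psi6_Phi6 (b : Bulge) (x : V3) : Psi6 b (Phi6 b x) = x := by
  unfold Psi6 Phi6
  rw [psi1_psi1Inv, F3_E3]

theorem Phi6_Psi6 (b : Bulge) {x : V3} (hx : x ∈ Udom b.φ) : Phi6 b (Psi6 b x) = x := by
  unfold Psi6 Phi6
  rw [E3_F3 (rho3_psi1_pos b hx), psi1Inv_psi1]

theorem range_Phi6 (b : Bulge) : Set.range (Phi6 b) = Udom b.φ := by
  ext x
  constructor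
  · rintro ⟨y, rfl⟩
    exact Phi6_mem b y
  · intro hx
    exact ⟨Psi6 b x, Phi6_Psi6 b hx⟩

/-- `U` is diffeomorphic to `ℂ³` -/
theorem diffeo (b : Bulge) : ∃ Φ Ψ : V3 → V3, ContDiff ℝ ∞ Φ ∧ ContDiffOn ℝ ∞ Ψ (Udom b.φ) ∧
    Set.range Φ = Udom b.φ ∧ ∀ x, Ψ (Φ x) = x :=
  ⟨Phi6 b, Psi6 b, contDiff_Phi6 b, contDiffOn_Psi6 b, range_Phi6 b, Psi6_Phi6 b⟩

/-- `U` is homeomorphic to `ℂ³`. -/
noncomputable def homeoU (b : Bulge) : Udom b.φ ≃ₜ V3 where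
  toFun x := Psi6 b x.1
  invFun y := ⟨Phi6 b y, Phi6_mem b y⟩
  left_inv x := Subtype.ext (Phi6_Psi6 b x.2)
  right_inv y := Psi6_Phi6 b y
  continuous_toFun := (contDiffOn_Psi6 b).continuousOn.domRestrict
  continuous_invFun := (contDiff_Phi6 b).continuous.subtype_mk _

theorem contractible_U (b : Bulge) : ContractibleSpace (Udom b.φ) :=
  (homeoU b).contractibleSpace

theorem isConnected_U (b : Bulge) : IsConnected (Udom b.φ) := by
  rw [← range_Phi6 b]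
  exact isConnected_range (contDiff_Phi6 b).continuous

theorem curves_U (b : Bulge) : ∀ p ∈ Udom b.φ, ∀ q ∈ Udom b.φ, ∃ γ : ℝ → V3,
    ContDiff ℝ 1 γ ∧ γ 0 = p ∧ γ 1 = q ∧ ∀ t, γ t ∈ Udom b.φ := by
  intro p hp q hq
  refine ⟨fun t => Phi6 b (Psi6 b p + t • (Psi6 b q - Psi6 b p)), ?_, ?_, ?_, fun t => Phi6_mem b _⟩
  · refine ((contDiff_Phi6 b).of_le (by simp)).comp ?_
    exact contDiff_const.add (contDiff_id.smul contDiff_const)
  · simp [Phi6_Psi6 b hp]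
  · simp [Phi6_Psi6 b hq]

/-! ### The function `u0` -/

theorem norm_add_I_sq (c : ℂ) : ‖c + I‖ ^ 2 = c.re ^ 2 + (c.im + 1) ^ 2 := by
  rw [← Complex.normSq_eq_norm_sq, Complex.normSq_apply]
  simp
  ring

theorem rho3_le_im (x : V3) : rho3 x ≤ (x 1).im := by
  unfold rho3
  have h1 : 0 ≤ ‖x 0‖ ^ 2 := by positivity
  have h2 : 0 ≤ ‖x 2‖ ^ 2 := by positivity
  linarith

theorem sq_le_norm_add_I {x : V3} (hx : 0 < rho3 x) : (rho3 x + 1) ^ 2 ≤ ‖x 1 + I‖ ^ 2 := by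
  rw [norm_add_I_sq]
  have h := rho3_le_im x
  nlinarith [sq_nonneg (x 1).re]

theorem d3_contDiffOn : ContDiffOn ℝ ∞ d3 {x | 0 < rho3 x} := by
  unfold d3
  have h1 : ContDiff ℝ ∞ (fun x : V3 => ‖x 1 + I‖ ^ 2) :=
    (contDiff_norm_sq ℝ).comp ((contDiff_apply ℝ ℂ (1 : Fin 3)).add contDiff_const)
  refine (h1.contDiffOn.div contDiff_rho3.contDiffOn (fun x hx => ne_of_gt hx)).log ?_
  intro x hx
  have h2 := sq_le_norm_add_I hx
  have hx' : 0 < rho3 x := hx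
  have h3 : 0 < ‖x 1 + I‖ ^ 2 := lt_of_lt_of_le (by positivity) h2
  exact (div_pos h3 hx').ne'

theorem u0_contDiffOn (b : Bulge) : ContDiffOn ℝ ∞ (u0 b.φ) (Udom b.φ) :=
  d3_contDiffOn.comp (psi1_contDiffOn b) (fun _ hx => rho3_psi1_pos b hx)

theorem d3_nonneg {x : V3} (hx : 0 < rho3 x) : 0 ≤ d3 x := by
  unfold d3
  apply Real.log_nonneg
  rw [one_le_div hx]
  have := sq_le_norm_add_I hx
  nlinarith

theorem u0_nonneg (b : Bulge) {x : V3} (hx : x ∈ Udom b.φ) : 0 ≤ u0 b.φ x :=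
  d3_nonneg (rho3_psi1_pos b hx)

theorem log_rho3_le_d3 {x : V3} (hx : 0 < rho3 x) : Real.log (rho3 x) ≤ d3 x := by
  unfold d3
  apply Real.log_le_log hx
  rw [le_div_iff₀ hx]
  have := sq_le_norm_add_I hx
  nlinarith

/-- `-P ≤ u0` (used in the cusp) -/
theorem neg_Ppot_le_u0 (b : Bulge) {x : V3} (hx : x ∈ Udom b.φ) :
    -(Ppot b.A b.φ x) ≤ u0 b.φ x := by
  have h1 := log_rho3_le_d3 (rho3_psi1_pos b hx)
  refine le_trans ?_ h1
  rw [rho3_psi1_eq _ hx, Real.log_mul (ne_of_gt hx.1) (by have := hx.2; linarith)]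
  unfold Ppot hart
  have h2 := b.le_A _ hx.1
  have h3 : aS (gki (kk x) x).1 = - Real.log (rho (gki (kk x) x).1) := rfl
  linarith

theorem d3_sublevel_compact (R : ℝ) : IsCompact {x : V3 | 0 < rho3 x ∧ d3 x ≤ R} := by
  have hset : {x : V3 | 0 < rho3 x ∧ d3 x ≤ R} =
      {x : V3 | ‖x 1 + I‖ ^ 2 ≤ Real.exp R * rho3 x ∧ 0 ≤ rho3 x} := by
    ext x
    constructor
    · rintro ⟨h1, h2⟩
      refine ⟨?_, h1.le⟩
      have h3 := sq_le_norm_add_I h1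
      have h4 : 0 < ‖x 1 + I‖ ^ 2 := lt_of_lt_of_le (by positivity) h3
      unfold d3 at h2
      rw [Real.log_le_iff_le_exp (div_pos h4 h1), div_le_iff₀ h1] at h2
      exact h2
    · rintro ⟨h1, h2⟩
      have h5 : 0 < rho3 x := by
        rcases h2.lt_or_eq with h | h
        · exact h
        · exfalso
          rw [← h, mul_zero, norm_add_I_sq] at h1
          have h6 := rho3_le_im x
          rw [← h] at h6
          nlinarith [sq_nonneg (x 1).re]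
      refine ⟨h5, ?_⟩
      have h3 := sq_le_norm_add_I h5
      have h4 : 0 < ‖x 1 + I‖ ^ 2 := lt_of_lt_of_le (by positivity) h3
      unfold d3
      rw [Real.log_le_iff_le_exp (div_pos h4 h5), div_le_iff₀ h5]
      exact h1
  rw [hset]
  refine Metric.isCompact_of_isClosed_isBounded ?_ ?_
  · have c1 : Continuous fun x : V3 => ‖x 1 + I‖ ^ 2 := by fun_prop
    exact (isClosed_le c1 (continuous_const.mul continuous_rho3)).inter
      (isClosed_le continuous_const continuous_rho3)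
  · rw [isBounded_iff_forall_norm_le]
    refine ⟨2 * Real.exp R + 2, ?_⟩
    rintro x ⟨h1, h2⟩
    have hE : 0 < Real.exp R := Real.exp_pos R
    have him := rho3_le_im x
    have him0 : 0 ≤ (x 1).im := h2.trans him
    -- `‖x 1 + I‖ ≥ im + 1 ≥ rho3 + 1`
    have h3 : (x 1).im + 1 ≤ ‖x 1 + I‖ := by
      have := Complex.abs_im_le_norm (x 1 + I)
      simp only [add_im, I_im] at this
      exact (le_abs_self _).trans this
    have h4 : ‖x 1 + I‖ ≤ Real.exp R := by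
      have h5 : ‖x 1 + I‖ ^ 2 ≤ Real.exp R * ‖x 1 + I‖ := by
        refine h1.trans (mul_le_mul_of_nonneg_left ?_ hE.le)
        linarith
      have h6 : 0 < ‖x 1 + I‖ := by linarith
      nlinarith
    have h7 : ‖x 1‖ ≤ Real.exp R + 1 := by
      calc ‖x 1‖ = ‖(x 1 + I) - I‖ := by ring_nf
        _ ≤ ‖x 1 + I‖ + ‖I‖ := norm_sub_le _ _
        _ ≤ Real.exp R + 1 := by rw [Complex.norm_I]; linarith
    have h8 : ‖x 0‖ ^ 2 + ‖x 2‖ ^ 2 ≤ Real.exp R := by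
      have : ‖x 0‖ ^ 2 + ‖x 2‖ ^ 2 = (x 1).im - rho3 x := by unfold rho3; ring
      rw [this]
      linarith
    have h9 : ‖x 0‖ ≤ Real.exp R + 1 := by
      nlinarith [norm_nonneg (x 0), norm_nonneg (x 2), sq_nonneg (‖x 0‖ - 1), sq_nonneg (‖x 2‖)]
    have h10 : ‖x 2‖ ≤ Real.exp R + 1 := by
      nlinarith [norm_nonneg (x 0), norm_nonneg (x 2), sq_nonneg (‖x 2‖ - 1), sq_nonneg (‖x 0‖)]
    rw [pi_norm_le_iff_of_nonneg (by positivity)]
    intro i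
    fin_cases i
    · show ‖x 0‖ ≤ _
      linarith
    · show ‖x 1‖ ≤ _
      linarith
    · show ‖x 2‖ ≤ _
      linarith

theorem u0_proper (b : Bulge) (R : ℝ) : IsCompact {x ∈ Udom b.φ | u0 b.φ x ≤ R} := by
  have hset : {x ∈ Udom b.φ | u0 b.φ x ≤ R} =
      psi1Inv b.φ '' {x : V3 | 0 < rho3 x ∧ d3 x ≤ R} := by
    ext x
    constructor
    · rintro ⟨h1, h2⟩
      exact ⟨psi1 b.φ x, ⟨rho3_psi1_pos b h1, h2⟩, psi1Inv_psi1 _ _⟩
    · rintro ⟨y, ⟨h1, h2⟩, rfl⟩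
      refine ⟨psi1Inv_mem b h1, ?_⟩
      unfold u0
      rw [psi1_psi1Inv]
      exact h2
  rw [hset]
  refine (d3_sublevel_compact R).image_of_continuousOn ?_
  exact (psi1Inv_contDiffOn b).continuousOn.mono (fun x hx => hx.1)

end Crest.Agent.R245
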