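import Crest.Agent.R245.IslDefs
import Crest.Agent.R245.Ops

/-! Row 245: existence of the one-variable profile `v` (structure `IsDip`). -/

set_option autoImplicit false

namespace Crest.Agent.R245

open Complex Filter Topology
open scoped ContDiff ComplexConjugate

namespace DipV

theorem ofReal_normSq (e : ℂ) : ((‖e‖ ^ 2 : ℝ) : ℂ) = e * conj e := by
  rw [mul_conj, normSq_eq_norm_sq]

theorem dz_id (X e : ℂ) : dz X (fun e : ℂ => e) e = X := by
  rw [dz_hol differentiableAt_fun_id]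
  simp

theorem dzb_id (X e : ℂ) : dzb X (fun e : ℂ => e) e = 0 := dzb_hol differentiableAt_fun_id

theorem dz_cj (X e : ℂ) : dz X (fun e : ℂ => conj e) e = 0 := by
  rw [dz_conj, dzb_id, map_zero]

theorem dzb_cj (X e : ℂ) : dzb X (fun e : ℂ => conj e) e = conj X := by
  rw [dzb_conj, dz_id]

theorem diff_id (e : ℂ) : DifferentiableAt ℝ (fun e : ℂ => e) e := differentiableAt_fun_id

theorem diff_cj (e : ℂ) : DifferentiableAt ℝ (fun e : ℂ => conj e) e :=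
  Complex.conjCLE.differentiableAt

theorem diff_sq (e : ℂ) : DifferentiableAt ℝ (fun e : ℂ => ‖e‖ ^ 2) e := by
  have : Differentiable ℝ (fun e : ℂ => ‖e‖ ^ 2) := by
    have h := (contDiff_norm_sq ℝ (E := ℂ) (n := 1)).differentiable (by norm_num)
    exact h
  exact this e

theorem dzb_sq (X e : ℂ) : dzb X (fun e : ℂ => ((‖e‖ ^ 2 : ℝ) : ℂ)) e = e * conj X := by
  simp_rw [ofReal_normSq]
  rw [dzb_mul (diff_id e) (diff_cj e), dzb_id, dzb_cj]
  ring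

theorem dz_sq (X e : ℂ) : dz X (fun e : ℂ => ((‖e‖ ^ 2 : ℝ) : ℂ)) e = conj e * X := by
  simp_rw [ofReal_normSq]
  rw [dz_mul (diff_id e) (diff_cj e), dz_id, dz_cj]
  ring

section radial
variable {f : ℝ → ℝ}

theorem dzb_rad (hf : Differentiable ℝ f) (X e : ℂ) :
    dzb X (fun e : ℂ => ((f (‖e‖ ^ 2) : ℝ) : ℂ)) e = ((deriv f (‖e‖ ^ 2) : ℝ) : ℂ) * (e * conj X) := by
  rw [dzb_comp_real f (fun e : ℂ => ‖e‖ ^ 2) (hf _) (diff_sq e), dzb_sq]

theorem dz_rad (hf : Differentiable ℝ f) (X e : ℂ) :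
    dz X (fun e : ℂ => ((f (‖e‖ ^ 2) : ℝ) : ℂ)) e = ((deriv f (‖e‖ ^ 2) : ℝ) : ℂ) * (conj e * X) := by
  rw [dz_comp_real f (fun e : ℂ => ‖e‖ ^ 2) (hf _) (diff_sq e), dz_sq]

theorem D11_rad (hf : Differentiable ℝ f) (hf' : Differentiable ℝ (deriv f)) (X e : ℂ) :
    D11 (fun e : ℂ => f (‖e‖ ^ 2)) X X e =
      ((‖X‖ ^ 2 * (deriv f (‖e‖ ^ 2) + ‖e‖ ^ 2 * deriv (deriv f) (‖e‖ ^ 2)) : ℝ) : ℂ) := by
  unfold D11
  have h1 : dzb X (fun e : ℂ => ((f (‖e‖ ^ 2) : ℝ) : ℂ)) =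
      fun e => ((deriv f (‖e‖ ^ 2) : ℝ) : ℂ) * (e * conj X) := funext fun e => dzb_rad hf X e
  rw [h1]
  have hd1 : DifferentiableAt ℝ (fun e : ℂ => ((deriv f (‖e‖ ^ 2) : ℝ) : ℂ)) e :=
    (Complex.ofRealCLM.differentiableAt).comp e ((hf' _).comp e (diff_sq e))
  have hd2 : DifferentiableAt ℝ (fun e : ℂ => e * conj X) e := (diff_id e).mul_const _
  rw [dz_mul hd1 hd2, dz_rad hf' X e]
  have h2 : dz X (fun e : ℂ => e * conj X) e = X * conj X := by
    rw [dz_mul (diff_id e) (differentiableAt_const _), dz_id, dz_const]; ring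
  rw [h2]
  push_cast
  rw [show ((‖X‖ : ℂ) ^ 2) = X * conj X by rw [← ofReal_normSq]; push_cast; ring,
    show ((‖e‖ : ℂ) ^ 2) = e * conj e by rw [← ofReal_normSq]; push_cast; ring]
  ring

end radial

/-- `r(e) = ‖1 - κ e‖² + ε²` -/
noncomputable def rr (κ ε : ℝ) (e : ℂ) : ℝ := ‖1 - κ * e‖ ^ 2 + ε ^ 2

theorem rr_pos {κ ε : ℝ} (hε : 0 < ε) (e : ℂ) : 0 < rr κ ε e := by
  unfold rr; positivity

theorem contDiff_rr (κ ε : ℝ) : ContDiff ℝ ∞ (rr κ ε) := by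
  unfold rr
  have h : ContDiff ℝ ∞ (fun e : ℂ => 1 - (κ : ℂ) * e) := by fun_prop
  exact (h.norm_sq ℝ).add contDiff_const

theorem rr_eq (κ ε : ℝ) (e : ℂ) :
    ((rr κ ε e : ℝ) : ℂ) = (1 - κ * e) * (1 - κ * conj e) + ε ^ 2 := by
  unfold rr
  rw [ofReal_add, ofReal_normSq]
  simp

theorem diff_rr (κ ε : ℝ) (e : ℂ) : DifferentiableAt ℝ (rr κ ε) e :=
  (contDiff_rr κ ε).differentiable (by simp) e

theorem dz_lin (κ : ℝ) (X e : ℂ) : dz X (fun e : ℂ => 1 - κ * e) e = -(κ * X) := by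
  rw [dz_hol (by fun_prop)]
  have : HasDerivAt (fun e : ℂ => 1 - κ * e) (-(κ * 1)) e := ((hasDerivAt_id e).const_mul _).const_sub 1
  rw [this.hasFDerivAt.fderiv]
  simp [mul_comm]

theorem dzb_lin (κ : ℝ) (X e : ℂ) : dzb X (fun e : ℂ => 1 - κ * e) e = 0 := dzb_hol (by fun_prop)

theorem dz_clin (κ : ℝ) (X e : ℂ) : dz X (fun e : ℂ => 1 - κ * conj e) e = 0 := by
  have : (fun e : ℂ => 1 - κ * conj e) = fun e : ℂ => conj (1 - (κ : ℂ) * e) := by
    funext e; simp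
  rw [this, dz_conj, dzb_lin, map_zero]

theorem dzb_clin (κ : ℝ) (X e : ℂ) : dzb X (fun e : ℂ => 1 - κ * conj e) e = -(κ * conj X) := by
  have : (fun e : ℂ => 1 - κ * conj e) = fun e : ℂ => conj (1 - (κ : ℂ) * e) := by
    funext e; simp
  rw [this, dzb_conj, dz_lin]; simp

theorem diff_lin (κ : ℝ) (e : ℂ) : DifferentiableAt ℝ (fun e : ℂ => 1 - (κ : ℂ) * e) e := by fun_prop

theorem diff_clin (κ : ℝ) (e : ℂ) : DifferentiableAt ℝ (fun e : ℂ => 1 - (κ : ℂ) * conj e) e :=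
  (differentiableAt_const _).sub ((diff_cj e).const_mul _)

theorem diff_linclin (κ : ℝ) (e : ℂ) :
    DifferentiableAt ℝ (fun e : ℂ => (1 - (κ : ℂ) * e) * (1 - (κ : ℂ) * conj e)) e :=
  (diff_lin κ e).mul (diff_clin κ e)

theorem dz_rr (κ ε : ℝ) (X e : ℂ) :
    dz X (fun e => ((rr κ ε e : ℝ) : ℂ)) e = -(κ * X * (1 - κ * conj e)) := by
  simp_rw [rr_eq]
  rw [dz_add (diff_linclin κ e) (differentiableAt_const _),
    dz_mul (diff_lin κ e) (diff_clin κ e), dz_lin, dz_clin, dz_const]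
  ring

theorem dzb_rr (κ ε : ℝ) (X e : ℂ) :
    dzb X (fun e => ((rr κ ε e : ℝ) : ℂ)) e = -(κ * conj X * (1 - κ * e)) := by
  simp_rw [rr_eq]
  rw [dzb_add (diff_linclin κ e) (differentiableAt_const _),
    dzb_mul (diff_lin κ e) (diff_clin κ e), dzb_lin, dzb_clin, dzb_const]
  ring

/-- `ℓ(e) = log r(e) - log (1 + ε²)` -/
noncomputable def ll (κ ε : ℝ) (e : ℂ) : ℝ := Real.log (rr κ ε e) - Real.log (1 + ε ^ 2)

theorem contDiff_ll {κ ε : ℝ} (hε : 0 < ε) : ContDiff ℝ ∞ (ll κ ε) := by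
  unfold ll
  exact ((contDiff_rr κ ε).log fun e => (rr_pos hε e).ne').sub contDiff_const

theorem diff_ll {κ ε : ℝ} (hε : 0 < ε) (e : ℂ) : DifferentiableAt ℝ (ll κ ε) e :=
  (contDiff_ll hε).differentiable (by simp) e

theorem dzb_ll {κ ε : ℝ} (hε : 0 < ε) (X e : ℂ) : dzb X (fun e => ((ll κ ε e : ℝ) : ℂ)) e =
    ((rr κ ε e : ℝ) : ℂ)⁻¹ * -(κ * conj X * (1 - κ * e)) := by
  have h1 : (fun e => ((ll κ ε e : ℝ) : ℂ)) =
      fun e => (((fun t => Real.log t - Real.log (1 + ε ^ 2)) (rr κ ε e) : ℝ) : ℂ) := rfl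
  have h2 : HasDerivAt (fun t => Real.log t - Real.log (1 + ε ^ 2)) (rr κ ε e)⁻¹ (rr κ ε e) :=
    (Real.hasDerivAt_log (rr_pos hε e).ne').sub_const _
  rw [h1, dzb_comp_real _ _ h2.differentiableAt (diff_rr κ ε e), h2.deriv, dzb_rr]
  push_cast
  ring

theorem dz_ll {κ ε : ℝ} (hε : 0 < ε) (X e : ℂ) : dz X (fun e => ((ll κ ε e : ℝ) : ℂ)) e =
    ((rr κ ε e : ℝ) : ℂ)⁻¹ * -(κ * X * (1 - κ * conj e)) := by
  have h1 : (fun e => ((ll κ ε e : ℝ) : ℂ)) =
      fun e => (((fun t => Real.log t - Real.log (1 + ε ^ 2)) (rr κ ε e) : ℝ) : ℂ) := rfl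
  have h2 : HasDerivAt (fun t => Real.log t - Real.log (1 + ε ^ 2)) (rr κ ε e)⁻¹ (rr κ ε e) :=
    (Real.hasDerivAt_log (rr_pos hε e).ne').sub_const _
  rw [h1, dz_comp_real _ _ h2.differentiableAt (diff_rr κ ε e), h2.deriv, dz_rr]
  push_cast
  ring

theorem D11_ll {κ ε : ℝ} (hε : 0 < ε) (X e : ℂ) : D11 (ll κ ε) X X e =
    ((κ ^ 2 * ‖X‖ ^ 2 * ε ^ 2 / (rr κ ε e) ^ 2 : ℝ) : ℂ) := by
  unfold D11
  have h1 : dzb X (fun e : ℂ => ((ll κ ε e : ℝ) : ℂ)) =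
      fun e => ((rr κ ε e : ℝ) : ℂ)⁻¹ * -(κ * conj X * (1 - κ * e)) :=
    funext fun e => dzb_ll hε X e
  rw [h1]
  have hr0 : ((rr κ ε e : ℝ) : ℂ) ≠ 0 := by exact_mod_cast (rr_pos hε e).ne'
  have hinv : (fun e => ((rr κ ε e : ℝ) : ℂ)⁻¹) = fun e => ((((rr κ ε e))⁻¹ : ℝ) : ℂ) := by
    funext e; push_cast; ring
  have hd1 : DifferentiableAt ℝ (fun e => ((rr κ ε e : ℝ) : ℂ)⁻¹) e := by
    have h := (Complex.ofRealCLM.differentiableAt).comp e (diff_rr κ ε e)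
    exact h.inv hr0
  have hd2 : DifferentiableAt ℝ (fun e : ℂ => -(κ * conj X * (1 - κ * e))) e := by fun_prop
  rw [dz_mul hd1 hd2]
  have h3 : dz X (fun e => ((rr κ ε e : ℝ) : ℂ)⁻¹) e =
      (-(((rr κ ε e) ^ 2)⁻¹) : ℝ) * -(κ * X * (1 - κ * conj e)) := by
    rw [hinv, dz_comp_real (fun t => t⁻¹) (rr κ ε) (differentiableAt_inv (rr_pos hε e).ne')
      (diff_rr κ ε e), dz_rr, deriv_inv]
  have h4 : dz X (fun e : ℂ => -(κ * conj X * (1 - κ * e))) e = κ ^ 2 * (X * conj X) := by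
    have : (fun e : ℂ => -(κ * conj X * (1 - κ * e))) = fun e : ℂ => (-(κ * conj X)) * (1 - κ * e) := by
      funext e; ring
    rw [this, dz_const_mul _ (diff_lin κ e), dz_lin]
    ring
  rw [h3, h4]
  have h5 := rr_eq κ ε e
  push_cast at h5 ⊢
  rw [show ((‖X‖ : ℂ) ^ 2) = X * conj X by rw [← ofReal_normSq]; push_cast; ring]
  field_simp
  rw [h5]
  ring

/-- the product rule for the Levi form -/
theorem D11_mul {P Q : ℂ → ℝ} (hP : ContDiff ℝ ∞ P) (hQ : ContDiff ℝ ∞ Q) (X e : ℂ) :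
    D11 (fun e => P e * Q e) X X e = D11 P X X e * Q e + dzb X (fun e => (P e : ℂ)) e *
      dz X (fun e => (Q e : ℂ)) e + dz X (fun e => (P e : ℂ)) e * dzb X (fun e => (Q e : ℂ)) e
      + P e * D11 Q X X e := by
  unfold D11
  have hPc : ContDiff ℝ ∞ (fun e => (P e : ℂ)) := Complex.ofRealCLM.contDiff.comp hP
  have hQc : ContDiff ℝ ∞ (fun e => (Q e : ℂ)) := Complex.ofRealCLM.contDiff.comp hQ
  have dP : ∀ e, DifferentiableAt ℝ (fun e => (P e : ℂ)) e := fun e => hPc.differentiable (by simp) e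
  have dQ : ∀ e, DifferentiableAt ℝ (fun e => (Q e : ℂ)) e := fun e => hQc.differentiable (by simp) e
  have dP1 : ∀ e, DifferentiableAt ℝ (dzb X (fun e => (P e : ℂ))) e := fun e =>
    (contDiffAt_dzb_inf X hPc.contDiffAt).differentiableAt (by simp)
  have dQ1 : ∀ e, DifferentiableAt ℝ (dzb X (fun e => (Q e : ℂ))) e := fun e =>
    (contDiffAt_dzb_inf X hQc.contDiffAt).differentiableAt (by simp)
  have h1 : dzb X (fun e => ((P e * Q e : ℝ) : ℂ)) =
      fun e => dzb X (fun e => (P e : ℂ)) e * Q e + P e * dzb X (fun e => (Q e : ℂ)) e := by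
    funext e
    simp_rw [ofReal_mul]
    exact dzb_mul (dP e) (dQ e)
  have m1 : DifferentiableAt ℝ (fun e => dzb X (fun e => (P e : ℂ)) e * (Q e : ℂ)) e :=
    (dP1 e).mul (dQ e)
  have m2 : DifferentiableAt ℝ (fun e => (P e : ℂ) * dzb X (fun e => (Q e : ℂ)) e) e :=
    (dP e).mul (dQ1 e)
  rw [h1, dz_add m1 m2, dz_mul (dP1 e) (dQ e), dz_mul (dP e) (dQ1 e)]
  ring

theorem D11_add {P Q : ℂ → ℝ} (hP : ContDiff ℝ ∞ P) (hQ : ContDiff ℝ ∞ Q) (X e : ℂ) :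
    D11 (fun e => P e + Q e) X X e = D11 P X X e + D11 Q X X e := by
  unfold D11
  have hPc : ContDiff ℝ ∞ (fun e => (P e : ℂ)) := Complex.ofRealCLM.contDiff.comp hP
  have hQc : ContDiff ℝ ∞ (fun e => (Q e : ℂ)) := Complex.ofRealCLM.contDiff.comp hQ
  have dP : ∀ e, DifferentiableAt ℝ (fun e => (P e : ℂ)) e := fun e => hPc.differentiable (by simp) e
  have dQ : ∀ e, DifferentiableAt ℝ (fun e => (Q e : ℂ)) e := fun e => hQc.differentiable (by simp) e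
  have dP1 : DifferentiableAt ℝ (dzb X (fun e => (P e : ℂ))) e :=
    (contDiffAt_dzb_inf X hPc.contDiffAt).differentiableAt (by simp)
  have dQ1 : DifferentiableAt ℝ (dzb X (fun e => (Q e : ℂ))) e :=
    (contDiffAt_dzb_inf X hQc.contDiffAt).differentiableAt (by simp)
  have h1 : dzb X (fun e => ((P e + Q e : ℝ) : ℂ)) =
      fun e => dzb X (fun e => (P e : ℂ)) e + dzb X (fun e => (Q e : ℂ)) e := by
    funext e
    simp_rw [ofReal_add]
    exact dzb_add (dP e) (dQ e)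
  rw [h1, dz_add dP1 dQ1]

/-- smooth step from `1/5` to `3/10` -/
noncomputable def chi (s : ℝ) : ℝ := Real.smoothTransition ((s - 1 / 5) * 10)

theorem contDiff_chi : ContDiff ℝ ∞ chi := by
  unfold chi
  exact Real.smoothTransition.contDiff.comp (by fun_prop)

theorem chi_zero {s : ℝ} (h : s ≤ 1 / 5) : chi s = 0 :=
  Real.smoothTransition.zero_of_nonpos (by linarith)

theorem chi_one {s : ℝ} (h : 3 / 10 ≤ s) : chi s = 1 :=
  Real.smoothTransition.one_of_one_le (by linarith)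

theorem chi_nonneg (s : ℝ) : 0 ≤ chi s := Real.smoothTransition.nonneg _

theorem chi_le_one (s : ℝ) : chi s ≤ 1 := Real.smoothTransition.le_one _

theorem contDiff_dchi : ContDiff ℝ ∞ (deriv chi) := (contDiff_infty_iff_deriv.1 contDiff_chi).2

theorem contDiff_ddchi : ContDiff ℝ ∞ (deriv (deriv chi)) :=
  (contDiff_infty_iff_deriv.1 contDiff_dchi).2

theorem dchi_zero {s : ℝ} (h : s < 1 / 5 ∨ 3 / 10 < s) :
    deriv chi s = 0 ∧ deriv (deriv chi) s = 0 := by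
  have hev : chi =ᶠ[𝓝 s] fun _ => chi s := by
    rcases h with h | h
    · filter_upwards [Iio_mem_nhds h] with t ht
      rw [chi_zero (le_of_lt ht), chi_zero h.le]
    · filter_upwards [Ioi_mem_nhds h] with t ht
      rw [chi_one (le_of_lt ht), chi_one h.le]
  constructor
  · rw [hev.deriv_eq]; simp
  · have h2 : deriv chi =ᶠ[𝓝 s] fun _ => 0 := by
      have := hev.eventuallyEq_nhds
      filter_upwards [this] with t ht
      rw [ht.deriv_eq]; simp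
    rw [h2.deriv_eq]; simp

/-- radial convex profile -/
noncomputable def psi (s : ℝ) : ℝ := expNegInvGlue ((s - Real.exp (-2)) / 2)

theorem contDiff_psi : ContDiff ℝ ∞ psi := by
  unfold psi
  exact expNegInvGlue.contDiff.comp (by fun_prop)

theorem psi_zero {s : ℝ} (h : s ≤ Real.exp (-2)) : psi s = 0 :=
  expNegInvGlue.zero_of_nonpos (by linarith)

theorem psi_nonneg (s : ℝ) : 0 ≤ psi s := expNegInvGlue.nonneg _

theorem psi_mono {s t : ℝ} (h : s ≤ t) : psi s ≤ psi t :=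
  expNegInvGlue.monotone (by linarith)

theorem g1 (x : ℝ) : HasDerivAt expNegInvGlue ((x⁻¹) ^ 2 * expNegInvGlue x) x := by
  have := expNegInvGlue.hasDerivAt_polynomial_eval_inv_mul 1 x
  simpa using this

theorem g2 (x : ℝ) : HasDerivAt (fun x => (x⁻¹) ^ 2 * expNegInvGlue x)
    (((x⁻¹) ^ 4 - 2 * (x⁻¹) ^ 3) * expNegInvGlue x) x := by
  have := expNegInvGlue.hasDerivAt_polynomial_eval_inv_mul (Polynomial.X ^ 2) x
  simp only [Polynomial.eval_pow, Polynomial.eval_X, Polynomial.derivative_X_pow,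
    Polynomial.eval_mul, Polynomial.eval_sub, Polynomial.eval_C] at this
  convert this using 1
  simp only [Nat.cast_ofNat]
  ring

theorem deriv_psi : deriv psi = fun s => (1 / 2) * ((((s - Real.exp (-2)) / 2)⁻¹) ^ 2 *
    expNegInvGlue ((s - Real.exp (-2)) / 2)) := by
  funext s
  have h1 : HasDerivAt (fun s : ℝ => (s - Real.exp (-2)) / 2) (1 / 2) s :=
    ((hasDerivAt_id s).sub_const _).div_const 2
  have := ((g1 _).comp s h1).deriv
  unfold psi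
  rw [show (fun s => expNegInvGlue ((s - Real.exp (-2)) / 2)) =
    expNegInvGlue ∘ fun s => (s - Real.exp (-2)) / 2 from rfl, this]
  ring

theorem deriv2_psi (s : ℝ) : deriv (deriv psi) s = (1 / 4) *
    (((((s - Real.exp (-2)) / 2)⁻¹) ^ 4 - 2 * (((s - Real.exp (-2)) / 2)⁻¹) ^ 3) *
    expNegInvGlue ((s - Real.exp (-2)) / 2)) := by
  rw [deriv_psi]
  have h1 : HasDerivAt (fun s : ℝ => (s - Real.exp (-2)) / 2) (1 / 2) s :=
    ((hasDerivAt_id s).sub_const _).div_const 2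
  have := (((g2 _).comp s h1).const_mul (1 / 2)).deriv
  rw [show (fun s => 1 / 2 * (((s - Real.exp (-2)) / 2)⁻¹ ^ 2 *
      expNegInvGlue ((s - Real.exp (-2)) / 2))) = fun s => 1 / 2 *
    ((fun x => x⁻¹ ^ 2 * expNegInvGlue x) ∘ fun s => (s - Real.exp (-2)) / 2) s from rfl, this]
  ring

theorem dpsi_nonneg {s : ℝ} (hs : s ≤ 1) : 0 ≤ deriv psi s ∧ 0 ≤ deriv (deriv psi) s := by
  constructor
  · rw [deriv_psi]
    have := expNegInvGlue.nonneg ((s - Real.exp (-2)) / 2)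
    positivity
  · rw [deriv2_psi]
    rcases le_or_gt ((s - Real.exp (-2)) / 2) 0 with h | h
    · rw [expNegInvGlue.zero_of_nonpos h]; simp
    · have h1 : (s - Real.exp (-2)) / 2 ≤ 1 / 2 := by
        have := Real.exp_pos (-2); linarith
      have h2 : 2 ≤ ((s - Real.exp (-2)) / 2)⁻¹ := by
        rw [le_inv_comm₀ (by norm_num) h]; linarith
      have h3 : 0 ≤ (((s - Real.exp (-2)) / 2)⁻¹) ^ 4 - 2 * (((s - Real.exp (-2)) / 2)⁻¹) ^ 3 := by
        set x := ((s - Real.exp (-2)) / 2)⁻¹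
        have : x ^ 4 - 2 * x ^ 3 = x ^ 3 * (x - 2) := by ring
        rw [this]
        apply mul_nonneg
        · positivity
        · linarith
      have := expNegInvGlue.nonneg ((s - Real.exp (-2)) / 2)
      positivity

theorem exp_neg_two_lt : Real.exp (-2) < 1 / 5 := by
  have h1 : Real.exp (-2) = (Real.exp 1 ^ 2)⁻¹ := by
    rw [← Real.exp_nat_mul, ← Real.exp_neg]; norm_num
  rw [h1, inv_lt_comm₀ (by positivity) (by norm_num)]
  have := Real.exp_one_gt_d9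
  nlinarith

theorem exp_neg_one_gt : 3 / 10 < Real.exp (-1) := by
  have h1 : Real.exp (-1) = (Real.exp 1)⁻¹ := Real.exp_neg 1
  rw [h1, lt_inv_comm₀ (by norm_num) (by positivity)]
  have := Real.exp_one_lt_d9
  linarith

theorem dpsi_lower : ∃ c : ℝ, 0 < c ∧ ∀ s : ℝ, 1 / 5 ≤ s → s ≤ 1 → c ≤ deriv psi s := by
  have hq := exp_neg_two_lt
  refine ⟨(1 / 2) * (4 * expNegInvGlue ((1 / 5 - Real.exp (-2)) / 2)), ?_, ?_⟩
  · have := expNegInvGlue.pos_of_pos (x := (1 / 5 - Real.exp (-2)) / 2) (by linarith)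
    positivity
  · intro s hs hs1
    rw [deriv_psi]
    have h0 : 0 < (s - Real.exp (-2)) / 2 := by linarith
    have h1 : (s - Real.exp (-2)) / 2 ≤ 1 / 2 := by
      have := Real.exp_pos (-2); linarith
    have h2 : 2 ≤ ((s - Real.exp (-2)) / 2)⁻¹ := by
      rw [le_inv_comm₀ (by norm_num) h0]; linarith
    have h3 : (4 : ℝ) ≤ (((s - Real.exp (-2)) / 2)⁻¹) ^ 2 := by nlinarith
    have h4 : expNegInvGlue ((1 / 5 - Real.exp (-2)) / 2) ≤
        expNegInvGlue ((s - Real.exp (-2)) / 2) := expNegInvGlue.monotone (by linarith)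
    have h5 := expNegInvGlue.nonneg ((1 / 5 - Real.exp (-2)) / 2)
    exact mul_le_mul_of_nonneg_left (mul_le_mul h3 h4 h5 (by positivity)) (by norm_num)

/-- the profile -/
noncomputable def vv (K₀ κ ε : ℝ) (e : ℂ) : ℝ :=
  K₀ * psi (‖e‖ ^ 2) + chi (‖e‖ ^ 2) * ll κ ε e

theorem contDiff_rad {f : ℝ → ℝ} (hf : ContDiff ℝ ∞ f) : ContDiff ℝ ∞ (fun e : ℂ => f (‖e‖ ^ 2)) :=
  hf.comp (contDiff_norm_sq ℝ)

theorem contDiff_vv {K₀ κ ε : ℝ} (hε : 0 < ε) : ContDiff ℝ ∞ (vv K₀ κ ε) := by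
  unfold vv
  exact (contDiff_const.mul (contDiff_rad contDiff_psi)).add
    ((contDiff_rad contDiff_chi).mul (contDiff_ll hε))

/-- the Levi form of the profile -/
theorem D11_vv {K₀ κ ε : ℝ} (hε : 0 < ε) (X e : ℂ) :
    (D11 (vv K₀ κ ε) X X e).re = ‖X‖ ^ 2 *
      (K₀ * (deriv psi (‖e‖ ^ 2) + ‖e‖ ^ 2 * deriv (deriv psi) (‖e‖ ^ 2))
      + (deriv chi (‖e‖ ^ 2) + ‖e‖ ^ 2 * deriv (deriv chi) (‖e‖ ^ 2)) * ll κ ε e
      - 2 * κ * deriv chi (‖e‖ ^ 2) * (rr κ ε e)⁻¹ * (e.re - κ * ‖e‖ ^ 2)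
      + chi (‖e‖ ^ 2) * (κ ^ 2 * ε ^ 2 / (rr κ ε e) ^ 2)) := by
  have hKpsi : ContDiff ℝ ∞ (fun s => K₀ * psi s) := contDiff_const.mul contDiff_psi
  have hf1 : deriv (fun s => K₀ * psi s) = fun s => K₀ * deriv psi s := by
    funext s
    exact deriv_const_mul K₀ (contDiff_psi.differentiable (by simp) s)
  have hdpsi : ContDiff ℝ ∞ (deriv psi) := (contDiff_infty_iff_deriv.1 contDiff_psi).2
  have hf2 : deriv (deriv (fun s => K₀ * psi s)) = fun s => K₀ * deriv (deriv psi) s := by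
    rw [hf1]; funext s
    exact deriv_const_mul K₀ (hdpsi.differentiable (by simp) s)
  have h1 : D11 (vv K₀ κ ε) X X e = D11 (fun e : ℂ => (fun s => K₀ * psi s) (‖e‖ ^ 2)) X X e +
      D11 (fun e : ℂ => chi (‖e‖ ^ 2) * ll κ ε e) X X e :=
    D11_add (contDiff_rad hKpsi) ((contDiff_rad contDiff_chi).mul (contDiff_ll hε)) X e
  rw [h1, D11_rad (hKpsi.differentiable (by simp)) (by
      rw [hf1]; exact (hdpsi.differentiable (by simp)).const_mul _),
    D11_mul (contDiff_rad contDiff_chi) (contDiff_ll hε),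
    D11_rad (contDiff_chi.differentiable (by simp)) (contDiff_dchi.differentiable (by simp)),
    dzb_rad (contDiff_chi.differentiable (by simp)), dz_rad (contDiff_chi.differentiable (by simp)),
    dz_ll hε, dzb_ll hε, D11_ll hε, hf2, hf1]
  have h2 : ((‖X‖ : ℂ) ^ 2) = X * conj X := by rw [← ofReal_normSq]; push_cast; ring
  have h3 : ((‖e‖ : ℂ) ^ 2) = e * conj e := by rw [← ofReal_normSq]; push_cast; ring
  have h4 : (2 * (e.re : ℂ)) = e + conj e := by rw [Complex.add_conj]; push_cast; ring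
  have hre : ∀ (a : ℂ) (b : ℝ), a = (b : ℂ) → a.re = b := by
    rintro _ b rfl; exact Complex.ofReal_re b
  apply hre
  push_cast
  rw [h2, h3]
  linear_combination (-((κ : ℂ) * ((deriv chi (‖e‖ ^ 2) : ℝ) : ℂ) * ((rr κ ε e : ℝ) : ℂ)⁻¹ * (X * conj X))) * (-h4)

end DipV

set_option maxHeartbeats 1600000 in
open DipV in
/-- Existence of the one-variable profile. -/
theorem exists_dip (K : ℝ) : ∃ (v : ℂ → ℝ) (Cv M L : ℝ), IsDip v Cv M L ∧ 0 ≤ Cv ∧ 0 ≤ L ∧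
    K * (Cv + 1) ≤ M := by
  set κ : ℝ := Real.exp (1 / 2) with hκ
  have hκpos : 0 < κ := Real.exp_pos _
  have hκsq : κ ^ 2 = Real.exp 1 := by rw [hκ, ← Real.exp_nat_mul]; norm_num
  set d : ℝ := 1 - κ * Real.sqrt (3 / 10) with hd
  have hdpos : 0 < d := by
    have h1 : (κ * Real.sqrt (3 / 10)) ^ 2 < 1 := by
      rw [mul_pow, hκsq, Real.sq_sqrt (by norm_num)]
      have := Real.exp_one_lt_d9
      linarith
    have h2 : κ * Real.sqrt (3 / 10) < 1 := by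
      by_contra hcon
      push Not at hcon
      nlinarith
    linarith
  obtain ⟨C₁, hC₁⟩ := (isCompact_Icc (a := (0 : ℝ)) (b := 1)).exists_bound_of_continuousOn
    contDiff_dchi.continuous.continuousOn
  obtain ⟨C₂, hC₂⟩ := (isCompact_Icc (a := (0 : ℝ)) (b := 1)).exists_bound_of_continuousOn
    contDiff_ddchi.continuous.continuousOn
  obtain ⟨c, hc, hcl⟩ := dpsi_lower
  have hC₁0 : 0 ≤ C₁ := (norm_nonneg _).trans (hC₁ 0 (by simp))
  have hC₂0 : 0 ≤ C₂ := (norm_nonneg _).trans (hC₂ 0 (by simp))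
  set Lm : ℝ := Real.log ((1 + κ) ^ 2 + 1) with hLm
  have hLm0 : 0 ≤ Lm := Real.log_nonneg (by nlinarith)
  set Cl : ℝ := Lm + |Real.log (d ^ 2)| + Real.log 2 with hCl
  have hCl0 : 0 ≤ Cl := by
    have := Real.log_nonneg (show (1 : ℝ) ≤ 2 by norm_num)
    positivity
  set E : ℝ := (C₁ + C₂) * Cl + 2 * κ * C₁ * (d ^ 2)⁻¹ * (1 + κ) with hE
  have hE0 : 0 ≤ E := by positivity
  set K₀ : ℝ := E / c with hK₀
  have hK₀0 : 0 ≤ K₀ := by positivity
  set Cv : ℝ := K₀ * psi 1 + Lm with hCv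
  have hCv0 : 0 ≤ Cv := by
    have := psi_nonneg 1
    positivity
  set T : ℝ := |K| * (Cv + 1) + K₀ * psi (Real.exp (-1)) with hT
  have hT0 : 0 ≤ T := by
    have := psi_nonneg (Real.exp (-1))
    positivity
  set ε : ℝ := Real.exp (-T) with hε
  have hεpos : 0 < ε := Real.exp_pos _
  have hε1 : ε ≤ 1 := Real.exp_le_one_iff.2 (by linarith)
  -- bounds for `rr` and `ll`
  have hrr_up : ∀ e : ℂ, ‖e‖ ≤ 1 → rr κ ε e ≤ (1 + κ) ^ 2 + 1 := by
    intro e he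
    unfold rr
    have h1 : ‖1 - (κ : ℂ) * e‖ ≤ 1 + κ := by
      calc ‖1 - (κ : ℂ) * e‖ ≤ ‖(1 : ℂ)‖ + ‖(κ : ℂ) * e‖ := norm_sub_le _ _
        _ = 1 + κ * ‖e‖ := by
            rw [norm_one, norm_mul, Complex.norm_real, Real.norm_of_nonneg hκpos.le]
        _ ≤ 1 + κ * 1 := by gcongr
        _ = 1 + κ := by ring
    have h2 : ε ^ 2 ≤ 1 := by nlinarith
    have h3 : ‖1 - (κ : ℂ) * e‖ ^ 2 ≤ (1 + κ) ^ 2 := by gcongr
    linarith
  have hll_up : ∀ e : ℂ, ‖e‖ ≤ 1 → ll κ ε e ≤ Lm := by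
    intro e he
    unfold ll
    have h1 : Real.log (rr κ ε e) ≤ Lm := Real.log_le_log (rr_pos hεpos e) (hrr_up e he)
    have h2 : 0 ≤ Real.log (1 + ε ^ 2) := Real.log_nonneg (by nlinarith)
    linarith
  have hrr_lo : ∀ e : ℂ, ‖e‖ ^ 2 ≤ 3 / 10 → d ^ 2 ≤ rr κ ε e := by
    intro e he
    unfold rr
    have h1 : ‖e‖ ≤ Real.sqrt (3 / 10) := Real.le_sqrt_of_sq_le he
    have h2 : d ≤ ‖1 - (κ : ℂ) * e‖ := by
      calc d ≤ 1 - κ * ‖e‖ := by
            rw [hd]; gcongr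
        _ = ‖(1 : ℂ)‖ - ‖(κ : ℂ) * e‖ := by
            rw [norm_one, norm_mul, Complex.norm_real, Real.norm_of_nonneg hκpos.le]
        _ ≤ ‖1 - (κ : ℂ) * e‖ := norm_sub_norm_le _ _
    have h3 : d ^ 2 ≤ ‖1 - (κ : ℂ) * e‖ ^ 2 := by gcongr
    nlinarith [sq_nonneg ε]
  have hll_abs : ∀ e : ℂ, ‖e‖ ≤ 1 → ‖e‖ ^ 2 ≤ 3 / 10 → |ll κ ε e| ≤ Cl := by
    intro e he he2
    rw [abs_le]
    have hlog2 : Real.log (1 + ε ^ 2) ≤ Real.log 2 := by
      apply Real.log_le_log (by positivity)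
      nlinarith
    have hlog20 : 0 ≤ Real.log 2 := Real.log_nonneg (by norm_num)
    have hlogd : -|Real.log (d ^ 2)| ≤ Real.log (rr κ ε e) :=
      (neg_abs_le _).trans (Real.log_le_log (by positivity) (hrr_lo e he2))
    constructor
    · unfold ll
      rw [hCl]
      linarith
    · have := hll_up e he
      rw [hCl]
      have := abs_nonneg (Real.log (d ^ 2))
      linarith
  have hsubh : ∀ e X : ℂ, ‖e‖ ≤ 1 → 0 ≤ (D11 (vv K₀ κ ε) X X e).re := by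
    intro e X he
    rw [D11_vv hεpos]
    apply mul_nonneg (by positivity)
    have hs1 : ‖e‖ ^ 2 ≤ 1 := by nlinarith [norm_nonneg e]
    have hs0 : 0 ≤ ‖e‖ ^ 2 := by positivity
    obtain ⟨hp1, hp2⟩ := dpsi_nonneg hs1
    have hlast : 0 ≤ chi (‖e‖ ^ 2) * (κ ^ 2 * ε ^ 2 / (rr κ ε e) ^ 2) := by
      have := chi_nonneg (‖e‖ ^ 2)
      positivity
    by_cases hcase : ‖e‖ ^ 2 < 1 / 5 ∨ 3 / 10 < ‖e‖ ^ 2
    · obtain ⟨hx1, hx2⟩ := dchi_zero hcase
      rw [hx1, hx2]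
      have : 0 ≤ K₀ * (deriv psi (‖e‖ ^ 2) + ‖e‖ ^ 2 * deriv (deriv psi) (‖e‖ ^ 2)) := by
        positivity
      simpa using add_nonneg this hlast
    · push Not at hcase
      obtain ⟨hlo, hhi⟩ := hcase
      have hmem : ‖e‖ ^ 2 ∈ Set.Icc (0 : ℝ) 1 := ⟨hs0, hs1⟩
      have b1 := hC₁ _ hmem
      have b2 := hC₂ _ hmem
      rw [Real.norm_eq_abs] at b1 b2
      have b3 := hll_abs e he hhi
      have b4 : K₀ * c ≤ K₀ * (deriv psi (‖e‖ ^ 2) + ‖e‖ ^ 2 * deriv (deriv psi) (‖e‖ ^ 2)) := by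
        have := hcl _ hlo hs1
        have h5 : 0 ≤ ‖e‖ ^ 2 * deriv (deriv psi) (‖e‖ ^ 2) := by positivity
        gcongr
        linarith
      have b5 : K₀ * c = E := by rw [hK₀]; field_simp
      have b6 : |(deriv chi (‖e‖ ^ 2) + ‖e‖ ^ 2 * deriv (deriv chi) (‖e‖ ^ 2)) * ll κ ε e|
          ≤ (C₁ + C₂) * Cl := by
        rw [abs_mul]
        have : |deriv chi (‖e‖ ^ 2) + ‖e‖ ^ 2 * deriv (deriv chi) (‖e‖ ^ 2)| ≤ C₁ + C₂ := by
          calc |deriv chi (‖e‖ ^ 2) + ‖e‖ ^ 2 * deriv (deriv chi) (‖e‖ ^ 2)|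
              ≤ |deriv chi (‖e‖ ^ 2)| + |‖e‖ ^ 2 * deriv (deriv chi) (‖e‖ ^ 2)| := abs_add_le _ _
            _ ≤ C₁ + 1 * C₂ := by
                rw [abs_mul, abs_of_nonneg hs0]
                gcongr
            _ = C₁ + C₂ := by ring
        gcongr
      have b7 : |2 * κ * deriv chi (‖e‖ ^ 2) * (rr κ ε e)⁻¹ * (e.re - κ * ‖e‖ ^ 2)|
          ≤ 2 * κ * C₁ * (d ^ 2)⁻¹ * (1 + κ) := by
        have hr := rr_pos (κ := κ) hεpos e
        have h6 : (rr κ ε e)⁻¹ ≤ (d ^ 2)⁻¹ := by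
          have := hrr_lo e hhi
          gcongr
        have h7 : |e.re - κ * ‖e‖ ^ 2| ≤ 1 + κ := by
          calc |e.re - κ * ‖e‖ ^ 2| ≤ |e.re| + |κ * ‖e‖ ^ 2| := abs_sub _ _
            _ ≤ 1 + κ * 1 := by
                rw [abs_mul, abs_of_nonneg hs0, abs_of_pos hκpos]
                have := (Complex.abs_re_le_norm e).trans he
                gcongr
            _ = 1 + κ := by ring
        rw [abs_mul, abs_mul, abs_mul, abs_mul, abs_of_pos hκpos, abs_of_pos (inv_pos.2 hr),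
          abs_two]
        gcongr
      have b8 := (abs_le.1 b6).1
      have b9 := (abs_le.1 b7).2
      rw [b5] at b4
      rw [hE] at b4
      linarith
  have hdip : vv K₀ κ ε ((Real.exp (-1 / 2) : ℝ) : ℂ) =
      K₀ * psi (Real.exp (-1)) - 2 * T - Real.log (1 + ε ^ 2) := by
    have h1 : ‖((Real.exp (-1 / 2) : ℝ) : ℂ)‖ ^ 2 = Real.exp (-1) := by
      rw [Complex.norm_real, Real.norm_of_nonneg (Real.exp_pos _).le, ← Real.exp_nat_mul]
      norm_num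
    have h2 : (κ : ℂ) * ((Real.exp (-1 / 2) : ℝ) : ℂ) = 1 := by
      rw [← ofReal_mul, hκ, ← Real.exp_add]
      norm_num
    have h3 : Real.log (ε ^ 2) = -(2 * T) := by
      rw [Real.log_pow, hε, Real.log_exp]; push_cast; ring
    unfold vv ll rr
    rw [h1, h2, chi_one exp_neg_one_gt.le]
    simp only [sub_self, norm_zero]
    rw [show (0 : ℝ) ^ 2 + ε ^ 2 = ε ^ 2 by ring, h3]
    ring
  -- Lipschitz constant
  have hsm := contDiff_vv (K₀ := K₀) (κ := κ) hεpos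
  obtain ⟨L, hL⟩ := (isCompact_closedBall (0 : ℂ) 1).exists_bound_of_continuousOn
    (hsm.continuous_fderiv (by simp)).continuousOn
  have hL0 : 0 ≤ L := (norm_nonneg _).trans (hL 0 (by simp))
  refine ⟨vv K₀ κ ε, Cv, 2 * T + Real.log (1 + ε ^ 2) - K₀ * psi (Real.exp (-1)), L,
    ⟨hsm, ?_, ?_, ?_, ?_, hsubh⟩, hCv0, hL0, ?_⟩
  · intro e he
    have h1 : ‖e‖ ^ 2 ≤ Real.exp (-2) := by
      calc ‖e‖ ^ 2 ≤ (Real.exp (-1)) ^ 2 := by gcongr
        _ = Real.exp (-2) := by rw [← Real.exp_nat_mul]; norm_num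
    unfold vv
    rw [psi_zero h1, chi_zero (h1.trans exp_neg_two_lt.le)]
    ring
  · intro e he
    unfold vv
    have hs1 : ‖e‖ ^ 2 ≤ 1 := by nlinarith [norm_nonneg e]
    have h1 : K₀ * psi (‖e‖ ^ 2) ≤ K₀ * psi 1 := by
      have := psi_mono hs1
      gcongr
    have h2 : chi (‖e‖ ^ 2) * ll κ ε e ≤ Lm := by
      have h3 := hll_up e he
      have h4 := chi_nonneg (‖e‖ ^ 2)
      have h5 := chi_le_one (‖e‖ ^ 2)
      calc chi (‖e‖ ^ 2) * ll κ ε e ≤ chi (‖e‖ ^ 2) * Lm := by gcongr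
        _ ≤ 1 * Lm := by gcongr
        _ = Lm := one_mul _
    linarith
  · rw [hdip]; ring
  · intro e e' he he'
    have := (convex_closedBall (0 : ℂ) 1).norm_image_sub_le_of_norm_fderiv_le
      (f := vv K₀ κ ε) (C := L) (𝕜 := ℝ)
      (fun x _ => (hsm.differentiable (by simp)) x) (fun x hx => hL x hx)
      (x := e') (y := e) (by simpa using he') (by simpa using he)
    simpa using this
  · have h1 : 0 ≤ Real.log (1 + ε ^ 2) := Real.log_nonneg (by nlinarith)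
    have h2 : K * (Cv + 1) ≤ |K| * (Cv + 1) := by
      have := le_abs_self K
      gcongr
    have h3 := psi_nonneg (Real.exp (-1))
    have h4 : 0 ≤ |K| * (Cv + 1) := by positivity
    have h5 : 0 ≤ K₀ * psi (Real.exp (-1)) := by positivity
    rw [hT]
    linarith

end Crest.Agent.R245
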