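import Crest.Agent.R245.Ops

/-! R245 (helper676): the forms of `aS = -log rho` at every point of `Dom`. -/

set_option autoImplicit false

namespace Crest.Agent.R245.Grad

open Complex Filter Topology
open scoped ContDiff ComplexConjugate

theorem rho_hasFDerivAt (b : B2) : HasFDerivAt rho
    ((imCLM.comp (ContinuousLinearMap.snd ℝ ℂ ℂ)) -
      (2 : ℝ) • ((innerSL ℝ b.1).comp (ContinuousLinearMap.fst ℝ ℂ ℂ))) b := by
  unfold rho
  have h1 : HasFDerivAt (fun b : B2 => b.2.im) (imCLM.comp (ContinuousLinearMap.snd ℝ ℂ ℂ)) b :=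
    imCLM.hasFDerivAt.comp b (ContinuousLinearMap.snd ℝ ℂ ℂ).hasFDerivAt
  have h2 : HasFDerivAt (fun b : B2 => ‖b.1‖ ^ 2)
      ((2 : ℝ) • ((innerSL ℝ b.1).comp (ContinuousLinearMap.fst ℝ ℂ ℂ))) b := by
    have h3 : HasFDerivAt (fun b : B2 => b.1) (ContinuousLinearMap.fst ℝ ℂ ℂ) b :=
      (ContinuousLinearMap.fst ℝ ℂ ℂ).hasFDerivAt
    have := h3.norm_sq
    refine this.congr_fderiv ?_
    ext v
    · simp; ring
    · simp
  exact h1.sub h2

theorem fderiv_rho (b X : B2) : fderiv ℝ rho b X = X.2.im - 2 * (conj b.1 * X.1).re := by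
  rw [(rho_hasFDerivAt b).fderiv]
  simp [Complex.inner, mul_comm]

theorem rho_contDiff : ContDiff ℝ ∞ rho := by
  unfold rho
  exact (imCLM.contDiff.comp contDiff_snd).sub (contDiff_fst.norm_sq ℝ)

theorem dz_rho (b X : B2) :
    dz X (fun q => (rho q : ℂ)) b = (-I * X.2 - 2 * conj b.1 * X.1) / 2 := by
  unfold dz
  rw [fderiv_ofReal_apply (rho_hasFDerivAt b).differentiableAt,
    fderiv_ofReal_apply (rho_hasFDerivAt b).differentiableAt, fderiv_rho, fderiv_rho]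
  apply Complex.ext <;> simp <;> ring

theorem dzb_rho (b X : B2) :
    dzb X (fun q => (rho q : ℂ)) b = (I * conj X.2 - 2 * b.1 * conj X.1) / 2 := by
  rw [dzb_ofReal, dz_rho]
  simp only [map_div₀, map_sub, map_mul, map_neg, conj_I, conj_conj, map_ofNat]
  ring

theorem D11_rho (b X Y : B2) : D11 rho X Y b = - (X.1 * conj Y.1) := by
  unfold D11
  have h : dzb Y (fun q => (rho q : ℂ)) = fun q : B2 =>
      (I * conj Y.2 - 2 * q.1 * conj Y.1) / 2 := by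
    ext q; exact dzb_rho q Y
  rw [h]
  have h1 : HasFDerivAt (𝕜 := ℂ) (fun q : B2 => (I * conj Y.2 - 2 * q.1 * conj Y.1) / 2)
      ((-conj Y.1) • (ContinuousLinearMap.fst ℂ ℂ ℂ)) b := by
    have h2 : HasFDerivAt (𝕜 := ℂ) (fun q : B2 => q.1) (ContinuousLinearMap.fst ℂ ℂ ℂ) b :=
      (ContinuousLinearMap.fst ℂ ℂ ℂ).hasFDerivAt
    have h3 := (h2.const_smul (-conj Y.1)).add_const (I * conj Y.2 / 2)
    refine h3.congr_of_eventuallyEq (Filter.Eventually.of_forall fun q => ?_)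
    simp only [Pi.smul_apply, smul_eq_mul]
    ring
  rw [dz_hol h1.differentiableAt, h1.fderiv]
  simp
  ring

theorem rho_pos {b : B2} (hb : b ∈ Dom) : 0 < rho b := hb

theorem isOpen_Dom' : IsOpen Dom := by
  have : Dom = rho ⁻¹' Set.Ioi 0 := rfl
  rw [this]
  exact isOpen_Ioi.preimage rho_contDiff.continuous

theorem aS_contDiffAt' {b : B2} (hb : b ∈ Dom) : ContDiffAt ℝ ∞ aS b := by
  unfold aS
  exact (rho_contDiff.contDiffAt.log (ne_of_gt hb)).neg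

theorem fderiv_aS {b : B2} (hb : b ∈ Dom) (X : B2) :
    fderiv ℝ aS b X = - (rho b)⁻¹ * fderiv ℝ rho b X := by
  have h := ((rho_hasFDerivAt b).log (ne_of_gt hb)).neg
  have h2 : aS = -fun x => Real.log (rho x) := by
    ext x; rfl
  rw [h2, h.fderiv, (rho_hasFDerivAt b).fderiv]
  simp

theorem dz_aS {b : B2} (hb : b ∈ Dom) (X : B2) :
    dz X (fun q => (aS q : ℂ)) b = - ((rho b : ℂ))⁻¹ * dz X (fun q => (rho q : ℂ)) b := by
  have hd : DifferentiableAt ℝ aS b := (aS_contDiffAt' hb).differentiableAt (by simp)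
  unfold dz
  rw [fderiv_ofReal_apply hd, fderiv_ofReal_apply hd, fderiv_aS hb, fderiv_aS hb,
    fderiv_ofReal_apply (rho_hasFDerivAt b).differentiableAt,
    fderiv_ofReal_apply (rho_hasFDerivAt b).differentiableAt]
  push_cast
  ring

theorem dzb_aS {b : B2} (hb : b ∈ Dom) (X : B2) :
    dzb X (fun q => (aS q : ℂ)) b = - ((rho b : ℂ))⁻¹ * dzb X (fun q => (rho q : ℂ)) b := by
  rw [dzb_ofReal, dz_aS hb, dzb_ofReal]
  simp only [map_mul, map_neg, map_inv₀, conj_ofReal]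

theorem D11_aS {b : B2} (hb : b ∈ Dom) (X Y : B2) :
    D11 aS X Y b = (dz X (fun q => (rho q : ℂ)) b) * conj (dz Y (fun q => (rho q : ℂ)) b)
        / (rho b : ℂ) ^ 2 + X.1 * conj Y.1 / (rho b : ℂ) := by
  unfold D11
  have h : dzb Y (fun q => (aS q : ℂ)) =ᶠ[𝓝 b] fun q : B2 =>
      (((fun r : ℝ => - r⁻¹) (rho q) : ℝ) : ℂ) * dzb Y (fun q => (rho q : ℂ)) q := by
    filter_upwards [isOpen_Dom'.mem_nhds hb] with q hq
    rw [dzb_aS hq]
    push_cast; ring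
  rw [dz_congr h]
  have hrho0 : rho b ≠ 0 := ne_of_gt hb
  have hdr : DifferentiableAt ℝ rho b := (rho_hasFDerivAt b).differentiableAt
  have hinv : HasDerivAt (fun r : ℝ => - r⁻¹) (((rho b) ^ 2)⁻¹) (rho b) := by
    have := (hasDerivAt_inv hrho0).neg
    refine this.congr_deriv ?_
    ring
  have hd1 : DifferentiableAt ℝ (fun q => (((fun r : ℝ => - r⁻¹) (rho q) : ℝ) : ℂ)) b :=
    differentiableAt_ofReal (hinv.comp_hasFDerivAt b (rho_hasFDerivAt b)).differentiableAt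
  have hd2 : DifferentiableAt ℝ (dzb Y (fun q => (rho q : ℂ))) b :=
    (contDiffAt_dzb_inf Y (contDiffAt_ofReal rho_contDiff.contDiffAt)).differentiableAt (by simp)
  rw [dz_mul hd1 hd2, dz_comp_real _ _ hinv.differentiableAt hdr, hinv.deriv]
  have h3 : dz X (dzb Y (fun q => (rho q : ℂ))) b = - (X.1 * conj Y.1) := D11_rho b X Y
  rw [h3, dzb_ofReal]
  push_cast
  have hc : (rho b : ℂ) ≠ 0 := by exact_mod_cast hrho0
  field_simp

theorem D11_aS_self {b : B2} (hb : b ∈ Dom) (X : B2) :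
    (D11 aS X X b).re = ‖dz X (fun q => (rho q : ℂ)) b‖ ^ 2 / (rho b) ^ 2 +
      ‖X.1‖ ^ 2 / rho b := by
  rw [D11_aS hb, mul_conj, mul_conj, normSq_eq_norm_sq, normSq_eq_norm_sq]
  have : (((‖dz X (fun q => (rho q : ℂ)) b‖ ^ 2 : ℝ) : ℂ) / (rho b : ℂ) ^ 2 +
      ((‖X.1‖ ^ 2 : ℝ) : ℂ) / (rho b : ℂ)) =
      ((‖dz X (fun q => (rho q : ℂ)) b‖ ^ 2 / (rho b) ^ 2 + ‖X.1‖ ^ 2 / rho b : ℝ) : ℂ) := by
    push_cast; ring
  rw [this, ofReal_re]

theorem D11_aS_nonneg {b : B2} (hb : b ∈ Dom) (X : B2) : 0 ≤ (D11 aS X X b).re := by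
  rw [D11_aS_self hb]
  have := rho_pos hb
  positivity

/-- `|∂ρ(X)| ≤ ρ |X|_ω` -/
theorem norm_dz_rho_le {b : B2} (hb : b ∈ Dom) (X : B2) :
    ‖dz X (fun q => (rho q : ℂ)) b‖ ≤ rho b * Real.sqrt (D11 aS X X b).re := by
  have hr := rho_pos hb
  rw [D11_aS_self hb]
  have h1 : ‖dz X (fun q => (rho q : ℂ)) b‖ = rho b * Real.sqrt
      (‖dz X (fun q => (rho q : ℂ)) b‖ ^ 2 / (rho b) ^ 2) := by
    rw [Real.sqrt_div (by positivity), Real.sqrt_sq (norm_nonneg _), Real.sqrt_sq hr.le]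
    field_simp
  conv_lhs => rw [h1]
  refine mul_le_mul_of_nonneg_left (Real.sqrt_le_sqrt ?_) hr.le
  have : 0 ≤ ‖X.1‖ ^ 2 / rho b := by positivity
  linarith

/-- `|X₁| ≤ √ρ |X|_ω` -/
theorem norm_fst_le {b : B2} (hb : b ∈ Dom) (X : B2) :
    ‖X.1‖ ≤ Real.sqrt (rho b) * Real.sqrt (D11 aS X X b).re := by
  have hr := rho_pos hb
  rw [D11_aS_self hb, ← Real.sqrt_mul hr.le]
  have h1 : ‖X.1‖ = Real.sqrt (‖X.1‖ ^ 2) := (Real.sqrt_sq (norm_nonneg _)).symm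
  conv_lhs => rw [h1]
  refine Real.sqrt_le_sqrt ?_
  have h2 : rho b * (‖X.1‖ ^ 2 / rho b) = ‖X.1‖ ^ 2 := by field_simp
  have h3 : 0 ≤ rho b * (‖dz X (fun q => (rho q : ℂ)) b‖ ^ 2 / (rho b) ^ 2) := by positivity
  rw [mul_add, h2]
  linarith

/-- `|∂a(X)| ≤ |X|_ω` -/
theorem norm_dz_aS_le {b : B2} (hb : b ∈ Dom) (X : B2) :
    ‖dz X (fun q => (aS q : ℂ)) b‖ ≤ Real.sqrt (D11 aS X X b).re := by
  have hr := rho_pos hb
  rw [dz_aS hb, norm_mul, norm_neg, norm_inv, Complex.norm_real, Real.norm_of_nonneg hr.le]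
  have := norm_dz_rho_le hb X
  rw [inv_mul_le_iff₀ hr]
  exact this

/-- for a real function `|dz X f| ≤ ` bound from bounds of `df`. -/
theorem norm_dz_le_of_fderiv {V : Type*} [NormedAddCommGroup V] [NormedSpace ℝ V]
    [NormedSpace ℂ V] [IsScalarTower ℝ ℂ V] {f : V → ℝ} {p : V} (hf : DifferentiableAt ℝ f p)
    {X : V} {K : ℝ} (h1 : |fderiv ℝ f p X| ≤ K) (h2 : |fderiv ℝ f p (I • X)| ≤ K) :
    ‖dz X (fun q => (f q : ℂ)) p‖ ≤ K := by
  unfold dz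
  rw [fderiv_ofReal_apply hf, fderiv_ofReal_apply hf, norm_div]
  have h3 : ‖((fderiv ℝ f p X : ℝ) : ℂ) - I * ((fderiv ℝ f p (I • X) : ℝ) : ℂ)‖ ≤ K + K := by
    refine (norm_sub_le _ _).trans ?_
    rw [norm_mul, norm_I, one_mul, Complex.norm_real, Complex.norm_real]
    exact add_le_add h1 h2
  have h4 : ‖(2 : ℂ)‖ = 2 := by simp
  rw [h4]
  linarith

/-- real differential through `dz` -/
theorem fderiv_eq_two_re {V : Type*} [NormedAddCommGroup V] [NormedSpace ℝ V]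
    [NormedSpace ℂ V] [IsScalarTower ℝ ℂ V] {f : V → ℝ} {p : V} (hf : DifferentiableAt ℝ f p)
    (X : V) : fderiv ℝ f p X = 2 * (dz X (fun q => (f q : ℂ)) p).re := by
  unfold dz
  rw [fderiv_ofReal_apply hf, fderiv_ofReal_apply hf]
  simp
  ring

end Crest.Agent.R245.Grad
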