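import Crest.Agent.R245.DiffeoU
import Crest.Agent.R245.GradA

/-! TASK Gradient (helper676): the gradient of the proper function `u0` is bounded for the metric. -/

set_option autoImplicit false

namespace Crest.Agent.R245

open Complex Filter Topology
open scoped ContDiff ComplexConjugate

namespace Grad

/-- rescaling factor -/
noncomputable def Ef (φ : B2 → ℝ) (b : B2) : ℝ := Real.exp ((φ b - aS b) / 2)

/-- `w`-coordinate of `gk k (Smap φ y)` -/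
noncomputable def sK (φ : B2 → ℝ) (k : ℤ) (y : B2 × ℂ) : ℂ :=
  y.1.2 + 2 * I * k * y.1.1 + I * k ^ 2 + 2 * I * conj (cS k) * ((Ef φ y.1 : ℂ) * y.2)
      + I * ((‖cS k‖ ^ 2 : ℝ) : ℂ)

/-- `u0` in the `k`-th chart. -/
noncomputable def Fch (φ : B2 → ℝ) (k : ℤ) (y : B2 × ℂ) : ℝ :=
  Real.log (‖sK φ k y + I‖ ^ 2) + aS y.1 - Real.log (1 - uu φ y)

theorem norm_cS_le (k : ℤ) : ‖cS k‖ ≤ 1 := by
  unfold cS
  split_ifs with h1 h2
  · rw [Complex.norm_real, Real.norm_eq_abs, abs_div, abs_one]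
    have : (1 : ℝ) ≤ |(k : ℝ)| := by
      rw [← Int.cast_abs]; exact_mod_cast Int.one_le_abs (by omega)
    exact (div_le_one (by linarith)).mpr this
  · rw [norm_mul, norm_I, one_mul, Complex.norm_real, Real.norm_eq_abs, abs_div, abs_one]
    have : (1 : ℝ) ≤ |((-k : ℤ) : ℝ)| := by
      rw [← Int.cast_abs]; exact_mod_cast Int.one_le_abs (by omega)
    exact (div_le_one (by linarith)).mpr this
  · simp

theorem exp_neg_aS {b : B2} (hb : b ∈ Dom) : Real.exp (-aS b) = rho b := by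
  unfold aS; rw [neg_neg, Real.exp_log hb]

theorem Ef_sq {φ : B2 → ℝ} {b : B2} (hb : b ∈ Dom) :
    Ef φ b ^ 2 = rho b * Real.exp (φ b) := by
  unfold Ef
  rw [← Real.exp_nat_mul, ← exp_neg_aS hb, ← Real.exp_add]
  congr 1; push_cast; ring

theorem Ef_pos (φ : B2 → ℝ) (b : B2) : 0 < Ef φ b := Real.exp_pos _

theorem gk_Smap_one (φ : B2 → ℝ) (k : ℤ) (y : B2 × ℂ) : gk k (Smap φ y) 1 = sK φ k y := by
  simp [gk, Smap, sK, Ef]

theorem rho3_gk_Smap {φ : B2 → ℝ} (k : ℤ) {y : B2 × ℂ} (hy : y.1 ∈ Dom) :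
    rho3 (gk k (Smap φ y)) = rho y.1 * (1 - uu φ y) := by
  rw [rho3_gk]
  simp only [Smap]
  have h : ‖((Real.exp ((φ y.1 - aS y.1) / 2) : ℝ) : ℂ) * y.2‖ ^ 2 = Ef φ y.1 ^ 2 * ‖y.2‖ ^ 2 := by
    rw [norm_mul, mul_pow, Complex.norm_real, Real.norm_of_nonneg (Real.exp_pos _).le]; rfl
  rw [h, Ef_sq hy]
  unfold uu
  ring

theorem d3_gk_Smap {φ : B2 → ℝ} (k : ℤ) {y : B2 × ℂ} (hy : y.1 ∈ Dom) (hu : uu φ y < 1)
    (hs : sK φ k y + I ≠ 0) : d3 (gk k (Smap φ y)) = Fch φ k y := by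
  unfold d3 Fch
  rw [rho3_gk_Smap k hy, gk_Smap_one]
  have h1 : 0 < rho y.1 := hy
  have h2 : 0 < 1 - uu φ y := by linarith
  rw [Real.log_div (by positivity) (by positivity), Real.log_mul h1.ne' h2.ne']
  unfold aS
  ring

/-- facts about `s` -/
theorem sK_im {φ : B2 → ℝ} (k : ℤ) {y : B2 × ℂ} (hy : y.1 ∈ Dom) :
    (sK φ k y).im = rho y.1 * (1 - uu φ y) + ‖y.1.1 + k‖ ^ 2 + ‖(Ef φ y.1 : ℂ) * y.2 + cS k‖ ^ 2 := by
  have h := rho3_gk_Smap (φ := φ) k hy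
  unfold rho3 at h
  rw [gk_Smap_one] at h
  have h0 : gk k (Smap φ y) 0 = y.1.1 + k := by simp [gk, Smap]
  have h2 : gk k (Smap φ y) 2 = (Ef φ y.1 : ℂ) * y.2 + cS k := by simp [gk, Smap, Ef]
  rw [h0, h2] at h
  linarith

theorem uu_nonneg (φ : B2 → ℝ) (y : B2 × ℂ) : 0 ≤ uu φ y := by
  unfold uu; positivity

section Facts

variable {φ : B2 → ℝ} {k : ℤ} {y : B2 × ℂ}

theorem sK_facts (hy : y.1 ∈ Dom) (hu : uu φ y < 1) :
    1 ≤ ‖sK φ k y + I‖ ∧ rho y.1 ≤ 2 * ‖sK φ k y + I‖ ∧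
      ‖y.1.1 + k‖ ^ 2 ≤ ‖sK φ k y + I‖ := by
  have h1 : 0 < rho y.1 := hy
  have h2 : 0 < 1 - uu φ y := by linarith
  have h3 := sK_im (φ := φ) k hy
  have h4 : 0 < rho y.1 * (1 - uu φ y) := by positivity
  have h5 : (sK φ k y + I).im ≤ ‖sK φ k y + I‖ := (le_abs_self _).trans (abs_im_le_norm _)
  have h6 : (sK φ k y + I).im = (sK φ k y).im + 1 := by simp
  rw [h6] at h5
  have h7 : ‖(Ef φ y.1 : ℂ) * y.2‖ ^ 2 = rho y.1 * uu φ y := by
    rw [norm_mul, mul_pow, Complex.norm_real, Real.norm_of_nonneg (Ef_pos _ _).le, Ef_sq hy]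
    unfold uu; ring
  have h8 : ‖(Ef φ y.1 : ℂ) * y.2‖ ^ 2 ≤ 2 * ‖(Ef φ y.1 : ℂ) * y.2 + cS k‖ ^ 2 + 2 := by
    have a1 : ‖(Ef φ y.1 : ℂ) * y.2‖ ≤ ‖(Ef φ y.1 : ℂ) * y.2 + cS k‖ + 1 := by
      have a2 : (Ef φ y.1 : ℂ) * y.2 = ((Ef φ y.1 : ℂ) * y.2 + cS k) - cS k := by ring
      conv_lhs => rw [a2]
      exact (norm_sub_le _ _).trans (by linarith [norm_cS_le k])
    have a3 := norm_nonneg ((Ef φ y.1 : ℂ) * y.2)
    have a4 := norm_nonneg ((Ef φ y.1 : ℂ) * y.2 + cS k)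
    nlinarith [sq_nonneg (‖(Ef φ y.1 : ℂ) * y.2 + cS k‖ - 1)]
  have h9 := sq_nonneg ‖y.1.1 + k‖
  have h10 := sq_nonneg ‖(Ef φ y.1 : ℂ) * y.2 + cS k‖
  refine ⟨by linarith, ?_, by linarith⟩
  have h11 : rho y.1 = rho y.1 * (1 - uu φ y) + ‖(Ef φ y.1 : ℂ) * y.2‖ ^ 2 := by rw [h7]; ring
  linarith

theorem sK_ne (hy : y.1 ∈ Dom) (hu : uu φ y < 1) : sK φ k y + I ≠ 0 := by
  intro h
  have := (sK_facts (k := k) hy hu).1
  rw [h] at this
  simp at this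
  linarith

/-- real derivative of `sK` -/
theorem sK_hasFDerivAt (hφ : DifferentiableAt ℝ φ y.1) (hy : y.1 ∈ Dom) :
    ∃ s' : (B2 × ℂ) →L[ℝ] ℂ, HasFDerivAt (sK φ k) s' y ∧ ∀ Y : B2 × ℂ, s' Y =
      Y.1.2 + 2 * I * k * Y.1.1 + 2 * I * conj (cS k) * ((Ef φ y.1 : ℂ) * Y.2 +
        ((Ef φ y.1 * ((fderiv ℝ φ y.1 Y.1 - fderiv ℝ aS y.1 Y.1) / 2) : ℝ) : ℂ) * y.2) := by
  have ha : DifferentiableAt ℝ aS y.1 := (aS_contDiffAt' hy).differentiableAt (by simp)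
  have hfst : HasFDerivAt (fun y : B2 × ℂ => y.1) (ContinuousLinearMap.fst ℝ B2 ℂ) y :=
    (ContinuousLinearMap.fst ℝ B2 ℂ).hasFDerivAt
  have hsnd : HasFDerivAt (fun y : B2 × ℂ => y.2) (ContinuousLinearMap.snd ℝ B2 ℂ) y :=
    (ContinuousLinearMap.snd ℝ B2 ℂ).hasFDerivAt
  have h11 : HasFDerivAt (fun y : B2 × ℂ => y.1.1)
      ((ContinuousLinearMap.fst ℝ ℂ ℂ).comp (ContinuousLinearMap.fst ℝ B2 ℂ)) y :=
    ((ContinuousLinearMap.fst ℝ ℂ ℂ).comp (ContinuousLinearMap.fst ℝ B2 ℂ)).hasFDerivAt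
  have h12 : HasFDerivAt (fun y : B2 × ℂ => y.1.2)
      ((ContinuousLinearMap.snd ℝ ℂ ℂ).comp (ContinuousLinearMap.fst ℝ B2 ℂ)) y :=
    ((ContinuousLinearMap.snd ℝ ℂ ℂ).comp (ContinuousLinearMap.fst ℝ B2 ℂ)).hasFDerivAt
  have hφ1 : HasFDerivAt (fun y : B2 × ℂ => φ y.1)
      ((fderiv ℝ φ y.1).comp (ContinuousLinearMap.fst ℝ B2 ℂ)) y :=
    hφ.hasFDerivAt.comp y hfst
  have ha1 : HasFDerivAt (fun y : B2 × ℂ => aS y.1)
      ((fderiv ℝ aS y.1).comp (ContinuousLinearMap.fst ℝ B2 ℂ)) y :=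
    ha.hasFDerivAt.comp y hfst
  have hE : HasFDerivAt (fun y : B2 × ℂ => Ef φ y.1)
      (Ef φ y.1 • ((2 : ℝ)⁻¹ • ((fderiv ℝ φ y.1).comp (ContinuousLinearMap.fst ℝ B2 ℂ) -
        (fderiv ℝ aS y.1).comp (ContinuousLinearMap.fst ℝ B2 ℂ)))) y := by
    unfold Ef
    have h := ((hφ1.sub ha1).const_smul (2 : ℝ)⁻¹)
    have h' : HasFDerivAt (fun y : B2 × ℂ => (φ y.1 - aS y.1) / 2)
      ((2 : ℝ)⁻¹ • ((fderiv ℝ φ y.1).comp (ContinuousLinearMap.fst ℝ B2 ℂ) -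
        (fderiv ℝ aS y.1).comp (ContinuousLinearMap.fst ℝ B2 ℂ))) y := by
      refine h.congr_of_eventuallyEq (Filter.Eventually.of_forall fun q => ?_)
      simp only [Pi.smul_apply, Pi.sub_apply, smul_eq_mul]; ring
    exact h'.exp
  have hEc : HasFDerivAt (fun y : B2 × ℂ => (Ef φ y.1 : ℂ)) (ofRealCLM.comp
      (Ef φ y.1 • ((2 : ℝ)⁻¹ • ((fderiv ℝ φ y.1).comp (ContinuousLinearMap.fst ℝ B2 ℂ) -
        (fderiv ℝ aS y.1).comp (ContinuousLinearMap.fst ℝ B2 ℂ))))) y :=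
    ofRealCLM.hasFDerivAt.comp y hE
  have h := (((h12.add (h11.const_mul (2 * I * k))).add_const (I * k ^ 2)).add
    ((hEc.mul hsnd).const_mul (2 * I * conj (cS k)))).add_const (I * ((‖cS k‖ ^ 2 : ℝ) : ℂ))
  refine ⟨_, h.congr_of_eventuallyEq (Filter.Eventually.of_forall fun q => ?_), fun Y => ?_⟩
  · simp only [sK, Pi.add_apply, Pi.mul_apply]
  · simp
    ring

/-- chart estimate -/
theorem Fch_grad (A : B2 → ℝ) {c Cφ : ℝ} (hc : 0 < c) (hC : 0 ≤ Cφ)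
    (hA : ContDiffAt ℝ ∞ A y.1) (hφ : ContDiffAt ℝ ∞ φ y.1) (hy : y.1 ∈ Dom) (hu : uu φ y < 1)
    (posA : ∀ ξ : B2, c * (D11 aS ξ ξ y.1).re ≤ (D11 A ξ ξ y.1).re)
    (posφ : ∀ ξ : B2, 0 ≤ (D11 φ ξ ξ y.1).re)
    (gradφ : ∀ ξ : B2, |fderiv ℝ φ y.1 ξ| ≤ Cφ * Real.sqrt (D11 aS ξ ξ y.1).re)
    (Y : B2 × ℂ) :
    DifferentiableAt ℝ (Fch φ k) y ∧ |fderiv ℝ (Fch φ k) y Y| ≤
      ((2 * (8 + 4 * (2 * Cφ + 1)) + 2) / Real.sqrt c + 10) *
        Real.sqrt (D11 (hart A φ) Y Y y).re := by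
  obtain ⟨hs1, hs2, hs3⟩ := sK_facts (k := k) hy hu
  obtain ⟨s', hs', hs'v⟩ := sK_hasFDerivAt (k := k) (hφ.differentiableAt (by simp)) hy
  have hφd : DifferentiableAt ℝ φ y.1 := hφ.differentiableAt (by simp)
  have had : DifferentiableAt ℝ aS y.1 := (aS_contDiffAt' hy).differentiableAt (by simp)
  have hrho : 0 < rho y.1 := hy
  have h1u : 0 < 1 - uu φ y := by linarith
  have hu0 := uu_nonneg φ y
  set S := ‖sK φ k y + I‖ with hS
  set P := Real.sqrt (D11 (hart A φ) Y Y y).re with hP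
  set W := Real.sqrt (D11 aS Y.1 Y.1 y.1).re with hW
  have hWsq : W ^ 2 = (D11 aS Y.1 Y.1 y.1).re := Real.sq_sqrt (D11_aS_nonneg hy _)
  have hW0 : 0 ≤ W := Real.sqrt_nonneg _
  have hP0 : 0 ≤ P := Real.sqrt_nonneg _
  set ν := nuu φ y Y with hν
  -- the metric
  have hD : (D11 (hart A φ) Y Y y).re = (D11 A Y.1 Y.1 y.1).re + yy φ y * (D11 φ Y.1 Y.1 y.1).re
      + Real.exp (φ y.1) / (1 - uu φ y) ^ 2 * ‖ν‖ ^ 2 := by
    rw [hart_D11 A φ y hA hφ hu, mul_assoc, mul_conj, normSq_eq_norm_sq, ← ofReal_mul]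
    simp only [add_re, ofReal_re, re_ofReal_mul, hν]
  have hyy : 0 ≤ yy φ y := by unfold yy; positivity
  have hDnn : 0 ≤ (D11 (hart A φ) Y Y y).re := by
    rw [hD]
    have h1 := posA Y.1
    have h2 := posφ Y.1
    have h3 := D11_aS_nonneg hy Y.1
    have h4 : 0 ≤ c * (D11 aS Y.1 Y.1 y.1).re := by positivity
    have h5 : 0 ≤ Real.exp (φ y.1) / (1 - uu φ y) ^ 2 * ‖ν‖ ^ 2 := by positivity
    have h6 : 0 ≤ yy φ y * (D11 φ Y.1 Y.1 y.1).re := by positivity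
    linarith
  have hPsq : P ^ 2 = (D11 (hart A φ) Y Y y).re := Real.sq_sqrt hDnn
  have hWP : Real.sqrt c * W ≤ P := by
    rw [hW, hP, ← Real.sqrt_mul hc.le]
    refine Real.sqrt_le_sqrt ?_
    rw [hD]
    have h5 : 0 ≤ Real.exp (φ y.1) / (1 - uu φ y) ^ 2 * ‖ν‖ ^ 2 := by positivity
    have h6 : 0 ≤ yy φ y * (D11 φ Y.1 Y.1 y.1).re := mul_nonneg hyy (posφ Y.1)
    linarith [posA Y.1]
  have hνP : Real.exp (φ y.1 / 2) * ‖ν‖ ≤ (1 - uu φ y) * P := by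
    have h1 : (Real.exp (φ y.1 / 2) * ‖ν‖) ^ 2 ≤ ((1 - uu φ y) * P) ^ 2 := by
      rw [mul_pow, mul_pow, hPsq, hD, ← Real.exp_nat_mul]
      have e : ((2 : ℕ) : ℝ) * (φ y.1 / 2) = φ y.1 := by push_cast; ring
      rw [e]
      have h6 : 0 ≤ yy φ y * (D11 φ Y.1 Y.1 y.1).re := mul_nonneg hyy (posφ Y.1)
      have h7 : 0 ≤ (D11 A Y.1 Y.1 y.1).re :=
        (mul_nonneg hc.le (D11_aS_nonneg hy Y.1)).trans (posA Y.1)
      have h8 : (1 - uu φ y) ^ 2 * (Real.exp (φ y.1) / (1 - uu φ y) ^ 2 * ‖ν‖ ^ 2) =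
          Real.exp (φ y.1) * ‖ν‖ ^ 2 := by field_simp
      rw [mul_add, h8]
      have : 0 ≤ (1 - uu φ y) ^ 2 * ((D11 A Y.1 Y.1 y.1).re + yy φ y * (D11 φ Y.1 Y.1 y.1).re) :=
        by positivity
      linarith
    exact (pow_le_pow_iff_left₀ (by positivity) (by positivity) two_ne_zero).mp h1
  -- sizes
  have hζ : Real.exp (φ y.1 / 2) * ‖y.2‖ ≤ 1 := by
    have h1 : (Real.exp (φ y.1 / 2) * ‖y.2‖) ^ 2 ≤ 1 ^ 2 := by
      rw [mul_pow, ← Real.exp_nat_mul]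
      have e : ((2 : ℕ) : ℝ) * (φ y.1 / 2) = φ y.1 := by push_cast; ring
      rw [e]
      unfold uu at hu
      linarith
    exact (pow_le_pow_iff_left₀ (by positivity) (by norm_num) two_ne_zero).mp h1
  have hE : Ef φ y.1 = Real.sqrt (rho y.1) * Real.exp (φ y.1 / 2) := by
    have h1 : Ef φ y.1 ^ 2 = (Real.sqrt (rho y.1) * Real.exp (φ y.1 / 2)) ^ 2 := by
      rw [Ef_sq hy, mul_pow, Real.sq_sqrt hrho.le, ← Real.exp_nat_mul]
      congr 1; push_cast; ring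
    exact (pow_left_inj₀ (Ef_pos _ _).le (by positivity) two_ne_zero).mp h1
  have hsr0 := Real.sqrt_nonneg (rho y.1)
  have hsrsq : Real.sqrt (rho y.1) ^ 2 = rho y.1 := Real.sq_sqrt hrho.le
  have hsrS : Real.sqrt (rho y.1) ≤ 2 * S := by
    have : Real.sqrt (rho y.1) ^ 2 ≤ (2 * S) ^ 2 := by
      rw [hsrsq]; nlinarith
    exact (pow_le_pow_iff_left₀ hsr0 (by linarith) two_ne_zero).mp this
  have hbk : ‖y.1.1 + k‖ * Real.sqrt (rho y.1) ≤ 2 * S := by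
    have h1 : (‖y.1.1 + k‖ * Real.sqrt (rho y.1)) ^ 2 ≤ (2 * S) ^ 2 := by
      rw [mul_pow, hsrsq]
      have := sq_nonneg ‖y.1.1 + k‖
      nlinarith
    exact (pow_le_pow_iff_left₀ (by positivity) (by linarith) two_ne_zero).mp h1
  -- gradient bounds
  have hWI : Real.sqrt (D11 aS (I • Y.1) (I • Y.1) y.1).re = W := by
    rw [hW, D11_aS_self hy, D11_aS_self hy, dz_vec_smul, norm_mul, norm_I, one_mul]
    simp
  have hdzφ : ‖dz Y.1 (fun b => (φ b : ℂ)) y.1‖ ≤ Cφ * W := by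
    refine norm_dz_le_of_fderiv hφd (gradφ Y.1) ?_
    have := gradφ (I • Y.1)
    rwa [hWI] at this
  have hda : |fderiv ℝ aS y.1 Y.1| ≤ 2 * W := by
    rw [fderiv_eq_two_re had, abs_mul, abs_two]
    have h1 := norm_dz_aS_le hy Y.1
    have h2 := abs_re_le_norm (dz Y.1 (fun q => (aS q : ℂ)) y.1)
    linarith
  have hdφ := gradφ Y.1
  -- derivative of s
  have hs'n : ‖s' Y‖ ≤ S * ((8 + 4 * (2 * Cφ + 1)) * W + 4 * P) := by
    rw [hs'v]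
    have e1 : Y.1.2 + 2 * I * k * Y.1.1 = 2 * I * dz Y.1 (fun q => (rho q : ℂ)) y.1 +
        2 * I * conj (y.1.1 + k) * Y.1.1 := by
      rw [dz_rho, map_add]
      have : conj (k : ℂ) = (k : ℂ) := by
        rw [show (k : ℂ) = ((k : ℝ) : ℂ) by push_cast; rfl, conj_ofReal]
      rw [this]
      ring_nf
      rw [I_sq]; ring
    have n1 : ‖Y.1.2 + 2 * I * k * Y.1.1‖ ≤ 8 * S * W := by
      rw [e1]
      refine (norm_add_le _ _).trans ?_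
      simp only [norm_mul, norm_I, Complex.norm_ofNat, mul_one, RCLike.norm_conj]
      have a1 := norm_dz_rho_le hy Y.1
      have a2 := norm_fst_le hy Y.1
      have a3 : ‖y.1.1 + k‖ * ‖Y.1.1‖ ≤ ‖y.1.1 + k‖ * (Real.sqrt (rho y.1) * W) :=
        mul_le_mul_of_nonneg_left a2 (norm_nonneg _)
      have a4 : ‖y.1.1 + k‖ * (Real.sqrt (rho y.1) * W) ≤ 2 * S * W := by
        rw [← mul_assoc]; exact mul_le_mul_of_nonneg_right hbk hW0
      have a5 : rho y.1 * W ≤ 2 * S * W := mul_le_mul_of_nonneg_right hs2 hW0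
      have a6 : 2 * ‖y.1.1 + k‖ * ‖Y.1.1‖ = 2 * (‖y.1.1 + k‖ * ‖Y.1.1‖) := by ring
      rw [a6]
      linarith
    have e2 : (Ef φ y.1 : ℂ) * Y.2 +
        ((Ef φ y.1 * ((fderiv ℝ φ y.1 Y.1 - fderiv ℝ aS y.1 Y.1) / 2) : ℝ) : ℂ) * y.2 =
        (Ef φ y.1 : ℂ) * ν + (Ef φ y.1 : ℂ) * y.2 *
          ((((fderiv ℝ φ y.1 Y.1 - fderiv ℝ aS y.1 Y.1) / 2 : ℝ) : ℂ) -
            dz Y.1 (fun b => (φ b : ℂ)) y.1) := by
      rw [hν]; unfold nuu; push_cast; ring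
    have n2 : ‖(Ef φ y.1 : ℂ) * ν‖ ≤ 2 * S * P := by
      rw [norm_mul, Complex.norm_real, Real.norm_of_nonneg (Ef_pos _ _).le, hE, mul_assoc]
      have a1 : Real.exp (φ y.1 / 2) * ‖ν‖ ≤ P := hνP.trans (by nlinarith)
      calc Real.sqrt (rho y.1) * (Real.exp (φ y.1 / 2) * ‖ν‖) ≤ (2 * S) * P :=
            mul_le_mul hsrS a1 (by positivity) (by linarith)
        _ = 2 * S * P := by ring
    have n3 : ‖(Ef φ y.1 : ℂ) * y.2‖ ≤ 2 * S := by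
      rw [norm_mul, Complex.norm_real, Real.norm_of_nonneg (Ef_pos _ _).le, hE, mul_assoc]
      calc Real.sqrt (rho y.1) * (Real.exp (φ y.1 / 2) * ‖y.2‖) ≤ (2 * S) * 1 :=
            mul_le_mul hsrS hζ (by positivity) (by linarith)
        _ = 2 * S := by ring
    have n4 : ‖(((fderiv ℝ φ y.1 Y.1 - fderiv ℝ aS y.1 Y.1) / 2 : ℝ) : ℂ) -
            dz Y.1 (fun b => (φ b : ℂ)) y.1‖ ≤ (2 * Cφ + 1) * W := by
      refine (norm_sub_le _ _).trans ?_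
      rw [Complex.norm_real, Real.norm_eq_abs, abs_div, abs_two]
      have a1 : |fderiv ℝ φ y.1 Y.1 - fderiv ℝ aS y.1 Y.1| ≤ Cφ * W + 2 * W :=
        (abs_sub _ _).trans (add_le_add hdφ hda)
      have : 0 ≤ Cφ * W := by positivity
      linarith
    have n5 : ‖(Ef φ y.1 : ℂ) * Y.2 +
        ((Ef φ y.1 * ((fderiv ℝ φ y.1 Y.1 - fderiv ℝ aS y.1 Y.1) / 2) : ℝ) : ℂ) * y.2‖ ≤
        2 * S * P + 2 * S * ((2 * Cφ + 1) * W) := by
      rw [e2]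
      refine (norm_add_le _ _).trans (add_le_add n2 ?_)
      rw [norm_mul]
      exact mul_le_mul n3 n4 (norm_nonneg _) (by linarith)
    refine (norm_add_le _ _).trans ?_
    have n6 : ‖2 * I * conj (cS k) * ((Ef φ y.1 : ℂ) * Y.2 +
        ((Ef φ y.1 * ((fderiv ℝ φ y.1 Y.1 - fderiv ℝ aS y.1 Y.1) / 2) : ℝ) : ℂ) * y.2)‖ ≤
        2 * (2 * S * P + 2 * S * ((2 * Cφ + 1) * W)) := by
      rw [norm_mul]
      have : ‖2 * I * conj (cS k)‖ ≤ 2 := by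
        simp only [norm_mul, norm_I, Complex.norm_ofNat, mul_one, RCLike.norm_conj]
        linarith [norm_cS_le k]
      exact mul_le_mul this n5 (norm_nonneg _) (by norm_num)
    calc _ ≤ 8 * S * W + 2 * (2 * S * P + 2 * S * ((2 * Cφ + 1) * W)) := add_le_add n1 n6
      _ = S * ((8 + 4 * (2 * Cφ + 1)) * W + 4 * P) := by ring
  -- derivative of Fch
  have hS0 : 0 < S := by linarith
  have d1 : HasFDerivAt (fun y => Real.log (‖sK φ k y + I‖ ^ 2))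
      ((S ^ 2)⁻¹ • ((2 : ℝ) • (innerSL ℝ (sK φ k y + I)).comp s')) y := by
    have h := (hs'.add_const I).norm_sq
    have h2 := h.log (by positivity)
    refine h2.congr_fderiv ?_
    rw [two_smul, two_smul]
  have d2 : HasFDerivAt (fun y : B2 × ℂ => aS y.1)
      ((fderiv ℝ aS y.1).comp (ContinuousLinearMap.fst ℝ B2 ℂ)) y :=
    had.hasFDerivAt.comp y (ContinuousLinearMap.fst ℝ B2 ℂ).hasFDerivAt
  have d3' : HasFDerivAt (fun y : B2 × ℂ => φ y.1)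
      ((fderiv ℝ φ y.1).comp (ContinuousLinearMap.fst ℝ B2 ℂ)) y :=
    hφd.hasFDerivAt.comp y (ContinuousLinearMap.fst ℝ B2 ℂ).hasFDerivAt
  have d4 : HasFDerivAt (uu φ) (Real.exp (φ y.1) • ((2 : ℝ) • (innerSL ℝ y.2).comp
      (ContinuousLinearMap.snd ℝ B2 ℂ)) + (‖y.2‖ ^ 2) • (Real.exp (φ y.1) •
        ((fderiv ℝ φ y.1).comp (ContinuousLinearMap.fst ℝ B2 ℂ)))) y := by
    unfold uu
    have h := (ContinuousLinearMap.snd ℝ B2 ℂ).hasFDerivAt (x := y) |>.norm_sq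
    have h2 := d3'.exp.mul h
    refine h2.congr_fderiv ?_
    rw [two_smul, two_smul]
    rfl
  have d5 : HasFDerivAt (fun y => Real.log (1 - uu φ y)) _ y :=
    ((d4.const_sub 1).log h1u.ne')
  have dF : HasFDerivAt (Fch φ k) _ y := (d1.add d2).sub d5
  refine ⟨dF.differentiableAt, ?_⟩
  rw [dF.fderiv]
  have hinner : ∀ a b : ℂ, innerSL ℝ a b = (conj a * b).re := by
    intro a b
    simp [Complex.inner]
    ring
  have huuY : Real.exp (φ y.1) * (2 * (conj y.2 * Y.2).re) + ‖y.2‖ ^ 2 * (Real.exp (φ y.1) *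
      fderiv ℝ φ y.1 Y.1) = 2 * Real.exp (φ y.1) * (conj y.2 * ν).re := by
    rw [fderiv_eq_two_re hφd, hν]
    unfold nuu
    have h0 : conj y.2 * y.2 = ((‖y.2‖ ^ 2 : ℝ) : ℂ) := by
      rw [mul_comm, mul_conj, normSq_eq_norm_sq]
    have h1 : conj y.2 * (y.2 * dz Y.1 (fun b => (φ b : ℂ)) y.1 + Y.2) =
        ((‖y.2‖ ^ 2 : ℝ) : ℂ) * dz Y.1 (fun b => (φ b : ℂ)) y.1 + conj y.2 * Y.2 := by
      rw [← h0]; ring
    rw [h1, add_re, re_ofReal_mul]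
    ring
  have hval : (((S ^ 2)⁻¹ • ((2 : ℝ) • (innerSL ℝ (sK φ k y + I)).comp s') +
      (fderiv ℝ aS y.1).comp (ContinuousLinearMap.fst ℝ B2 ℂ)) - ((1 - uu φ y)⁻¹ •
        -(Real.exp (φ y.1) • ((2 : ℝ) • (innerSL ℝ y.2).comp
      (ContinuousLinearMap.snd ℝ B2 ℂ)) + (‖y.2‖ ^ 2) • (Real.exp (φ y.1) •
        ((fderiv ℝ φ y.1).comp (ContinuousLinearMap.fst ℝ B2 ℂ)))))) Y =
      (S ^ 2)⁻¹ * (2 * (conj (sK φ k y + I) * s' Y).re) + fderiv ℝ aS y.1 Y.1 +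
        (1 - uu φ y)⁻¹ * (2 * Real.exp (φ y.1) * (conj y.2 * ν).re) := by
    rw [← huuY, ← hinner, ← hinner]
    simp only [sub_apply, add_apply, smul_apply, neg_apply, ContinuousLinearMap.comp_apply,
      ContinuousLinearMap.coe_fst', ContinuousLinearMap.coe_snd', smul_eq_mul]
    ring
  rw [hval]
  have b1 : |(S ^ 2)⁻¹ * (2 * (conj (sK φ k y + I) * s' Y).re)| ≤
      2 * ((8 + 4 * (2 * Cφ + 1)) * W + 4 * P) := by
    rw [abs_mul, abs_inv, abs_of_nonneg (sq_nonneg S), abs_mul, abs_two]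
    have a1 : |(conj (sK φ k y + I) * s' Y).re| ≤ S * ‖s' Y‖ := by
      refine (abs_re_le_norm _).trans ?_
      rw [norm_mul, RCLike.norm_conj]
    rw [inv_mul_le_iff₀ (by positivity)]
    calc 2 * |(conj (sK φ k y + I) * s' Y).re| ≤ 2 * (S * ‖s' Y‖) := by linarith
      _ ≤ 2 * (S * (S * ((8 + 4 * (2 * Cφ + 1)) * W + 4 * P))) := by
          have := mul_le_mul_of_nonneg_left hs'n hS0.le
          linarith
      _ = S ^ 2 * (2 * ((8 + 4 * (2 * Cφ + 1)) * W + 4 * P)) := by ring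
  have b2 : |(1 - uu φ y)⁻¹ * (2 * Real.exp (φ y.1) * (conj y.2 * ν).re)| ≤ 2 * P := by
    rw [abs_mul, abs_inv, abs_of_pos h1u, inv_mul_le_iff₀ h1u, abs_mul, abs_mul, abs_two,
      abs_of_pos (Real.exp_pos _)]
    have a1 : |(conj y.2 * ν).re| ≤ ‖y.2‖ * ‖ν‖ := by
      refine (abs_re_le_norm _).trans ?_
      rw [norm_mul, RCLike.norm_conj]
    have a2 : Real.exp (φ y.1) = Real.exp (φ y.1 / 2) * Real.exp (φ y.1 / 2) := by
      rw [← Real.exp_add]; congr 1; ring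
    calc 2 * Real.exp (φ y.1) * |(conj y.2 * ν).re| ≤ 2 * Real.exp (φ y.1) * (‖y.2‖ * ‖ν‖) :=
          mul_le_mul_of_nonneg_left a1 (by positivity)
      _ = 2 * ((Real.exp (φ y.1 / 2) * ‖y.2‖) * (Real.exp (φ y.1 / 2) * ‖ν‖)) := by
          rw [a2]; ring
      _ ≤ 2 * (1 * ((1 - uu φ y) * P)) := by
          have := mul_le_mul hζ hνP (by positivity) (by norm_num)
          linarith
      _ = (1 - uu φ y) * (2 * P) := by ring
  have hsc : 0 < Real.sqrt c := Real.sqrt_pos.mpr hc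
  have hWle : W ≤ P / Real.sqrt c := by
    rw [le_div_iff₀ hsc]; linarith
  have e3 := abs_add_le ((S ^ 2)⁻¹ * (2 * (conj (sK φ k y + I) * s' Y).re) + fderiv ℝ aS y.1 Y.1)
    ((1 - uu φ y)⁻¹ * (2 * Real.exp (φ y.1) * (conj y.2 * ν).re))
  have e4 := abs_add_le ((S ^ 2)⁻¹ * (2 * (conj (sK φ k y + I) * s' Y).re)) (fderiv ℝ aS y.1 Y.1)
  have e5 : (2 * (8 + 4 * (2 * Cφ + 1)) + 2) * W ≤
      (2 * (8 + 4 * (2 * Cφ + 1)) + 2) * (P / Real.sqrt c) :=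
    mul_le_mul_of_nonneg_left hWle (by positivity)
  have e6 : ((2 * (8 + 4 * (2 * Cφ + 1)) + 2) / Real.sqrt c + 10) * P =
      (2 * (8 + 4 * (2 * Cφ + 1)) + 2) * (P / Real.sqrt c) + 10 * P := by ring
  rw [e6]
  linarith

end Facts

theorem norm_sub_kk_ge {z : ℂ} {k m : ℤ} (hm : m = round z.re) (hk : |z.re - k| < 3/4)
    (hkm : m ≠ k) : 1/4 ≤ ‖z - k‖ ∧ 1/4 ≤ ‖z - m‖ := by
  have h1 : |z.re - m| ≤ 1/2 := by rw [hm]; exact abs_sub_round _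
  have h2 : (1 : ℝ) ≤ |(m : ℝ) - k| := by
    have : (1 : ℤ) ≤ |m - k| := Int.one_le_abs (sub_ne_zero.mpr hkm)
    calc (1 : ℝ) ≤ ((|m - k| : ℤ) : ℝ) := by exact_mod_cast this
      _ = |(m : ℝ) - k| := by push_cast; rfl
  have h3 : |(m : ℝ) - k| ≤ |z.re - k| + |z.re - m| := by
    have e : (m : ℝ) - k = (z.re - k) - (z.re - m) := by ring
    rw [e]; exact abs_sub _ _
  have e1 : |z.re - k| ≤ ‖z - k‖ := by
    have := abs_re_le_norm (z - k); simpa using this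
  have e2 : |z.re - m| ≤ ‖z - m‖ := by
    have := abs_re_le_norm (z - m); simpa using this
  constructor <;> linarith

theorem Smap_eq_self {φ : B2 → ℝ} {y : B2 × ℂ} (h : φ y.1 = aS y.1) : Smap φ y = y := by
  unfold Smap
  rw [h, sub_self, zero_div, Real.exp_zero]
  simp

theorem u0_local (b : Bulge) {x : V3} (hx : x ∈ Udom b.φ) :
    u0 b.φ =ᶠ[𝓝 x] fun x' => Fch b.φ (kk x) (gki (kk x) x') := by
  have hc : ContinuousAt (fun x' : V3 => |(x' 0).re - kk x|) x :=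
    ((Complex.continuous_re.comp (continuous_apply 0)).sub continuous_const).abs.continuousAt
  have h0 : |(x 0).re - kk x| < 3/4 := lt_of_le_of_lt (abs_sub_round _) (by norm_num)
  filter_upwards [(isOpen_Udom b).mem_nhds hx, hc.eventually (gt_mem_nhds h0)] with x' hx' hk
  have key : u0 b.φ x' = d3 (gk (kk x) (Smap b.φ (gki (kk x) x'))) ∧
      gki (kk x) x' ∈ HartD b.φ := by
    by_cases hkk : kk x' = kk x
    · refine ⟨?_, ?_⟩
      · unfold u0 psi1; rw [hkk]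
      · have : gki (kk x') x' ∈ HartD b.φ := hx'
        rwa [hkk] at this
    · obtain ⟨g1, g2⟩ := norm_sub_kk_ge (z := x' 0) (k := kk x) (m := kk x') rfl hk hkk
      have m1 : gki (kk x') x' ∈ HartD b.φ := hx'
      have m2 : 0 < rho3 x' := (mem_HartD_iff_std b (kk x') x' g2).mp m1
      have m3 : gki (kk x) x' ∈ HartD b.φ := (mem_HartD_iff_std b (kk x) x' g1).mpr m2
      refine ⟨?_, m3⟩
      have f1 : b.φ (gki (kk x') x').1 = aS (gki (kk x') x').1 := by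
        refine b.outφ _ m1.1 (Or.inl ?_)
        simpa [gki] using g2
      have f2 : b.φ (gki (kk x) x').1 = aS (gki (kk x) x').1 := by
        refine b.outφ _ m3.1 (Or.inl ?_)
        simpa [gki] using g1
      unfold u0 psi1
      rw [Smap_eq_self f1, Smap_eq_self f2, gk_gki, gk_gki]
  rw [key.1]
  exact d3_gk_Smap (kk x) key.2.1 key.2.2 (sK_ne key.2.1 key.2.2)

end Grad

theorem u0_grad (b : Bulge) : ∃ C : ℝ, 0 < C ∧ ∀ x ∈ Udom b.φ, ∀ X : V3,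
    |fderiv ℝ (u0 b.φ) x X| ≤ C * Real.sqrt (D11 (Ppot b.A b.φ) X X x).re := by
  obtain ⟨c, hc, hposA⟩ := b.posA
  obtain ⟨c', hc', hposφ⟩ := b.posφ
  obtain ⟨Cφ, hgrad⟩ := b.gradφ
  refine ⟨(2 * (8 + 4 * (2 * |Cφ| + 1)) + 2) / Real.sqrt c + 10, by positivity, ?_⟩
  intro x hx X
  have hy : gki (kk x) x ∈ HartD b.φ := hx
  obtain ⟨L, y₀, hL⟩ := gki_affine (kk x)
  have hopen : IsOpen Dom := Grad.isOpen_Dom'
  have hA : ContDiffAt ℝ ∞ b.A (gki (kk x) x).1 := b.smoothA.contDiffAt (hopen.mem_nhds hy.1)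
  have hφ : ContDiffAt ℝ ∞ b.φ (gki (kk x) x).1 := b.smoothφ.contDiffAt (hopen.mem_nhds hy.1)
  have hD : D11 (Ppot b.A b.φ) X X x = D11 (hart b.A b.φ) (L X) (L X) (gki (kk x) x) := by
    rw [D11_congr (Ppot_local b hx)]
    have e : (fun x' => hart b.A b.φ (gki (kk x) x')) = fun x' => hart b.A b.φ (L x' + y₀) := by
      ext x'; rw [hL]
    rw [e, hL]
    have hh : ContDiffAt ℝ ∞ (hart b.A b.φ) (L x + y₀) := by
      rw [← hL]; exact hart_contDiffAt b hy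
    exact D11_comp_affine (L : V3 →L[ℂ] (B2 × ℂ)) y₀ hh X X
  have hest := Grad.Fch_grad (k := kk x) b.A hc (abs_nonneg Cφ) hA hφ hy.1 hy.2
    (hposA _ hy.1)
    (fun ξ => (mul_nonneg hc'.le (Grad.D11_aS_nonneg hy.1 ξ)).trans (hposφ _ hy.1 ξ))
    (fun ξ => (hgrad _ hy.1 ξ).trans
      (mul_le_mul_of_nonneg_right (le_abs_self _) (Real.sqrt_nonneg _))) (L X)
  have hfd : fderiv ℝ (u0 b.φ) x X = fderiv ℝ (Grad.Fch b.φ (kk x)) (gki (kk x) x) (L X) := by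
    rw [(Grad.u0_local b hx).fderiv_eq]
    have e : (fun x' => Grad.Fch b.φ (kk x) (gki (kk x) x')) =
        fun x' => Grad.Fch b.φ (kk x) (L x' + y₀) := by
      ext x'; rw [hL]
    have h1 : HasFDerivAt (fun x' => L x' + y₀) ((L : V3 →L[ℂ] (B2 × ℂ)).restrictScalars ℝ) x :=
      ((L : V3 →L[ℂ] (B2 × ℂ)).hasFDerivAt.restrictScalars ℝ).add_const y₀
    have h2 : HasFDerivAt (Grad.Fch b.φ (kk x)) (fderiv ℝ (Grad.Fch b.φ (kk x)) (L x + y₀)) (L x + y₀) := by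
      rw [← hL]; exact hest.1.hasFDerivAt
    have h3 : HasFDerivAt (fun x' => Grad.Fch b.φ (kk x) (L x' + y₀))
        ((fderiv ℝ (Grad.Fch b.φ (kk x)) (L x + y₀)).comp
          ((L : V3 →L[ℂ] (B2 × ℂ)).restrictScalars ℝ)) x :=
      HasFDerivAt.comp (g := Grad.Fch b.φ (kk x)) x h2 h1
    rw [e, h3.fderiv, hL]
    rfl
  rw [hfd, hD]
  exact hest.2

end Crest.Agent.R245
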