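import Mathlib

/-! Row 245: elementary facts on holomorphic functions of several variables (functions
`F : E → ℂ`, `DifferentiableOn ℂ F U`, `U` open in a finite dimensional complex space). -/

open Complex Metric Set Filter Topology MeasureTheory

namespace Crest.Agent.R245.Hol

variable {E : Type*} [NormedAddCommGroup E] [NormedSpace ℂ E]

theorem hasDerivAt_line {F : E → ℂ} {p v : E} {ζ : ℂ} (h : DifferentiableAt ℂ F (p + ζ • v)) :
    HasDerivAt (fun t : ℂ => F (p + t • v)) (fderiv ℂ F (p + ζ • v) v) ζ := by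
  have h1 : HasDerivAt (fun t : ℂ => p + t • v) v ζ := by
    simpa using ((hasDerivAt_id ζ).smul_const v).const_add p
  exact h.hasFDerivAt.comp_hasDerivAt ζ h1

theorem fderiv_apply_eq_deriv {F : E → ℂ} {p v : E} (h : DifferentiableAt ℂ F p) :
    fderiv ℂ F p v = deriv (fun t : ℂ => F (p + t • v)) 0 := by
  have h1 : DifferentiableAt ℂ F (p + (0 : ℂ) • v) := by simpa using h
  simpa using (hasDerivAt_line h1).deriv.symm

theorem differentiableOn_line {F : E → ℂ} {U : Set E} (hU : IsOpen U)
    (hF : DifferentiableOn ℂ F U) (p v : E) :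
    DifferentiableOn ℂ (fun t : ℂ => F (p + t • v)) {t | p + t • v ∈ U} := fun _ ht =>
  (hasDerivAt_line ((hF _ ht).differentiableAt (hU.mem_nhds ht))).differentiableAt.differentiableWithinAt

theorem isOpen_line {U : Set E} (hU : IsOpen U) (p v : E) : IsOpen {t : ℂ | p + t • v ∈ U} :=
  hU.preimage (by fun_prop)

/-- Cauchy estimate (with a harmless factor `2`). -/
theorem norm_fderiv_le {F : E → ℂ} {p : E} {R M : ℝ} (hR : 0 < R)
    (hF : DifferentiableOn ℂ F (ball p R)) (hM : ∀ q ∈ ball p R, ‖F q‖ ≤ M) :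
    ‖fderiv ℂ F p‖ ≤ 2 * M / R := by
  have hM0 : 0 ≤ M := (norm_nonneg _).trans (hM p (mem_ball_self hR))
  refine ContinuousLinearMap.opNorm_le_bound _ (by positivity) fun v => ?_
  rcases eq_or_ne v 0 with rfl | hv
  · simp
  have hv' : 0 < ‖v‖ := norm_pos_iff.2 hv
  have hmem : ∀ t : ℂ, ‖t‖ < R / ‖v‖ → p + t • v ∈ ball p R := by
    intro t ht
    rw [mem_ball, dist_eq_norm, add_sub_cancel_left, norm_smul]
    rwa [lt_div_iff₀ hv'] at ht
  have hr : 0 < R / (2 * ‖v‖) := by positivity
  have hlt : R / (2 * ‖v‖) < R / ‖v‖ := by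
    apply div_lt_div_of_pos_left hR hv'; linarith
  rw [fderiv_apply_eq_deriv ((hF p (mem_ball_self hR)).differentiableAt
    (isOpen_ball.mem_nhds (mem_ball_self hR)))]
  have h1 : ‖deriv (fun t : ℂ => F (p + t • v)) 0‖ ≤ M / (R / (2 * ‖v‖)) := by
    apply Complex.norm_deriv_le_of_forall_mem_sphere_norm_le hr
    · apply DifferentiableOn.diffContOnCl
      apply (differentiableOn_line isOpen_ball hF p v).mono
      intro t ht
      have ht' : ‖t‖ ≤ R / (2 * ‖v‖) := by
        have := closure_ball_subset_closedBall ht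
        simpa using this
      exact hmem t (lt_of_le_of_lt ht' hlt)
    · intro z hz
      apply hM
      apply hmem
      rw [mem_sphere_zero_iff_norm] at hz
      rw [hz]; exact hlt
  refine h1.trans (le_of_eq ?_)
  field_simp

/-- Derivatives of holomorphic functions are holomorphic. -/
theorem differentiableAt_fderiv_apply [FiniteDimensional ℂ E] {F : E → ℂ} {U : Set E}
    (hU : IsOpen U) (hF : DifferentiableOn ℂ F U) (v : E) {p₀ : E} (hp₀ : p₀ ∈ U) :
    DifferentiableAt ℂ (fun p => fderiv ℂ F p v) p₀ := by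
  have : ProperSpace E := FiniteDimensional.proper ℂ E
  rcases eq_or_ne v 0 with rfl | hv
  · simp
  have hv' : 0 < ‖v‖ := norm_pos_iff.2 hv
  obtain ⟨R₀, hR₀, hball⟩ := Metric.isOpen_iff.1 hU p₀ hp₀
  set R : ℝ := R₀ / 4 with hRdef
  have hR : 0 < R := by positivity
  have hsub : closedBall p₀ (3 * R) ⊆ U := fun q hq => hball (by
    rw [mem_closedBall] at hq; rw [mem_ball]; linarith)
  obtain ⟨M, hM⟩ : ∃ M : ℝ, ∀ q ∈ closedBall p₀ (3 * R), ‖F q‖ ≤ M :=
    (isCompact_closedBall p₀ (3 * R)).exists_bound_of_continuousOn (hF.continuousOn.mono hsub)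
  have hM0 : 0 ≤ M := (norm_nonneg _).trans (hM p₀ (mem_closedBall_self (by positivity)))
  set r : ℝ := R / ‖v‖ with hrdef
  have hr : 0 < r := by positivity
  have hrv : r * ‖v‖ = R := by rw [hrdef]; field_simp
  have hFat : ∀ q ∈ ball p₀ (3 * R), DifferentiableAt ℂ F q := fun q hq =>
    (hF q (hsub (ball_subset_closedBall hq))).differentiableAt
      (hU.mem_nhds (hsub (ball_subset_closedBall hq)))
  have hmem : ∀ x ∈ ball p₀ R, ∀ θ : ℝ, x + circleMap 0 r θ • v ∈ ball p₀ (2 * R) := by
    intro x hx θ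
    rw [mem_ball, dist_eq_norm] at hx ⊢
    have : x + circleMap 0 r θ • v - p₀ = (x - p₀) + circleMap 0 r θ • v := by abel
    rw [this]
    calc ‖(x - p₀) + circleMap 0 r θ • v‖ ≤ ‖x - p₀‖ + ‖circleMap 0 r θ • v‖ := norm_add_le _ _
      _ < R + R := by
          have : ‖circleMap 0 r θ • v‖ = R := by
            rw [norm_smul, norm_circleMap_zero, abs_of_pos hr, hrv]
          rw [this]; linarith
      _ = 2 * R := by ring
  -- formula for the directional derivative
  have hform : ∀ x ∈ ball p₀ R, fderiv ℂ F x v = (2 * Real.pi * I : ℂ)⁻¹ •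
      ∫ θ in (0:ℝ)..2 * Real.pi, (deriv (circleMap 0 r) θ * ((circleMap 0 r θ) ^ 2)⁻¹) •
        F (x + circleMap 0 r θ • v) := by
    intro x hx
    rw [fderiv_apply_eq_deriv (hFat x (ball_subset_ball (by linarith) hx))]
    have hcb : closedBall (0 : ℂ) r ⊆ {t | x + t • v ∈ ball p₀ (3 * R)} := by
      intro t ht
      rw [mem_closedBall_zero_iff] at ht
      rw [mem_ofPred_eq, mem_ball, dist_eq_norm]
      rw [mem_ball, dist_eq_norm] at hx
      have : x + t • v - p₀ = (x - p₀) + t • v := by abel
      rw [this]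
      calc ‖(x - p₀) + t • v‖ ≤ ‖x - p₀‖ + ‖t • v‖ := norm_add_le _ _
        _ ≤ ‖x - p₀‖ + r * ‖v‖ := by
            rw [norm_smul]; gcongr
        _ < R + R := by rw [hrv]; linarith
        _ ≤ 3 * R := by linarith
    have := Complex.two_pi_I_inv_smul_circleIntegral_sub_sq_inv_smul_of_differentiable
      (isOpen_line isOpen_ball x v) hcb
      (differentiableOn_line isOpen_ball (fun q hq => (hFat q hq).differentiableWithinAt) x v)
      (mem_ball_self hr)
    rw [← this, circleIntegral]
    simp only [sub_zero, smul_smul]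
  have hcontr : Continuous fun θ : ℝ => deriv (circleMap 0 r) θ * ((circleMap 0 r θ) ^ 2)⁻¹ := by
    simp only [deriv_circleMap]
    have hne : ∀ θ : ℝ, (circleMap 0 r θ) ^ 2 ≠ 0 := fun θ =>
      pow_ne_zero 2 (circleMap_ne_center hr.ne')
    fun_prop (disch := exact hne)
  have hcM : ∀ θ : ℝ, ‖deriv (circleMap 0 r) θ * ((circleMap 0 r θ) ^ 2)⁻¹‖ = r⁻¹ := by
    intro θ
    simp only [deriv_circleMap, norm_mul, norm_inv, norm_pow, norm_circleMap_zero, norm_I,
      abs_of_pos hr]
    field_simp
  have hmain : HasFDerivAt (fun x : E => ∫ θ in (0:ℝ)..2 * Real.pi,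
      (deriv (circleMap 0 r) θ * ((circleMap 0 r θ) ^ 2)⁻¹) • F (x + circleMap 0 r θ • v))
      (∫ θ in (0:ℝ)..2 * Real.pi, (deriv (circleMap 0 r) θ * ((circleMap 0 r θ) ^ 2)⁻¹) •
        fderiv ℂ F (p₀ + circleMap 0 r θ • v)) p₀ := by
    apply intervalIntegral.hasFDerivAt_integral_of_dominated_of_fderiv_le
      (F := fun (x : E) (θ : ℝ) =>
        (deriv (circleMap 0 r) θ * ((circleMap 0 r θ) ^ 2)⁻¹) • F (x + circleMap 0 r θ • v))
      (F' := fun (x : E) (θ : ℝ) =>
        (deriv (circleMap 0 r) θ * ((circleMap 0 r θ) ^ 2)⁻¹) •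
          fderiv ℂ F (x + circleMap 0 r θ • v))
      (s := ball p₀ R) (bound := fun _ => r⁻¹ * (2 * M / R)) (ball_mem_nhds p₀ hR)
    · filter_upwards [ball_mem_nhds p₀ hR] with x hx
      apply Continuous.aestronglyMeasurable
      refine hcontr.smul ?_
      apply hF.continuousOn.comp_continuous (by fun_prop)
      intro θ
      exact hsub (ball_subset_closedBall (ball_subset_ball (by linarith) (hmem x hx θ)))
    · apply Continuous.intervalIntegrable
      refine hcontr.smul ?_
      apply hF.continuousOn.comp_continuous (by fun_prop)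
      intro θ
      exact hsub (ball_subset_closedBall (ball_subset_ball (by linarith)
        (hmem p₀ (mem_ball_self hR) θ)))
    · apply AEStronglyMeasurable.smul hcontr.aestronglyMeasurable
      borelize E
      apply Measurable.aestronglyMeasurable
      exact (measurable_fderiv ℂ F).comp (by fun_prop : Continuous fun θ : ℝ =>
        p₀ + circleMap 0 r θ • v).measurable
    · refine Filter.Eventually.of_forall fun θ _ x hx => ?_
      rw [norm_smul, hcM]
      gcongr
      have hx2 := hmem x hx θ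
      apply norm_fderiv_le hR
      · intro q hq
        apply (hFat q _).differentiableWithinAt
        rw [mem_ball] at hq hx2 ⊢
        calc dist q p₀ ≤ dist q (x + circleMap 0 r θ • v) + dist (x + circleMap 0 r θ • v) p₀ :=
              dist_triangle _ _ _
          _ < 3 * R := by linarith
      · intro q hq
        apply hM
        rw [mem_ball] at hq hx2
        rw [mem_closedBall]
        calc dist q p₀ ≤ dist q (x + circleMap 0 r θ • v) + dist (x + circleMap 0 r θ • v) p₀ :=
              dist_triangle _ _ _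
          _ ≤ 3 * R := by linarith
    · exact intervalIntegrable_const
    · refine Filter.Eventually.of_forall fun θ _ x hx => ?_
      have hd := (hFat _ (ball_subset_ball (by linarith) (hmem x hx θ))).hasFDerivAt
      have h2 : HasFDerivAt (fun x : E => x + circleMap 0 r θ • v)
          (ContinuousLinearMap.id ℂ E) x := (hasFDerivAt_id x).add_const _
      have h3 := (hd.comp x h2).const_smul
        (deriv (circleMap 0 r) θ * ((circleMap 0 r θ) ^ 2)⁻¹)
      rw [ContinuousLinearMap.comp_id] at h3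
      exact h3
  have h4 : DifferentiableAt ℂ (fun x : E => (2 * Real.pi * I : ℂ)⁻¹ •
      ∫ θ in (0:ℝ)..2 * Real.pi, (deriv (circleMap 0 r) θ * ((circleMap 0 r θ) ^ 2)⁻¹) •
        F (x + circleMap 0 r θ • v)) p₀ := by
    have := hmain.differentiableAt.const_smul ((2 * Real.pi * I : ℂ)⁻¹)
    exact this
  refine h4.congr_of_eventuallyEq ?_
  filter_upwards [ball_mem_nhds p₀ hR] with x hx
  exact hform x hx

theorem differentiableOn_fderiv_apply [FiniteDimensional ℂ E] {F : E → ℂ} {U : Set E}
    (hU : IsOpen U) (hF : DifferentiableOn ℂ F U) (v : E) :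
    DifferentiableOn ℂ (fun p => fderiv ℂ F p v) U := fun _ hp =>
  (differentiableAt_fderiv_apply hU hF v hp).differentiableWithinAt

/-- One-variable identity theorem along a line inside a convex open set. -/
theorem eq_zero_of_convex {F : E → ℂ} {B : Set E} (hB : IsOpen B) (hBc : Convex ℝ B)
    (hF : DifferentiableOn ℂ F B) {p : E} (hp : p ∈ B) (h0 : ∀ᶠ q in 𝓝 p, F q = 0)
    {x : E} (hx : x ∈ B) : F x = 0 := by
  set T : Set ℂ := {t | p + t • (x - p) ∈ B} with hT
  have hTo : IsOpen T := isOpen_line hB p (x - p)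
  have hTc : Convex ℝ T := by
    intro s hs t ht a b ha hb hab
    have : p + (a • s + b • t) • (x - p) = a • (p + s • (x - p)) + b • (p + t • (x - p)) := by
      have hab' : (a : ℝ) • p + (b : ℝ) • p = p := by rw [← add_smul, hab, one_smul]
      rw [smul_add, smul_add, add_smul, smul_assoc, smul_assoc]
      nth_rewrite 1 [← hab']
      abel
    rw [hT, mem_ofPred_eq, this]
    exact hBc hs ht ha hb hab
  have hg : DifferentiableOn ℂ (fun t : ℂ => F (p + t • (x - p))) T :=
    differentiableOn_line hB hF p (x - p)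
  have han : AnalyticOnNhd ℂ (fun t : ℂ => F (p + t • (x - p))) T := hg.analyticOnNhd hTo
  have h0T : (0 : ℂ) ∈ T := by simpa [hT] using hp
  have h1T : (1 : ℂ) ∈ T := by simpa [hT] using hx
  have hev : (fun t : ℂ => F (p + t • (x - p))) =ᶠ[𝓝 0] 0 := by
    have hc : Tendsto (fun t : ℂ => p + t • (x - p)) (𝓝 0) (𝓝 p) := by
      have : Continuous (fun t : ℂ => p + t • (x - p)) := by fun_prop
      simpa using this.tendsto 0
    exact hc.eventually h0
  have := han.eqOn_zero_of_preconnected_of_eventuallyEq_zero hTc.isPreconnected h0T hev h1T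
  simpa using this

/-- Identity theorem on a preconnected open set. -/
theorem eqOn_zero_of_preconnected {F : E → ℂ} {U : Set E} (hU : IsOpen U)
    (hUc : IsPreconnected U) (hF : DifferentiableOn ℂ F U) {p : E} (hp : p ∈ U)
    (h0 : ∀ᶠ q in 𝓝 p, F q = 0) {x : E} (hx : x ∈ U) : F x = 0 := by
  set W : Set E := {q | ∀ᶠ y in 𝓝 q, F y = 0} with hW
  have hWo : IsOpen W := by
    rw [hW]
    exact isOpen_setOfPred_eventually_nhds
  have hcl : ∀ q ∈ U, q ∈ closure W → q ∈ W := by
    intro q hq hqc
    obtain ⟨r, hr, hball⟩ := Metric.isOpen_iff.1 hU q hq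
    obtain ⟨y, hyW, hyd⟩ := Metric.mem_closure_iff.1 hqc r hr
    have hyb : y ∈ ball q r := by rwa [mem_ball, dist_comm]
    rw [hW, mem_ofPred_eq]
    filter_upwards [ball_mem_nhds q hr] with x hx
    exact eq_zero_of_convex isOpen_ball (convex_ball q r) (hF.mono hball) hyb hyW hx
  have hsub : U ⊆ W := hUc.subset_of_closure_inter_subset hWo ⟨p, hp, h0⟩
    (fun q hq => hcl q hq.2 hq.1)
  exact (hsub hx).self_of_nhds

theorem eqOn_of_preconnected {F G : E → ℂ} {U : Set E} (hU : IsOpen U)
    (hUc : IsPreconnected U) (hF : DifferentiableOn ℂ F U) (hG : DifferentiableOn ℂ G U)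
    {p : E} (hp : p ∈ U) (h0 : ∀ᶠ q in 𝓝 p, F q = G q) {x : E} (hx : x ∈ U) : F x = G x := by
  have := eqOn_zero_of_preconnected (F := fun q => F q - G q) hU hUc (hF.sub hG) hp
    (by filter_upwards [h0] with q hq; rw [hq, sub_self]) hx
  exact sub_eq_zero.1 this

end Crest.Agent.R245.Hol
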