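import Crest.Agent.R245.DiffeoU
import Crest.Agent.R245.Hol

/-! TASK Liouville: bounded holomorphic functions on `U` are constant. -/

set_option autoImplicit false

namespace Crest.Agent.R245

open Complex Filter Topology Metric Set
open scoped ContDiff ComplexConjugate

/-- the direction of the fibre coordinate of chart `k` -/
noncomputable def dirk (k : ℤ) : V3 := ![0, 2 * I * conj (cS k), 1]

theorem gk_line (k : ℤ) (b : B2) (t : ℂ) : gk k (b, t) = gk k (b, 0) + t • dirk k := by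
  ext i
  fin_cases i
  · simp [gk, dirk]
  · simp [gk, dirk]; ring
  · simp [gk, dirk]; ring

theorem gk_zero_mem (b : Bulge) (k : ℤ) {p : B2} (hp : p ∈ Dom) : gk k (p, 0) ∈ Udom b.φ := by
  apply std_subset
  rw [rho3_gk]
  have : 0 < rho p := hp
  simpa using this

theorem kk_gk (k : ℤ) (y : B2 × ℂ) (h : ‖y.1.1‖ < 1 / 4) : kk (gk k y) = k := by
  have h1 : |y.1.1.re| < 1 / 4 := lt_of_le_of_lt (Complex.abs_re_le_norm _) h
  have h2 : (gk k y 0).re = y.1.1.re + k := by simp [gk]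
  rw [kk, h2, round_add_intCast]
  have : round y.1.1.re = 0 := by
    rw [round_eq_zero_iff, mem_Ico]
    rw [abs_lt] at h1
    constructor <;> linarith
  rw [this, zero_add]

theorem gk_mem_of_lt (b : Bulge) (k : ℤ) {p : B2} (hp : p ∈ Dom) (hz : ‖p.1‖ < 1 / 4) {t : ℂ}
    (ht : Real.exp (b.φ p) * ‖t‖ ^ 2 < 1) : gk k (p, t) ∈ Udom b.φ := by
  show gki (kk (gk k (p, t))) (gk k (p, t)) ∈ HartD b.φ
  rw [kk_gk k (p, t) hz, gki_gk]
  exact ⟨hp, ht⟩

theorem differentiable_gk_zero (k : ℤ) : Differentiable ℂ (fun p : B2 => gk k (p, 0)) := by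
  rw [differentiable_pi]
  intro i
  fin_cases i
  · simp [gk]
  · simp [gk]
  · simp [gk]

/-- vanishing of the fibre derivative on the slice `ζ = c_k` -/
theorem slice_vanish (b : Bulge) {f : V3 → ℂ} (hf : DifferentiableOn ℂ f (Udom b.φ))
    (hb : Bornology.IsBounded (f '' Udom b.φ)) (k : ℤ) {p : B2} (hp : p ∈ Dom) :
    fderiv ℂ f (gk k (p, 0)) (dirk k) = 0 := by
  obtain ⟨M, hM⟩ := hb.exists_norm_le
  have hM' : ∀ q ∈ Udom b.φ, ‖f q‖ ≤ M := fun q hq => hM _ (mem_image_of_mem f hq)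
  have hUo := isOpen_Udom b
  refine b.vanish (fun p => fderiv ℂ f (gk k (p, 0)) (dirk k)) ?_ (2 * M) ?_ p hp
  · exact (Hol.differentiableOn_fderiv_apply hUo hf (dirk k)).comp
      (differentiable_gk_zero k).differentiableOn (fun q hq => gk_zero_mem b k hq)
  · intro q hq hz
    have hmem := gk_zero_mem b k hq
    rw [Hol.fderiv_apply_eq_deriv ((hf _ hmem).differentiableAt (hUo.mem_nhds hmem))]
    set r : ℝ := Real.exp (-(b.φ q) / 2) / 2 with hr
    have hrpos : 0 < r := by positivity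
    have hin : ∀ t : ℂ, ‖t‖ ≤ r → gk k (q, 0) + t • dirk k ∈ Udom b.φ := by
      intro t ht
      rw [← gk_line]
      apply gk_mem_of_lt b k hq hz
      calc Real.exp (b.φ q) * ‖t‖ ^ 2 ≤ Real.exp (b.φ q) * r ^ 2 := by gcongr
        _ = 1 / 4 := by
            rw [hr, div_pow, ← Real.exp_nat_mul]
            push_cast
            rw [show (2 : ℝ) * (-(b.φ q) / 2) = -(b.φ q) by ring, ← mul_div_assoc, ← Real.exp_add]
            simp
            norm_num
        _ < 1 := by norm_num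
    have h1 : ‖deriv (fun t : ℂ => f (gk k (q, 0) + t • dirk k)) 0‖ ≤ M / r := by
      apply Complex.norm_deriv_le_of_forall_mem_sphere_norm_le hrpos
      · apply DifferentiableOn.diffContOnCl
        apply (Hol.differentiableOn_line hUo hf _ _).mono
        intro t ht
        apply hin
        simpa using closure_ball_subset_closedBall ht
      · intro t ht
        apply hM'
        apply hin
        rw [mem_sphere_zero_iff_norm] at ht
        exact ht.le
    refine h1.trans (le_of_eq ?_)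
    rw [hr]
    have : Real.exp (-(b.φ q) / 2) = (Real.exp (b.φ q / 2))⁻¹ := by
      rw [← Real.exp_neg]; congr 1; ring
    rw [this]
    field_simp

theorem slice_vanish' (b : Bulge) {f : V3 → ℂ} (hf : DifferentiableOn ℂ f (Udom b.φ))
    (hb : Bornology.IsBounded (f '' Udom b.φ)) (k : ℤ) {x : V3} (hx : 0 < rho3 x)
    (h2 : x 2 = cS k) : fderiv ℂ f x (dirk k) = 0 := by
  have h3 : (gki k x).2 = 0 := by simp [gki, h2]
  have h4 : gk k ((gki k x).1, 0) = x := by
    have := gk_gki k x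
    rw [← h3]; exact this
  have h5 : (gki k x).1 ∈ Dom := by
    have := rho3_gk k ((gki k x).1, 0)
    rw [h4] at this
    show 0 < rho (gki k x).1
    have h6 : rho3 x = rho (gki k x).1 := by simpa using this
    rw [← h6]; exact hx
  have := slice_vanish b hf hb k h5
  rwa [h4] at this

theorem isOpen_std : IsOpen {x : V3 | 0 < rho3 x} := by
  apply isOpen_lt continuous_const
  unfold rho3
  fun_prop

/-- two points of the standard domain over the same `x 0`, in the `(w,ζ)`-direction -/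
theorem dir_zero (b : Bulge) {f : V3 → ℂ} (hf : DifferentiableOn ℂ f (Udom b.φ))
    (hb : Bornology.IsBounded (f '' Udom b.φ)) {x : V3} (hx : 0 < rho3 x) :
    fderiv ℂ f x ![0, 1, 0] = 0 ∧ fderiv ℂ f x ![0, 0, 1] = 0 := by
  have hUo := isOpen_Udom b
  set R2 : ℝ := (x 1).im - ‖x 0‖ ^ 2 with hR2
  have hR2pos : 0 < R2 := by
    have : 0 < (x 1).im - ‖x 0‖ ^ 2 - ‖x 2‖ ^ 2 := hx
    have h2 : 0 ≤ ‖x 2‖ ^ 2 := by positivity
    rw [hR2]; linarith
  set R : ℝ := Real.sqrt R2 with hR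
  have hRpos : 0 < R := Real.sqrt_pos.2 hR2pos
  have hRsq : R ^ 2 = R2 := Real.sq_sqrt hR2pos.le
  let P : ℂ → V3 := fun ζ => ![x 0, x 1, ζ]
  have hP : ∀ ζ : ℂ, ‖ζ‖ < R → 0 < rho3 (P ζ) := by
    intro ζ hζ
    have : ‖ζ‖ ^ 2 < R ^ 2 := by gcongr
    show 0 < (x 1).im - ‖x 0‖ ^ 2 - ‖ζ‖ ^ 2
    rw [hRsq, hR2] at this
    linarith
  have hPd : Differentiable ℂ P := by
    rw [differentiable_pi]
    intro i
    fin_cases i
    · simp [P]
    · simp [P]
    · simp [P]
  have hin : MapsTo P (ball 0 R) (Udom b.φ) := by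
    intro ζ hζ
    exact std_subset b (hP ζ (by simpa using hζ))
  have hd : ∀ v : V3, DifferentiableOn ℂ (fun ζ => fderiv ℂ f (P ζ) v) (ball 0 R) := fun v =>
    (Hol.differentiableOn_fderiv_apply hUo hf v).comp hPd.differentiableOn hin
  -- the two combinations
  have hcomb : ∀ (s : ℂ) (c : ℕ → ℂ), Tendsto c atTop (𝓝 0) → (∀ n, c n ≠ 0) →
      (∀ n, ‖c n‖ < R → fderiv ℂ f (P (c n)) ![0, 0, 1]
        + s * c n * fderiv ℂ f (P (c n)) ![0, 1, 0] = 0) →
      ∀ ζ ∈ ball (0 : ℂ) R, fderiv ℂ f (P ζ) ![0, 0, 1]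
        + s * ζ * fderiv ℂ f (P ζ) ![0, 1, 0] = 0 := by
    intro s c hc hc0 hz ζ hζ
    have hg : DifferentiableOn ℂ (fun ζ => fderiv ℂ f (P ζ) ![0, 0, 1]
        + s * ζ * fderiv ℂ f (P ζ) ![0, 1, 0]) (ball 0 R) := by
      apply (hd _).add
      exact (by fun_prop : DifferentiableOn ℂ (fun ζ : ℂ => s * ζ) (ball 0 R)).mul (hd _)
    have han := hg.analyticOnNhd isOpen_ball
    have hfreq : ∃ᶠ ζ in 𝓝[≠] (0 : ℂ), fderiv ℂ f (P ζ) ![0, 0, 1]
        + s * ζ * fderiv ℂ f (P ζ) ![0, 1, 0] = 0 := by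
      have htend : Tendsto c atTop (𝓝[≠] 0) := tendsto_nhdsWithin_iff.2
        ⟨hc, Filter.Eventually.of_forall fun n => hc0 n⟩
      apply htend.frequently
      apply Eventually.frequently
      have : ∀ᶠ n in atTop, ‖c n‖ < R := by
        have := hc.norm
        rw [norm_zero] at this
        exact this.eventually_lt_const hRpos
      filter_upwards [this] with n hn
      exact hz n hn
    exact han.eqOn_zero_of_preconnected_of_frequently_eq_zero
      (convex_ball 0 R).isPreconnected (mem_ball_self hRpos) hfreq hζ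
  have hdirk : ∀ k : ℤ, (dirk k : V3) = (2 * I * conj (cS k)) • ![0, 1, 0] + ![0, 0, 1] := by
    intro k
    ext i
    fin_cases i
    · simp [dirk]
    · simp [dirk]
    · simp [dirk]
  have hsl : ∀ k : ℤ, ‖cS k‖ < R → fderiv ℂ f (P (cS k)) ![0, 0, 1]
      + 2 * I * conj (cS k) * fderiv ℂ f (P (cS k)) ![0, 1, 0] = 0 := by
    intro k hk
    have := slice_vanish' b hf hb k (hP _ hk) rfl
    rw [hdirk, map_add, map_smul, smul_eq_mul] at this
    rw [add_comm]; exact this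
  have hreal : ∀ ζ ∈ ball (0 : ℂ) R, fderiv ℂ f (P ζ) ![0, 0, 1]
        + (2 * I) * ζ * fderiv ℂ f (P ζ) ![0, 1, 0] = 0 := by
    apply hcomb (2 * I) (fun n : ℕ => cS ((n : ℤ) + 1))
    · have : (fun n : ℕ => cS ((n : ℤ) + 1)) = fun n : ℕ => (((1 / ((n : ℝ) + 1) : ℝ)) : ℂ) := by
        funext n
        have hpos : (0 : ℤ) < (n : ℤ) + 1 := by positivity
        simp [cS, hpos]
      rw [this]
      have h1 := tendsto_one_div_add_atTop_nhds_zero_nat (𝕜 := ℝ)
      have := (Complex.continuous_ofReal.tendsto 0).comp h1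
      simpa [Function.comp_def] using this
    · intro n
      have hpos : (0 : ℤ) < (n : ℤ) + 1 := by positivity
      have h0 : ((n : ℂ) + 1) ≠ 0 := by exact_mod_cast Nat.succ_ne_zero n
      simp [cS, hpos, h0]
    · intro n hn
      have := hsl _ hn
      have hpos : (0 : ℤ) < (n : ℤ) + 1 := by positivity
      have hc : conj (cS ((n : ℤ) + 1)) = cS ((n : ℤ) + 1) := by
        simp [cS, hpos]
      rwa [hc] at this
  have himag : ∀ ζ ∈ ball (0 : ℂ) R, fderiv ℂ f (P ζ) ![0, 0, 1]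
        + (-(2 * I)) * ζ * fderiv ℂ f (P ζ) ![0, 1, 0] = 0 := by
    apply hcomb (-(2 * I)) (fun n : ℕ => cS (-((n : ℤ) + 1)))
    · have : (fun n : ℕ => cS (-((n : ℤ) + 1))) =
          fun n : ℕ => I * (((1 / ((n : ℝ) + 1) : ℝ)) : ℂ) := by
        funext n
        have hneg : ¬ (0 : ℤ) < -((n : ℤ) + 1) := by
          have : (0 : ℤ) ≤ n := by positivity
          omega
        have hneg2 : -((n : ℤ) + 1) < 0 := by
          have : (0 : ℤ) ≤ n := by positivity
          omega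
        rw [cS, if_neg hneg, if_pos hneg2]
        simp
      rw [this]
      have h1 := tendsto_one_div_add_atTop_nhds_zero_nat (𝕜 := ℝ)
      have := ((Complex.continuous_ofReal.tendsto 0).comp h1).const_mul I
      simpa [Function.comp_def] using this
    · intro n
      have hneg : ¬ (0 : ℤ) < -((n : ℤ) + 1) := by
        have : (0 : ℤ) ≤ n := by positivity
        omega
      have hneg2 : -((n : ℤ) + 1) < 0 := by
        have : (0 : ℤ) ≤ n := by positivity
        omega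
      have h0 : ((n : ℂ) + 1) ≠ 0 := by exact_mod_cast Nat.succ_ne_zero n
      rw [cS, if_neg hneg, if_pos hneg2]
      simp [h0]
    · intro n hn
      have := hsl _ hn
      have hneg : ¬ (0 : ℤ) < -((n : ℤ) + 1) := by
        have : (0 : ℤ) ≤ n := by positivity
        omega
      have hneg2 : -((n : ℤ) + 1) < 0 := by
        have : (0 : ℤ) ≤ n := by positivity
        omega
      have hc : conj (cS (-((n : ℤ) + 1))) = - cS (-((n : ℤ) + 1)) := by
        rw [cS, if_neg hneg, if_pos hneg2, map_mul, conj_I, conj_ofReal]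
        ring
      rw [hc] at this
      linear_combination this
  have hboth : ∀ ζ ∈ ball (0 : ℂ) R, fderiv ℂ f (P ζ) ![0, 0, 1] = 0 ∧
      (ζ ≠ 0 → fderiv ℂ f (P ζ) ![0, 1, 0] = 0) := by
    intro ζ hζ
    have h1 := hreal ζ hζ
    have h2 := himag ζ hζ
    constructor
    · linear_combination (1 / 2 : ℂ) * h1 + (1 / 2 : ℂ) * h2
    · intro hne
      have h3 : (4 * I * ζ) * fderiv ℂ f (P ζ) ![0, 1, 0] = 0 := by
        linear_combination h1 - h2
      have h4 : (4 * I * ζ) ≠ 0 := by simp [hne]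
      exact (mul_eq_zero.1 h3).resolve_left h4
  have hw : ∀ ζ ∈ ball (0 : ℂ) R, fderiv ℂ f (P ζ) ![0, 1, 0] = 0 := by
    intro ζ hζ
    have han := (hd ![0, 1, 0]).analyticOnNhd isOpen_ball
    have hfreq : ∃ᶠ ζ in 𝓝[≠] (0 : ℂ), fderiv ℂ f (P ζ) ![0, 1, 0] = 0 := by
      apply Eventually.frequently
      have h1 : ∀ᶠ ζ in 𝓝[≠] (0 : ℂ), ζ ∈ ball (0 : ℂ) R :=
        mem_nhdsWithin_of_mem_nhds (ball_mem_nhds 0 hRpos)
      filter_upwards [h1, self_mem_nhdsWithin] with ζ hζ1 hζ2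
      exact (hboth ζ hζ1).2 hζ2
    exact han.eqOn_zero_of_preconnected_of_frequently_eq_zero
      (convex_ball 0 R).isPreconnected (mem_ball_self hRpos) hfreq hζ
  have hPx : P (x 2) = x := by
    ext i
    fin_cases i <;> simp [P]
  have hx2 : x 2 ∈ ball (0 : ℂ) R := by
    rw [mem_ball_zero_iff]
    apply lt_of_pow_lt_pow_left₀ 2 hRpos.le
    rw [hRsq, hR2]
    have : 0 < (x 1).im - ‖x 0‖ ^ 2 - ‖x 2‖ ^ 2 := hx
    linarith
  have h1 := hw _ hx2
  have h2 := (hboth _ hx2).1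
  rw [hPx] at h1 h2
  exact ⟨h1, h2⟩

theorem liouville_U (b : Bulge) (f : V3 → ℂ) (hf : DifferentiableOn ℂ f (Udom b.φ))
    (hb : Bornology.IsBounded (f '' Udom b.φ)) :
    ∀ p ∈ Udom b.φ, ∀ q ∈ Udom b.φ, f p = f q := by
  have hUo := isOpen_Udom b
  obtain ⟨M, hM⟩ := hb.exists_norm_le
  have hM' : ∀ q ∈ Udom b.φ, ‖f q‖ ≤ M := fun q hq => hM _ (mem_image_of_mem f hq)
  -- constancy on the fibres of `x 0`
  have hfib : ∀ (z : ℂ) (w w' ζ ζ' : ℂ), ‖z‖ ^ 2 + ‖ζ‖ ^ 2 < w.im → ‖z‖ ^ 2 + ‖ζ'‖ ^ 2 < w'.im →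
      f ![z, w, ζ] = f ![z, w', ζ'] := by
    intro z w w' ζ ζ' h1 h2
    set Q : ℂ × ℂ → V3 := fun y => ![z, y.1, y.2] with hQ
    set W : Set (ℂ × ℂ) := {y | ‖z‖ ^ 2 + ‖y.2‖ ^ 2 < y.1.im} with hW
    have hWo : IsOpen W := by
      rw [hW]
      exact isOpen_lt (by fun_prop) (by fun_prop)
    have hWc : Convex ℝ W := by
      intro y hy y' hy' s t hs ht hst
      have h3 : ‖(s • y + t • y').2‖ ≤ s * ‖y.2‖ + t * ‖y'.2‖ := by
        calc ‖(s • y + t • y').2‖ = ‖s • y.2 + t • y'.2‖ := by simp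
          _ ≤ ‖s • y.2‖ + ‖t • y'.2‖ := norm_add_le _ _
          _ = s * ‖y.2‖ + t * ‖y'.2‖ := by
              rw [norm_smul, norm_smul, Real.norm_of_nonneg hs, Real.norm_of_nonneg ht]
      have h4 : ‖(s • y + t • y').2‖ ^ 2 ≤ s * ‖y.2‖ ^ 2 + t * ‖y'.2‖ ^ 2 := by
        calc ‖(s • y + t • y').2‖ ^ 2 ≤ (s * ‖y.2‖ + t * ‖y'.2‖) ^ 2 := by gcongr
          _ ≤ s * ‖y.2‖ ^ 2 + t * ‖y'.2‖ ^ 2 := by
              have ht' : t = 1 - s := by linarith
              subst ht'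
              nlinarith [mul_nonneg hs ht, sq_nonneg (‖y.2‖ - ‖y'.2‖)]
      have h5 : ((s • y + t • y').1).im = s * y.1.im + t * y'.1.im := by simp
      have h6 : ‖z‖ ^ 2 + ‖y.2‖ ^ 2 < y.1.im := hy
      have h7 : ‖z‖ ^ 2 + ‖y'.2‖ ^ 2 < y'.1.im := hy'
      show ‖z‖ ^ 2 + ‖(s • y + t • y').2‖ ^ 2 < ((s • y + t • y').1).im
      rw [h5]
      have h8 : s * (‖z‖ ^ 2 + ‖y.2‖ ^ 2) + t * (‖z‖ ^ 2 + ‖y'.2‖ ^ 2)
          < s * y.1.im + t * y'.1.im := by
        rcases eq_or_lt_of_le hs with hs0 | hs0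
        · have : t = 1 := by linarith
          subst this
          rw [← hs0]; linarith
        · have a1 : s * (‖z‖ ^ 2 + ‖y.2‖ ^ 2) < s * y.1.im := by gcongr
          have a2 : t * (‖z‖ ^ 2 + ‖y'.2‖ ^ 2) ≤ t * y'.1.im := by gcongr
          linarith
      have h9 : s * (‖z‖ ^ 2 + ‖y.2‖ ^ 2) + t * (‖z‖ ^ 2 + ‖y'.2‖ ^ 2)
          = ‖z‖ ^ 2 + (s * ‖y.2‖ ^ 2 + t * ‖y'.2‖ ^ 2) := by
        have ht' : t = 1 - s := by linarith
        subst ht'; ring
      linarith
    have hrho : ∀ y ∈ W, 0 < rho3 (Q y) := by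
      intro y hy
      have h6 : ‖z‖ ^ 2 + ‖y.2‖ ^ 2 < y.1.im := hy
      show 0 < y.1.im - ‖z‖ ^ 2 - ‖y.2‖ ^ 2
      linarith
    -- derivative of `f ∘ Q`
    let L : ℂ × ℂ →L[ℂ] V3 :=
      (ContinuousLinearMap.fst ℂ ℂ ℂ).smulRight (![0, 1, 0] : V3)
        + (ContinuousLinearMap.snd ℂ ℂ ℂ).smulRight (![0, 0, 1] : V3)
    have hQL : ∀ y, Q y = ![z, 0, 0] + L y := by
      intro y
      ext i
      fin_cases i <;> simp [Q, L]
    have hQd : ∀ y, HasFDerivAt Q L y := by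
      intro y
      have : Q = fun y => ![z, 0, 0] + L y := funext hQL
      rw [this]
      exact L.hasFDerivAt.const_add _
    have hder : ∀ y ∈ W, HasFDerivAt (fun y => f (Q y)) (0 : ℂ × ℂ →L[ℂ] ℂ) y := by
      intro y hy
      have hx := hrho y hy
      have hU := std_subset b hx
      have hfd := ((hf _ hU).differentiableAt (hUo.mem_nhds hU)).hasFDerivAt
      have h10 := hfd.comp y (hQd y)
      obtain ⟨e1, e2⟩ := dir_zero b hf hb hx
      have h11 : (fderiv ℂ f (Q y)).comp L = 0 := by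
        apply ContinuousLinearMap.ext
        intro v
        have hLv : L v = v.1 • (![0, 1, 0] : V3) + v.2 • (![0, 0, 1] : V3) := rfl
        rw [ContinuousLinearMap.comp_apply, hLv, map_add, map_smul, map_smul, e1, e2]
        simp
      rw [h11] at h10
      exact h10
    have hconst := hWc.is_const_of_fderivWithin_eq_zero (𝕜 := ℂ) (f := fun y => f (Q y))
      (fun y hy => (hder y hy).differentiableAt.differentiableWithinAt)
      (fun y hy => by
        rw [fderivWithin_of_isOpen hWo hy]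
        exact (hder y hy).fderiv)
      (show (w, ζ) ∈ W from h1) (show (w', ζ') ∈ W from h2)
    exact hconst
  have him : ∀ r : ℝ, ((r : ℂ) * I).im = r := fun r => by simp
  -- the entire function
  set g : ℂ → ℂ := fun z => f ![z, ((‖z‖ ^ 2 + 1 : ℝ) : ℂ) * I, 0] with hg
  have hgeq : ∀ (z w ζ : ℂ), ‖z‖ ^ 2 + ‖ζ‖ ^ 2 < w.im → f ![z, w, ζ] = g z := by
    intro z w ζ h
    apply hfib z w _ ζ 0 h
    rw [him]; simp
  have hgd : Differentiable ℂ g := by
    intro z₀
    have hev : g =ᶠ[𝓝 z₀] fun z => f ![z, ((‖z₀‖ ^ 2 + 1 : ℝ) : ℂ) * I, 0] := by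
      have : ∀ᶠ z in 𝓝 z₀, ‖z‖ ^ 2 < ‖z₀‖ ^ 2 + 1 := by
        have hc : Continuous fun z : ℂ => ‖z‖ ^ 2 := by fun_prop
        exact hc.continuousAt.eventually_lt_const (by linarith)
      filter_upwards [this] with z hz
      symm
      apply hgeq
      rw [him]
      simpa using hz
    apply DifferentiableAt.congr_of_eventuallyEq _ hev
    have hmem : (![z₀, ((‖z₀‖ ^ 2 + 1 : ℝ) : ℂ) * I, 0] : V3) ∈ Udom b.φ := by
      apply std_subset
      show 0 < (((‖z₀‖ ^ 2 + 1 : ℝ) : ℂ) * I).im - ‖z₀‖ ^ 2 - ‖(0 : ℂ)‖ ^ 2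
      rw [him]; simp
    have hfd : DifferentiableAt ℂ f ![z₀, ((‖z₀‖ ^ 2 + 1 : ℝ) : ℂ) * I, 0] :=
      (hf _ hmem).differentiableAt (hUo.mem_nhds hmem)
    have hline : DifferentiableAt ℂ
        (fun z : ℂ => (![z, ((‖z₀‖ ^ 2 + 1 : ℝ) : ℂ) * I, 0] : V3)) z₀ := by
      rw [differentiableAt_pi]
      intro i
      fin_cases i <;> simp
    exact hfd.comp z₀ hline
  have hgb : Bornology.IsBounded (range g) := by
    rw [isBounded_iff_forall_norm_le]
    refine ⟨M, ?_⟩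
    rintro _ ⟨z, rfl⟩
    apply hM'
    apply std_subset
    show 0 < (((‖z‖ ^ 2 + 1 : ℝ) : ℂ) * I).im - ‖z‖ ^ 2 - ‖(0 : ℂ)‖ ^ 2
    rw [him]; simp
  have hgc : ∀ z, g z = g 0 := fun z => hgd.apply_eq_apply_of_bounded hgb z 0
  have hp0 : (![0, I, 0] : V3) ∈ Udom b.φ := by
    apply std_subset
    simp [rho3]
  have hall : ∀ p ∈ Udom b.φ, f p = g 0 := by
    intro p hp
    refine Hol.eqOn_of_preconnected hUo (isConnected_U b).isPreconnected hf
      (differentiableOn_const _) hp0 ?_ hp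
    have : {x : V3 | 0 < rho3 x} ∈ 𝓝 (![0, I, 0] : V3) := by
      apply isOpen_std.mem_nhds
      simp [rho3]
    filter_upwards [this] with x hx
    have hxe : x = ![x 0, x 1, x 2] := by
      ext i
      fin_cases i <;> simp
    rw [hxe, hgeq _ _ _ _, hgc]
    have : 0 < (x 1).im - ‖x 0‖ ^ 2 - ‖x 2‖ ^ 2 := hx
    linarith
  intro p hp q hq
  rw [hall p hp, hall q hq]

end Crest.Agent.R245
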