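import Crest.Agent.R245.Metric
import Crest.Agent.R245.Complete
import Crest.Agent.R245.BulgeMake
import Crest.Agent.R245.Gradient
import Crest.Agent.R245.Liouville
import Crest.Agent.R245.Cusp

/-! Final assembly for row 245. -/

set_option autoImplicit false

namespace Crest.Agent.R245

open Complex Filter Topology
open scoped ContDiff ComplexConjugate
open Crest.GeometryTopology

theorem s0378 :
    ∃ U : Set (Fin 3 → ℂ), IsOpen U ∧ IsConnected U ∧ ContractibleSpace U ∧
      ∃ g : Crest.GeometryTopology.HermitianMetricOn 3 U, g.IsKahler ∧ g.IsComplete ∧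
        (∃ A B : ℝ, 0 < A ∧ A ≤ B ∧ ∀ p ∈ U, ∀ X Y : (Fin 3 → ℂ),
          g.riem p X X * g.riem p Y Y - g.riem p X Y ^ 2 ≠ 0 →
            -B ≤ g.sectional p X Y ∧ g.sectional p X Y ≤ -A) ∧
        ∀ F : (Fin 3 → ℂ) → (Fin 3 → ℂ), DifferentiableOn ℂ F U → Bornology.IsBounded (F '' U) →
          ∃ p ∈ U, (fderiv ℂ F p).det = 0 := by
  obtain ⟨b⟩ := exists_bulge
  have hopen := isOpen_Udom b
  obtain ⟨g, hK, hr, hs⟩ := metric_of_potential hopen (Ppot b.A b.φ) (Ppot_contDiffOn b)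
    (fun p hp => Ppot_PD b hp)
  obtain ⟨c, hc, B, hB⟩ := Ppot_KB b
  refine ⟨Udom b.φ, hopen, isConnected_U b, contractible_U b, g, hK, ?_, ?_, ?_⟩
  · obtain ⟨C, hC, hg⟩ := u0_grad b
    refine complete_of_proper hopen g (u0 b.φ) ((u0_contDiffOn b).of_le (by simp))
      (fun p hp => u0_nonneg b hp) C ?_ (u0_proper b) (curves_U b)
    intro p hp X
    rw [hr p hp X X]
    have h1 := hg p hp X
    have h2 := u0_nonneg b hp
    have h3 : 1 ≤ Real.sqrt (1 + u0 b.φ p) := by
      rw [Real.one_le_sqrt]; linarith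
    calc |fderiv ℝ (u0 b.φ) p X| ≤ C * Real.sqrt (D11 (Ppot b.A b.φ) X X p).re := h1
      _ = C * 1 * Real.sqrt (D11 (Ppot b.A b.φ) X X p).re := by ring
      _ ≤ C * Real.sqrt (1 + u0 b.φ p) * Real.sqrt (D11 (Ppot b.A b.φ) X X p).re := by
        gcongr
  · refine ⟨c, max B c, hc, le_max_right _ _, fun p hp X Y hXY => ?_⟩
    have := hs p hp c B (hB p hp) X Y hXY
    exact ⟨le_trans (neg_le_neg (le_max_left _ _)) this.1, this.2⟩
  · intro F hF hb
    obtain ⟨p, hp⟩ := (isConnected_U b).nonempty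
    refine ⟨p, hp, ?_⟩
    have hconst : ∀ q ∈ Udom b.φ, F q = F p := by
      intro q hq
      funext i
      have := liouville_U b (fun x => F x i)
        ((differentiableOn_pi.1 hF) i) (by
          have h2 : (fun x => F x i) '' Udom b.φ = (fun v : V3 => v i) '' (F '' Udom b.φ) := by
            rw [Set.image_image]
          rw [h2]
          exact (LipschitzWith.eval i).isBounded_image hb) q hq p hp
      exact this
    have hev : F =ᶠ[𝓝 p] fun _ => F p := by
      filter_upwards [hopen.mem_nhds hp] with q hq using hconst q hq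
    have : fderiv ℂ F p = 0 := by
      rw [hev.fderiv_eq]; simp
    rw [this]
    simp [ContinuousLinearMap.det]


/-- strict Cauchy–Schwarz for the real part of a positive definite `D11`. -/
theorem area_ne_zero_of_PD {P : V3 → ℝ} {p : V3} (hP : ContDiffAt ℝ ∞ P p) (hpd : PD P p)
    {X Y : V3} (hind : ∀ a b : ℂ, a • X + b • Y = 0 → a = 0) (hY : Y ≠ 0) :
    (D11 P X X p).re * (D11 P Y Y p).re - (D11 P X Y p).re ^ 2 ≠ 0 := by
  intro h0
  have hYY := hpd Y hY
  set a : ℝ := (D11 P X X p).re with ha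
  set d : ℝ := (D11 P Y Y p).re with hd
  set r : ℝ := (D11 P X Y p).re with hr
  have hsym : (D11 P Y X p).re = r := by
    rw [← D11_conj hP X Y, Complex.conj_re]
  set Z : V3 := (d : ℂ) • X + ((-r : ℝ) : ℂ) • Y with hZ
  have hZ0 : Z ≠ 0 := by
    intro hz
    have := hind _ _ hz
    have h2 : d = 0 := by exact_mod_cast this
    linarith
  have hZZ := hpd Z hZ0
  have hexp : D11 P Z Z p = (d : ℂ) * ((d : ℂ) * D11 P X X p) +
      ((-r : ℝ) : ℂ) * ((d : ℂ) * D11 P X Y p) + ((d : ℂ) * (((-r : ℝ) : ℂ) * D11 P Y X p) +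
      ((-r : ℝ) : ℂ) * (((-r : ℝ) : ℂ) * D11 P Y Y p)) := by
    rw [hZ, D11_add_left hP, D11_smul_left hP, D11_smul_left hP, D11_add_right hP,
      D11_add_right hP, D11_smul_right hP, D11_smul_right hP, D11_smul_right hP,
      D11_smul_right hP, Complex.conj_ofReal, Complex.conj_ofReal]
    ring
  have hre : (D11 P Z Z p).re = d * (a * d - r ^ 2) := by
    rw [hexp]
    simp only [Complex.add_re, Complex.re_ofReal_mul, hsym, ← ha, ← hd, ← hr]
    ring
  rw [hre, h0] at hZZ
  simp at hZZ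

theorem s0379 :
    ∃ m : ℕ, 2 ≤ m ∧ ∃ U : Set (Fin m → ℂ), IsOpen U ∧
      (∃ Φ Ψ : (Fin m → ℂ) → (Fin m → ℂ), ContDiff ℝ ∞ Φ ∧ ContDiffOn ℝ ∞ Ψ U ∧
        Set.range Φ = U ∧ ∀ x, Ψ (Φ x) = x) ∧
      ∃ g : Crest.GeometryTopology.HermitianMetricOn m U, g.IsKahler ∧ g.IsComplete ∧
        (∀ p ∈ U, ∀ X Y : (Fin m → ℂ), g.riem p X X * g.riem p Y Y - g.riem p X Y ^ 2 ≠ 0 →
          g.sectional p X Y ≤ -1) ∧
        (∀ B : ℝ, ∃ p ∈ U, ∃ X Y : (Fin m → ℂ),
          g.riem p X X * g.riem p Y Y - g.riem p X Y ^ 2 ≠ 0 ∧ g.sectional p X Y < B) ∧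
        ∀ f : (Fin m → ℂ) → ℂ, DifferentiableOn ℂ f U → Bornology.IsBounded (f '' U) →
          ∀ p ∈ U, ∀ q ∈ U, f p = f q := by
  obtain ⟨b⟩ := exists_bulge
  obtain ⟨β, hβs, hβ1, hβd, hβlow, hβlim, hβK⟩ := exists_beta
  have hopen := isOpen_Udom b
  obtain ⟨c, hc, B, hB⟩ := Ppot_KB b
  set P : V3 → ℝ := Ppot b.A b.φ with hPdef
  have hPs : ContDiffOn ℝ ∞ P (Udom b.φ) := Ppot_contDiffOn b
  -- lower curvature constant
  set c₀ : ℝ := min c (1/2) with hc₀
  have hc₀pos : 0 < c₀ := lt_min hc (by norm_num)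
  -- the potential
  set Q : V3 → ℝ := fun x => β (P x) with hQ
  have hQs : ContDiffOn ℝ ∞ Q (Udom b.φ) := hβs.comp_contDiffOn hPs
  have hQat : ∀ p ∈ Udom b.φ, ContDiffAt ℝ ∞ Q p := fun p hp => hQs.contDiffAt (hopen.mem_nhds hp)
  have hPat : ∀ p ∈ Udom b.φ, ContDiffAt ℝ ∞ P p := fun p hp => hPs.contDiffAt (hopen.mem_nhds hp)
  -- local dichotomy
  have hdich : ∀ p ∈ Udom b.φ, (Q =ᶠ[𝓝 p] P) ∨ (P p < 0 ∧ 0 < rho3 p ∧ P =ᶠ[𝓝 p] a3 ∧
      Q =ᶠ[𝓝 p] fun q => β (a3 q)) := by
    intro p hp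
    rcases lt_or_ge (P p) 0 with h | h
    · right
      obtain ⟨h1, h2⟩ := Ppot_neg b hp h
      refine ⟨h, h1, h2, ?_⟩
      filter_upwards [h2] with q hq
      simp only [hQ]; rw [← hq]
    · left
      have : ∀ᶠ q in 𝓝 p, -1 < P q :=
        (hPat p hp).continuousAt.eventually_const_lt (by linarith)
      filter_upwards [this] with q hq
      simp only [hQ]; exact hβ1 _ hq.le
  have hQlow : ∀ p ∈ Udom b.φ, ∀ X, (1 / (2 * (1 + u0 b.φ p))) * (D11 P X X p).re
      ≤ (D11 Q X X p).re := by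
    intro p hp X
    have hu := u0_nonneg b hp
    rcases hdich p hp with h | ⟨h0, h1, h2, h3⟩
    · rw [D11_congr h]
      have hn : 0 ≤ (D11 P X X p).re := by
        by_cases hX : X = 0
        · subst hX
          have := D11_smul_left (hPat p hp) 0 (0 : V3) (0 : V3)
          simp at this; simp [this]
        · exact (Ppot_PD b hp X hX).le
      have : 1 / (2 * (1 + u0 b.φ p)) ≤ 1 := by
        rw [div_le_one (by positivity)]; linarith
      nlinarith
    · rw [D11_congr h3, D11_congr h2]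
      have h4 := (hβK p h1).2 X
      have hn : 0 ≤ (D11 a3 X X p).re := by
        have := a3_grad p h1 X
        exact le_trans (by positivity) this
      refine le_trans ?_ h4
      have h5 : 1 / (2 * (1 + u0 b.φ p)) ≤ (1/2) * deriv β (a3 p) := by
        have h6 := hβlow (a3 p)
        have h7 : |a3 p| ≤ u0 b.φ p := by
          have h8 := neg_Ppot_le_u0 b hp
          have h9 : P p = a3 p := h2.self_of_nhds
          rw [← h9, abs_of_neg h0]; exact h8
        have h10 : 1 / (1 + u0 b.φ p) ≤ 1 / (1 + |a3 p|) := by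
          apply one_div_le_one_div_of_le (by positivity); linarith
        have h11 : 1 / (2 * (1 + u0 b.φ p)) = (1/2) * (1 / (1 + u0 b.φ p)) := by
          field_simp
        rw [h11]; linarith
      nlinarith
  have hQpd : ∀ p ∈ Udom b.φ, PD Q p := by
    intro p hp X hX
    have h1 := hQlow p hp X
    have h2 := Ppot_PD b hp X hX
    have hu := u0_nonneg b hp
    have : 0 < (1 / (2 * (1 + u0 b.φ p))) * (D11 P X X p).re := by
      apply mul_pos _ h2; positivity
    linarith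
  -- scaled potential
  set R : V3 → ℝ := fun x => c₀ * Q x with hR
  have hRs : ContDiffOn ℝ ∞ R (Udom b.φ) := contDiffOn_const.mul hQs
  have hRpd : ∀ p ∈ Udom b.φ, PD R p := fun p hp => PD_const_mul (hQat p hp) hc₀pos (hQpd p hp)
  obtain ⟨g, hK, hr, hs⟩ := metric_of_potential hopen R hRs hRpd
  have hKBQ : ∀ p ∈ Udom b.φ, ∃ B', KB Q p c₀ B' := by
    intro p hp
    rcases hdich p hp with h | ⟨h0, h1, h2, h3⟩
    · refine ⟨B, ?_⟩
      rw [KB_congr h]
      exact KB_mono (hPat p hp) (Ppot_PD b hp) (min_le_left _ _) le_rfl (hB p hp)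
    · refine ⟨5 / deriv β (a3 p), ?_⟩
      have h4 := (hβK p h1).1
      rw [← KB_congr h3] at h4
      refine KB_mono (hQat p hp) (hQpd p hp) ?_ le_rfl h4
      have h5 := hβd (a3 p)
      refine le_trans (min_le_right _ _) ?_
      rw [div_le_div_iff₀ (by norm_num) (by linarith [h5.1])]
      linarith [h5.2]
  refine ⟨3, by norm_num, Udom b.φ, hopen, diffeo b, g, hK, ?_, ?_, ?_, liouville_U b⟩
  · obtain ⟨C, hC, hg⟩ := u0_grad b
    refine complete_of_proper hopen g (u0 b.φ) ((u0_contDiffOn b).of_le (by simp))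
      (fun p hp => u0_nonneg b hp) (C * Real.sqrt (2 / c₀)) ?_ (u0_proper b) (curves_U b)
    intro p hp X
    rw [hr p hp X X]
    have h1 := hg p hp X
    have h2 := u0_nonneg b hp
    have h3 := hQlow p hp X
    have h4 : D11 R X X p = c₀ * D11 Q X X p := D11_const_mul (hQat p hp) c₀ X X
    have h5 : (D11 R X X p).re = c₀ * (D11 Q X X p).re := by rw [h4]; simp
    have h6 : (D11 P X X p).re ≤ 2 / c₀ * (1 + u0 b.φ p) * (D11 R X X p).re := by
      rw [h5]
      have h7 : (D11 P X X p).re = 2 * (1 + u0 b.φ p) *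
          ((1 / (2 * (1 + u0 b.φ p))) * (D11 P X X p).re) := by field_simp
      have h8 : 2 / c₀ * (1 + u0 b.φ p) * (c₀ * (D11 Q X X p).re)
          = 2 * (1 + u0 b.φ p) * (D11 Q X X p).re := by field_simp
      rw [h7, h8]
      apply mul_le_mul_of_nonneg_left h3 (by positivity)
    calc |fderiv ℝ (u0 b.φ) p X| ≤ C * Real.sqrt (D11 P X X p).re := h1
      _ ≤ C * Real.sqrt (2 / c₀ * (1 + u0 b.φ p) * (D11 R X X p).re) := by
        gcongr
      _ = C * Real.sqrt (2 / c₀) * Real.sqrt (1 + u0 b.φ p) * Real.sqrt (D11 R X X p).re := by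
        rw [Real.sqrt_mul (by positivity), Real.sqrt_mul (by positivity)]; ring
  · intro p hp X Y hXY
    obtain ⟨B', hB'⟩ := hKBQ p hp
    have h1 := KB_const_mul (hQat p hp) hc₀pos hB'
    have h2 := (hs p hp _ _ h1 X Y hXY).2
    rwa [div_self hc₀pos.ne'] at h2
  · intro B₁
    -- go deep into the cusp
    have hlim := hβlim
    have hM : ∃ t : ℝ, 1 < t ∧ deriv β (-Real.log t) < 1 / (2 * c₀ * (|B₁| + 1)) := by
      have h1 : Tendsto (fun t : ℝ => -Real.log t) atTop atBot :=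
        tendsto_neg_atTop_atBot.comp Real.tendsto_log_atTop
      have h2 := (hβlim.comp h1).eventually_lt_const
        (show (0:ℝ) < 1 / (2 * c₀ * (|B₁| + 1)) by positivity)
      obtain ⟨t, ht1, ht2⟩ := (h2.and (eventually_gt_atTop 1)).exists
      exact ⟨t, ht2, ht1⟩
    obtain ⟨t, ht1, ht2⟩ := hM
    obtain ⟨hmem, hval⟩ := Ppot_cusp b t ht1
    set x : V3 := ![0, (t : ℂ) * I, 0] with hx
    have hneg : P x < 0 := by
      rw [hPdef, hval]; have := Real.log_pos ht1; linarith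
    obtain ⟨h1, h2⟩ := Ppot_neg b hmem hneg
    have h3 : Q =ᶠ[𝓝 x] fun q => β (a3 q) := by
      filter_upwards [h2] with q hq
      simp only [hQ]; rw [← hq]
    have h9 : P x = a3 x := h2.self_of_nhds
    have h4 := (hβK x h1).1
    rw [← KB_congr h3] at h4
    have h5 := KB_const_mul (hQat x hmem) hc₀pos h4
    -- choose two independent vectors
    have hX0 : (Pi.single 0 1 : V3) ≠ 0 := by
      intro h; have := congrFun h 0; simp at this
    have hY0 : (Pi.single 1 1 : V3) ≠ 0 := by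
      intro h; have := congrFun h 1; simp at this
    have hRat : ContDiffAt ℝ ∞ R x := hRs.contDiffAt (hopen.mem_nhds hmem)
    have hndg : g.riem x (Pi.single 0 1 : V3) (Pi.single 0 1 : V3) *
        g.riem x (Pi.single 1 1 : V3) (Pi.single 1 1 : V3) -
        g.riem x (Pi.single 0 1 : V3) (Pi.single 1 1 : V3) ^ 2 ≠ 0 := by
      rw [hr x hmem, hr x hmem, hr x hmem]
      exact area_ne_zero_of_PD hRat (hRpd x hmem) (fun a b hab => by
        have h0 := congrFun hab 0
        simpa using h0) hY0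
    refine ⟨x, hmem, (Pi.single 0 1 : V3), (Pi.single 1 1 : V3), hndg, ?_⟩
    have h6 := (hs x hmem _ _ h5 _ _ hndg).2
    have h7 : a3 x = -Real.log t := by rw [← h9]; exact hval
    rw [h7] at h6
    have h8 := (hβd (-Real.log t)).1
    have h10 : |B₁| + 1 < 1 / (2 * deriv β (-Real.log t)) / c₀ := by
      rw [div_div, lt_div_iff₀ (by positivity)]
      rw [lt_div_iff₀ (by positivity)] at ht2
      nlinarith
    have h11 := neg_abs_le B₁
    linarith

end Crest.Agent.R245
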