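import Crest.Agent.R245.OpsKB
set_option autoImplicit false
set_option linter.unusedSectionVars false

namespace Crest.Agent.R245

open Complex Filter Topology
open scoped ContDiff ComplexConjugate

namespace HH

section Gen

variable {V : Type*} [NormedAddCommGroup V] [NormedSpace ℝ V] [NormedSpace ℂ V] [IsScalarTower ℝ ℂ V]

theorem two_le_inf : (2 : WithTop ℕ∞) ≤ ∞ :=
  show ((2:ℕ∞) : WithTop ℕ∞) ≤ ((⊤:ℕ∞) : WithTop ℕ∞) from WithTop.coe_le_coe.2 le_top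

theorem ev_diff {u : V → ℂ} {p : V} (h : ContDiffAt ℝ ∞ u p) :
    ∀ᶠ q in 𝓝 p, DifferentiableAt ℝ u q := by
  have h1 : ContDiffAt ℝ 1 u p := h.of_le (by exact_mod_cast le_top)
  filter_upwards [h1.eventually (by simp)] with q hq using hq.differentiableAt (by simp)

theorem ev_cd2 {u : V → ℂ} {p : V} (h : ContDiffAt ℝ ∞ u p) :
    ∀ᶠ q in 𝓝 p, ContDiffAt ℝ 2 u q := by
  have h1 : ContDiffAt ℝ 2 u p := h.of_le two_le_inf
  exact h1.eventually (by simp)

theorem D12_eq {T : V → ℝ} {p : V} (hT : ContDiffAt ℝ ∞ T p) (Y Z W : V) :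
    dz Y (dzb Z (dzb W (fun q => (T q : ℂ)))) p = conj (D21 T Z W Y p) := by
  have hTc : ContDiffAt ℝ ∞ (fun q => (T q : ℂ)) p := contDiffAt_ofReal hT
  have e1 : dzb W (fun q => (T q : ℂ)) = fun q => conj (dz W (fun q => (T q : ℂ)) q) := by
    funext q; exact dzb_ofReal W T q
  have e2 : dzb Z (dzb W (fun q => (T q : ℂ))) =
      fun q => conj (dz Z (dz W (fun q => (T q : ℂ))) q) := by
    rw [e1]; funext q; exact dzb_conj Z _ q
  rw [e2, dz_conj]
  congr 1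
  unfold D21
  have hW : ContDiffAt ℝ ∞ (dz W (fun q => (T q : ℂ))) p := contDiffAt_dz_inf W hTc
  rw [← dz_dzb_comm (hW.of_le two_le_inf)]
  apply dz_congr
  filter_upwards [ev_cd2 hTc] with q hq
  exact (dz_dzb_comm hq).symm

theorem D11_swap {T : V → ℝ} {p : V} (hT : ContDiffAt ℝ ∞ T p) (Z W : V) :
    dzb Z (dz W (fun q => (T q : ℂ))) p = D11 T W Z p := by
  have hTc : ContDiffAt ℝ ∞ (fun q => (T q : ℂ)) p := contDiffAt_ofReal hT
  exact (dz_dzb_comm (hTc.of_le two_le_inf)).symm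

theorem D02_eq {T : V → ℝ} (p : V) (Z W : V) :
    dzb Z (dzb W (fun q => (T q : ℂ))) p = conj (dz Z (dz W (fun q => (T q : ℂ))) p) := by
  have e1 : dzb W (fun q => (T q : ℂ)) = fun q => conj (dz W (fun q => (T q : ℂ)) q) := by
    funext q; exact dzb_ofReal W T q
  rw [e1]; exact dzb_conj Z _ p

variable {a t y P : V → ℝ} {p : V}

/-- `P = a + f(t)` with `y = f'(t)`, `y' = y (1 + y)`. -/
structure HG (a t y P : V → ℝ) (p : V) : Prop where
  ha : ContDiffAt ℝ ∞ a p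
  ht : ContDiffAt ℝ ∞ t p
  hy : ContDiffAt ℝ ∞ y p
  hP : ContDiffAt ℝ ∞ P p
  e1 : ∀ᶠ q in 𝓝 p, ∀ W, dzb W (fun q => (P q : ℂ)) q =
    dzb W (fun q => (a q : ℂ)) q + (y q : ℂ) * dzb W (fun q => (t q : ℂ)) q
  e2 : ∀ᶠ q in 𝓝 p, ∀ W, dz W (fun q => (y q : ℂ)) q =
    (y q : ℂ) * (1 + y q) * dz W (fun q => (t q : ℂ)) q
  e3 : ∀ᶠ q in 𝓝 p, ∀ W, dzb W (fun q => (y q : ℂ)) q =
    (y q : ℂ) * (1 + y q) * dzb W (fun q => (t q : ℂ)) q

theorem HG.s11 (h : HG a t y P p) (Y W : V) : ∀ᶠ q in 𝓝 p,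
    dz Y (dzb W (fun q => (P q : ℂ))) q = dz Y (dzb W (fun q => (a q : ℂ))) q
      + ((y q : ℂ) * (1 + y q) * dz Y (fun q => (t q : ℂ)) q * dzb W (fun q => (t q : ℂ)) q
      + (y q : ℂ) * dz Y (dzb W (fun q => (t q : ℂ))) q) := by
  have hac := contDiffAt_ofReal h.ha
  have htc := contDiffAt_ofReal h.ht
  have hyc := contDiffAt_ofReal h.hy
  have A1 := ev_diff (contDiffAt_dzb_inf W hac)
  have A2 := ev_diff (contDiffAt_dzb_inf W htc)
  have A3 := ev_diff hyc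
  have E := dz_eventuallyEq (X := Y) (h.e1.mono (fun q hq => hq W))
  filter_upwards [E, A1, A2, A3, h.e2] with q hE h1 h2 h3 he2
  rw [hE, dz_add h1 (h3.fun_mul h2), dz_mul h3 h2, he2]

theorem HG.s02 (h : HG a t y P p) (Y W : V) : ∀ᶠ q in 𝓝 p,
    dzb Y (dzb W (fun q => (P q : ℂ))) q = dzb Y (dzb W (fun q => (a q : ℂ))) q
      + ((y q : ℂ) * (1 + y q) * dzb Y (fun q => (t q : ℂ)) q * dzb W (fun q => (t q : ℂ)) q
      + (y q : ℂ) * dzb Y (dzb W (fun q => (t q : ℂ))) q) := by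
  have hac := contDiffAt_ofReal h.ha
  have htc := contDiffAt_ofReal h.ht
  have hyc := contDiffAt_ofReal h.hy
  have A1 := ev_diff (contDiffAt_dzb_inf W hac)
  have A2 := ev_diff (contDiffAt_dzb_inf W htc)
  have A3 := ev_diff hyc
  have E := dzb_eventuallyEq (X := Y) (h.e1.mono (fun q hq => hq W))
  filter_upwards [E, A1, A2, A3, h.e3] with q hE h1 h2 h3 he3
  rw [hE, dzb_add h1 (h3.fun_mul h2), dzb_mul h3 h2, he3]

theorem HG.s21 (h : HG a t y P p) (X Y W : V) : ∀ᶠ q in 𝓝 p,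
    dz X (dz Y (dzb W (fun q => (P q : ℂ)))) q = dz X (dz Y (dzb W (fun q => (a q : ℂ)))) q
      + ((y q : ℂ) * (1 + y q) * (1 + 2 * y q) * dz X (fun q => (t q : ℂ)) q *
          dz Y (fun q => (t q : ℂ)) q * dzb W (fun q => (t q : ℂ)) q
      + (y q : ℂ) * (1 + y q) * (dz X (dz Y (fun q => (t q : ℂ))) q * dzb W (fun q => (t q : ℂ)) q
          + dz Y (fun q => (t q : ℂ)) q * dz X (dzb W (fun q => (t q : ℂ))) q
          + dz X (fun q => (t q : ℂ)) q * dz Y (dzb W (fun q => (t q : ℂ))) q)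
      + (y q : ℂ) * dz X (dz Y (dzb W (fun q => (t q : ℂ)))) q) := by
  have hac := contDiffAt_ofReal h.ha
  have htc := contDiffAt_ofReal h.ht
  have hyc := contDiffAt_ofReal h.hy
  have A1 := ev_diff (contDiffAt_dz_inf Y (contDiffAt_dzb_inf W hac))
  have A2 := ev_diff (contDiffAt_dz_inf Y (contDiffAt_dzb_inf W htc))
  have A3 := ev_diff hyc
  have A4 := ev_diff (contDiffAt_dz_inf Y htc)
  have A5 := ev_diff (contDiffAt_dzb_inf W htc)
  have E := dz_eventuallyEq (X := X) (h.s11 Y W)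
  filter_upwards [E, A1, A2, A3, A4, A5, h.e2] with q hE h1 h2 h3 h4 h5 he2
  have h6 : DifferentiableAt ℝ (fun q => (1 + (y q : ℂ))) q := h3.const_add 1
  rw [hE, dz_add h1 ((((h3.fun_mul h6).fun_mul h4).fun_mul h5).fun_add (h3.fun_mul h2)),
    dz_add (((h3.fun_mul h6).fun_mul h4).fun_mul h5) (h3.fun_mul h2), dz_mul h3 h2,
    dz_mul ((h3.fun_mul h6).fun_mul h4) h5, dz_mul (h3.fun_mul h6) h4, dz_mul h3 h6,
    dz_add (differentiableAt_const 1) h3, dz_const, he2]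
  ring

theorem HG.s12 (h : HG a t y P p) (X Y W : V) : ∀ᶠ q in 𝓝 p,
    dz X (dzb Y (dzb W (fun q => (P q : ℂ)))) q = dz X (dzb Y (dzb W (fun q => (a q : ℂ)))) q
      + ((y q : ℂ) * (1 + y q) * (1 + 2 * y q) * dz X (fun q => (t q : ℂ)) q *
          dzb Y (fun q => (t q : ℂ)) q * dzb W (fun q => (t q : ℂ)) q
      + (y q : ℂ) * (1 + y q) * (dz X (dzb Y (fun q => (t q : ℂ))) q * dzb W (fun q => (t q : ℂ)) q
          + dzb Y (fun q => (t q : ℂ)) q * dz X (dzb W (fun q => (t q : ℂ))) q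
          + dz X (fun q => (t q : ℂ)) q * dzb Y (dzb W (fun q => (t q : ℂ))) q)
      + (y q : ℂ) * dz X (dzb Y (dzb W (fun q => (t q : ℂ)))) q) := by
  have hac := contDiffAt_ofReal h.ha
  have htc := contDiffAt_ofReal h.ht
  have hyc := contDiffAt_ofReal h.hy
  have A1 := ev_diff (contDiffAt_dzb_inf Y (contDiffAt_dzb_inf W hac))
  have A2 := ev_diff (contDiffAt_dzb_inf Y (contDiffAt_dzb_inf W htc))
  have A3 := ev_diff hyc
  have A4 := ev_diff (contDiffAt_dzb_inf Y htc)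
  have A5 := ev_diff (contDiffAt_dzb_inf W htc)
  have E := dz_eventuallyEq (X := X) (h.s02 Y W)
  filter_upwards [E, A1, A2, A3, A4, A5, h.e2] with q hE h1 h2 h3 h4 h5 he2
  have h6 : DifferentiableAt ℝ (fun q => (1 + (y q : ℂ))) q := h3.const_add 1
  rw [hE, dz_add h1 ((((h3.fun_mul h6).fun_mul h4).fun_mul h5).fun_add (h3.fun_mul h2)),
    dz_add (((h3.fun_mul h6).fun_mul h4).fun_mul h5) (h3.fun_mul h2), dz_mul h3 h2,
    dz_mul ((h3.fun_mul h6).fun_mul h4) h5, dz_mul (h3.fun_mul h6) h4, dz_mul h3 h6,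
    dz_add (differentiableAt_const 1) h3, dz_const, he2]
  ring

theorem HG.s22 (h : HG a t y P p) (X Y Z W : V) :
    dz X (dz Y (dzb Z (dzb W (fun q => (P q : ℂ))))) p =
      dz X (dz Y (dzb Z (dzb W (fun q => (a q : ℂ))))) p
      + ((y p : ℂ) * (1 + y p) * (1 + 6 * y p + 6 * (y p) ^ 2) * dz X (fun q => (t q : ℂ)) p *
          dz Y (fun q => (t q : ℂ)) p * dzb Z (fun q => (t q : ℂ)) p * dzb W (fun q => (t q : ℂ)) p
      + (y p : ℂ) * (1 + y p) * (1 + 2 * y p) *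
        (dz X (dz Y (fun q => (t q : ℂ))) p * dzb Z (fun q => (t q : ℂ)) p * dzb W (fun q => (t q : ℂ)) p
        + dz Y (fun q => (t q : ℂ)) p * dz X (dzb Z (fun q => (t q : ℂ))) p * dzb W (fun q => (t q : ℂ)) p
        + dz Y (fun q => (t q : ℂ)) p * dzb Z (fun q => (t q : ℂ)) p * dz X (dzb W (fun q => (t q : ℂ))) p
        + dz X (fun q => (t q : ℂ)) p * dz Y (dzb Z (fun q => (t q : ℂ))) p * dzb W (fun q => (t q : ℂ)) p
        + dz X (fun q => (t q : ℂ)) p * dzb Z (fun q => (t q : ℂ)) p * dz Y (dzb W (fun q => (t q : ℂ))) p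
        + dz X (fun q => (t q : ℂ)) p * dz Y (fun q => (t q : ℂ)) p * dzb Z (dzb W (fun q => (t q : ℂ))) p)
      + (y p : ℂ) * (1 + y p) *
        (dz X (dz Y (dzb Z (fun q => (t q : ℂ)))) p * dzb W (fun q => (t q : ℂ)) p
        + dz Y (dzb Z (fun q => (t q : ℂ))) p * dz X (dzb W (fun q => (t q : ℂ))) p
        + dz X (dzb Z (fun q => (t q : ℂ))) p * dz Y (dzb W (fun q => (t q : ℂ))) p
        + dzb Z (fun q => (t q : ℂ)) p * dz X (dz Y (dzb W (fun q => (t q : ℂ)))) p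
        + dz X (dz Y (fun q => (t q : ℂ))) p * dzb Z (dzb W (fun q => (t q : ℂ))) p
        + dz Y (fun q => (t q : ℂ)) p * dz X (dzb Z (dzb W (fun q => (t q : ℂ)))) p
        + dz X (fun q => (t q : ℂ)) p * dz Y (dzb Z (dzb W (fun q => (t q : ℂ)))) p)
      + (y p : ℂ) * dz X (dz Y (dzb Z (dzb W (fun q => (t q : ℂ))))) p) := by
  have hac := contDiffAt_ofReal h.ha
  have htc := contDiffAt_ofReal h.ht
  have hyc := contDiffAt_ofReal h.hy
  have A1 := (ev_diff (contDiffAt_dz_inf Y (contDiffAt_dzb_inf Z (contDiffAt_dzb_inf W hac)))).self_of_nhds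
  have A2 := (ev_diff (contDiffAt_dz_inf Y (contDiffAt_dzb_inf Z (contDiffAt_dzb_inf W htc)))).self_of_nhds
  have A3 := (ev_diff hyc).self_of_nhds
  have A4 := (ev_diff (contDiffAt_dz_inf Y htc)).self_of_nhds
  have A5 := (ev_diff (contDiffAt_dzb_inf Z htc)).self_of_nhds
  have A6 := (ev_diff (contDiffAt_dzb_inf W htc)).self_of_nhds
  have A7 := (ev_diff (contDiffAt_dz_inf Y (contDiffAt_dzb_inf Z htc))).self_of_nhds
  have A8 := (ev_diff (contDiffAt_dz_inf Y (contDiffAt_dzb_inf W htc))).self_of_nhds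
  have A9 := (ev_diff (contDiffAt_dzb_inf Z (contDiffAt_dzb_inf W htc))).self_of_nhds
  have E := dz_congr (X := X) (h.s12 Y Z W)
  have he2 := h.e2.self_of_nhds X
  have B1 : DifferentiableAt ℝ (fun q => (1 + (y q : ℂ))) p := A3.const_add 1
  have B2 : DifferentiableAt ℝ (fun q => (2 * (y q : ℂ))) p := A3.const_mul 2
  have B3 : DifferentiableAt ℝ (fun q => (1 + 2 * (y q : ℂ))) p := B2.const_add 1
  have C1 : DifferentiableAt ℝ (fun q => (y q : ℂ) * (1 + y q)) p := A3.fun_mul B1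
  have C2 : DifferentiableAt ℝ (fun q => (y q : ℂ) * (1 + y q) * (1 + 2 * y q)) p := C1.fun_mul B3
  have C3 : DifferentiableAt ℝ (fun q => (y q : ℂ) * (1 + y q) * (1 + 2 * y q) *
      dz Y (fun q => (t q : ℂ)) q) p := C2.fun_mul A4
  have C4 : DifferentiableAt ℝ (fun q => (y q : ℂ) * (1 + y q) * (1 + 2 * y q) *
      dz Y (fun q => (t q : ℂ)) q * dzb Z (fun q => (t q : ℂ)) q) p := C3.fun_mul A5
  have C5 : DifferentiableAt ℝ (fun q => (y q : ℂ) * (1 + y q) * (1 + 2 * y q) *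
      dz Y (fun q => (t q : ℂ)) q * dzb Z (fun q => (t q : ℂ)) q
      * dzb W (fun q => (t q : ℂ)) q) p := C4.fun_mul A6
  have D1 : DifferentiableAt ℝ (fun q => dz Y (dzb Z (fun q => (t q : ℂ))) q *
      dzb W (fun q => (t q : ℂ)) q) p := A7.fun_mul A6
  have D2 : DifferentiableAt ℝ (fun q => dzb Z (fun q => (t q : ℂ)) q *
      dz Y (dzb W (fun q => (t q : ℂ))) q) p := A5.fun_mul A8
  have D3 : DifferentiableAt ℝ (fun q => dz Y (fun q => (t q : ℂ)) q *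
      dzb Z (dzb W (fun q => (t q : ℂ))) q) p := A4.fun_mul A9
  have D4 : DifferentiableAt ℝ (fun q => dz Y (dzb Z (fun q => (t q : ℂ))) q *
      dzb W (fun q => (t q : ℂ)) q + dzb Z (fun q => (t q : ℂ)) q *
      dz Y (dzb W (fun q => (t q : ℂ))) q) p := D1.fun_add D2
  have D5 : DifferentiableAt ℝ (fun q => dz Y (dzb Z (fun q => (t q : ℂ))) q *
      dzb W (fun q => (t q : ℂ)) q + dzb Z (fun q => (t q : ℂ)) q *
      dz Y (dzb W (fun q => (t q : ℂ))) q + dz Y (fun q => (t q : ℂ)) q *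
      dzb Z (dzb W (fun q => (t q : ℂ))) q) p := D4.fun_add D3
  have D6 : DifferentiableAt ℝ (fun q => (y q : ℂ) * (1 + y q) *
      (dz Y (dzb Z (fun q => (t q : ℂ))) q *
      dzb W (fun q => (t q : ℂ)) q + dzb Z (fun q => (t q : ℂ)) q *
      dz Y (dzb W (fun q => (t q : ℂ))) q + dz Y (fun q => (t q : ℂ)) q *
      dzb Z (dzb W (fun q => (t q : ℂ))) q)) p := C1.fun_mul D5
  have D7 := A3.fun_mul A2
  rw [E, dz_add A1 ((C5.fun_add D6).fun_add D7), dz_add (C5.fun_add D6) D7, dz_add C5 D6, dz_mul A3 A2,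
    dz_mul C1 D5, dz_add D4 D3, dz_add D1 D2, dz_mul A7 A6, dz_mul A5 A8, dz_mul A4 A9,
    dz_mul C4 A6, dz_mul C3 A5, dz_mul C2 A4, dz_mul C1 B3, dz_mul A3 B1,
    dz_add (differentiableAt_const 1) B2, dz_const_mul 2 A3,
    dz_add (differentiableAt_const 1) A3, dz_const, he2]
  ring

end Gen

end HH

end Crest.Agent.R245
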