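import Crest.Agent.R245.HDefs
import Crest.Agent.R245.HartCalc

/-! TASK LemmaH2: the exact curvature formula. -/

set_option autoImplicit false
set_option linter.unusedSectionVars false

namespace Crest.Agent.R245

open Complex Filter Topology
open scoped ContDiff ComplexConjugate

namespace HH

/-- log of the squared norm of the fibre coordinate -/
noncomputable def Lz (q : B2 × ℂ) : ℝ := Real.log (‖q.2‖ ^ 2)
/-- `t = φ + log |ζ|²` -/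
noncomputable def tt (φ : B2 → ℝ) (q : B2 × ℂ) : ℝ := φ q.1 + Lz q

theorem contDiffAt_fst' {f : B2 → ℝ} {x : B2 × ℂ} {n : WithTop ℕ∞} (hf : ContDiffAt ℝ n f x.1) :
    ContDiffAt ℝ n (fun q : B2 × ℂ => f q.1) x :=
  hf.comp x contDiffAt_fst

theorem contDiff_nsq {n : WithTop ℕ∞} : ContDiff ℝ n (fun q : B2 × ℂ => ‖q.2‖ ^ 2) :=
  (contDiff_norm_sq ℝ).comp contDiff_snd

theorem contDiffAt_Lz {x : B2 × ℂ} {n : WithTop ℕ∞} (hx : x.2 ≠ 0) : ContDiffAt ℝ n Lz x := by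
  unfold Lz
  exact (contDiff_nsq.contDiffAt).log (by positivity)

theorem contDiffAt_tt {φ : B2 → ℝ} {x : B2 × ℂ} {n : WithTop ℕ∞} (hφ : ContDiffAt ℝ n φ x.1)
    (hx : x.2 ≠ 0) : ContDiffAt ℝ n (tt φ) x :=
  (contDiffAt_fst' hφ).add (contDiffAt_Lz hx)

theorem contDiffAt_uu {φ : B2 → ℝ} {x : B2 × ℂ} {n : WithTop ℕ∞} (hφ : ContDiffAt ℝ n φ x.1) :
    ContDiffAt ℝ n (uu φ) x :=
  (contDiffAt_fst' hφ).exp.mul contDiff_nsq.contDiffAt

theorem contDiffAt_yy {φ : B2 → ℝ} {x : B2 × ℂ} {n : WithTop ℕ∞} (hφ : ContDiffAt ℝ n φ x.1)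
    (h : uu φ x < 1) : ContDiffAt ℝ n (yy φ) x :=
  (contDiffAt_uu hφ).div (contDiffAt_const.sub (contDiffAt_uu hφ)) (by linarith)

theorem contDiffAt_hart {A φ : B2 → ℝ} {x : B2 × ℂ} {n : WithTop ℕ∞} (hA : ContDiffAt ℝ n A x.1)
    (hφ : ContDiffAt ℝ n φ x.1) (h : uu φ x < 1) : ContDiffAt ℝ n (hart A φ) x :=
  (contDiffAt_fst' hA).sub ((contDiffAt_const.sub (contDiffAt_uu hφ)).log (by
    show (1 - uu φ x) ≠ 0
    linarith))

theorem exp_tt {φ : B2 → ℝ} {q : B2 × ℂ} (hq : q.2 ≠ 0) : Real.exp (tt φ q) = uu φ q := by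
  unfold tt uu Lz
  rw [Real.exp_add, Real.exp_log (by positivity)]

theorem dz_fst {f : B2 → ℂ} {x : B2 × ℂ} (hf : DifferentiableAt ℝ f x.1) (X : B2 × ℂ) :
    dz X (fun q : B2 × ℂ => f q.1) x = dz X.1 f x.1 := by
  have := dz_comp_affine (X := X) (p := x) (ContinuousLinearMap.fst ℂ B2 ℂ) 0 (f := f)
    (by simpa using hf)
  simpa using this

theorem dzb_fst {f : B2 → ℂ} {x : B2 × ℂ} (hf : DifferentiableAt ℝ f x.1) (X : B2 × ℂ) :
    dzb X (fun q : B2 × ℂ => f q.1) x = dzb X.1 f x.1 := by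
  have := dzb_comp_affine (X := X) (p := x) (ContinuousLinearMap.fst ℂ B2 ℂ) 0 (f := f)
    (by simpa using hf)
  simpa using this

theorem dz_snd (x : B2 × ℂ) (X : B2 × ℂ) : dz X (fun q : B2 × ℂ => q.2) x = X.2 := by
  have h : HasFDerivAt (fun q : B2 × ℂ => q.2) (ContinuousLinearMap.snd ℂ B2 ℂ) x :=
    (ContinuousLinearMap.snd ℂ B2 ℂ).hasFDerivAt
  rw [dz_hol h.differentiableAt, h.fderiv]; rfl

theorem dzb_snd (x : B2 × ℂ) (X : B2 × ℂ) : dzb X (fun q : B2 × ℂ => q.2) x = 0 := by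
  have h : HasFDerivAt (fun q : B2 × ℂ => q.2) (ContinuousLinearMap.snd ℂ B2 ℂ) x :=
    (ContinuousLinearMap.snd ℂ B2 ℂ).hasFDerivAt
  rw [dzb_hol h.differentiableAt]

theorem diff_snd (x : B2 × ℂ) : DifferentiableAt ℝ (fun q : B2 × ℂ => q.2) x := by
  fun_prop

theorem nsq_eq : (fun q : B2 × ℂ => ((‖q.2‖ ^ 2 : ℝ) : ℂ)) = fun q => q.2 * conj q.2 := by
  funext q; rw [Complex.mul_conj, Complex.normSq_eq_norm_sq]

theorem diff_conj_snd (x : B2 × ℂ) : DifferentiableAt ℝ (fun q : B2 × ℂ => conj q.2) x :=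
  (conjCLE.differentiable).differentiableAt.comp x (diff_snd x)

theorem dz_nsq (x X : B2 × ℂ) : dz X (fun q : B2 × ℂ => ((‖q.2‖ ^ 2 : ℝ) : ℂ)) x = X.2 * conj x.2 := by
  rw [nsq_eq, dz_mul (diff_snd x) (diff_conj_snd x), dz_snd, dz_conj, dzb_snd]; simp

theorem dzb_nsq (x X : B2 × ℂ) : dzb X (fun q : B2 × ℂ => ((‖q.2‖ ^ 2 : ℝ) : ℂ)) x = x.2 * conj X.2 := by
  rw [nsq_eq, dzb_mul (diff_snd x) (diff_conj_snd x), dzb_snd, dzb_conj, dz_snd]; simp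

theorem dz_Lz {x : B2 × ℂ} (hx : x.2 ≠ 0) (X : B2 × ℂ) :
    dz X (fun q => (Lz q : ℂ)) x = X.2 / x.2 := by
  have h1 : ‖x.2‖ ^ 2 ≠ 0 := by positivity
  have := dz_comp_real (X := X) (p := x) Real.log (fun q : B2 × ℂ => ‖q.2‖ ^ 2)
    (Real.differentiableAt_log h1) ((contDiff_nsq (n := 1)).differentiable (by simp) x)
  unfold Lz
  rw [this, dz_nsq, Real.deriv_log]
  have h2 : ((‖x.2‖ ^ 2 : ℝ) : ℂ) = x.2 * conj x.2 := congrFun nsq_eq x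
  rw [Complex.ofReal_inv, h2]
  have h3 : conj x.2 ≠ 0 := by simpa using hx
  field_simp

theorem dzb_Lz {x : B2 × ℂ} (hx : x.2 ≠ 0) (X : B2 × ℂ) :
    dzb X (fun q => (Lz q : ℂ)) x = conj (X.2 / x.2) := by
  rw [dzb_ofReal, dz_Lz hx]

theorem ev_ne {x : B2 × ℂ} (hx : x.2 ≠ 0) : ∀ᶠ q : B2 × ℂ in 𝓝 x, q.2 ≠ 0 :=
  continuous_snd.continuousAt.eventually_ne hx

theorem D11_Lz_ev {x : B2 × ℂ} (hx : x.2 ≠ 0) (Y W : B2 × ℂ) :
    ∀ᶠ q in 𝓝 x, dz Y (dzb W (fun q => (Lz q : ℂ))) q = 0 := by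
  have h1 : dzb W (fun q => (Lz q : ℂ)) =ᶠ[𝓝 x] fun q => conj (W.2 / q.2) := by
    filter_upwards [ev_ne hx] with q hq using dzb_Lz hq W
  filter_upwards [dz_eventuallyEq (X := Y) h1, ev_ne hx] with q hq hq2
  rw [hq, dz_conj, dzb_hol, map_zero]
  have h3 : DifferentiableAt ℂ (fun r : B2 × ℂ => r.2) q :=
    (ContinuousLinearMap.snd ℂ B2 ℂ).differentiableAt
  simp only [div_eq_mul_inv]
  exact (h3.fun_inv hq2).const_mul W.2

theorem D11_Lz {x : B2 × ℂ} (hx : x.2 ≠ 0) (Y W : B2 × ℂ) : D11 Lz Y W x = 0 :=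
  (D11_Lz_ev hx Y W).self_of_nhds

theorem D21_Lz {x : B2 × ℂ} (hx : x.2 ≠ 0) (X Y W : B2 × ℂ) : D21 Lz X Y W x = 0 := by
  unfold D21
  rw [dz_congr (v := fun _ => 0) (D11_Lz_ev hx Y W), dz_const]

theorem D22_Lz {x : B2 × ℂ} (hx : x.2 ≠ 0) (X Y Z W : B2 × ℂ) : D22 Lz X Y Z W x = 0 := by
  unfold D22
  have hL : ContDiffAt ℝ ∞ (fun q => (Lz q : ℂ)) x := contDiffAt_ofReal (contDiffAt_Lz hx)
  have hW := contDiffAt_dzb_inf W hL
  have h1 : dz Y (dzb Z (dzb W (fun q => (Lz q : ℂ)))) =ᶠ[𝓝 x] fun _ => 0 := by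
    have h2 : dz Y (dzb W (fun q => (Lz q : ℂ))) =ᶠ[𝓝 x] fun _ => 0 := D11_Lz_ev hx Y W
    filter_upwards [ev_cd2 hW, dzb_eventuallyEq (X := Z) h2] with q h3 h4
    rw [dz_dzb_comm h3, h4, dzb_const]
  rw [dz_congr h1, dz_const]

theorem D11_fst {f : B2 → ℝ} {x : B2 × ℂ} (hf : ContDiffAt ℝ ∞ f x.1) (X Y : B2 × ℂ) :
    D11 (fun q : B2 × ℂ => f q.1) X Y x = D11 f X.1 Y.1 x.1 := by
  have := D11_comp_affine (p := x) (ContinuousLinearMap.fst ℂ B2 ℂ) 0 (f := f)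
    (by simpa using hf) X Y
  simpa using this

theorem D21_fst {f : B2 → ℝ} {x : B2 × ℂ} (hf : ContDiffAt ℝ ∞ f x.1) (X Y Z : B2 × ℂ) :
    D21 (fun q : B2 × ℂ => f q.1) X Y Z x = D21 f X.1 Y.1 Z.1 x.1 := by
  have := D21_comp_affine (p := x) (ContinuousLinearMap.fst ℂ B2 ℂ) 0 (f := f)
    (by simpa using hf) X Y Z
  simpa using this

theorem D22_fst {f : B2 → ℝ} {x : B2 × ℂ} (hf : ContDiffAt ℝ ∞ f x.1) (X Y Z W : B2 × ℂ) :
    D22 (fun q : B2 × ℂ => f q.1) X Y Z W x = D22 f X.1 Y.1 Z.1 W.1 x.1 := by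
  have := D22_comp_affine (p := x) (ContinuousLinearMap.fst ℂ B2 ℂ) 0 (f := f)
    (by simpa using hf) X Y Z W
  simpa using this

theorem D11_tt {φ : B2 → ℝ} {x : B2 × ℂ} (hφ : ContDiffAt ℝ ∞ φ x.1) (hx : x.2 ≠ 0)
    (X Y : B2 × ℂ) : D11 (tt φ) X Y x = D11 φ X.1 Y.1 x.1 := by
  have := D11_add (contDiffAt_fst' hφ) (contDiffAt_Lz hx) X Y
  rw [D11_Lz hx, D11_fst hφ, add_zero] at this
  exact this

theorem D21_tt {φ : B2 → ℝ} {x : B2 × ℂ} (hφ : ContDiffAt ℝ ∞ φ x.1) (hx : x.2 ≠ 0)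
    (X Y Z : B2 × ℂ) : D21 (tt φ) X Y Z x = D21 φ X.1 Y.1 Z.1 x.1 := by
  have := D21_add (contDiffAt_fst' hφ) (contDiffAt_Lz hx) X Y Z
  rw [D21_Lz hx, D21_fst hφ, add_zero] at this
  exact this

theorem D22_tt {φ : B2 → ℝ} {x : B2 × ℂ} (hφ : ContDiffAt ℝ ∞ φ x.1) (hx : x.2 ≠ 0)
    (X Y Z W : B2 × ℂ) : D22 (tt φ) X Y Z W x = D22 φ X.1 Y.1 Z.1 W.1 x.1 := by
  have := D22_add (contDiffAt_fst' hφ) (contDiffAt_Lz hx) X Y Z W
  rw [D22_Lz hx, D22_fst hφ, add_zero] at this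
  exact this

theorem dz_tt {φ : B2 → ℝ} {x : B2 × ℂ} (hφ : DifferentiableAt ℝ φ x.1) (hx : x.2 ≠ 0)
    (X : B2 × ℂ) : dz X (fun q => (tt φ q : ℂ)) x = nuu φ x X / x.2 := by
  have h1 : (fun q : B2 × ℂ => (tt φ q : ℂ)) = fun q => (φ q.1 : ℂ) + (Lz q : ℂ) := by
    funext q; unfold tt; push_cast; rfl
  have h2 : DifferentiableAt ℝ (fun b => (φ b : ℂ)) x.1 := differentiableAt_ofReal hφ
  have h3 : DifferentiableAt ℝ (fun q : B2 × ℂ => (φ q.1 : ℂ)) x := h2.comp x differentiableAt_fst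
  have h4 : DifferentiableAt ℝ (fun q : B2 × ℂ => (Lz q : ℂ)) x :=
    differentiableAt_ofReal ((contDiffAt_Lz (n := 1) hx).differentiableAt (by simp))
  rw [h1, dz_add h3 h4, dz_fst h2, dz_Lz hx]
  unfold nuu
  field_simp

/-- The differential relations for the Hartogs potential. -/
theorem hart_HG {A φ : B2 → ℝ} {x : B2 × ℂ} (hA : ContDiffAt ℝ ∞ A x.1)
    (hφ : ContDiffAt ℝ ∞ φ x.1) (hx : uu φ x < 1) (hζ : x.2 ≠ 0) :
    HG (fun q => A q.1) (tt φ) (yy φ) (hart A φ) x := by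
  have E1 : ∀ᶠ q in 𝓝 x, uu φ q < 1 :=
    (contDiffAt_uu (n := 0) (hφ.of_le (by simp))).continuousAt.eventually_lt_const hx
  have E2 : ∀ᶠ q : B2 × ℂ in 𝓝 x, ContDiffAt ℝ 2 A q.1 :=
    continuous_fst.continuousAt.eventually ((hA.of_le two_le_inf).eventually (by simp))
  have E3 : ∀ᶠ q : B2 × ℂ in 𝓝 x, ContDiffAt ℝ 2 φ q.1 :=
    continuous_fst.continuousAt.eventually ((hφ.of_le two_le_inf).eventually (by simp))
  have EY : ∀ᶠ q in 𝓝 x, (fun r : B2 × ℂ => (yy φ r : ℂ)) =ᶠ[𝓝 q]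
      fun r => ((Real.exp (tt φ r) / (1 - Real.exp (tt φ r)) : ℝ) : ℂ) := by
    apply Filter.Eventually.eventually_nhds
    filter_upwards [ev_ne hζ] with q hq
    show (yy φ q : ℂ) = _
    rw [exp_tt hq]; rfl
  have dY : ∀ s : ℝ, Real.exp s < 1 → HasDerivAt (fun s => Real.exp s / (1 - Real.exp s))
      (Real.exp s / (1 - Real.exp s) * (1 + Real.exp s / (1 - Real.exp s))) s := by
    intro s hs
    have h1 : HasDerivAt (fun s => 1 - Real.exp s) (-Real.exp s) s :=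
      (Real.hasDerivAt_exp s).const_sub 1
    have h2 : (1 - Real.exp s) ≠ 0 := by linarith
    refine ((Real.hasDerivAt_exp s).div h1 h2).congr_deriv ?_
    field_simp
    ring
  have dG : ∀ s : ℝ, Real.exp s < 1 → HasDerivAt (fun s => - Real.log (1 - Real.exp s))
      (Real.exp s / (1 - Real.exp s)) s := by
    intro s hs
    have h1 : HasDerivAt (fun s => 1 - Real.exp s) (-Real.exp s) s :=
      (Real.hasDerivAt_exp s).const_sub 1
    have h2 : (1 - Real.exp s) ≠ 0 := by linarith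
    refine (h1.log h2).neg.congr_deriv ?_
    ring
  refine ⟨contDiffAt_fst' hA, contDiffAt_tt hφ hζ, contDiffAt_yy hφ hx,
    contDiffAt_hart hA hφ hx, ?_, ?_, ?_⟩
  · have EP : ∀ᶠ q in 𝓝 x, (fun r : B2 × ℂ => (hart A φ r : ℂ)) =ᶠ[𝓝 q]
        fun r => (A r.1 : ℂ) + ((- Real.log (1 - Real.exp (tt φ r)) : ℝ) : ℂ) := by
      apply Filter.Eventually.eventually_nhds
      filter_upwards [ev_ne hζ] with q hq
      show (hart A φ q : ℂ) = _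
      rw [exp_tt hq]
      unfold hart uu
      push_cast
      ring
    filter_upwards [EP, E1, E2, E3, ev_ne hζ] with q h1 h2 h3 h4 h5 W
    have h6 : Real.exp (tt φ q) < 1 := by rw [exp_tt h5]; exact h2
    have h7 := dG _ h6
    have h8 : DifferentiableAt ℝ (tt φ) q := (contDiffAt_tt h4 h5).differentiableAt (by simp)
    have h9 : DifferentiableAt ℝ (fun q : B2 × ℂ => (A q.1 : ℂ)) q :=
      differentiableAt_ofReal ((contDiffAt_fst' h3).differentiableAt (by simp))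
    have h10 : DifferentiableAt ℝ (fun q => - Real.log (1 - Real.exp (tt φ q))) q :=
      h7.differentiableAt.comp q h8
    rw [dzb_congr h1, dzb_add h9 (differentiableAt_ofReal h10)]
    congr 1
    rw [dzb_comp_real (fun s => - Real.log (1 - Real.exp s)) (tt φ) h7.differentiableAt h8, h7.deriv,
      exp_tt h5]
    rfl
  · filter_upwards [EY, E1, E3, ev_ne hζ] with q h1 h2 h4 h5 W
    have h6 : Real.exp (tt φ q) < 1 := by rw [exp_tt h5]; exact h2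
    have h7 := dY _ h6
    have h8 : DifferentiableAt ℝ (tt φ) q := (contDiffAt_tt h4 h5).differentiableAt (by simp)
    rw [dz_congr h1, dz_comp_real (fun s => Real.exp s / (1 - Real.exp s)) (tt φ)
      h7.differentiableAt h8, h7.deriv, exp_tt h5]
    unfold yy
    push_cast
    rfl
  · filter_upwards [EY, E1, E3, ev_ne hζ] with q h1 h2 h4 h5 W
    have h6 : Real.exp (tt φ q) < 1 := by rw [exp_tt h5]; exact h2
    have h7 := dY _ h6
    have h8 : DifferentiableAt ℝ (tt φ) q := (contDiffAt_tt h4 h5).differentiableAt (by simp)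
    rw [dzb_congr h1, dzb_comp_real (fun s => Real.exp s / (1 - Real.exp s)) (tt φ)
      h7.differentiableAt h8, h7.deriv, exp_tt h5]
    unfold yy
    push_cast
    rfl

set_option maxHeartbeats 1000000 in
theorem negK_alg (s y : ℝ) (a b p11 p12 p22 S12 T121 T122 T112 T221 G121 G122 G112 G221 K12
    H1212 H1122 g1212 g1122 : ℂ) (S11 S22 K11 K22 : ℝ) :
    ((H1212 + (s:ℂ)^2 * (a * conj T122 + b * conj T121 + conj a * T122 + conj b * T121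
        + S11 * S22 + S12 * conj S12 + p12 * conj p12)
      + (1 + 2 * (y:ℂ)) * (s:ℂ)^2 * (a * b * conj p12 + conj a * conj b * p12 + a * conj a * S22
        + a * conj b * conj S12 + b * conj a * S12 + b * conj b * S11)
      + ((1 + 2 * (y:ℂ))^2 * (s:ℂ)^2 + 2 * (s:ℂ)^4) * (a * b * conj a * conj b))
    - (g1212 + (s:ℂ)^2 * (conj a * G122 + conj b * G121 + a * conj G122 + b * conj G121)
      + (s:ℂ)^4 * (a * conj a * K22 + a * conj b * conj K12 + b * conj a * K12 + b * conj b * K11)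
      + (s:ℂ)^2 * ((p12 + (1 + 2 * (y:ℂ)) * a * b) * conj (p12 + (1 + 2 * (y:ℂ)) * a * b)))
    - (H1122 + (s:ℂ)^2 * (2 * a * conj T221 + 2 * conj b * T112 + 2 * S12 * S12 + p11 * conj p22)
      + (1 + 2 * (y:ℂ)) * (s:ℂ)^2 * (a * a * conj p22 + conj b * conj b * p11 + 4 * a * conj b * S12)
      + ((1 + 2 * (y:ℂ))^2 * (s:ℂ)^2 + 2 * (s:ℂ)^4) * (a * a * conj b * conj b))
    + (g1122 + 2 * (s:ℂ)^2 * (conj b * G112 + a * conj G221) + 4 * (s:ℂ)^4 * (a * conj b * K12)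
      + (s:ℂ)^2 * ((p11 + (1 + 2 * (y:ℂ)) * a * a) * conj (p22 + (1 + 2 * (y:ℂ)) * b * b)))).re
    = ((1 + 2 * (y:ℂ)) * ((s:ℂ)^2 * (conj a * a * S22 - conj a * b * conj S12 - conj b * a * S12
          + conj b * b * S11))
        - (s:ℂ)^2 * ((s:ℂ)^2 * (conj a * a * K22 - conj a * b * conj K12 - conj b * a * K12
          + conj b * b * K11))).re
      + 4 * ((s:ℂ) * a * conj ((s:ℂ) * b)).im ^ 2
      + 4 * ((s:ℂ) * a * conj ((s:ℂ) * b)).im * ((1 + 2 * (y:ℂ)) * S12 - (s:ℂ)^2 * K12).im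
      + s^2 * (S11 * S22 - S12.re ^ 2 + 3 * S12.im ^ 2)
      + (H1212 - g1212 - H1122 + g1122).re
      + 2 * s * ((s:ℂ) * (conj a * T122 - conj b * T112) - (s:ℂ) * (conj a * G122 - conj b * G112)
          - ((s:ℂ) * (conj a * T221 - conj b * T121) - (s:ℂ) * (conj a * G221 - conj b * G121))).re := by
  obtain ⟨a1, a2⟩ := a
  obtain ⟨b1, b2⟩ := b
  simp only [Complex.add_re, Complex.add_im, Complex.sub_re, Complex.sub_im, Complex.mul_re, Complex.mul_im,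
    Complex.conj_re, Complex.conj_im, Complex.ofReal_re, Complex.ofReal_im, Complex.one_re, Complex.one_im,
    pow_succ, pow_zero, Complex.re_ofNat, Complex.im_ofNat, map_add, map_mul, Complex.conj_ofReal, map_one, map_ofNat]
  ring

/-! ### Linearity helpers -/

section Lin
variable {A φ : B2 → ℝ} {y : ℝ} {b : B2}

theorem Hpot_contDiffAt (hA : ContDiffAt ℝ ∞ A b) (hφ : ContDiffAt ℝ ∞ φ b) :
    ContDiffAt ℝ ∞ (Hpot A φ y) b := hA.add (contDiffAt_const.mul hφ)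

theorem Hpot_D11 (hA : ContDiffAt ℝ ∞ A b) (hφ : ContDiffAt ℝ ∞ φ b) (X Y : B2) :
    D11 (Hpot A φ y) X Y b = D11 A X Y b + y * D11 φ X Y b := by
  have := D11_add hA ((contDiffAt_const (c := y)).mul hφ) X Y
  rw [D11_const_mul hφ] at this
  exact this

theorem Hpot_D21 (hA : ContDiffAt ℝ ∞ A b) (hφ : ContDiffAt ℝ ∞ φ b) (X Y Z : B2) :
    D21 (Hpot A φ y) X Y Z b = D21 A X Y Z b + y * D21 φ X Y Z b := by
  have := D21_add hA ((contDiffAt_const (c := y)).mul hφ) X Y Z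
  rw [D21_const_mul hφ] at this
  exact this

theorem Hpot_D22 (hA : ContDiffAt ℝ ∞ A b) (hφ : ContDiffAt ℝ ∞ φ b) (X Y Z W : B2) :
    D22 (Hpot A φ y) X Y Z W b = D22 A X Y Z W b + y * D22 φ X Y Z W b := by
  have := D22_add hA ((contDiffAt_const (c := y)).mul hφ) X Y Z W
  rw [D22_const_mul hφ] at this
  exact this

end Lin

section LinV
variable {V : Type*} [NormedAddCommGroup V] [NormedSpace ℝ V] [NormedSpace ℂ V] [IsScalarTower ℝ ℂ V]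
variable {P : V → ℝ} {p : V}

theorem D11_sub_left (hP : ContDiffAt ℝ ∞ P p) (X X' Y : V) :
    D11 P (X - X') Y p = D11 P X Y p - D11 P X' Y p := by
  have : X - X' = X + (-1 : ℂ) • X' := by rw [neg_one_smul, sub_eq_add_neg]
  rw [this, D11_add_left hP, D11_smul_left hP]; ring

theorem D11_sub_right (hP : ContDiffAt ℝ ∞ P p) (X Y Y' : V) :
    D11 P X (Y - Y') p = D11 P X Y p - D11 P X Y' p := by
  have : Y - Y' = Y + (-1 : ℂ) • Y' := by rw [neg_one_smul, sub_eq_add_neg]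
  rw [this, D11_add_right hP, D11_smul_right hP]; simp; ring

theorem D21_sub_1 (hP : ContDiffAt ℝ ∞ P p) (X X' Y Z : V) :
    D21 P (X - X') Y Z p = D21 P X Y Z p - D21 P X' Y Z p := by
  have : X - X' = X + (-1 : ℂ) • X' := by rw [neg_one_smul, sub_eq_add_neg]
  rw [this, D21_add_1 hP, D21_smul_1 hP]; ring

theorem D21_sub_2 (hP : ContDiffAt ℝ ∞ P p) (X Y Y' Z : V) :
    D21 P X (Y - Y') Z p = D21 P X Y Z p - D21 P X Y' Z p := by
  rw [D21_symm hP, D21_sub_1 hP, D21_symm hP Y, D21_symm hP Y']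

theorem D21_smul_2 (hP : ContDiffAt ℝ ∞ P p) (c : ℂ) (X Y Z : V) :
    D21 P X (c • Y) Z p = c * D21 P X Y Z p := by
  rw [D21_symm hP, D21_smul_1 hP, D21_symm hP Y]

theorem D11_repl (hP : ContDiffAt ℝ ∞ P p) {G G' d d' : V} (h : ∀ Z, D11 P G Z p = D11 P d Z p)
    (h' : ∀ Z, D11 P G' Z p = D11 P d' Z p) : D11 P G G' p = D11 P d d' p := by
  rw [h, ← D11_conj hP, h', D11_conj hP]

theorem D11_self_re (hP : ContDiffAt ℝ ∞ P p) (X : V) :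
    D11 P X X p = ((D11 P X X p).re : ℂ) := by
  have := D11_conj hP X X
  exact (Complex.conj_eq_iff_re.1 this).symm

end LinV

/-- the metric of `hart A φ` -/
theorem hart_D11 (A φ : B2 → ℝ) (x : B2 × ℂ) (hA : ContDiffAt ℝ ∞ A x.1)
    (hφ : ContDiffAt ℝ ∞ φ x.1) (hx : uu φ x < 1) (X Y : B2 × ℂ) :
    D11 (hart A φ) X Y x = D11 A X.1 Y.1 x.1 + (yy φ x : ℂ) * D11 φ X.1 Y.1 x.1
      + ((Real.exp (φ x.1) / (1 - uu φ x) ^ 2 : ℝ) : ℂ) * nuu φ x X * conj (nuu φ x Y) := by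
  have E1 : ∀ᶠ q in 𝓝 x, uu φ q < 1 :=
    (contDiffAt_uu (n := 0) (hφ.of_le (by simp))).continuousAt.eventually_lt_const hx
  have E2 : ∀ᶠ q : B2 × ℂ in 𝓝 x, ContDiffAt ℝ 2 A q.1 :=
    continuous_fst.continuousAt.eventually ((hA.of_le two_le_inf).eventually (by simp))
  have E3 : ∀ᶠ q : B2 × ℂ in 𝓝 x, ContDiffAt ℝ 2 φ q.1 :=
    continuous_fst.continuousAt.eventually ((hφ.of_le two_le_inf).eventually (by simp))
  -- derivative of `u`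
  have dE : ∀ q : B2 × ℂ, ContDiffAt ℝ 2 φ q.1 →
      DifferentiableAt ℝ (fun r : B2 × ℂ => Real.exp (φ r.1)) q := fun q hq =>
    ((contDiffAt_fst' hq).exp).differentiableAt (by simp)
  have dN : ∀ q : B2 × ℂ, DifferentiableAt ℝ (fun r : B2 × ℂ => ((‖r.2‖ ^ 2 : ℝ) : ℂ)) q := fun q =>
    differentiableAt_ofReal ((contDiff_nsq (n := 1)).differentiable (by simp) q)
  have dφ : ∀ q : B2 × ℂ, ContDiffAt ℝ 2 φ q.1 →
      DifferentiableAt ℝ (fun r : B2 × ℂ => φ r.1) q := fun q hq =>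
    (contDiffAt_fst' hq).differentiableAt (by simp)
  have zE : ∀ q : B2 × ℂ, ContDiffAt ℝ 2 φ q.1 → ∀ Z : B2 × ℂ,
      dz Z (fun r : B2 × ℂ => ((Real.exp (φ r.1) : ℝ) : ℂ)) q =
        (Real.exp (φ q.1) : ℂ) * dz Z.1 (fun b => (φ b : ℂ)) q.1 := by
    intro q hq Z
    rw [dz_comp_real Real.exp (fun r : B2 × ℂ => φ r.1) Real.differentiableAt_exp (dφ q hq),
      Real.deriv_exp, dz_fst (f := fun b => (φ b : ℂ))
        (differentiableAt_ofReal (hq.differentiableAt (by simp)))]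
  have zbE : ∀ q : B2 × ℂ, ContDiffAt ℝ 2 φ q.1 → ∀ Z : B2 × ℂ,
      dzb Z (fun r : B2 × ℂ => ((Real.exp (φ r.1) : ℝ) : ℂ)) q =
        (Real.exp (φ q.1) : ℂ) * dzb Z.1 (fun b => (φ b : ℂ)) q.1 := by
    intro q hq Z
    rw [dzb_comp_real Real.exp (fun r : B2 × ℂ => φ r.1) Real.differentiableAt_exp (dφ q hq),
      Real.deriv_exp, dzb_fst (f := fun b => (φ b : ℂ))
        (differentiableAt_ofReal (hq.differentiableAt (by simp)))]
  have cu : (fun r : B2 × ℂ => (uu φ r : ℂ)) =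
      fun r => ((Real.exp (φ r.1) : ℝ) : ℂ) * ((‖r.2‖ ^ 2 : ℝ) : ℂ) := by
    funext r; unfold uu; push_cast; rfl
  have zu : ∀ q : B2 × ℂ, ContDiffAt ℝ 2 φ q.1 → ∀ Z : B2 × ℂ,
      dz Z (fun r : B2 × ℂ => (uu φ r : ℂ)) q =
        (Real.exp (φ q.1) : ℂ) * conj q.2 * nuu φ q Z := by
    intro q hq Z
    rw [cu, dz_mul (differentiableAt_ofReal (dE q hq)) (dN q), zE q hq, dz_nsq, congrFun nsq_eq q]
    unfold nuu
    ring
  have zbu : ∀ q : B2 × ℂ, ContDiffAt ℝ 2 φ q.1 → ∀ Z : B2 × ℂ,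
      dzb Z (fun r : B2 × ℂ => (uu φ r : ℂ)) q =
        (Real.exp (φ q.1) : ℂ) * q.2 * (conj q.2 * dzb Z.1 (fun b => (φ b : ℂ)) q.1 + conj Z.2) := by
    intro q hq Z
    rw [cu, dzb_mul (differentiableAt_ofReal (dE q hq)) (dN q), zbE q hq, dzb_nsq,
      congrFun nsq_eq q]
    ring
  have hwd : ∀ s : ℝ, s < 1 → HasDerivAt (fun s : ℝ => (1 - s)⁻¹) (((1 - s)⁻¹) ^ 2) s := by
    intro s hs
    have h1 : HasDerivAt (fun s : ℝ => 1 - s) (-1) s := by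
      simpa using (hasDerivAt_id s).const_sub 1
    refine (h1.inv (by linarith)).congr_deriv ?_
    field_simp
  have hld : ∀ s : ℝ, s < 1 → HasDerivAt (fun s : ℝ => - Real.log (1 - s)) ((1 - s)⁻¹) s := by
    intro s hs
    have h1 : HasDerivAt (fun s : ℝ => 1 - s) (-1) s := by
      simpa using (hasDerivAt_id s).const_sub 1
    refine (h1.log (by linarith)).neg.congr_deriv ?_
    field_simp
  -- first derivative near x
  have F1 : dzb Y (fun r => (hart A φ r : ℂ)) =ᶠ[𝓝 x] fun q =>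
      dzb Y (fun r : B2 × ℂ => (A r.1 : ℂ)) q +
        (((1 - uu φ q)⁻¹ : ℝ) : ℂ) * (((Real.exp (φ q.1) : ℝ) : ℂ) * (q.2 *
          (conj q.2 * dzb Y.1 (fun b => (φ b : ℂ)) q.1 + conj Y.2))) := by
    filter_upwards [E1, E2, E3] with q h1 h2 h3
    have e : (fun r => (hart A φ r : ℂ)) =
        fun r : B2 × ℂ => (A r.1 : ℂ) + ((- Real.log (1 - uu φ r) : ℝ) : ℂ) := by
      funext r; unfold hart uu; push_cast; ring
    have h4 : DifferentiableAt ℝ (uu φ) q := (contDiffAt_uu h3).differentiableAt (by simp)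
    have h5 : DifferentiableAt ℝ (fun r => - Real.log (1 - uu φ r)) q :=
      (hld _ h1).differentiableAt.comp q h4
    rw [e, dzb_add (differentiableAt_ofReal ((contDiffAt_fst' h2).differentiableAt (by simp)))
      (differentiableAt_ofReal h5), dzb_comp_real (fun s => - Real.log (1 - s)) (uu φ)
      (hld _ h1).differentiableAt h4, (hld _ h1).deriv, zbu q h3]
    ring
  have hA' : DifferentiableAt ℝ (dzb Y (fun r : B2 × ℂ => (A r.1 : ℂ))) x :=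
    (ev_diff (contDiffAt_dzb_inf Y (contDiffAt_ofReal (contDiffAt_fst' hA)))).self_of_nhds
  have hφ2 : ContDiffAt ℝ 2 φ x.1 := hφ.of_le two_le_inf
  have hu : DifferentiableAt ℝ (uu φ) x := (contDiffAt_uu hφ2).differentiableAt (by simp)
  have hw : DifferentiableAt ℝ (fun q => (((1 - uu φ q)⁻¹ : ℝ) : ℂ)) x :=
    differentiableAt_ofReal ((hwd _ hx).differentiableAt.comp x hu)
  have hE : DifferentiableAt ℝ (fun q : B2 × ℂ => ((Real.exp (φ q.1) : ℝ) : ℂ)) x :=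
    differentiableAt_ofReal (dE x hφ2)
  have hd0 : DifferentiableAt ℝ (dzb Y.1 (fun b => (φ b : ℂ))) x.1 :=
    (ev_diff (contDiffAt_dzb_inf Y.1 (contDiffAt_ofReal hφ))).self_of_nhds
  have hd : DifferentiableAt ℝ (fun q : B2 × ℂ => dzb Y.1 (fun b => (φ b : ℂ)) q.1) x :=
    hd0.comp x differentiableAt_fst
  have hc := diff_conj_snd x
  have hs := diff_snd x
  have h1 : DifferentiableAt ℝ (fun q : B2 × ℂ =>
      conj q.2 * dzb Y.1 (fun b => (φ b : ℂ)) q.1) x := hc.fun_mul hd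
  have h2 : DifferentiableAt ℝ (fun q : B2 × ℂ =>
      (conj q.2 * dzb Y.1 (fun b => (φ b : ℂ)) q.1 + conj Y.2)) x := h1.add_const _
  have h3 := hs.fun_mul h2
  have h4 := hE.fun_mul h3
  have h5 := hw.fun_mul h4
  have key : D11 (hart A φ) X Y x = dz X (dzb Y (fun r => (hart A φ r : ℂ))) x := rfl
  have keyA : dz X (dzb Y (fun r : B2 × ℂ => (A r.1 : ℂ))) x = D11 A X.1 Y.1 x.1 := D11_fst hA X Y
  have keyφ : dz X.1 (dzb Y.1 (fun b => (φ b : ℂ))) x.1 = D11 φ X.1 Y.1 x.1 := rfl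
  have hne : (1 : ℂ) - (uu φ x : ℂ) ≠ 0 := by
    have : (1 : ℝ) - uu φ x ≠ 0 := by linarith
    exact_mod_cast this
  have hnν : conj (nuu φ x Y) = conj x.2 * dzb Y.1 (fun b => (φ b : ℂ)) x.1 + conj Y.2 := by
    unfold nuu
    rw [map_add, map_mul, dzb_ofReal]
  rw [key, dz_congr F1, dz_add hA' h5, keyA, dz_mul hw h4, dz_mul hE h3, dz_mul hs h2,
    dz_add h1 (differentiableAt_const _), dz_const, dz_mul hc hd, dz_snd,
    dz_comp_real (fun s => (1 - s)⁻¹) (uu φ) (hwd _ hx).differentiableAt hu, (hwd _ hx).deriv,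
    zu x hφ2, zE x hφ2, dz_conj X (fun q : B2 × ℂ => q.2), dzb_snd,
    dz_fst (f := dzb Y.1 (fun b => (φ b : ℂ))) hd0, keyφ, ← hnν]
  have huu : (uu φ x : ℂ) = ((Real.exp (φ x.1) : ℝ) : ℂ) * (x.2 * conj x.2) := by
    have h6 : (uu φ x : ℂ) = ((Real.exp (φ x.1) : ℝ) : ℂ) * ((‖x.2‖ ^ 2 : ℝ) : ℂ) := congrFun cu x
    rw [h6, congrFun nsq_eq x]
  have hν : nuu φ x X = x.2 * dz X.1 (fun b => (φ b : ℂ)) x.1 + X.2 := rfl
  unfold yy
  push_cast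
  push_cast at huu
  rw [huu] at hne ⊢
  rw [hν, map_zero]
  have hne2 : 1 - cexp (φ x.1) * x.2 * conj x.2 ≠ 0 := by
    rw [mul_assoc]; exact hne
  generalize conj (nuu φ x Y) = N
  generalize dz X.1 (fun b => (φ b : ℂ)) x.1 = D at *
  generalize D11 φ X.1 Y.1 x.1 = S
  generalize D11 A X.1 Y.1 x.1 = T
  generalize conj x.2 = zc at *
  generalize cexp (φ x.1) = E at *
  field_simp
  ring

/-- same in terms of `aa` for `ζ ≠ 0` -/
theorem hart_D11' (A φ : B2 → ℝ) (x : B2 × ℂ) (hA : ContDiffAt ℝ ∞ A x.1)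
    (hφ : ContDiffAt ℝ ∞ φ x.1) (hx : uu φ x < 1) (hζ : x.2 ≠ 0) (X Y : B2 × ℂ) :
    D11 (hart A φ) X Y x = D11 (Hpot A φ (yy φ x)) X.1 Y.1 x.1 + aa φ x X * conj (aa φ x Y) := by
  rw [hart_D11 A φ x hA hφ hx, Hpot_D11 hA hφ]
  have hu0 : 0 < uu φ x := by unfold uu; positivity
  have hy0 : 0 < yy φ x := div_pos hu0 (by linarith)
  have hne : (1 : ℝ) - uu φ x ≠ 0 := by linarith
  have h1 : yy φ x * (1 + yy φ x) = uu φ x / (1 - uu φ x) ^ 2 := by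
    unfold yy; field_simp; ring
  have h2 : ((Real.sqrt (yy φ x * (1 + yy φ x)) : ℝ) : ℂ) * ((Real.sqrt (yy φ x * (1 + yy φ x)) : ℝ) : ℂ)
      = ((uu φ x / (1 - uu φ x) ^ 2 : ℝ) : ℂ) := by
    rw [← Complex.ofReal_mul, Real.mul_self_sqrt (by positivity), h1]
  have h3 : aa φ x X * conj (aa φ x Y) = ((uu φ x / (1 - uu φ x) ^ 2 : ℝ) : ℂ) *
      (nuu φ x X * conj (nuu φ x Y) / (x.2 * conj x.2)) := by
    rw [← h2]
    unfold aa
    rw [map_mul, Complex.conj_ofReal, map_div₀]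
    have : conj x.2 ≠ 0 := by simpa using hζ
    field_simp
  rw [h3]
  have h4 : (uu φ x : ℂ) = ((Real.exp (φ x.1) : ℝ) : ℂ) * (x.2 * conj x.2) := by
    unfold uu
    rw [Complex.ofReal_mul]
    have h5 : ((‖x.2‖ ^ 2 : ℝ) : ℂ) = x.2 * conj x.2 := congrFun nsq_eq x
    rw [h5]
  have h5 : ((Real.exp (φ x.1) / (1 - uu φ x) ^ 2 : ℝ) : ℂ) * nuu φ x X * conj (nuu φ x Y) =
      ((uu φ x / (1 - uu φ x) ^ 2 : ℝ) : ℂ) * (nuu φ x X * conj (nuu φ x Y) / (x.2 * conj x.2)) := by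
    have hne' : (1 : ℂ) - (uu φ x : ℂ) ≠ 0 := by exact_mod_cast hne
    have h6 : conj x.2 ≠ 0 := by simpa using hζ
    push_cast
    push_cast at h4
    rw [h4] at hne' ⊢
    field_simp
  rw [h5]

/-- structure of the Christoffel vectors of the Hartogs metric -/
theorem gam_split {A φ : B2 → ℝ} {x : B2 × ℂ} (hA : ContDiffAt ℝ ∞ A x.1)
    (hφ : ContDiffAt ℝ ∞ φ x.1) (hx : uu φ x < 1) (hζ : x.2 ≠ 0) {X Y Γ : B2 × ℂ}
    (h : IsGam (hart A φ) x X Y Γ) :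
    nuu φ x Γ / x.2 = dz X (dz Y (fun q => (tt φ q : ℂ))) x
      + (1 + 2 * (yy φ x : ℂ)) * (nuu φ x X / x.2) * (nuu φ x Y / x.2) ∧
    ∀ Z : B2, D11 (Hpot A φ (yy φ x)) Γ.1 Z x.1 = D21 (Hpot A φ (yy φ x)) X.1 Y.1 Z x.1
      + (yy φ x : ℂ) * (1 + yy φ x) * ((nuu φ x X / x.2) * D11 φ Y.1 Z x.1
        + (nuu φ x Y / x.2) * D11 φ X.1 Z x.1) := by
  have hg := hart_HG hA hφ hx hζ
  have hφd : DifferentiableAt ℝ φ x.1 := (hφ.of_le two_le_inf).differentiableAt (by simp)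
  have hu0 : 0 < uu φ x := by unfold uu; positivity
  have hy0 : 0 < yy φ x := div_pos hu0 (by linarith)
  have hF : (yy φ x : ℂ) * (1 + yy φ x) ≠ 0 := by
    have : yy φ x * (1 + yy φ x) ≠ 0 := by positivity
    exact_mod_cast this
  -- general equation
  have G : ∀ Z : B2 × ℂ, D11 A Γ.1 Z.1 x.1 + ((yy φ x : ℂ) * (1 + yy φ x) *
      (nuu φ x Γ / x.2) * conj (nuu φ x Z / x.2) + (yy φ x : ℂ) * D11 φ Γ.1 Z.1 x.1)
      = D21 A X.1 Y.1 Z.1 x.1 + ((yy φ x : ℂ) * (1 + yy φ x) * (1 + 2 * yy φ x) *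
          (nuu φ x X / x.2) * (nuu φ x Y / x.2) * conj (nuu φ x Z / x.2)
        + (yy φ x : ℂ) * (1 + yy φ x) * (dz X (dz Y (fun q => (tt φ q : ℂ))) x
            * conj (nuu φ x Z / x.2)
          + (nuu φ x Y / x.2) * D11 φ X.1 Z.1 x.1 + (nuu φ x X / x.2) * D11 φ Y.1 Z.1 x.1)
        + (yy φ x : ℂ) * D21 φ X.1 Y.1 Z.1 x.1) := by
    intro Z
    have h1 := h Z
    have h2 := (hg.s11 Γ Z).self_of_nhds
    have h3 := (hg.s21 X Y Z).self_of_nhds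
    have eb : dzb Z (fun q => (tt φ q : ℂ)) x = conj (nuu φ x Z / x.2) := by
      rw [dzb_ofReal, dz_tt hφd hζ]
    have e4 : dz Γ (dzb Z (fun q => (tt φ q : ℂ))) x = D11 φ Γ.1 Z.1 x.1 := D11_tt hφ hζ Γ Z
    have e5 : dz X (dzb Z (fun q => (tt φ q : ℂ))) x = D11 φ X.1 Z.1 x.1 := D11_tt hφ hζ X Z
    have e6 : dz Y (dzb Z (fun q => (tt φ q : ℂ))) x = D11 φ Y.1 Z.1 x.1 := D11_tt hφ hζ Y Z
    have e7 : dz X (dz Y (dzb Z (fun q => (tt φ q : ℂ)))) x = D21 φ X.1 Y.1 Z.1 x.1 :=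
      D21_tt hφ hζ X Y Z
    have e8 : dz Γ (dzb Z (fun q : B2 × ℂ => (A q.1 : ℂ))) x = D11 A Γ.1 Z.1 x.1 := D11_fst hA Γ Z
    have e9 : dz X (dz Y (dzb Z (fun q : B2 × ℂ => (A q.1 : ℂ)))) x = D21 A X.1 Y.1 Z.1 x.1 :=
      D21_fst hA X Y Z
    rw [dz_tt hφd hζ, eb, e4, e8] at h2
    rw [dz_tt hφd hζ, dz_tt hφd hζ, eb, e5, e6, e7, e9] at h3
    unfold D11 D21 at h1
    rw [h2, h3] at h1
    exact h1
  -- linearity of `nuu`
  have hnv : nuu φ x ((0, x.2) : B2 × ℂ) = x.2 := by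
    unfold nuu; simp
  have hD0 : ∀ (P : B2 → ℝ), ContDiffAt ℝ ∞ P x.1 → ∀ W, D11 P W 0 x.1 = 0 := by
    intro P hP W
    have := D11_smul_right hP 0 W (0 : B2)
    simpa using this
  have hD20 : ∀ (P : B2 → ℝ), ContDiffAt ℝ ∞ P x.1 → ∀ W W', D21 P W W' 0 x.1 = 0 := by
    intro P hP W W'
    have := D21_smul_3 hP 0 W W' (0 : B2)
    simpa using this
  have h1 := G ((0, x.2) : B2 × ℂ)
  simp only [hD0 A hA, hD0 φ hφ, hD20 A hA, hD20 φ hφ, hnv, div_self hζ, map_one, mul_one, mul_zero,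
    add_zero, zero_add] at h1
  have i1 : nuu φ x Γ / x.2 = dz X (dz Y (fun q => (tt φ q : ℂ))) x
      + (1 + 2 * (yy φ x : ℂ)) * (nuu φ x X / x.2) * (nuu φ x Y / x.2) := by
    apply mul_left_cancel₀ hF
    rw [h1]; ring
  refine ⟨i1, fun Z => ?_⟩
  have h2 := G (Z, 0)
  rw [i1] at h2
  rw [Hpot_D11 hA hφ, Hpot_D21 hA hφ]
  simp only at h2
  linear_combination h2

end HH

open HH in
/-- the exact formula for `- K` numerator. -/
theorem hart_negK (A φ : B2 → ℝ) (x : B2 × ℂ) (hA : ContDiffAt ℝ ∞ A x.1)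
    (hφ : ContDiffAt ℝ ∞ φ x.1) (hx : uu φ x < 1) (hζ : x.2 ≠ 0)
    (hH : PD (Hpot A φ (yy φ x)) x.1)
    (κ : B2 → B2) (hκ : ∀ v w, D11 (Hpot A φ (yy φ x)) (κ v) w x.1 = D11 φ v w x.1)
    (X Y Γxx Γxy Γyy : B2 × ℂ) (h1 : IsGam (hart A φ) x X X Γxx)
    (h2 : IsGam (hart A φ) x X Y Γxy) (h3 : IsGam (hart A φ) x Y Y Γyy)
    (γ11 γ12 γ22 g1 g2 : B2)
    (k11 : IsGam (Hpot A φ (yy φ x)) x.1 X.1 X.1 γ11)
    (k12 : IsGam (Hpot A φ (yy φ x)) x.1 X.1 Y.1 γ12)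
    (k22 : IsGam (Hpot A φ (yy φ x)) x.1 Y.1 Y.1 γ22)
    (u' : B2) (hu' : u' = conj (aa φ x X) • Y.1 - conj (aa φ x Y) • X.1)
    (kg1 : IsGam (Hpot A φ (yy φ x)) x.1 X.1 u' g1)
    (kg2 : IsGam (Hpot A φ (yy φ x)) x.1 Y.1 u' g2) :
    negK (hart A φ) x X Y Γxx Γxy Γyy =
      (mf A φ (yy φ x) x.1 κ u' u').re + 4 * (aa φ x X * conj (aa φ x Y)).im ^ 2
      + 4 * (aa φ x X * conj (aa φ x Y)).im * (mf A φ (yy φ x) x.1 κ X.1 Y.1).im
      + yy φ x * (1 + yy φ x) * calK φ x.1 X.1 Y.1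
      + negK (Hpot A φ (yy φ x)) x.1 X.1 Y.1 γ11 γ12 γ22
      + 2 * Real.sqrt (yy φ x * (1 + yy φ x)) *
        ((D21 φ X.1 u' Y.1 x.1 - D11 φ g1 Y.1 x.1)
          - (D21 φ Y.1 u' X.1 x.1 - D11 φ g2 X.1 x.1)).re := by
  have hHc : ContDiffAt ℝ ∞ (Hpot A φ (yy φ x)) x.1 := Hpot_contDiffAt hA hφ
  have hg := hart_HG hA hφ hx hζ
  have hφd : DifferentiableAt ℝ φ x.1 := (hφ.of_le two_le_inf).differentiableAt (by simp)
  have hu0 : 0 < uu φ x := by unfold uu; positivity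
  have hy0 : 0 < yy φ x := div_pos hu0 (by linarith)
  have htt : ContDiffAt ℝ ∞ (tt φ) x := contDiffAt_tt hφ hζ
  set s : ℝ := Real.sqrt (yy φ x * (1 + yy φ x)) with hs
  have hs2 : s ^ 2 = yy φ x * (1 + yy φ x) := Real.sq_sqrt (by positivity)
  have hsc : (s : ℂ) ^ 2 = (yy φ x : ℂ) * (1 + yy φ x) := by exact_mod_cast hs2
  -- Hermitian form and κ
  have hκr : ∀ v w, D11 (Hpot A φ (yy φ x)) w (κ v) x.1 = D11 φ w v x.1 := by
    intro v w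
    rw [← D11_conj hHc, hκ, D11_conj hφ]
  have hκκ : ∀ v w, D11 (Hpot A φ (yy φ x)) (κ v) (κ w) x.1 = D11 φ v (κ w) x.1 :=
    fun v w => hκ _ _
  obtain ⟨t1, r1⟩ := gam_split hA hφ hx hζ h1
  obtain ⟨t2, r2⟩ := gam_split hA hφ hx hζ h2
  obtain ⟨t3, r3⟩ := gam_split hA hφ hx hζ h3
  have haX : aa φ x X = (s : ℂ) * (nuu φ x X / x.2) := rfl
  have haY : aa φ x Y = (s : ℂ) * (nuu φ x Y / x.2) := rfl
  -- fourth derivatives
  have eb : ∀ Z, dzb Z (fun q => (tt φ q : ℂ)) x = conj (nuu φ x Z / x.2) := by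
    intro Z; rw [dzb_ofReal, dz_tt hφd hζ]
  have et : ∀ Z, dz Z (fun q => (tt φ q : ℂ)) x = nuu φ x Z / x.2 := fun Z => dz_tt hφd hζ Z
  have e11 : ∀ Z W, dz Z (dzb W (fun q => (tt φ q : ℂ))) x = D11 φ Z.1 W.1 x.1 :=
    fun Z W => D11_tt hφ hζ Z W
  have e21 : ∀ Z W U, dz Z (dz W (dzb U (fun q => (tt φ q : ℂ)))) x = D21 φ Z.1 W.1 U.1 x.1 :=
    fun Z W U => D21_tt hφ hζ Z W U
  have e12 : ∀ Z W U, dz Z (dzb W (dzb U (fun q => (tt φ q : ℂ)))) x = conj (D21 φ W.1 U.1 Z.1 x.1) := by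
    intro Z W U
    rw [D12_eq htt, D21_tt hφ hζ]
  have e02 : ∀ Z W, dzb Z (dzb W (fun q => (tt φ q : ℂ))) x =
      conj (dz Z (dz W (fun q => (tt φ q : ℂ))) x) := fun Z W => D02_eq x Z W
  have e22 : ∀ Z W U T, dz Z (dz W (dzb U (dzb T (fun q => (tt φ q : ℂ))))) x =
      D22 φ Z.1 W.1 U.1 T.1 x.1 := fun Z W U T => D22_tt hφ hζ Z W U T
  have a22 : ∀ Z W U T : B2 × ℂ, dz Z (dz W (dzb U (dzb T (fun q : B2 × ℂ => (A q.1 : ℂ))))) x =
      D22 A Z.1 W.1 U.1 T.1 x.1 := fun Z W U T => D22_fst hA Z W U T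
  have Q1 := hg.s22 X Y X Y
  have Q2 := hg.s22 X X Y Y
  simp only [et, eb, e11, e21, e12, e02, e22, a22] at Q1 Q2
  have Q1' : D22 (hart A φ) X Y X Y x = _ := Q1
  have Q2' : D22 (hart A φ) X X Y Y x = _ := Q2
  clear Q1 Q2
  -- the Hartogs metric at `x`
  have M11 : ∀ Z W, D11 (hart A φ) Z W x = D11 (Hpot A φ (yy φ x)) Z.1 W.1 x.1
      + (s:ℂ)^2 * (nuu φ x Z / x.2) * conj (nuu φ x W / x.2) := by
    intro Z W
    have h4 := (hg.s11 Z W).self_of_nhds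
    rw [et, eb, e11] at h4
    have e8 : dz Z (dzb W (fun q : B2 × ℂ => (A q.1 : ℂ))) x = D11 A Z.1 W.1 x.1 := D11_fst hA Z W
    rw [e8] at h4
    unfold D11
    rw [h4]
    have := Hpot_D11 (y := yy φ x) hA hφ Z.1 W.1
    unfold D11 at this ⊢
    rw [this, hsc]; ring
  -- replacement vectors
  set a := nuu φ x X / x.2 with ha
  set b := nuu φ x Y / x.2 with hb
  set H := Hpot A φ (yy φ x) with hHdef
  have d2 : ∀ Z, D11 H Γxy.1 Z x.1 =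
      D11 H (γ12 + (((s:ℂ)^2 * a) • κ Y.1 + ((s:ℂ)^2 * b) • κ X.1)) Z x.1 := by
    intro Z
    rw [r2 Z, D11_add_left hHc, D11_add_left hHc, D11_smul_left hHc, D11_smul_left hHc, hκ, hκ,
      k12 Z, hsc]
    ring
  have d1 : ∀ Z, D11 H Γxx.1 Z x.1 = D11 H (γ11 + (2 * (s:ℂ)^2 * a) • κ X.1) Z x.1 := by
    intro Z
    rw [r1 Z, D11_add_left hHc, D11_smul_left hHc, hκ, k11 Z, hsc]
    ring
  have d3 : ∀ Z, D11 H Γyy.1 Z x.1 = D11 H (γ22 + (2 * (s:ℂ)^2 * b) • κ Y.1) Z x.1 := by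
    intro Z
    rw [r3 Z, D11_add_left hHc, D11_smul_left hHc, hκ, k22 Z, hsc]
    ring
  have N1 := D11_repl hHc d2 d2
  have N2 := D11_repl hHc d1 d3
  have cs : conj ((s:ℂ)) = s := Complex.conj_ofReal s
  -- names of the scalars
  have K21 : D11 H (κ Y.1) (κ X.1) x.1 = conj (D11 H (κ X.1) (κ Y.1) x.1) := (D11_conj hHc _ _).symm
  have S21 : D11 φ Y.1 X.1 x.1 = conj (D11 φ X.1 Y.1 x.1) := (D11_conj hφ _ _).symm
  have K21' : D11 φ (κ Y.1) X.1 x.1 = conj (D11 φ (κ X.1) Y.1 x.1) := by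
    rw [← hκr X.1 (κ Y.1), ← hκr Y.1 (κ X.1), K21]
  have kl : ∀ v w, D11 H (κ v) w x.1 = conj (D11 φ w v x.1) := by
    intro v w; rw [hκ, D11_conj hφ]
  have N1' : D11 H Γxy.1 Γxy.1 x.1 = D11 H γ12 γ12 x.1
      + (s:ℂ)^2 * (conj a * D11 φ γ12 Y.1 x.1 + conj b * D11 φ γ12 X.1 x.1
        + a * conj (D11 φ γ12 Y.1 x.1) + b * conj (D11 φ γ12 X.1 x.1))
      + (s:ℂ)^4 * (a * conj a * D11 H (κ Y.1) (κ Y.1) x.1
        + a * conj b * conj (D11 H (κ X.1) (κ Y.1) x.1)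
        + b * conj a * D11 H (κ X.1) (κ Y.1) x.1 + b * conj b * D11 H (κ X.1) (κ X.1) x.1) := by
    rw [N1]
    simp only [D11_add_left hHc, D11_add_right hHc, D11_smul_left hHc, D11_smul_right hHc, hκr,
      map_mul, map_pow, cs]
    rw [kl Y.1 γ12, kl X.1 γ12, K21']
    ring
  have N2' : D11 H Γxx.1 Γyy.1 x.1 = D11 H γ11 γ22 x.1
      + 2 * (s:ℂ)^2 * (conj b * D11 φ γ11 Y.1 x.1 + a * conj (D11 φ γ22 X.1 x.1))
      + 4 * (s:ℂ)^4 * (a * conj b * D11 H (κ X.1) (κ Y.1) x.1) := by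
    rw [N2]
    simp only [D11_add_left hHc, D11_add_right hHc, D11_smul_left hHc, D11_smul_right hHc, hκr,
      map_mul, map_pow, cs, map_ofNat]
    rw [kl X.1 γ22]
    ring
  -- third order terms
  have P1 : D21 φ X.1 u' Y.1 x.1 = (s:ℂ) * (conj a * D21 φ X.1 Y.1 Y.1 x.1
      - conj b * D21 φ X.1 X.1 Y.1 x.1) := by
    rw [hu', D21_sub_2 hφ, D21_smul_2 hφ, D21_smul_2 hφ, haX, haY, map_mul, map_mul, cs]; ring
  have P2 : D21 φ Y.1 u' X.1 x.1 = (s:ℂ) * (conj a * D21 φ Y.1 Y.1 X.1 x.1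
      - conj b * D21 φ X.1 Y.1 X.1 x.1) := by
    rw [hu', D21_sub_2 hφ, D21_smul_2 hφ, D21_smul_2 hφ, haX, haY, map_mul, map_mul, cs,
      D21_symm hφ Y.1 X.1]; ring
  have P3 : D11 φ g1 Y.1 x.1 = (s:ℂ) * (conj a * D11 φ γ12 Y.1 x.1 - conj b * D11 φ γ11 Y.1 x.1) := by
    rw [← hκr Y.1 g1, kg1, hu', D21_sub_2 hHc, D21_smul_2 hHc, D21_smul_2 hHc, ← k12, ← k11, hκr,
      hκr, haX, haY, map_mul, map_mul, cs]; ring
  have P4 : D11 φ g2 X.1 x.1 = (s:ℂ) * (conj a * D11 φ γ22 X.1 x.1 - conj b * D11 φ γ12 X.1 x.1) := by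
    rw [← hκr X.1 g2, kg2, hu', D21_sub_2 hHc, D21_smul_2 hHc, D21_smul_2 hHc,
      D21_symm hHc Y.1 X.1, ← k12, ← k22, hκr,
      hκr, haX, haY, map_mul, map_mul, cs]; ring
  -- mf at u', u'
  have hκu : ∀ w, D11 H (κ u') w x.1 = D11 H ((conj ((s:ℂ) * a)) • κ Y.1 - (conj ((s:ℂ) * b)) • κ X.1) w x.1 := by
    intro w
    rw [hκ, hu', D11_sub_left hφ, D11_sub_left hHc, D11_smul_left hφ, D11_smul_left hφ,
      D11_smul_left hHc, D11_smul_left hHc, hκ, hκ, haX, haY]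
  have U1 : D11 H (κ u') (κ u') x.1 = (s:ℂ)^2 * (conj a * a * D11 H (κ Y.1) (κ Y.1) x.1
      - conj a * b * conj (D11 H (κ X.1) (κ Y.1) x.1) - conj b * a * D11 H (κ X.1) (κ Y.1) x.1
      + conj b * b * D11 H (κ X.1) (κ X.1) x.1) := by
    rw [D11_repl hHc hκu hκu]
    simp only [D11_sub_left hHc, D11_sub_right hHc, D11_smul_left hHc, D11_smul_right hHc,
      map_mul, Complex.conj_conj, cs]
    rw [K21]
    ring
  have U2 : D11 φ u' u' x.1 = (s:ℂ)^2 * (conj a * a * D11 φ Y.1 Y.1 x.1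
      - conj a * b * conj (D11 φ X.1 Y.1 x.1) - conj b * a * D11 φ X.1 Y.1 x.1
      + conj b * b * D11 φ X.1 X.1 x.1) := by
    rw [hu', haX, haY]
    simp only [D11_sub_left hφ, D11_sub_right hφ, D11_smul_left hφ, D11_smul_right hφ,
      map_mul, Complex.conj_conj, cs]
    rw [S21]
    ring
  have SX := D11_self_re hφ X.1
  have SY := D11_self_re hφ Y.1
  have KX := D11_self_re hHc (κ X.1)
  have KY := D11_self_re hHc (κ Y.1)
  have key := negK_alg s (yy φ x) a b (dz X (dz X (fun q => (tt φ q : ℂ))) x)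
    (dz X (dz Y (fun q => (tt φ q : ℂ))) x) (dz Y (dz Y (fun q => (tt φ q : ℂ))) x)
    (D11 φ X.1 Y.1 x.1) (D21 φ X.1 Y.1 X.1 x.1) (D21 φ X.1 Y.1 Y.1 x.1) (D21 φ X.1 X.1 Y.1 x.1)
    (D21 φ Y.1 Y.1 X.1 x.1) (D11 φ γ12 X.1 x.1) (D11 φ γ12 Y.1 x.1) (D11 φ γ11 Y.1 x.1)
    (D11 φ γ22 X.1 x.1) (D11 H (κ X.1) (κ Y.1) x.1)
    (D22 H X.1 Y.1 X.1 Y.1 x.1) (D22 H X.1 X.1 Y.1 Y.1 x.1) (D11 H γ12 γ12 x.1)
    (D11 H γ11 γ22 x.1)
    (D11 φ X.1 X.1 x.1).re (D11 φ Y.1 Y.1 x.1).re (D11 H (κ X.1) (κ X.1) x.1).re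
    (D11 H (κ Y.1) (κ Y.1) x.1).re
  rw [← SX, ← SY, ← KX, ← KY] at key
  have R1 : mf A φ (yy φ x) x.1 κ u' u' = (1 + 2 * (yy φ x : ℂ)) * ((s:ℂ)^2 *
      (conj a * a * D11 φ Y.1 Y.1 x.1
      - conj a * b * conj (D11 φ X.1 Y.1 x.1) - conj b * a * D11 φ X.1 Y.1 x.1
      + conj b * b * D11 φ X.1 X.1 x.1)) - (s:ℂ)^2 * ((s:ℂ)^2 *
      (conj a * a * D11 H (κ Y.1) (κ Y.1) x.1
      - conj a * b * conj (D11 H (κ X.1) (κ Y.1) x.1) - conj b * a * D11 H (κ X.1) (κ Y.1) x.1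
      + conj b * b * D11 H (κ X.1) (κ X.1) x.1)) := by
    unfold mf
    rw [← hHdef, U1, U2]
    rw [show (yy φ x : ℂ) * (1 + yy φ x) = (s:ℂ)^2 from hsc.symm]
  have R2 : mf A φ (yy φ x) x.1 κ X.1 Y.1 = (1 + 2 * (yy φ x : ℂ)) * D11 φ X.1 Y.1 x.1
      - (s:ℂ)^2 * D11 H (κ X.1) (κ Y.1) x.1 := by
    unfold mf
    rw [← hHdef, hsc]
  have R3 : negK H x.1 X.1 Y.1 γ11 γ12 γ22 = (D22 H X.1 Y.1 X.1 Y.1 x.1 - D11 H γ12 γ12 x.1
      - D22 H X.1 X.1 Y.1 Y.1 x.1 + D11 H γ11 γ22 x.1).re := rfl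
  have hs4 : (s:ℂ)^4 = ((yy φ x : ℂ) * (1 + yy φ x)) ^ 2 := by
    rw [← hsc]; ring
  refine Eq.trans ?_ (key.trans ?_)
  · unfold negK
    rw [Q1', Q2', M11, M11, N1', N2', t1, t2, t3]
    congr 1
    rw [hs4, hsc, Hpot_D22 hA hφ, Hpot_D22 hA hφ, S21]
    simp only [map_add, map_mul, map_one, map_ofNat, Complex.conj_ofReal]
    ring
  · rw [R1, R2, R3, P1, P2, P3, P4, haX, haY]
    unfold calK
    rw [← hs2]

end Crest.Agent.R245
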