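import Crest.Agent.R245.LemmaH1

/-! TASK LemmaH3: the area formula. -/

set_option autoImplicit false

namespace Crest.Agent.R245

open Complex Filter Topology
open scoped ContDiff ComplexConjugate

/-- the algebra behind the area formula -/
theorem area_alg (hxx hyy hxy hyx a c uu' : ℂ) (h1 : conj hxx = hxx) (h2 : conj hyy = hyy)
    (h3 : conj hxy = hyx)
    (hu : uu' = conj a * (a * hyy) - conj a * (c * hyx) - conj c * (a * hxy)
      + conj c * (c * hxx)) :
    (hxx + a * conj a).re * (hyy + c * conj c).re - (hxy + a * conj c).re ^ 2 =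
      (hxx.re * hyy.re - hxy.re ^ 2) + uu'.re
      - 2 * (a * conj c).im * hxy.im + (a * conj c).im ^ 2 := by
  have e1 : hxx.im = 0 := by
    have := congrArg Complex.im h1
    simp at this
    linarith
  have e2 : hyy.im = 0 := by
    have := congrArg Complex.im h2
    simp at this
    linarith
  subst h3
  subst hu
  simp only [Complex.add_re, Complex.sub_re, Complex.mul_re, Complex.conj_re, Complex.conj_im,
    Complex.mul_im, e1, e2]
  ring

/-- area in terms of the decomposition -/
theorem hart_area (A φ : B2 → ℝ) (x : B2 × ℂ) (hA : ContDiffAt ℝ ∞ A x.1)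
    (hφ : ContDiffAt ℝ ∞ φ x.1) (hx : uu φ x < 1) (hζ : x.2 ≠ 0) (X Y : B2 × ℂ)
    (u' : B2) (hu' : u' = conj (aa φ x X) • Y.1 - conj (aa φ x Y) • X.1) :
    area (hart A φ) x X Y = area (Hpot A φ (yy φ x)) x.1 X.1 Y.1
      + (D11 (Hpot A φ (yy φ x)) u' u' x.1).re
      - 2 * (aa φ x X * conj (aa φ x Y)).im * (D11 (Hpot A φ (yy φ x)) X.1 Y.1 x.1).im
      + (aa φ x X * conj (aa φ x Y)).im ^ 2 := by
  have hH : ContDiffAt ℝ ∞ (Hpot A φ (yy φ x)) x.1 := by
    unfold Hpot
    exact hA.add (contDiffAt_const.mul hφ)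
  unfold area
  rw [hart_D11' A φ x hA hφ hx hζ, hart_D11' A φ x hA hφ hx hζ, hart_D11' A φ x hA hφ hx hζ]
  apply area_alg _ _ _ (D11 (Hpot A φ (yy φ x)) Y.1 X.1 x.1)
  · exact D11_conj hH _ _
  · exact D11_conj hH _ _
  · exact D11_conj hH _ _
  · subst hu'
    rw [sub_eq_add_neg, ← neg_smul, D11_add_left hH, D11_add_right hH, D11_add_right hH,
      D11_smul_left hH, D11_smul_left hH, D11_smul_left hH, D11_smul_left hH,
      D11_smul_right hH, D11_smul_right hH, D11_smul_right hH, D11_smul_right hH]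
    simp only [map_neg, Complex.conj_conj]
    ring

end Crest.Agent.R245
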