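import Crest.Agent.R245.Ops

/-! TASK OpsNorm: norm bounds for `D11, D21, D22`. -/

set_option autoImplicit false

namespace Crest.Agent.R245

open Complex Filter Topology
open scoped ContDiff ComplexConjugate

section Forms

variable {V : Type*} [NormedAddCommGroup V] [NormedSpace ℝ V] [NormedSpace ℂ V] [IsScalarTower ℝ ℂ V]
variable {V' : Type*} [NormedAddCommGroup V'] [NormedSpace ℝ V'] [NormedSpace ℂ V']
  [IsScalarTower ℝ ℂ V']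
variable {P Q : V → ℝ} {p : V}

/-- `T ↦ (T X + c T (I X)) / 2` -/
noncomputable def opL (c : ℂ) (X : V) : (V →L[ℝ] ℂ) →L[ℝ] ℂ :=
  (1 / 2 : ℝ) • (ContinuousLinearMap.apply ℝ ℂ X)
    + ((1 / 2 : ℝ) • (ContinuousLinearMap.mul ℝ ℂ c)).comp (ContinuousLinearMap.apply ℝ ℂ (I • X))

omit [IsScalarTower ℝ ℂ V] in
lemma opL_apply (c : ℂ) (X : V) (T : V →L[ℝ] ℂ) : opL c X T = (T X + c * T (I • X)) / 2 := by
  simp [opL]
  ring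

omit [IsScalarTower ℝ ℂ V] in
lemma opL_norm_le (c : ℂ) (hc : ‖c‖ = 1) (X : V) : ‖opL c X‖ ≤ ‖X‖ := by
  refine ContinuousLinearMap.opNorm_le_bound _ (norm_nonneg _) fun T => ?_
  rw [opL_apply, norm_div]
  have h1 : ‖T X‖ ≤ ‖T‖ * ‖X‖ := T.le_opNorm X
  have h2 : ‖T (I • X)‖ ≤ ‖T‖ * ‖X‖ := by
    have := T.le_opNorm (I • X)
    rwa [norm_smul, Complex.norm_I, one_mul] at this
  have h3 : ‖T X + c * T (I • X)‖ ≤ ‖T X‖ + ‖T (I • X)‖ := by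
    refine (norm_add_le _ _).trans ?_
    rw [norm_mul, hc, one_mul]
  have h4 : ‖(2:ℂ)‖ = 2 := by simp
  rw [h4, div_le_iff₀ (by norm_num)]
  nlinarith

omit [IsScalarTower ℝ ℂ V] in
lemma dz_eq_opL (X : V) (u : V → ℂ) : dz X u = fun q => opL (-I) X (fderiv ℝ u q) := by
  ext q
  rw [opL_apply]
  simp only [dz]
  ring

omit [IsScalarTower ℝ ℂ V] in
lemma dzb_eq_opL (X : V) (u : V → ℂ) : dzb X u = fun q => opL I X (fderiv ℝ u q) := by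
  ext q
  rw [opL_apply]
  simp only [dzb]

omit [NormedSpace ℂ V] [IsScalarTower ℝ ℂ V] in
lemma norm_iteratedFDeriv_opL_le {u : V → ℂ} {p : V} (hu : ContDiffAt ℝ ∞ u p)
    (L : (V →L[ℝ] ℂ) →L[ℝ] ℂ) (k : ℕ) :
    ‖iteratedFDeriv ℝ k (fun q => L (fderiv ℝ u q)) p‖ ≤ ‖L‖ * ‖iteratedFDeriv ℝ (k + 1) u p‖ := by
  have h1 : ContDiffAt ℝ k (fderiv ℝ u) p := hu.fderiv_right (by norm_cast; exact le_top)
  have h2 : iteratedFDeriv ℝ k (L ∘ fderiv ℝ u) p =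
      L.compContinuousMultilinearMap (iteratedFDeriv ℝ k (fderiv ℝ u) p) :=
    L.iteratedFDeriv_comp_left h1 le_rfl
  have h3 : (fun q => L (fderiv ℝ u q)) = L ∘ fderiv ℝ u := rfl
  rw [h3, h2, ← norm_iteratedFDeriv_fderiv]
  exact ContinuousLinearMap.norm_compContinuousMultilinearMap_le _ _

omit [IsScalarTower ℝ ℂ V] in
lemma norm_iteratedFDeriv_dz_le {u : V → ℂ} {p : V} (hu : ContDiffAt ℝ ∞ u p) (X : V) (k : ℕ) :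
    ‖iteratedFDeriv ℝ k (dz X u) p‖ ≤ ‖X‖ * ‖iteratedFDeriv ℝ (k + 1) u p‖ := by
  rw [dz_eq_opL]
  refine (norm_iteratedFDeriv_opL_le hu (opL (-I) X) k).trans ?_
  gcongr
  exact opL_norm_le _ (by simp) X

omit [IsScalarTower ℝ ℂ V] in
lemma norm_iteratedFDeriv_dzb_le {u : V → ℂ} {p : V} (hu : ContDiffAt ℝ ∞ u p) (X : V) (k : ℕ) :
    ‖iteratedFDeriv ℝ k (dzb X u) p‖ ≤ ‖X‖ * ‖iteratedFDeriv ℝ (k + 1) u p‖ := by
  rw [dzb_eq_opL]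
  refine (norm_iteratedFDeriv_opL_le hu (opL I X) k).trans ?_
  gcongr
  exact opL_norm_le _ (by simp) X

omit [NormedSpace ℂ V] [IsScalarTower ℝ ℂ V] in
lemma norm_iteratedFDeriv_ofReal_comp (hP : ContDiffAt ℝ ∞ P p) (k : ℕ) :
    ‖iteratedFDeriv ℝ k (fun q => (P q : ℂ)) p‖ = ‖iteratedFDeriv ℝ k P p‖ := by
  have h : (fun q => (P q : ℂ)) = (Complex.ofRealLI : ℝ →ₗᵢ[ℝ] ℂ) ∘ P := by
    ext q; simp
  rw [h]
  exact LinearIsometry.norm_iteratedFDeriv_comp_left _ (hP.of_le (by norm_cast; exact le_top : (k : WithTop ℕ∞) ≤ ∞)) le_rfl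

omit [NormedSpace ℂ V] [IsScalarTower ℝ ℂ V] in
lemma contDiffAt_ofReal_comp' (hP : ContDiffAt ℝ ∞ P p) :
    ContDiffAt ℝ ∞ (fun q => (P q : ℂ)) p :=
  (Complex.ofRealCLM.contDiff (n := ∞)).contDiffAt.comp p hP

/-! norm bounds by iterated derivatives -/
theorem D11_le (hP : ContDiffAt ℝ ∞ P p) (X Y : V) :
    ‖D11 P X Y p‖ ≤ ‖iteratedFDeriv ℝ 2 P p‖ * ‖X‖ * ‖Y‖ := by
  have h0 := contDiffAt_ofReal_comp' hP
  have h1 := contDiffAt_dzb_inf Y h0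
  have a1 := norm_iteratedFDeriv_dz_le h1 X 0
  have a2 := norm_iteratedFDeriv_dzb_le h0 Y 1
  rw [norm_iteratedFDeriv_zero] at a1
  rw [norm_iteratedFDeriv_ofReal_comp hP] at a2
  unfold D11
  calc _ ≤ ‖X‖ * ‖iteratedFDeriv ℝ (0 + 1) (dzb Y (fun q => (P q : ℂ))) p‖ := a1
    _ ≤ ‖X‖ * (‖Y‖ * ‖iteratedFDeriv ℝ (1 + 1) P p‖) := by gcongr
    _ = _ := by ring

theorem D21_le (hP : ContDiffAt ℝ ∞ P p) (X Y Z : V) :
    ‖D21 P X Y Z p‖ ≤ ‖iteratedFDeriv ℝ 3 P p‖ * ‖X‖ * ‖Y‖ * ‖Z‖ := by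
  have h0 := contDiffAt_ofReal_comp' hP
  have h1 := contDiffAt_dzb_inf Z h0
  have h2 := contDiffAt_dz_inf Y h1
  have a1 := norm_iteratedFDeriv_dz_le h2 X 0
  have a2 := norm_iteratedFDeriv_dz_le h1 Y 1
  have a3 := norm_iteratedFDeriv_dzb_le h0 Z 2
  rw [norm_iteratedFDeriv_zero] at a1
  rw [norm_iteratedFDeriv_ofReal_comp hP] at a3
  unfold D21
  calc _ ≤ ‖X‖ * ‖iteratedFDeriv ℝ (0 + 1) (dz Y (dzb Z (fun q => (P q : ℂ)))) p‖ := a1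
    _ ≤ ‖X‖ * (‖Y‖ * ‖iteratedFDeriv ℝ (1 + 1) (dzb Z (fun q => (P q : ℂ))) p‖) := by
      gcongr
    _ ≤ ‖X‖ * (‖Y‖ * (‖Z‖ * ‖iteratedFDeriv ℝ (2 + 1) P p‖)) := by gcongr
    _ = _ := by ring

theorem D22_le (hP : ContDiffAt ℝ ∞ P p) (X Y Z W : V) :
    ‖D22 P X Y Z W p‖ ≤ ‖iteratedFDeriv ℝ 4 P p‖ * ‖X‖ * ‖Y‖ * ‖Z‖ * ‖W‖ := by
  have h0 := contDiffAt_ofReal_comp' hP
  have h1 := contDiffAt_dzb_inf W h0
  have h2 := contDiffAt_dzb_inf Z h1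
  have h3 := contDiffAt_dz_inf Y h2
  have a1 := norm_iteratedFDeriv_dz_le h3 X 0
  have a2 := norm_iteratedFDeriv_dz_le h2 Y 1
  have a3 := norm_iteratedFDeriv_dzb_le h1 Z 2
  have a4 := norm_iteratedFDeriv_dzb_le h0 W 3
  rw [norm_iteratedFDeriv_zero] at a1
  rw [norm_iteratedFDeriv_ofReal_comp hP] at a4
  unfold D22
  calc _ ≤ ‖X‖ * ‖iteratedFDeriv ℝ (0 + 1) (dz Y (dzb Z (dzb W (fun q => (P q : ℂ))))) p‖ := a1
    _ ≤ ‖X‖ * (‖Y‖ * ‖iteratedFDeriv ℝ (1 + 1) (dzb Z (dzb W (fun q => (P q : ℂ)))) p‖) := by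
      gcongr
    _ ≤ ‖X‖ * (‖Y‖ * (‖Z‖ * ‖iteratedFDeriv ℝ (2 + 1) (dzb W (fun q => (P q : ℂ))) p‖)) := by
      gcongr
    _ ≤ ‖X‖ * (‖Y‖ * (‖Z‖ * (‖W‖ * ‖iteratedFDeriv ℝ (3 + 1) P p‖))) := by gcongr
    _ = _ := by ring

end Forms

end Crest.Agent.R245
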