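import Crest.Agent.R245.OpsForms
import Crest.Agent.R245.OpsNorm

/-! Row 245, OpsKB: invariance properties of `KB`, `PD`. -/

set_option autoImplicit false
set_option linter.unusedSectionVars false
set_option linter.unusedVariables false

namespace Crest.Agent.R245

open Complex Filter Topology
open scoped ContDiff ComplexConjugate

section Forms

variable {V : Type*} [NormedAddCommGroup V] [NormedSpace ℝ V] [NormedSpace ℂ V] [IsScalarTower ℝ ℂ V]
variable {V' : Type*} [NormedAddCommGroup V'] [NormedSpace ℝ V'] [NormedSpace ℂ V']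
  [IsScalarTower ℝ ℂ V']
variable {P Q : V → ℝ} {p : V}

/-! `KB` and `PD` -/
theorem KB_congr (h : P =ᶠ[𝓝 p] Q) (c B : ℝ) : KB P p c B ↔ KB Q p c B := by
  unfold KB IsGam area negK
  simp only [D11_congr h, D21_congr h, D22_congr h]
theorem PD_congr (h : P =ᶠ[𝓝 p] Q) : PD P p ↔ PD Q p := by
  unfold PD
  simp only [D11_congr h]
theorem area_nonneg (hP : ContDiffAt ℝ ∞ P p) (hpd : PD P p) (X Y : V) : 0 ≤ area P p X Y := by
  unfold area
  by_cases hY : Y = 0
  · subst hY
    have h1 : ∀ Z : V, D11 P Z 0 p = 0 := fun Z => by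
      have := D11_smul_right hP 0 Z (0 : V)
      simpa using this
    rw [h1, h1]; simp
  · have hYY := hpd Y hY
    set a := (D11 P Y Y p).re with ha
    set b := (D11 P X Y p).re with hb
    have hsym : (D11 P Y X p).re = b := by
      rw [← D11_conj hP X Y, conj_re]
    have key : 0 ≤ (D11 P ((a : ℂ) • X + ((-b : ℝ) : ℂ) • Y) ((a : ℂ) • X + ((-b : ℝ) : ℂ) • Y) p).re := by
      by_cases hZ : ((a : ℂ) • X + ((-b : ℝ) : ℂ) • Y) = 0
      · rw [hZ]
        have := D11_smul_right hP 0 (0 : V) (0 : V)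
        simp only [smul_zero, map_zero, zero_mul] at this
        rw [this]; simp
      · exact (hpd _ hZ).le
    rw [D11_add_right hP, D11_add_left hP, D11_add_left hP] at key
    simp only [D11_smul_left hP, D11_smul_right hP, conj_ofReal, add_re, re_ofReal_mul] at key
    rw [hsym, ← hb, ← ha] at key
    have h2 : 0 ≤ a * ((D11 P X X p).re * a - b ^ 2) := by nlinarith [key]
    exact nonneg_of_mul_nonneg_right h2 hYY
theorem KB_mono (hP : ContDiffAt ℝ ∞ P p) (hpd : PD P p) {c c' B B' : ℝ} (hc : c' ≤ c)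
    (hB : B ≤ B') (h : KB P p c B) : KB P p c' B' := by
  intro X Y G1 G2 G3 h1 h2 h3
  obtain ⟨h4, h5⟩ := h X Y G1 G2 G3 h1 h2 h3
  have ha := area_nonneg hP hpd X Y
  exact ⟨(mul_le_mul_of_nonneg_right hc ha).trans h4,
    h5.trans (mul_le_mul_of_nonneg_right hB ha)⟩

section equiv
variable (L : V ≃L[ℂ] V') (x₀ : V')

theorem dz_comp_equiv_fun (X : V) (f : V' → ℂ) :
    dz X (fun q => f (L q + x₀)) = fun q => dz (L X) f (L q + x₀) := by
  funext q; exact dz_comp_affineEquiv L x₀ f
theorem dzb_comp_equiv_fun (X : V) (f : V' → ℂ) :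
    dzb X (fun q => f (L q + x₀)) = fun q => dzb (L X) f (L q + x₀) := by
  funext q; exact dzb_comp_affineEquiv L x₀ f
theorem D11_comp_equiv (f : V' → ℝ) (X Y : V) :
    D11 (fun q => f (L q + x₀)) X Y p = D11 f (L X) (L Y) (L p + x₀) := by
  unfold D11
  rw [dzb_comp_equiv_fun L x₀ Y (fun q => (f q : ℂ)), dz_comp_affineEquiv L x₀]
theorem D21_comp_equiv (f : V' → ℝ) (X Y Z : V) :
    D21 (fun q => f (L q + x₀)) X Y Z p = D21 f (L X) (L Y) (L Z) (L p + x₀) := by
  unfold D21
  rw [dzb_comp_equiv_fun L x₀ Z (fun q => (f q : ℂ)), dz_comp_equiv_fun L x₀,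
    dz_comp_affineEquiv L x₀]
theorem D22_comp_equiv (f : V' → ℝ) (X Y Z W : V) :
    D22 (fun q => f (L q + x₀)) X Y Z W p = D22 f (L X) (L Y) (L Z) (L W) (L p + x₀) := by
  unfold D22
  rw [dzb_comp_equiv_fun L x₀ W (fun q => (f q : ℂ)), dzb_comp_equiv_fun L x₀,
    dz_comp_equiv_fun L x₀, dz_comp_affineEquiv L x₀]

theorem IsGam_comp_equiv (f : V' → ℝ) (X Y G : V) :
    IsGam (fun q => f (L q + x₀)) p X Y G ↔ IsGam f (L p + x₀) (L X) (L Y) (L G) := by
  unfold IsGam
  simp only [D11_comp_equiv, D21_comp_equiv]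
  constructor
  · intro h Z
    have := h (L.symm Z)
    simpa using this
  · intro h Z
    exact h (L Z)

end equiv

theorem KB_comp_affineEquiv (L : V ≃L[ℂ] V') (x₀ : V') (f : V' → ℝ) (c B : ℝ) :
    KB (fun q => f (L q + x₀)) p c B ↔ KB f (L p + x₀) c B := by
  unfold KB
  simp only [IsGam_comp_equiv]
  unfold area negK
  simp only [D11_comp_equiv, D22_comp_equiv]
  constructor
  · intro h X Y G1 G2 G3 h1 h2 h3
    have := h (L.symm X) (L.symm Y) (L.symm G1) (L.symm G2) (L.symm G3)
    simp only [ContinuousLinearEquiv.apply_symm_apply] at this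
    exact this h1 h2 h3
  · intro h X Y G1 G2 G3 h1 h2 h3
    exact h _ _ _ _ _ h1 h2 h3
theorem PD_comp_affineEquiv (L : V ≃L[ℂ] V') (x₀ : V') (f : V' → ℝ) :
    PD (fun q => f (L q + x₀)) p ↔ PD f (L p + x₀) := by
  unfold PD
  simp only [D11_comp_equiv]
  constructor
  · intro h X hX
    have := h (L.symm X) (by simpa using hX)
    simpa using this
  · intro h X hX
    exact h _ (by simpa using hX)
theorem IsGam_const_mul (hP : ContDiffAt ℝ ∞ P p) {r : ℝ} (hr : r ≠ 0) (X Y G : V) :
    IsGam (fun q => r * P q) p X Y G ↔ IsGam P p X Y G := by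
  unfold IsGam
  simp only [D11_const_mul hP, D21_const_mul hP]
  have hr' : (r : ℂ) ≠ 0 := by exact_mod_cast hr
  constructor
  · intro h Z; exact mul_left_cancel₀ hr' (h Z)
  · intro h Z; rw [h Z]
theorem KB_const_mul (hP : ContDiffAt ℝ ∞ P p) {r : ℝ} (hr : 0 < r) {c B : ℝ} (h : KB P p c B) :
    KB (fun q => r * P q) p (c / r) (B / r) := by
  intro X Y G1 G2 G3 h1 h2 h3
  rw [IsGam_const_mul hP hr.ne'] at h1 h2 h3
  obtain ⟨h4, h5⟩ := h X Y G1 G2 G3 h1 h2 h3
  have e1 : area (fun q => r * P q) p X Y = r ^ 2 * area P p X Y := by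
    unfold area; simp only [D11_const_mul hP, re_ofReal_mul]; ring
  have e2 : negK (fun q => r * P q) p X Y G1 G2 G3 = r * negK P p X Y G1 G2 G3 := by
    unfold negK; simp only [D11_const_mul hP, D22_const_mul hP]
    rw [← re_ofReal_mul]; congr 1; ring
  rw [e1, e2]
  have e3 : ∀ t : ℝ, t / r * (r ^ 2 * area P p X Y) = r * (t * area P p X Y) := by
    intro t; field_simp
  rw [e3, e3]
  exact ⟨mul_le_mul_of_nonneg_left h4 hr.le, mul_le_mul_of_nonneg_left h5 hr.le⟩
theorem PD_const_mul (hP : ContDiffAt ℝ ∞ P p) {r : ℝ} (hr : 0 < r) (h : PD P p) :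
    PD (fun q => r * P q) p := by
  intro X hX
  rw [D11_const_mul hP, re_ofReal_mul]
  exact mul_pos hr (h X hX)
theorem dzb_add_const_fun (r : ℂ) (X : V) (u : V → ℂ) :
    dzb X (fun q => u q + r) = dzb X u := by
  funext q; unfold dzb; rw [fderiv_add_const]
theorem KB_add_const (hP : ContDiffAt ℝ ∞ P p) (r : ℝ) {c B : ℝ} :
    KB (fun q => P q + r) p c B ↔ KB P p c B := by
  have e : (fun q => ((P q + r : ℝ) : ℂ)) = fun q => (P q : ℂ) + (r : ℂ) := by
    funext q; push_cast; rfl
  have e1 : ∀ X Y : V, D11 (fun q => P q + r) X Y p = D11 P X Y p := by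
    intro X Y; unfold D11; rw [e, dzb_add_const_fun]
  have e2 : ∀ X Y Z : V, D21 (fun q => P q + r) X Y Z p = D21 P X Y Z p := by
    intro X Y Z; unfold D21; rw [e, dzb_add_const_fun]
  have e3 : ∀ X Y Z W : V, D22 (fun q => P q + r) X Y Z W p = D22 P X Y Z W p := by
    intro X Y Z W; unfold D22; rw [e, dzb_add_const_fun]
  unfold KB IsGam area negK
  simp only [e1, e2, e3]

/-! closure of curvature bounds -/

theorem continuousAt_D11 (hP : ContDiffAt ℝ ∞ P p) (X Y : V) : ContinuousAt (D11 P X Y) p :=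
  (cd_dz (n := 0) X (cd_dzb (n := 1) Y (cdP 2 hP))).continuousAt
theorem continuousAt_D21 (hP : ContDiffAt ℝ ∞ P p) (X Y Z : V) : ContinuousAt (D21 P X Y Z) p :=
  (cd_dz (n := 0) X (cd_dz (n := 1) Y (cd_dzb (n := 2) Z (cdP 3 hP)))).continuousAt
theorem continuousAt_D22 (hP : ContDiffAt ℝ ∞ P p) (X Y Z W : V) :
    ContinuousAt (D22 P X Y Z W) p :=
  (cd_dz (n := 0) X (cd_dz (n := 1) Y (cd_dzb (n := 2) Z (cd_dzb (n := 3) W (cdP 4 hP))))).continuousAt

theorem D11_sum_left {ι : Type*} (s : Finset ι) (g : ι → ℂ) (b : ι → V) (Y : V) (q : V) :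
    D11 P (∑ i ∈ s, g i • b i) Y q = ∑ i ∈ s, g i * D11 P (b i) Y q := by
  unfold D11
  rw [dz_vec_sum]
  exact Finset.sum_congr rfl fun i _ => dz_vec_smul _ _ _ _

theorem D11_zero_right {q : V} (hP : ContDiffAt ℝ (2 : ℕ) (fun q => (P q : ℂ)) q) (X : V) :
    D11 P X 0 q = 0 := by
  have := D11_smul_right' hP 0 X (0 : V)
  simpa using this

theorem D11_sum_right {ι : Type*} {q : V} (hP : ContDiffAt ℝ (2 : ℕ) (fun q => (P q : ℂ)) q)
    (s : Finset ι) (g : ι → ℂ) (b : ι → V) (X : V) :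
    D11 P X (∑ i ∈ s, g i • b i) q = ∑ i ∈ s, conj (g i) * D11 P X (b i) q := by
  classical
  induction s using Finset.induction_on with
  | empty => simp [D11_zero_right hP]
  | insert a s ha ih =>
    rw [Finset.sum_insert ha, Finset.sum_insert ha, D11_add_right' hP, ih, D11_smul_right' hP]

theorem D21_zero_right {q : V} (hP : ContDiffAt ℝ (3 : ℕ) (fun q => (P q : ℂ)) q) (X Y : V) :
    D21 P X Y 0 q = 0 := by
  have := D21_smul_3' hP 0 X Y (0 : V)
  simpa using this

theorem D21_sum_right {ι : Type*} {q : V} (hP : ContDiffAt ℝ (3 : ℕ) (fun q => (P q : ℂ)) q)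
    (s : Finset ι) (g : ι → ℂ) (b : ι → V) (X Y : V) :
    D21 P X Y (∑ i ∈ s, g i • b i) q = ∑ i ∈ s, conj (g i) * D21 P X Y (b i) q := by
  classical
  induction s using Finset.induction_on with
  | empty => simp [D21_zero_right hP]
  | insert a s ha ih =>
    rw [Finset.sum_insert ha, Finset.sum_insert ha, D21_add_3' hP, ih, D21_smul_3' hP]

theorem IsGam_unique (hP : ContDiffAt ℝ ∞ P p) (hpd : PD P p) {X Y G G' : V}
    (h : IsGam P p X Y G) (h' : IsGam P p X Y G') : G = G' := by
  by_contra hne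
  have h1 : G - G' ≠ 0 := sub_ne_zero.2 hne
  have h2 := hpd _ h1
  have h3 : D11 P (G - G') (G - G') p = 0 := by
    have e : G - G' = G + (-1 : ℂ) • G' := by rw [neg_one_smul, sub_eq_add_neg]
    conv_lhs => rw [show D11 P (G - G') (G - G') p = D11 P (G + (-1 : ℂ) • G') (G - G') p by rw [← e]]
    rw [D11_add_left', D11_smul_left', h, h']; ring
  rw [h3] at h2; simp at h2

/-- local continuous choice of the Christoffel vector. -/
theorem exists_gam_cont [FiniteDimensional ℂ V] (hP : ContDiffAt ℝ ∞ P p) (hpd : PD P p)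
    (X Y : V) : ∃ (b : Module.Basis (Fin (Module.finrank ℂ V)) ℂ V)
      (g : Fin (Module.finrank ℂ V) → V → ℂ), b = Module.finBasis ℂ V ∧
      (∀ i, ContinuousAt (g i) p) ∧
      ∀ᶠ q in 𝓝 p, IsGam P q X Y (∑ i, g i q • b i) := by
  classical
  set b := Module.finBasis ℂ V with hb
  let A : V → Matrix (Fin (Module.finrank ℂ V)) (Fin (Module.finrank ℂ V)) ℂ :=
    fun q => Matrix.of fun i j => D11 P (b j) (b i) q
  let c : V → Fin (Module.finrank ℂ V) → ℂ := fun q i => D21 P X Y (b i) q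
  have hA : ContinuousAt A p := by
    refine continuousAt_pi.2 fun i => continuousAt_pi.2 fun j => ?_
    exact continuousAt_D11 hP _ _
  have hc : ContinuousAt c p := continuousAt_pi.2 fun i => continuousAt_D21 hP _ _ _
  have hdet : ContinuousAt (fun q => (A q).det) p :=
    (continuous_id.matrix_det).continuousAt.comp hA
  have hadj : ContinuousAt (fun q => (A q).adjugate) p :=
    (continuous_id.matrix_adjugate).continuousAt.comp hA
  have hdet0 : (A p).det ≠ 0 := by
    intro h0
    obtain ⟨v, hv, hv2⟩ := Matrix.exists_mulVec_eq_zero_iff.2 h0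
    have hz : (∑ i, v i • b i) ≠ 0 := by
      intro h
      apply hv
      have := (Fintype.linearIndependent_iff.1 b.linearIndependent) v h
      funext i; exact this i
    have h1 := hpd _ hz
    rw [D11_sum_right (cdP 2 hP)] at h1
    have h2 : ∀ i, D11 P (∑ j, v j • b j) (b i) p = 0 := by
      intro i
      rw [D11_sum_left]
      have := congrFun hv2 i
      simp only [Matrix.mulVec, dotProduct, A, Matrix.of_apply, Pi.zero_apply] at this
      rw [← this]
      exact Finset.sum_congr rfl fun j _ => mul_comm _ _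
    simp only [h2, mul_zero, Finset.sum_const_zero, zero_re, lt_irrefl] at h1
  have hevdet : ∀ᶠ q in 𝓝 p, (A q).det ≠ 0 := hdet.eventually_ne hdet0
  refine ⟨b, fun i q => (((A q).det)⁻¹ • ((A q).adjugate.mulVec (c q))) i, rfl, ?_, ?_⟩
  · intro i
    have h1 : ContinuousAt (fun q => ((A q).det)⁻¹ • ((A q).adjugate.mulVec (c q))) p := by
      refine (hdet.inv₀ hdet0).smul ?_
      refine continuousAt_pi.2 fun j => ?_
      simp only [Matrix.mulVec, dotProduct]
      refine tendsto_finset_sum _ fun k _ => ?_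
      exact ((continuousAt_pi.1 (continuousAt_pi.1 hadj j) k).mul (continuousAt_pi.1 hc k))
    exact continuousAt_pi.1 h1 i
  · filter_upwards [hevdet, cd_ev (cdP 3 hP)] with q hq h3
    intro Z
    have h2 := cd_mono (m := 2) (by norm_num) h3
    have hsolve : (A q).mulVec (((A q).det)⁻¹ • ((A q).adjugate.mulVec (c q))) = c q := by
      rw [Matrix.mulVec_smul, Matrix.mulVec_mulVec, Matrix.mul_adjugate, Matrix.smul_mulVec,
        Matrix.one_mulVec, smul_smul, inv_mul_cancel₀ hq, one_smul]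
    have hbasis : ∀ i, D11 P (∑ j, (((A q).det)⁻¹ • ((A q).adjugate.mulVec (c q))) j • b j) (b i) q
        = D21 P X Y (b i) q := by
      intro i
      rw [D11_sum_left]
      have := congrFun hsolve i
      have e : D21 P X Y (b i) q = c q i := rfl
      rw [e, ← this]
      simp only [Matrix.mulVec, dotProduct, A, Matrix.of_apply]
      exact Finset.sum_congr rfl fun j _ => mul_comm _ _
    have hZ : Z = ∑ i, (b.repr Z i) • b i := (b.sum_repr Z).symm
    rw [hZ, D11_sum_right h2, D21_sum_right h3]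
    exact Finset.sum_congr rfl fun i _ => by rw [hbasis i]

/-- closure: a curvature bound valid at points accumulating at `p` is valid at `p`. -/
theorem KB_of_frequently [FiniteDimensional ℂ V] (hP : ContDiffAt ℝ ∞ P p) (hpd : PD P p)
    {c B : ℝ} (h : ∃ᶠ q in 𝓝 p, KB P q c B) : KB P p c B := by
  classical
  intro X Y G1 G2 G3 h1 h2 h3
  obtain ⟨b1, g1, hb1, hc1, he1⟩ := exists_gam_cont hP hpd X X
  obtain ⟨b2, g2, hb2, hc2, he2⟩ := exists_gam_cont hP hpd X Y
  obtain ⟨b3, g3, hb3, hc3, he3⟩ := exists_gam_cont hP hpd Y Y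
  subst hb1
  subst hb2
  subst hb3
  set b := Module.finBasis ℂ V with hb
  have e1 : G1 = ∑ i, g1 i p • b i := IsGam_unique hP hpd h1 he1.self_of_nhds
  have e2 : G2 = ∑ i, g2 i p • b i := IsGam_unique hP hpd h2 he2.self_of_nhds
  have e3 : G3 = ∑ i, g3 i p • b i := IsGam_unique hP hpd h3 he3.self_of_nhds
  -- continuity of `D11 P (∑ g i • b i) (∑ g' j • b j)`
  have hcont : ∀ g g' : Fin (Module.finrank ℂ V) → V → ℂ, (∀ i, ContinuousAt (g i) p) →
      (∀ i, ContinuousAt (g' i) p) →
      ContinuousAt (fun q => D11 P (∑ i, g i q • b i) (∑ i, g' i q • b i) q) p := by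
    intro g g' hg hg'
    have h5 : (fun q => D11 P (∑ i, g i q • b i) (∑ i, g' i q • b i) q) =ᶠ[𝓝 p]
        fun q => ∑ i, conj (g' i q) * ∑ j, g j q * D11 P (b j) (b i) q := by
      filter_upwards [cd_ev (cdP 2 hP)] with q hq
      rw [D11_sum_right hq]
      exact Finset.sum_congr rfl fun i _ => by rw [D11_sum_left]
    refine ContinuousAt.congr ?_ h5.symm
    refine tendsto_finset_sum _ fun i _ => ?_
    refine ContinuousAt.mul (continuous_conj.continuousAt.comp (hg' i)) ?_
    refine tendsto_finset_sum _ fun j _ => ?_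
    exact (hg j).mul (continuousAt_D11 hP _ _)
  have hneg : ContinuousAt (fun q => negK P q X Y (∑ i, g1 i q • b i) (∑ i, g2 i q • b i)
      (∑ i, g3 i q • b i)) p := by
    unfold negK
    refine Complex.continuous_re.continuousAt.comp ?_
    exact (((continuousAt_D22 hP _ _ _ _).sub (hcont g2 g2 hc2 hc2)).sub
      (continuousAt_D22 hP _ _ _ _)).add (hcont g1 g3 hc1 hc3)
  have harea : ContinuousAt (fun q => area P q X Y) p := by
    unfold area
    have r : ∀ X Y : V, ContinuousAt (fun q => (D11 P X Y q).re) p := fun X Y =>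
      Complex.continuous_re.continuousAt.comp (continuousAt_D11 hP X Y)
    exact ((r X X).mul (r Y Y)).sub ((r X Y).pow 2)
  rw [e1, e2, e3]
  constructor
  · by_contra hlt
    push_neg at hlt
    have hev := (hneg.eventually_lt (continuousAt_const.mul harea) hlt)
    obtain ⟨q, hq, hq2, hq3, hq4, hq5⟩ := (h.and_eventually
      ((hev.and he1).and (he2.and he3))).exists.imp fun q hq =>
        (⟨hq.1, hq.2.1.1, hq.2.1.2, hq.2.2.1, hq.2.2.2⟩ :
          KB P q c B ∧ _ ∧ _ ∧ _ ∧ _)
    have := (hq X Y _ _ _ hq3 hq4 hq5).1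
    exact absurd this (not_le.2 hq2)
  · by_contra hlt
    push_neg at hlt
    have hev := ((continuousAt_const.mul harea).eventually_lt hneg hlt)
    obtain ⟨q, hq, hq2, hq3, hq4, hq5⟩ := (h.and_eventually
      ((hev.and he1).and (he2.and he3))).exists.imp fun q hq =>
        (⟨hq.1, hq.2.1.1, hq.2.1.2, hq.2.2.1, hq.2.2.2⟩ :
          KB P q c B ∧ _ ∧ _ ∧ _ ∧ _)
    have := (hq X Y _ _ _ hq3 hq4 hq5).2
    exact absurd this (not_le.2 hq2)

end Forms

end Crest.Agent.R245
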