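import Crest.Agent.R245.JetTrans
import Crest.Agent.R245.OpsKB

/-! Row 245: the affine automorphisms `gp p` as complex affine equivalences. -/

set_option autoImplicit false

namespace Crest.Agent.R245

open Complex Filter Topology
open scoped ContDiff ComplexConjugate

/-- linear part of `gp p` (as a linear equivalence) -/
noncomputable def gpLin (p : B2) (hp : 0 < rho p) : B2 ≃ₗ[ℂ] B2 where
  toFun b := ((Real.sqrt (rho p) : ℂ) * b.1,
    2 * I * conj p.1 * (Real.sqrt (rho p) : ℂ) * b.1 + (rho p : ℂ) * b.2)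
  invFun b := ((Real.sqrt (rho p) : ℂ)⁻¹ * b.1, (rho p : ℂ)⁻¹ * (b.2 - 2 * I * conj p.1 * b.1))
  map_add' a b := by
    apply Prod.ext <;> simp <;> ring
  map_smul' c a := by
    apply Prod.ext <;> simp <;> ring
  left_inv a := by
    have h1 : (Real.sqrt (rho p) : ℂ) ≠ 0 := by
      exact_mod_cast (Real.sqrt_pos.2 hp).ne'
    have h2 : (rho p : ℂ) ≠ 0 := by exact_mod_cast hp.ne'
    apply Prod.ext
    · simp only; field_simp
    · simp only; field_simp; ring
  right_inv a := by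
    have h1 : (Real.sqrt (rho p) : ℂ) ≠ 0 := by
      exact_mod_cast (Real.sqrt_pos.2 hp).ne'
    have h2 : (rho p : ℂ) ≠ 0 := by exact_mod_cast hp.ne'
    apply Prod.ext
    · simp only; field_simp
    · simp only; field_simp; ring

/-- linear part of `gp p` -/
noncomputable def gpL (p : B2) (hp : 0 < rho p) : B2 ≃L[ℂ] B2 :=
  (gpLin p hp).toContinuousLinearEquiv

/-- constant part of `gp p` -/
noncomputable def gpc (p : B2) : B2 := (p.1, (p.2.re : ℂ) + I * ((‖p.1‖ ^ 2 : ℝ) : ℂ))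

theorem gp_eq (p : B2) (hp : 0 < rho p) (b : B2) : gp p b = gpL p hp b + gpc p := by
  show _ = gpLin p hp b + gpc p
  apply Prod.ext
  · simp [gp, gpLin, gpc]; ring
  · simp [gp, gpLin, gpc]; ring

theorem gp_fun_eq (p : B2) (hp : 0 < rho p) : gp p = fun b => gpL p hp b + gpc p :=
  funext (gp_eq p hp)

/-- transport of the Levi form -/
theorem D11_gp (p : B2) (hp : 0 < rho p) (f : B2 → ℝ) (X Y : B2) :
    D11 (fun q => f (gp p q)) X Y q0 = D11 f (gpL p hp X) (gpL p hp Y) p := by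
  have h := D11_comp_equiv (p := q0) (gpL p hp) (gpc p) f X Y
  have h2 : gpL p hp q0 + gpc p = p := by rw [← gp_eq p hp, gp_q0 p hp]
  rw [h2] at h
  simp only [gp_fun_eq p hp]
  exact h

/-- the equivalence on the total space -/
noncomputable def gpLt (p : B2) (hp : 0 < rho p) : (B2 × ℂ) ≃L[ℂ] (B2 × ℂ) :=
  (gpL p hp).prodCongr (ContinuousLinearEquiv.refl ℂ ℂ)

/-- transport of curvature bounds from `q0` to `p` -/
theorem KB_hart_gp (A φ : B2 → ℝ) (p : B2) (hp : p ∈ Dom) (ζ : ℂ) (c B : ℝ) :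
    KB (hart (fun q => A (gp p q)) (fun q => φ (gp p q))) (q0, ζ) c B ↔
      KB (hart A φ) (p, ζ) c B := by
  have hr : 0 < rho p := hp
  have h := KB_comp_affineEquiv (p := ((q0, ζ) : B2 × ℂ)) (gpLt p hr) ((gpc p, 0) : B2 × ℂ)
    (hart A φ) c B
  have h2 : gpLt p hr (q0, ζ) + (gpc p, 0) = (p, ζ) := by
    show ((gpL p hr q0, ζ) : B2 × ℂ) + (gpc p, 0) = (p, ζ)
    rw [Prod.mk_add_mk, ← gp_eq p hr, gp_q0 p hp, add_zero]
  have h3 : (fun q : B2 × ℂ => hart A φ (gpLt p hr q + (gpc p, 0)))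
      = hart (fun q => A (gp p q)) (fun q => φ (gp p q)) := by
    funext q
    have e : gpLt p hr q + (gpc p, 0) = (gp p q.1, q.2) := by
      show ((gpL p hr q.1, q.2) : B2 × ℂ) + (gpc p, 0) = (gp p q.1, q.2)
      rw [Prod.mk_add_mk, ← gp_eq p hr, add_zero]
    rw [e]
    rfl
  rw [h2, h3] at h
  exact h

end Crest.Agent.R245
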