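import Crest.Agent.R245.HDefs

/-! Row 245 (LemmaH): forms of a composition `f ∘ s`. -/

set_option autoImplicit false
set_option linter.unusedSectionVars false

namespace Crest.Agent.R245.HP

open Complex Filter Topology
open scoped ContDiff ComplexConjugate

section Comp

variable {V : Type*} [NormedAddCommGroup V] [NormedSpace ℝ V] [NormedSpace ℂ V] [IsScalarTower ℝ ℂ V]

theorem dz_mul3 {a b c : V → ℂ} {p : V} (X : V) (ha : DifferentiableAt ℝ a p)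
    (hb : DifferentiableAt ℝ b p) (hc : DifferentiableAt ℝ c p) :
    dz X (fun q => a q * b q * c q) p =
      dz X a p * b p * c p + a p * dz X b p * c p + a p * b p * dz X c p := by
  rw [dz_mul (u := fun q => a q * b q) (ha.mul hb) hc, dz_mul ha hb]; ring

theorem dz_mul4 {a b c d : V → ℂ} {p : V} (X : V) (ha : DifferentiableAt ℝ a p)
    (hb : DifferentiableAt ℝ b p) (hc : DifferentiableAt ℝ c p) (hd : DifferentiableAt ℝ d p) :
    dz X (fun q => a q * b q * c q * d q) p =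
      dz X a p * b p * c p * d p + a p * dz X b p * c p * d p + a p * b p * dz X c p * d p
        + a p * b p * c p * dz X d p := by
  rw [dz_mul (u := fun q => a q * b q * c q) ((ha.mul hb).mul hc) hd, dz_mul3 X ha hb hc]; ring

theorem dzb_comp_ev {s : V → ℝ} {f f1 : ℝ → ℝ} {p : V} (W : V) (hs : ContDiffAt ℝ 5 s p)
    (h1 : ∀ᶠ t in 𝓝 (s p), HasDerivAt f (f1 t) t) :
    dzb W (fun q => (f (s q) : ℂ)) =ᶠ[𝓝 p] fun q => (f1 (s q) : ℂ) * dzb W (fun q => (s q : ℂ)) q := by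
  filter_upwards [hs.continuousAt.eventually h1, hs.eventually (by decide)] with q hq1 hq2
  rw [dzb_comp_real f s hq1.differentiableAt (hq2.differentiableAt (by norm_num)), hq1.deriv]

theorem dz_comp_ev {s : V → ℝ} {f f1 : ℝ → ℝ} {p : V} (W : V) (hs : ContDiffAt ℝ 5 s p)
    (h1 : ∀ᶠ t in 𝓝 (s p), HasDerivAt f (f1 t) t) :
    dz W (fun q => (f (s q) : ℂ)) =ᶠ[𝓝 p] fun q => (f1 (s q) : ℂ) * dz W (fun q => (s q : ℂ)) q := by
  filter_upwards [hs.continuousAt.eventually h1, hs.eventually (by decide)] with q hq1 hq2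
  rw [dz_comp_real f s hq1.differentiableAt (hq2.differentiableAt (by norm_num)), hq1.deriv]

theorem diff_comp_ev {s : V → ℝ} {f f1 : ℝ → ℝ} {p : V} (hs : ContDiffAt ℝ 5 s p)
    (h1 : ∀ᶠ t in 𝓝 (s p), HasDerivAt f (f1 t) t) :
    ∀ᶠ q in 𝓝 p, DifferentiableAt ℝ (fun q => (f (s q) : ℂ)) q := by
  filter_upwards [hs.continuousAt.eventually h1, hs.eventually (by decide)] with q hq1 hq2
  exact differentiableAt_ofReal (hq1.differentiableAt.comp q (hq2.differentiableAt (by norm_num)))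

/-- `D11 (f ∘ s)` in a neighbourhood -/
theorem dz_dzb_comp_ev {s : V → ℝ} {f f1 f2 : ℝ → ℝ} {p : V} (Y Z : V) (hs : ContDiffAt ℝ 5 s p)
    (h1 : ∀ᶠ t in 𝓝 (s p), HasDerivAt f (f1 t) t)
    (h2 : ∀ᶠ t in 𝓝 (s p), HasDerivAt f1 (f2 t) t) :
    dz Y (dzb Z (fun q => (f (s q) : ℂ))) =ᶠ[𝓝 p] fun q =>
      (f2 (s q) : ℂ) * dz Y (fun q => (s q : ℂ)) q * dzb Z (fun q => (s q : ℂ)) q
      + (f1 (s q) : ℂ) * dz Y (dzb Z (fun q => (s q : ℂ))) q := by
  have e := dz_eventuallyEq (X := Y) (dzb_comp_ev Z hs h1)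
  refine e.trans ?_
  filter_upwards [diff_comp_ev hs h2, hs.eventually (by decide), dz_comp_ev Y hs h2]
    with q hq1 hq2 hq3
  have hS := contDiffAt_ofReal hq2
  have hZ : DifferentiableAt ℝ (dzb Z (fun q => (s q : ℂ))) q :=
    (contDiffAt_dzb_le (n := 4) Z hS (by norm_num)).differentiableAt (by norm_num)
  rw [dz_mul hq1 hZ, hq3]

theorem dzb_dzb_comp_ev {s : V → ℝ} {f f1 f2 : ℝ → ℝ} {p : V} (Z W : V) (hs : ContDiffAt ℝ 5 s p)
    (h1 : ∀ᶠ t in 𝓝 (s p), HasDerivAt f (f1 t) t)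
    (h2 : ∀ᶠ t in 𝓝 (s p), HasDerivAt f1 (f2 t) t) :
    dzb Z (dzb W (fun q => (f (s q) : ℂ))) =ᶠ[𝓝 p] fun q =>
      (f2 (s q) : ℂ) * dzb Z (fun q => (s q : ℂ)) q * dzb W (fun q => (s q : ℂ)) q
      + (f1 (s q) : ℂ) * dzb Z (dzb W (fun q => (s q : ℂ))) q := by
  have e := dzb_eventuallyEq (X := Z) (dzb_comp_ev W hs h1)
  refine e.trans ?_
  filter_upwards [diff_comp_ev hs h2, hs.eventually (by decide), dzb_comp_ev Z hs h2]
    with q hq1 hq2 hq3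
  have hS := contDiffAt_ofReal hq2
  have hZ : DifferentiableAt ℝ (dzb W (fun q => (s q : ℂ))) q :=
    (contDiffAt_dzb_le (n := 4) W hS (by norm_num)).differentiableAt (by norm_num)
  rw [dzb_mul hq1 hZ, hq3]

theorem D11_comp {s : V → ℝ} {f f1 f2 : ℝ → ℝ} {p : V} (X Z : V) (hs : ContDiffAt ℝ 5 s p)
    (h1 : ∀ᶠ t in 𝓝 (s p), HasDerivAt f (f1 t) t)
    (h2 : ∀ᶠ t in 𝓝 (s p), HasDerivAt f1 (f2 t) t) :
    D11 (fun q => f (s q)) X Z p = (f1 (s p) : ℂ) * D11 s X Z p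
      + (f2 (s p) : ℂ) * (dz X (fun q => (s q : ℂ)) p * dzb Z (fun q => (s q : ℂ)) p) := by
  unfold D11
  rw [(dz_dzb_comp_ev X Z hs h1 h2).eq_of_nhds]
  ring

theorem D21_comp {s : V → ℝ} {f f1 f2 f3 : ℝ → ℝ} {p : V} (X Y Z : V) (hs : ContDiffAt ℝ 5 s p)
    (h1 : ∀ᶠ t in 𝓝 (s p), HasDerivAt f (f1 t) t)
    (h2 : ∀ᶠ t in 𝓝 (s p), HasDerivAt f1 (f2 t) t)
    (h3 : ∀ᶠ t in 𝓝 (s p), HasDerivAt f2 (f3 t) t) :
    D21 (fun q => f (s q)) X Y Z p = (f1 (s p) : ℂ) * D21 s X Y Z p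
      + (f2 (s p) : ℂ) * (D11 s X Z p * dz Y (fun q => (s q : ℂ)) p
          + D11 s Y Z p * dz X (fun q => (s q : ℂ)) p
          + dz X (dz Y (fun q => (s q : ℂ))) p * dzb Z (fun q => (s q : ℂ)) p)
      + (f3 (s p) : ℂ) * (dz X (fun q => (s q : ℂ)) p * dz Y (fun q => (s q : ℂ)) p *
          dzb Z (fun q => (s q : ℂ)) p) := by
  unfold D21 D11
  rw [dz_congr (dz_dzb_comp_ev Y Z hs h1 h2)]
  have hS := contDiffAt_ofReal hs
  have hY : DifferentiableAt ℝ (dz Y (fun q => (s q : ℂ))) p :=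
    (contDiffAt_dz_le (n := 4) Y hS (by norm_num)).differentiableAt (by norm_num)
  have hZ' : ContDiffAt ℝ 4 (dzb Z (fun q => (s q : ℂ))) p :=
    contDiffAt_dzb_le (n := 4) Z hS (by norm_num)
  have hZ : DifferentiableAt ℝ (dzb Z (fun q => (s q : ℂ))) p := hZ'.differentiableAt (by norm_num)
  have hYZ : DifferentiableAt ℝ (dz Y (dzb Z (fun q => (s q : ℂ)))) p :=
    (contDiffAt_dz_le (n := 3) Y hZ' (by norm_num)).differentiableAt (by norm_num)
  have hf1 := (diff_comp_ev hs h2).self_of_nhds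
  have hf2 := (diff_comp_ev hs h3).self_of_nhds
  have e1 := (dz_comp_ev X hs h2).eq_of_nhds
  have e2 := (dz_comp_ev X hs h3).eq_of_nhds
  have k1 := dz_mul3 X hf2 hY hZ
  have k2 := dz_mul (X := X) hf1 hYZ
  have k3 := dz_add (X := X) (u := fun q => (f2 (s q) : ℂ) * dz Y (fun q => (s q : ℂ)) q *
    dzb Z (fun q => (s q : ℂ)) q) (v := fun q => (f1 (s q) : ℂ) *
    dz Y (dzb Z (fun q => (s q : ℂ))) q) ((hf2.mul hY).mul hZ) (hf1.mul hYZ)
  rw [k3, k1, k2, e1, e2]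
  ring

theorem dz_dzb_dzb_comp_ev {s : V → ℝ} {f f1 f2 f3 : ℝ → ℝ} {p : V} (Y Z W : V)
    (hs : ContDiffAt ℝ 5 s p)
    (h1 : ∀ᶠ t in 𝓝 (s p), HasDerivAt f (f1 t) t)
    (h2 : ∀ᶠ t in 𝓝 (s p), HasDerivAt f1 (f2 t) t)
    (h3 : ∀ᶠ t in 𝓝 (s p), HasDerivAt f2 (f3 t) t) :
    dz Y (dzb Z (dzb W (fun q => (f (s q) : ℂ)))) =ᶠ[𝓝 p] fun q =>
      (f3 (s q) : ℂ) * dz Y (fun q => (s q : ℂ)) q * dzb Z (fun q => (s q : ℂ)) q *
          dzb W (fun q => (s q : ℂ)) q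
      + (f2 (s q) : ℂ) * dz Y (dzb Z (fun q => (s q : ℂ))) q * dzb W (fun q => (s q : ℂ)) q
      + (f2 (s q) : ℂ) * dzb Z (fun q => (s q : ℂ)) q * dz Y (dzb W (fun q => (s q : ℂ))) q
      + (f2 (s q) : ℂ) * dz Y (fun q => (s q : ℂ)) q * dzb Z (dzb W (fun q => (s q : ℂ))) q
      + (f1 (s q) : ℂ) * dz Y (dzb Z (dzb W (fun q => (s q : ℂ)))) q := by
  have e := dz_eventuallyEq (X := Y) (dzb_dzb_comp_ev Z W hs h1 h2)
  refine e.trans ?_
  filter_upwards [diff_comp_ev hs h2, diff_comp_ev hs h3, hs.eventually (by decide),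
    dz_comp_ev Y hs h2, dz_comp_ev Y hs h3] with q hf1 hf2 hq2 e1 e2
  have hS := contDiffAt_ofReal hq2
  have hZ' : ContDiffAt ℝ 4 (dzb Z (fun q => (s q : ℂ))) q :=
    contDiffAt_dzb_le (n := 4) Z hS (by norm_num)
  have hW' : ContDiffAt ℝ 4 (dzb W (fun q => (s q : ℂ))) q :=
    contDiffAt_dzb_le (n := 4) W hS (by norm_num)
  have hZ : DifferentiableAt ℝ (dzb Z (fun q => (s q : ℂ))) q := hZ'.differentiableAt (by norm_num)
  have hW : DifferentiableAt ℝ (dzb W (fun q => (s q : ℂ))) q := hW'.differentiableAt (by norm_num)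
  have hZW : DifferentiableAt ℝ (dzb Z (dzb W (fun q => (s q : ℂ)))) q :=
    (contDiffAt_dzb_le (n := 3) Z hW' (by norm_num)).differentiableAt (by norm_num)
  have k1 := dz_mul3 Y hf2 hZ hW
  have k2 := dz_mul (X := Y) hf1 hZW
  have k3 := dz_add (X := Y) (u := fun q => (f2 (s q) : ℂ) * dzb Z (fun q => (s q : ℂ)) q *
    dzb W (fun q => (s q : ℂ)) q) (v := fun q => (f1 (s q) : ℂ) *
    dzb Z (dzb W (fun q => (s q : ℂ))) q) ((hf2.mul hZ).mul hW) (hf1.mul hZW)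
  rw [k3, k1, k2, e1, e2]
  ring

theorem D22_comp {s : V → ℝ} {f f1 f2 f3 f4 : ℝ → ℝ} {p : V} (X Y Z W : V)
    (hs : ContDiffAt ℝ 5 s p)
    (h1 : ∀ᶠ t in 𝓝 (s p), HasDerivAt f (f1 t) t)
    (h2 : ∀ᶠ t in 𝓝 (s p), HasDerivAt f1 (f2 t) t)
    (h3 : ∀ᶠ t in 𝓝 (s p), HasDerivAt f2 (f3 t) t)
    (h4 : ∀ᶠ t in 𝓝 (s p), HasDerivAt f3 (f4 t) t) :
    D22 (fun q => f (s q)) X Y Z W p = (f1 (s p) : ℂ) * D22 s X Y Z W p
      + (f2 (s p) : ℂ) *
        (D21 s X Y Z p * dzb W (fun q => (s q : ℂ)) p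
          + D21 s X Y W p * dzb Z (fun q => (s q : ℂ)) p
          + D11 s X Z p * D11 s Y W p + D11 s X W p * D11 s Y Z p
          + dz X (dz Y (fun q => (s q : ℂ))) p * dzb Z (dzb W (fun q => (s q : ℂ))) p
          + dz Y (fun q => (s q : ℂ)) p * dz X (dzb Z (dzb W (fun q => (s q : ℂ)))) p
          + dz X (fun q => (s q : ℂ)) p * dz Y (dzb Z (dzb W (fun q => (s q : ℂ)))) p)
      + (f3 (s p) : ℂ) *
        (dz X (dz Y (fun q => (s q : ℂ))) p * dzb Z (fun q => (s q : ℂ)) p *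
            dzb W (fun q => (s q : ℂ)) p
          + D11 s X Z p * dz Y (fun q => (s q : ℂ)) p * dzb W (fun q => (s q : ℂ)) p
          + D11 s X W p * dz Y (fun q => (s q : ℂ)) p * dzb Z (fun q => (s q : ℂ)) p
          + D11 s Y Z p * dz X (fun q => (s q : ℂ)) p * dzb W (fun q => (s q : ℂ)) p
          + D11 s Y W p * dz X (fun q => (s q : ℂ)) p * dzb Z (fun q => (s q : ℂ)) p
          + dz X (fun q => (s q : ℂ)) p * dz Y (fun q => (s q : ℂ)) p *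
              dzb Z (dzb W (fun q => (s q : ℂ))) p)
      + (f4 (s p) : ℂ) *
        (dz X (fun q => (s q : ℂ)) p * dz Y (fun q => (s q : ℂ)) p *
          dzb Z (fun q => (s q : ℂ)) p * dzb W (fun q => (s q : ℂ)) p) := by
  unfold D22 D21 D11
  rw [dz_congr (dz_dzb_dzb_comp_ev Y Z W hs h1 h2 h3)]
  have hS := contDiffAt_ofReal hs
  have hY : DifferentiableAt ℝ (dz Y (fun q => (s q : ℂ))) p :=
    (contDiffAt_dz_le (n := 4) Y hS (by norm_num)).differentiableAt (by norm_num)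
  have hZ' : ContDiffAt ℝ 4 (dzb Z (fun q => (s q : ℂ))) p :=
    contDiffAt_dzb_le (n := 4) Z hS (by norm_num)
  have hW' : ContDiffAt ℝ 4 (dzb W (fun q => (s q : ℂ))) p :=
    contDiffAt_dzb_le (n := 4) W hS (by norm_num)
  have hZ : DifferentiableAt ℝ (dzb Z (fun q => (s q : ℂ))) p := hZ'.differentiableAt (by norm_num)
  have hW : DifferentiableAt ℝ (dzb W (fun q => (s q : ℂ))) p := hW'.differentiableAt (by norm_num)
  have hZW' : ContDiffAt ℝ 3 (dzb Z (dzb W (fun q => (s q : ℂ)))) p :=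
    contDiffAt_dzb_le (n := 3) Z hW' (by norm_num)
  have hZW : DifferentiableAt ℝ (dzb Z (dzb W (fun q => (s q : ℂ)))) p :=
    hZW'.differentiableAt (by norm_num)
  have hYZ : DifferentiableAt ℝ (dz Y (dzb Z (fun q => (s q : ℂ)))) p :=
    (contDiffAt_dz_le (n := 3) Y hZ' (by norm_num)).differentiableAt (by norm_num)
  have hYW : DifferentiableAt ℝ (dz Y (dzb W (fun q => (s q : ℂ)))) p :=
    (contDiffAt_dz_le (n := 3) Y hW' (by norm_num)).differentiableAt (by norm_num)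
  have hYZW : DifferentiableAt ℝ (dz Y (dzb Z (dzb W (fun q => (s q : ℂ))))) p :=
    (contDiffAt_dz_le (n := 2) Y hZW' (by norm_num)).differentiableAt (by norm_num)
  have hf1 := (diff_comp_ev hs h2).self_of_nhds
  have hf2 := (diff_comp_ev hs h3).self_of_nhds
  have hf3 := (diff_comp_ev hs h4).self_of_nhds
  have e1 := (dz_comp_ev X hs h2).eq_of_nhds
  have e2 := (dz_comp_ev X hs h3).eq_of_nhds
  have e3 := (dz_comp_ev X hs h4).eq_of_nhds
  have k1 := dz_mul4 X hf3 hY hZ hW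
  have k2 := dz_mul3 X hf2 hYZ hW
  have k3 := dz_mul3 X hf2 hZ hYW
  have k4 := dz_mul3 X hf2 hY hZW
  have k5 := dz_mul (X := X) hf1 hYZW
  have a1 := (((hf3.mul hY).mul hZ).mul hW)
  have a2 := ((hf2.mul hYZ).mul hW)
  have a3 := ((hf2.mul hZ).mul hYW)
  have a4 := ((hf2.mul hY).mul hZW)
  have a5 := (hf1.mul hYZW)
  have l1 := dz_add (X := X) (u := fun q =>
      (f3 (s q) : ℂ) * dz Y (fun q => (s q : ℂ)) q * dzb Z (fun q => (s q : ℂ)) q *
          dzb W (fun q => (s q : ℂ)) q) (v := fun q =>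
      (f2 (s q) : ℂ) * dz Y (dzb Z (fun q => (s q : ℂ))) q * dzb W (fun q => (s q : ℂ)) q) a1 a2
  have l2 := dz_add (X := X) (u := fun q =>
      (f3 (s q) : ℂ) * dz Y (fun q => (s q : ℂ)) q * dzb Z (fun q => (s q : ℂ)) q *
          dzb W (fun q => (s q : ℂ)) q +
      (f2 (s q) : ℂ) * dz Y (dzb Z (fun q => (s q : ℂ))) q * dzb W (fun q => (s q : ℂ)) q)
      (v := fun q =>
      (f2 (s q) : ℂ) * dzb Z (fun q => (s q : ℂ)) q * dz Y (dzb W (fun q => (s q : ℂ))) q)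
      (a1.add a2) a3
  have l3 := dz_add (X := X) (u := fun q =>
      (f3 (s q) : ℂ) * dz Y (fun q => (s q : ℂ)) q * dzb Z (fun q => (s q : ℂ)) q *
          dzb W (fun q => (s q : ℂ)) q +
      (f2 (s q) : ℂ) * dz Y (dzb Z (fun q => (s q : ℂ))) q * dzb W (fun q => (s q : ℂ)) q +
      (f2 (s q) : ℂ) * dzb Z (fun q => (s q : ℂ)) q * dz Y (dzb W (fun q => (s q : ℂ))) q)
      (v := fun q =>
      (f2 (s q) : ℂ) * dz Y (fun q => (s q : ℂ)) q * dzb Z (dzb W (fun q => (s q : ℂ))) q)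
      ((a1.add a2).add a3) a4
  have l4 := dz_add (X := X) (u := fun q =>
      (f3 (s q) : ℂ) * dz Y (fun q => (s q : ℂ)) q * dzb Z (fun q => (s q : ℂ)) q *
          dzb W (fun q => (s q : ℂ)) q +
      (f2 (s q) : ℂ) * dz Y (dzb Z (fun q => (s q : ℂ))) q * dzb W (fun q => (s q : ℂ)) q +
      (f2 (s q) : ℂ) * dzb Z (fun q => (s q : ℂ)) q * dz Y (dzb W (fun q => (s q : ℂ))) q +
      (f2 (s q) : ℂ) * dz Y (fun q => (s q : ℂ)) q * dzb Z (dzb W (fun q => (s q : ℂ))) q)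
      (v := fun q => (f1 (s q) : ℂ) * dz Y (dzb Z (dzb W (fun q => (s q : ℂ)))) q)
      (((a1.add a2).add a3).add a4) a5
  rw [l4, l3, l2, l1, k1, k2, k3, k4, k5, e1, e2, e3]
  ring

end Comp

end Crest.Agent.R245.HP
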