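import Crest.Agent.R245.OpsKB

/-! Definitions for the Hartogs metric formulas. -/

set_option autoImplicit false

namespace Crest.Agent.R245

open Complex Filter Topology
open scoped ContDiff ComplexConjugate

/-- `u = e^φ |ζ|²` -/
noncomputable def uu (φ : B2 → ℝ) (x : B2 × ℂ) : ℝ := Real.exp (φ x.1) * ‖x.2‖ ^ 2
/-- the moment `y = u/(1-u)` -/
noncomputable def yy (φ : B2 → ℝ) (x : B2 × ℂ) : ℝ := uu φ x / (1 - uu φ x)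
/-- `ν(X) = ζ ∂φ(X) + X_ζ` -/
noncomputable def nuu (φ : B2 → ℝ) (x : B2 × ℂ) (X : B2 × ℂ) : ℂ :=
  x.2 * dz X.1 (fun b => (φ b : ℂ)) x.1 + X.2
/-- unit vertical component `a(X) = √(y(1+y)) ν(X)/ζ` (for `ζ ≠ 0`). -/
noncomputable def aa (φ : B2 → ℝ) (x : B2 × ℂ) (X : B2 × ℂ) : ℂ :=
  (Real.sqrt (yy φ x * (1 + yy φ x)) : ℂ) * (nuu φ x X / x.2)

/-- the horizontal potential `H = A + y φ` (with `y` frozen). -/
noncomputable def Hpot (A φ : B2 → ℝ) (y : ℝ) (b : B2) : ℝ := A b + y * φ b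

/-- `𝒦_S(ξ,η) = S(ξ,ξ) S(η,η) - (Re S(ξ,η))² + 3 (Im S(ξ,η))²`, `S = i∂∂̄ S`-form. -/
noncomputable def calK (S : B2 → ℝ) (b ξ η : B2) : ℝ :=
  (D11 S ξ ξ b).re * (D11 S η η b).re - (D11 S ξ η b).re ^ 2 + 3 * (D11 S ξ η b).im ^ 2

/-- `m(v,w) = (1+2y) φ(v;w̄) - y(1+y) H(κ_v; κ_w)` where `H(κ_v;·) = φ(v;·)`. -/
noncomputable def mf (A φ : B2 → ℝ) (y : ℝ) (b : B2) (κ : B2 → B2) (v w : B2) : ℂ :=
  (1 + 2 * y) * D11 φ v w b - y * (1 + y) * D11 (Hpot A φ y) (κ v) (κ w) b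

/-- `N(X) = ∂s(X)`, `s = φ + log |ζ|²` -/
noncomputable def Nf (φ : B2 → ℝ) (x X : B2 × ℂ) : ℂ := dz X.1 (fun b => (φ b : ℂ)) x.1 + X.2 / x.2
/-- pure second derivative of `s` -/
noncomputable def s20 (φ : B2 → ℝ) (x X Y : B2 × ℂ) : ℂ :=
  dz X.1 (dz Y.1 (fun b => (φ b : ℂ))) x.1 - X.2 * Y.2 / x.2 ^ 2

end Crest.Agent.R245
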