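import Crest.Agent.R245.HComp

/-! Row 245 (LemmaH): the functions `|ζ|²`, `log |ζ|²`, `φ ∘ fst` on `B2 × ℂ`. -/

set_option autoImplicit false
set_option linter.unusedSectionVars false

namespace Crest.Agent.R245.HP

open Complex Filter Topology
open scoped ContDiff ComplexConjugate

theorem dz_comp_fst {g : B2 → ℂ} {q : B2 × ℂ} (X : B2 × ℂ) (hg : DifferentiableAt ℝ g q.1) :
    dz X (fun q : B2 × ℂ => g q.1) q = dz X.1 g q.1 := by
  have h := dz_comp_affine (X := X) (p := q) (ContinuousLinearMap.fst ℂ B2 ℂ) (0 : B2) (f := g)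
    (by simpa using hg)
  simpa using h

theorem dzb_comp_fst {g : B2 → ℂ} {q : B2 × ℂ} (X : B2 × ℂ) (hg : DifferentiableAt ℝ g q.1) :
    dzb X (fun q : B2 × ℂ => g q.1) q = dzb X.1 g q.1 := by
  have h := dzb_comp_affine (X := X) (p := q) (ContinuousLinearMap.fst ℂ B2 ℂ) (0 : B2) (f := g)
    (by simpa using hg)
  simpa using h

theorem diffC_snd (q : B2 × ℂ) : DifferentiableAt ℂ (fun q : B2 × ℂ => q.2) q := differentiableAt_snd

theorem diffR_snd (q : B2 × ℂ) : DifferentiableAt ℝ (fun q : B2 × ℂ => q.2) q := differentiableAt_snd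

theorem diffR_conj {V : Type*} [NormedAddCommGroup V] [NormedSpace ℝ V] {f : V → ℂ} {q : V}
    (hf : DifferentiableAt ℝ f q) : DifferentiableAt ℝ (fun q => conj (f q)) q := by
  have : (fun q => conj (f q)) = conjCLE ∘ f := by ext q; simp
  rw [this]
  exact (conjCLE.differentiableAt (x := f q)).comp q hf

theorem dz_snd (X q : B2 × ℂ) : dz X (fun q : B2 × ℂ => q.2) q = X.2 := by
  rw [dz_hol (diffC_snd q)]
  have : HasFDerivAt (𝕜 := ℂ) (fun q : B2 × ℂ => q.2) (ContinuousLinearMap.snd ℂ B2 ℂ) q :=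
    hasFDerivAt_snd
  rw [this.fderiv]; rfl

theorem dzb_snd (X q : B2 × ℂ) : dzb X (fun q : B2 × ℂ => q.2) q = 0 := dzb_hol (diffC_snd q)

theorem dz_conj_snd (X q : B2 × ℂ) : dz X (fun q : B2 × ℂ => conj q.2) q = 0 := by
  rw [dz_conj X (fun q : B2 × ℂ => q.2) q, dzb_snd, map_zero]

theorem dzb_conj_snd (X q : B2 × ℂ) : dzb X (fun q : B2 × ℂ => conj q.2) q = conj X.2 := by
  rw [dzb_conj X (fun q : B2 × ℂ => q.2) q, dz_snd]

theorem normSq_eq (z : ℂ) : (((‖z‖ ^ 2 : ℝ)) : ℂ) = z * conj z := by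
  rw [mul_conj, normSq_eq_norm_sq]

/-- the function `log |ζ|²` -/
noncomputable def lz (q : B2 × ℂ) : ℝ := Real.log (‖q.2‖ ^ 2)

theorem contDiff_normSq_snd : ContDiff ℝ ∞ (fun q : B2 × ℂ => ‖q.2‖ ^ 2) :=
  contDiff_snd.norm_sq ℝ

theorem contDiffAt_lz {q : B2 × ℂ} (hq : q.2 ≠ 0) : ContDiffAt ℝ ∞ lz q := by
  unfold lz
  exact contDiff_normSq_snd.contDiffAt.log (by positivity)

theorem dz_lz {q : B2 × ℂ} (hq : q.2 ≠ 0) (X : B2 × ℂ) :
    dz X (fun q => (lz q : ℂ)) q = X.2 / q.2 := by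
  have hd : DifferentiableAt ℝ (fun q : B2 × ℂ => ‖q.2‖ ^ 2) q :=
    contDiff_normSq_snd.contDiffAt.differentiableAt (by norm_num)
  have hne : ‖q.2‖ ^ 2 ≠ 0 := by positivity
  have h := dz_comp_real (X := X) Real.log (fun q : B2 × ℂ => ‖q.2‖ ^ 2)
    (Real.differentiableAt_log hne) hd
  unfold lz
  rw [h, Real.deriv_log]
  have e : (fun q : B2 × ℂ => ((‖q.2‖ ^ 2 : ℝ) : ℂ)) = fun q => q.2 * conj q.2 := by
    ext q; exact normSq_eq q.2
  rw [e, dz_mul (diffR_snd q) (diffR_conj (diffR_snd q)), dz_snd, dz_conj_snd]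
  push_cast
  have h2 := normSq_eq q.2
  push_cast at h2
  rw [h2]
  have hc : conj q.2 ≠ 0 := by simpa using hq
  field_simp
  ring

theorem dz_lz_ev {x : B2 × ℂ} (hx : x.2 ≠ 0) (X : B2 × ℂ) :
    dz X (fun q => (lz q : ℂ)) =ᶠ[𝓝 x] fun q => X.2 / q.2 := by
  have : ∀ᶠ q : B2 × ℂ in 𝓝 x, q.2 ≠ 0 := continuousAt_snd.eventually_ne hx
  filter_upwards [this] with q hq using dz_lz hq X

theorem diffC_div_snd {q : B2 × ℂ} (hq : q.2 ≠ 0) (c : ℂ) :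
    DifferentiableAt ℂ (fun q : B2 × ℂ => c / q.2) q :=
  by fun_prop (disch := assumption)

theorem dz_div_snd {q : B2 × ℂ} (hq : q.2 ≠ 0) (c : ℂ) (X : B2 × ℂ) :
    dz X (fun q : B2 × ℂ => c / q.2) q = - (X.2 * c / q.2 ^ 2) := by
  rw [dz_hol (diffC_div_snd hq c)]
  have h1 : HasFDerivAt (𝕜 := ℂ) (fun q : B2 × ℂ => q.2) (ContinuousLinearMap.snd ℂ B2 ℂ) q :=
    hasFDerivAt_snd
  have h2 : HasDerivAt (fun z : ℂ => c / z) (-(c / q.2 ^ 2)) q.2 := by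
    have := (hasDerivAt_inv hq).const_mul c
    simp only [div_eq_mul_inv]
    exact this.congr_deriv (by rw [mul_neg])
  have h3 := h2.comp_hasFDerivAt q h1
  have h4 : (fun q : B2 × ℂ => c / q.2) = (fun z : ℂ => c / z) ∘ (fun q : B2 × ℂ => q.2) := rfl
  rw [h4, h3.fderiv]
  simp
  ring

theorem dz_dz_lz {x : B2 × ℂ} (hx : x.2 ≠ 0) (X Y : B2 × ℂ) :
    dz X (dz Y (fun q => (lz q : ℂ))) x = - (X.2 * Y.2 / x.2 ^ 2) := by
  rw [dz_congr (dz_lz_ev hx Y), dz_div_snd hx]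

theorem dzb_lz_ev {x : B2 × ℂ} (hx : x.2 ≠ 0) (X : B2 × ℂ) :
    dzb X (fun q => (lz q : ℂ)) =ᶠ[𝓝 x] fun q => conj (X.2 / q.2) := by
  have : ∀ᶠ q : B2 × ℂ in 𝓝 x, q.2 ≠ 0 := continuousAt_snd.eventually_ne hx
  filter_upwards [this] with q hq
  rw [dzb_ofReal, dz_lz hq]

theorem dz_dzb_lz_ev {x : B2 × ℂ} (hx : x.2 ≠ 0) (X Y : B2 × ℂ) :
    dz X (dzb Y (fun q => (lz q : ℂ))) =ᶠ[𝓝 x] fun _ => 0 := by
  refine (dz_eventuallyEq (dzb_lz_ev hx Y)).trans ?_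
  have : ∀ᶠ q : B2 × ℂ in 𝓝 x, q.2 ≠ 0 := continuousAt_snd.eventually_ne hx
  filter_upwards [this] with q hq
  rw [dz_conj X (fun q : B2 × ℂ => Y.2 / q.2) q, dzb_hol (diffC_div_snd hq _), map_zero]

theorem dzb_dzb_lz_ev {x : B2 × ℂ} (hx : x.2 ≠ 0) (X Y : B2 × ℂ) :
    dzb X (dzb Y (fun q => (lz q : ℂ))) =ᶠ[𝓝 x] fun q => conj (-(X.2 * Y.2 / q.2 ^ 2)) := by
  refine (dzb_eventuallyEq (dzb_lz_ev hx Y)).trans ?_
  have : ∀ᶠ q : B2 × ℂ in 𝓝 x, q.2 ≠ 0 := continuousAt_snd.eventually_ne hx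
  filter_upwards [this] with q hq
  rw [dzb_conj X (fun q : B2 × ℂ => Y.2 / q.2) q, dz_div_snd hq]

theorem D11_lz {x : B2 × ℂ} (hx : x.2 ≠ 0) (X Y : B2 × ℂ) : D11 lz X Y x = 0 :=
  (dz_dzb_lz_ev hx X Y).eq_of_nhds

theorem D21_lz {x : B2 × ℂ} (hx : x.2 ≠ 0) (X Y Z : B2 × ℂ) : D21 lz X Y Z x = 0 := by
  unfold D21
  rw [dz_congr (dz_dzb_lz_ev hx Y Z), dz_const]

theorem D22_lz {x : B2 × ℂ} (hx : x.2 ≠ 0) (X Y Z W : B2 × ℂ) : D22 lz X Y Z W x = 0 := by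
  unfold D22
  have h1 : dz Y (dzb Z (dzb W (fun q => (lz q : ℂ)))) =ᶠ[𝓝 x] fun _ => 0 := by
    refine (dz_eventuallyEq (dzb_dzb_lz_ev hx Z W)).trans ?_
    have : ∀ᶠ q : B2 × ℂ in 𝓝 x, q.2 ≠ 0 := continuousAt_snd.eventually_ne hx
    filter_upwards [this] with q hq
    have hd : DifferentiableAt ℂ (fun q : B2 × ℂ => -(Z.2 * W.2 / q.2 ^ 2)) q :=
      by fun_prop (disch := exact pow_ne_zero 2 hq)
    rw [dz_conj Y (fun q : B2 × ℂ => -(Z.2 * W.2 / q.2 ^ 2)) q, dzb_hol hd, map_zero]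
  rw [dz_congr h1, dz_const]

/-- `dz X (dzb Z (dzb W s))` in terms of `D21` -/
theorem dz_dzb_dzb_real {V : Type*} [NormedAddCommGroup V] [NormedSpace ℝ V] [NormedSpace ℂ V]
    [IsScalarTower ℝ ℂ V] {s : V → ℝ} {p : V} (hs : ContDiffAt ℝ 5 s p) (X Z W : V) :
    dz X (dzb Z (dzb W (fun q => (s q : ℂ)))) p = conj (D21 s Z W X p) := by
  have hS := contDiffAt_ofReal hs
  have e1 : dzb W (fun q => (s q : ℂ)) = fun q => conj (dz W (fun q => (s q : ℂ)) q) := by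
    ext q; exact dzb_ofReal W s q
  have e2 : dzb Z (dzb W (fun q => (s q : ℂ))) =
      fun q => conj (dz Z (dz W (fun q => (s q : ℂ))) q) := by
    ext q
    rw [e1]
    exact dzb_conj Z (dz W (fun q => (s q : ℂ))) q
  rw [e2, dz_conj X (dz Z (dz W (fun q => (s q : ℂ)))) p]
  congr 1
  unfold D21
  have hW' : ContDiffAt ℝ 4 (dz W (fun q => (s q : ℂ))) p :=
    contDiffAt_dz_le (n := 4) W hS (by norm_num)
  rw [← dz_dzb_comm (hW'.of_le (by norm_num))]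
  refine dz_congr ?_
  filter_upwards [hs.eventually (by decide)] with q hq
  exact (dz_dzb_comm ((contDiffAt_ofReal hq).of_le (by norm_num))).symm

end Crest.Agent.R245.HP
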