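import Mathlib

/-!
# A quantitative Schwarz–Pick/Harnack inequality on discs (row 245)
-/

set_option autoImplicit false

open scoped ComplexConjugate
open Complex Metric Real

namespace Crest.Agent.R245

private lemma re_poisson {g : ℂ → ℂ} {c y : ℂ} {R : ℝ} (hR : 0 < R)
    (hg : DiffContOnCl ℂ g (ball c R)) (hy : y ∈ ball c R) :
    Real.circleAverage
      (fun z => ((z - c + (y - c)) / ((z - c) - (y - c))).re * (g z).re) c R = (g y).re ∧
    CircleIntegrable
      (fun z => ((z - c + (y - c)) / ((z - c) - (y - c))).re * (g z).re) c R := by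
  have h1 := hg.circleAverage_re_herglotzRieszKernel_smul' hy
  have habs : |R| = R := abs_of_pos hR
  have hK : ContinuousOn (fun z => ((z - c + (y - c)) / ((z - c) - (y - c))).re) (sphere c |R|) := by
    have := continuousOn_herglotzRieszKernel_sphere (c := c) (w := y) (R := R) hy
    exact Complex.continuous_re.comp_continuousOn this
  have hgc : ContinuousOn g (sphere c |R|) := by
    rw [habs]
    refine hg.continuousOn.mono ?_
    rw [closure_ball c hR.ne']
    exact sphere_subset_closedBall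
  have hint : CircleIntegrable
      (fun z => ((z - c + (y - c)) / ((z - c) - (y - c))).re • g z) c R :=
    (ContinuousOn.smul hK hgc).circleIntegrable'
  have h2 := Complex.reCLM.circleAverage_comp_comm hint
  constructor
  · rw [h1] at h2
    rw [← Complex.reCLM_apply (g y), ← h2]
    congr 1
    ext z
    simp
  · refine ContinuousOn.circleIntegrable' ?_
    exact hK.mul (Complex.continuous_re.comp_continuousOn hgc)

/-- If `‖f‖ ≤ 1` on the disc, then `1 - ‖f‖` satisfies a Harnack inequality. -/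
theorem harnack_norm {f : ℂ → ℂ} {c y q : ℂ} {R : ℝ} (hR : 0 < R)
    (hf : DiffContOnCl ℂ f (ball c R)) (hb : ∀ z ∈ sphere c R, ‖f z‖ ≤ 1)
    (hy : y ∈ ball c R) (hq : q ∈ ball c R) :
    (R - ‖y - c‖) * (R - ‖q - c‖) / (4 * R ^ 2) * (1 - ‖f q‖) ≤ 1 - ‖f y‖ := by
  -- choose the phase
  obtain ⟨l, hl, hly⟩ : ∃ l : ℂ, ‖l‖ = 1 ∧ l * f y = (‖f y‖ : ℂ) := by
    by_cases h0 : f y = 0
    · exact ⟨1, by simp, by simp [h0]⟩
    · refine ⟨(‖f y‖ : ℂ) / f y, ?_, ?_⟩
      · rw [norm_div]; simp [h0]
      · field_simp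
  have hg : DiffContOnCl ℂ (fun z => 1 - l * f z) (ball c R) :=
    (diffContOnCl_const (c := (1 : ℂ))).sub (hf.const_smul l)
  obtain ⟨ey, iy⟩ := re_poisson hR hg hy
  obtain ⟨eq, iq⟩ := re_poisson hR hg hq
  have habs : |R| = R := abs_of_pos hR
  have hyn : ‖y - c‖ < R := by simpa [dist_eq_norm] using hy
  have hqn : ‖q - c‖ < R := by simpa [dist_eq_norm] using hq
  set k : ℝ := (R - ‖y - c‖) * (R - ‖q - c‖) / (4 * R ^ 2) with hk
  have hk0 : 0 ≤ k := by
    rw [hk]; apply div_nonneg (mul_nonneg (by linarith) (by linarith)); positivity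
  have hmono : Real.circleAverage
      (fun z => k * (((z - c + (q - c)) / ((z - c) - (q - c))).re * (1 - l * f z).re)) c R ≤
      Real.circleAverage
      (fun z => ((z - c + (y - c)) / ((z - c) - (y - c))).re * (1 - l * f z).re) c R := by
    refine Real.circleAverage_mono (CircleIntegrable.const_fun_smul (a := k) iq) iy ?_
    intro z hz
    rw [habs] at hz
    have h1 := _root_.le_re_herglotzRieszKernel (c := c) (w := y) (R := R) hz hy
    have h2 := _root_.re_herglotzRieszKernel_le (c := c) (w := q) (R := R) hz hq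
    have hre : 0 ≤ (1 - l * f z).re := by
      have h3 : (l * f z).re ≤ 1 := by
        calc (l * f z).re ≤ ‖l * f z‖ := Complex.re_le_norm _
          _ = ‖f z‖ := by rw [norm_mul, hl, one_mul]
          _ ≤ 1 := hb z hz
      rw [Complex.sub_re, Complex.one_re]; linarith
    have h4 : k * ((z - c + (q - c)) / ((z - c) - (q - c))).re ≤
        ((z - c + (y - c)) / ((z - c) - (y - c))).re := by
      calc k * ((z - c + (q - c)) / ((z - c) - (q - c))).re
          ≤ k * ((R + ‖q - c‖) / (R - ‖q - c‖)) := by gcongr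
        _ = (R - ‖y - c‖) * (R + ‖q - c‖) / (4 * R ^ 2) := by
            rw [hk]; field_simp [show R - ‖q - c‖ ≠ 0 by linarith]
        _ ≤ (R - ‖y - c‖) / (R + ‖y - c‖) := by
            rw [div_le_div_iff₀ (by positivity) (by positivity)]
            have e1 : (R + ‖q - c‖) * (R + ‖y - c‖) ≤ 4 * R ^ 2 := by
              have a1 : R + ‖q - c‖ ≤ 2 * R := by linarith
              have a2 : R + ‖y - c‖ ≤ 2 * R := by linarith
              calc (R + ‖q - c‖) * (R + ‖y - c‖) ≤ (2 * R) * (2 * R) := by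
                    apply mul_le_mul a1 a2 (by positivity) (by positivity)
                _ = 4 * R ^ 2 := by ring
            have e2 : 0 ≤ R - ‖y - c‖ := by linarith
            nlinarith [mul_le_mul_of_nonneg_left e1 e2]
        _ ≤ _ := h1
    calc k * (((z - c + (q - c)) / ((z - c) - (q - c))).re * (1 - l * f z).re)
        = (k * ((z - c + (q - c)) / ((z - c) - (q - c))).re) * (1 - l * f z).re := by ring
      _ ≤ _ := mul_le_mul_of_nonneg_right h4 hre
  have e3 : Real.circleAverage
      (fun z => k * (((z - c + (q - c)) / ((z - c) - (q - c))).re * (1 - l * f z).re)) c R =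
      k * (1 - l * f q).re := by
    have := Real.circleAverage_fun_smul (a := k)
      (f := fun z => ((z - c + (q - c)) / ((z - c) - (q - c))).re * (1 - l * f z).re)
      (c := c) (R := R)
    simp only [smul_eq_mul] at this
    rw [this, eq]
  rw [e3, ey] at hmono
  have h5 : (1 - l * f y).re = 1 - ‖f y‖ := by rw [hly]; simp
  have h6 : 1 - ‖f q‖ ≤ (1 - l * f q).re := by
    have : (l * f q).re ≤ ‖f q‖ := by
      calc (l * f q).re ≤ ‖l * f q‖ := Complex.re_le_norm _
        _ = ‖f q‖ := by rw [norm_mul, hl, one_mul]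
    rw [Complex.sub_re, Complex.one_re]; linarith
  calc k * (1 - ‖f q‖) ≤ k * (1 - l * f q).re := by gcongr
    _ ≤ _ := hmono
    _ = _ := h5

/-- Scaled version: `‖f‖ ≤ A` on the circle. -/
theorem harnack_norm_scaled {f : ℂ → ℂ} {c y q : ℂ} {R A : ℝ} (hR : 0 < R) (hA : 0 < A)
    (hf : DiffContOnCl ℂ f (ball c R)) (hb : ∀ z ∈ sphere c R, ‖f z‖ ≤ A)
    (hy : y ∈ ball c R) (hq : q ∈ ball c R) :
    (R - ‖y - c‖) * (R - ‖q - c‖) / (4 * R ^ 2) * (A - ‖f q‖) ≤ A - ‖f y‖ := by
  have hg : DiffContOnCl ℂ (fun z => (A : ℂ)⁻¹ • f z) (ball c R) := hf.const_smul (A : ℂ)⁻¹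
  have hn : ∀ z, ‖(A : ℂ)⁻¹ • f z‖ = ‖f z‖ / A := by
    intro z
    rw [norm_smul, norm_inv, Complex.norm_real, Real.norm_eq_abs, abs_of_pos hA]
    field_simp
  have := harnack_norm hR hg (fun z hz => by
    rw [hn]; exact (div_le_one hA).2 (hb z hz)) hy hq
  rw [hn, hn] at this
  have h1 : A * ((R - ‖y - c‖) * (R - ‖q - c‖) / (4 * R ^ 2) * (1 - ‖f q‖ / A)) ≤
      A * (1 - ‖f y‖ / A) := by gcongr
  calc _ = A * ((R - ‖y - c‖) * (R - ‖q - c‖) / (4 * R ^ 2) * (1 - ‖f q‖ / A)) := by
        field_simp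
    _ ≤ _ := h1
    _ = _ := by field_simp

end Crest.Agent.R245
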