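import Crest.Agent.R245.LemmaH

/-! HartGen: smoothness and positivity of a general Hartogs potential. (helper899) -/

set_option autoImplicit false

namespace Crest.Agent.R245

open Complex Filter Topology
open scoped ContDiff ComplexConjugate

theorem HG.dz_zero_dir (u : B2 → ℂ) (p : B2) : dz (0 : B2) u p = 0 := by
  unfold dz; simp

theorem HG.D11_zero_dir (g : B2 → ℝ) (Y p : B2) : D11 g (0 : B2) Y p = 0 := by
  unfold D11; exact HG.dz_zero_dir _ _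

/-- a Hartogs potential is smooth where `A`, `φ` are and `e^φ |ζ|² < 1` -/
theorem hart_contDiffAt_gen (A φ : B2 → ℝ) (y : B2 × ℂ) (hA : ContDiffAt ℝ ∞ A y.1)
    (hφ : ContDiffAt ℝ ∞ φ y.1) (hu : Real.exp (φ y.1) * ‖y.2‖ ^ 2 < 1) :
    ContDiffAt ℝ ∞ (hart A φ) y := by
  have hA' : ContDiffAt ℝ ∞ (fun y : B2 × ℂ => A y.1) y := hA.comp y contDiffAt_fst
  have hφ' : ContDiffAt ℝ ∞ (fun y : B2 × ℂ => φ y.1) y := hφ.comp y contDiffAt_fst
  have hn : ContDiffAt ℝ ∞ (fun y : B2 × ℂ => ‖y.2‖ ^ 2) y := by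
    have h1 : ContDiff ℝ ∞ (fun ζ : ℂ => ‖ζ‖ ^ 2) := contDiff_norm_sq ℝ
    exact h1.contDiffAt.comp y contDiffAt_snd
  unfold hart
  refine hA'.sub (ContDiffAt.log (contDiffAt_const.sub (hφ'.exp.mul hn)) ?_)
  linarith

/-- positivity of a general Hartogs potential -/
theorem hart_PD_gen (A φ : B2 → ℝ) (y : B2 × ℂ) (hA : ContDiffAt ℝ ∞ A y.1)
    (hφ : ContDiffAt ℝ ∞ φ y.1) (hu : Real.exp (φ y.1) * ‖y.2‖ ^ 2 < 1)
    (hApos : ∀ ξ, ξ ≠ 0 → 0 < (D11 A ξ ξ y.1).re)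
    (hφnn : ∀ ξ, 0 ≤ (D11 φ ξ ξ y.1).re) : PD (hart A φ) y := by
  intro X hX
  have hu' : uu φ y < 1 := hu
  have hu0 : 0 ≤ uu φ y := by unfold uu; positivity
  have hyy : 0 ≤ yy φ y := by
    unfold yy
    apply div_nonneg hu0; linarith
  rw [hart_D11 A φ y hA hφ hu' X X]
  have h4 : 0 ≤ (D11 φ X.1 X.1 y.1).re := hφnn X.1
  set E : ℝ := Real.exp (φ y.1) / (1 - uu φ y) ^ 2 with hE
  have hEpos : 0 < E := by
    rw [hE]
    have : 0 < 1 - uu φ y := by linarith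
    positivity
  have h5 : (((E : ℝ) : ℂ) * nuu φ y X * conj (nuu φ y X)).re
      = E * ‖nuu φ y X‖ ^ 2 := by
    rw [mul_assoc, Complex.mul_conj, Complex.normSq_eq_norm_sq, ← Complex.ofReal_mul,
      Complex.ofReal_re]
  rw [Complex.add_re, Complex.add_re, h5, Complex.re_ofReal_mul]
  by_cases hX1 : X.1 = 0
  · have hX2 : X.2 ≠ 0 := fun h => hX (Prod.ext hX1 h)
    have hn : nuu φ y X = X.2 := by
      unfold nuu
      rw [hX1, HG.dz_zero_dir]; simp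
    rw [hn]
    have : 0 < ‖X.2‖ := norm_pos_iff.2 hX2
    have h6 : 0 < E * ‖X.2‖ ^ 2 := by positivity
    have h7 : (D11 A X.1 X.1 y.1).re = 0 := by
      rw [hX1, HG.D11_zero_dir]; simp
    have h8 : 0 ≤ yy φ y * (D11 φ X.1 X.1 y.1).re := mul_nonneg hyy h4
    linarith
  · have h7 : 0 < (D11 A X.1 X.1 y.1).re := hApos X.1 hX1
    have h8 : 0 ≤ yy φ y * (D11 φ X.1 X.1 y.1).re := mul_nonneg hyy h4
    have h9 : 0 ≤ E * ‖nuu φ y X‖ ^ 2 := by positivity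
    linarith

end Crest.Agent.R245
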