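import Crest.Agent.R245.IslDefs

/-!
# Basic facts on the islands (row 245)
-/

set_option autoImplicit false

open scoped ContDiff ComplexConjugate
open Complex

namespace Crest.Agent.R245

lemma norm_EE (N : ℝ) (c : ℂ) (x : ℂ × ℂ) :
    ‖EE N c x‖ = Real.exp (-(N * (rho x + ‖x.1 - c‖ ^ 2))) := by
  unfold EE
  rw [Complex.norm_exp]
  congr 1
  have h1 : ‖x.1 - c‖ ^ 2 = (x.1.re - c.re) ^ 2 + (x.1.im - c.im) ^ 2 := by
    rw [Complex.sq_norm, Complex.normSq_apply, Complex.sub_re, Complex.sub_im]; ring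
  have h2 : ‖x.1‖ ^ 2 = x.1.re ^ 2 + x.1.im ^ 2 := by
    rw [Complex.sq_norm, Complex.normSq_apply]; ring
  have h3 : ‖c‖ ^ 2 = c.re ^ 2 + c.im ^ 2 := by
    rw [Complex.sq_norm, Complex.normSq_apply]; ring
  unfold rho
  rw [h1, h2, h3]
  simp only [Complex.mul_re, Complex.mul_im, Complex.I_re, Complex.I_im, Complex.sub_re,
    Complex.sub_im, Complex.add_re, Complex.add_im, Complex.ofReal_re, Complex.ofReal_im,
    Complex.conj_re, Complex.conj_im, Complex.re_ofNat, Complex.im_ofNat]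
  ring

lemma norm_EE_le_one {N : ℝ} (hN : 0 ≤ N) (c : ℂ) {x : ℂ × ℂ} (hx : 0 ≤ rho x) :
    ‖EE N c x‖ ≤ 1 := by
  rw [norm_EE]
  apply Real.exp_le_one_iff.2
  have : 0 ≤ N * (rho x + ‖x.1 - c‖ ^ 2) := by positivity
  linarith

lemma norm_EE_le {N : ℝ} (c : ℂ) {x : ℂ × ℂ} (h : 1 ≤ N * (rho x + ‖x.1 - c‖ ^ 2)) :
    ‖EE N c x‖ ≤ Real.exp (-1) := by
  rw [norm_EE]
  exact Real.exp_le_exp.2 (by linarith)

/-- The lattice of scale `N`. -/
def IsLat (N : ℝ) (c : ℂ) : Prop := ∃ m n : ℤ, c = (5 / Real.sqrt N : ℝ) * ((m : ℂ) + (n : ℂ) * I)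

lemma isLat_latPt (N : ℝ) (z : ℂ) : IsLat N (latPt N z) := ⟨_, _, rfl⟩

lemma latPt_re (N : ℝ) (z : ℂ) :
    (latPt N z).re = 5 / Real.sqrt N * (round (Real.sqrt N / 5 * z.re) : ℤ) := by
  unfold latPt; simp

lemma latPt_im (N : ℝ) (z : ℂ) :
    (latPt N z).im = 5 / Real.sqrt N * (round (Real.sqrt N / 5 * z.im) : ℤ) := by
  unfold latPt; simp

private lemma coord_bound {s : ℝ} (hs : 0 < s) (t : ℝ) :
    |t - 5 / s * (round (s / 5 * t) : ℤ)| ≤ 5 / (2 * s) := by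
  have h := abs_sub_round (s / 5 * t)
  have e : t - 5 / s * (round (s / 5 * t) : ℤ) = 5 / s * (s / 5 * t - (round (s / 5 * t) : ℤ)) := by
    field_simp
  rw [e, abs_mul, abs_of_pos (by positivity : 0 < 5 / s)]
  calc 5 / s * |s / 5 * t - (round (s / 5 * t) : ℤ)| ≤ 5 / s * (1 / 2) := by gcongr
    _ = 5 / (2 * s) := by field_simp

private lemma coord_far {s : ℝ} (hs : 0 < s) (t : ℝ) {m : ℤ} (hm : m ≠ round (s / 5 * t)) :
    5 / (2 * s) ≤ |t - 5 / s * m| := by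
  have e : t - 5 / s * m = 5 / s * (s / 5 * t - m) := by field_simp
  rw [e, abs_mul, abs_of_pos (by positivity : 0 < 5 / s)]
  have h1 : 1 / 2 ≤ |s / 5 * t - m| := by
    by_contra hlt
    push Not at hlt
    apply hm
    rw [abs_lt] at hlt
    symm
    rw [round_eq, Int.floor_eq_iff]
    constructor <;> linarith [hlt.1, hlt.2]
  calc 5 / (2 * s) = 5 / s * (1 / 2) := by field_simp
    _ ≤ _ := by gcongr

lemma sq_dist_latPt_le {N : ℝ} (hN : 0 < N) (z : ℂ) : N * ‖z - latPt N z‖ ^ 2 ≤ 25 / 2 := by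
  have hs : 0 < Real.sqrt N := Real.sqrt_pos.2 hN
  have h1 := coord_bound hs z.re
  have h2 := coord_bound hs z.im
  rw [← latPt_re] at h1
  rw [← latPt_im] at h2
  rw [Complex.sq_norm, Complex.normSq_apply]
  have e1 : (z - latPt N z).re ^ 2 ≤ (5 / (2 * Real.sqrt N)) ^ 2 := by
    rw [Complex.sub_re, ← sq_abs]; gcongr
  have e2 : (z - latPt N z).im ^ 2 ≤ (5 / (2 * Real.sqrt N)) ^ 2 := by
    rw [Complex.sub_im, ← sq_abs]; gcongr
  have e3 : (5 / (2 * Real.sqrt N)) ^ 2 = 25 / (4 * N) := by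
    rw [div_pow, mul_pow, Real.sq_sqrt hN.le]; ring
  rw [e3] at e1 e2
  calc N * ((z - latPt N z).re * (z - latPt N z).re + (z - latPt N z).im * (z - latPt N z).im)
      = N * ((z - latPt N z).re ^ 2 + (z - latPt N z).im ^ 2) := by ring
    _ ≤ N * (25 / (4 * N) + 25 / (4 * N)) := by gcongr
    _ = 25 / 2 := by field_simp; norm_num

lemma sq_dist_lat_ge {N : ℝ} (hN : 0 < N) (z : ℂ) {c : ℂ} (hc : IsLat N c)
    (hne : c ≠ latPt N z) : 25 / 4 ≤ N * ‖z - c‖ ^ 2 := by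
  have hs : 0 < Real.sqrt N := Real.sqrt_pos.2 hN
  obtain ⟨m, n, rfl⟩ := hc
  have hre : (((5 / Real.sqrt N : ℝ) : ℂ) * ((m : ℂ) + (n : ℂ) * I)).re = 5 / Real.sqrt N * m := by
    simp
  have him : (((5 / Real.sqrt N : ℝ) : ℂ) * ((m : ℂ) + (n : ℂ) * I)).im = 5 / Real.sqrt N * n := by
    simp
  have e3 : (5 / (2 * Real.sqrt N)) ^ 2 = 25 / (4 * N) := by
    rw [div_pow, mul_pow, Real.sq_sqrt hN.le]; ring
  rw [Complex.sq_norm, Complex.normSq_apply, Complex.sub_re, Complex.sub_im, hre, him]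
  have hor : m ≠ round (Real.sqrt N / 5 * z.re) ∨ n ≠ round (Real.sqrt N / 5 * z.im) := by
    by_contra hcon
    push Not at hcon
    apply hne
    unfold latPt
    rw [hcon.1, hcon.2]
  rcases hor with h | h
  · have h1 := coord_far hs z.re h
    have e1 : (5 / (2 * Real.sqrt N)) ^ 2 ≤ (z.re - 5 / Real.sqrt N * m) ^ 2 := by
      rw [← sq_abs (z.re - 5 / Real.sqrt N * m)]; gcongr
    rw [e3] at e1
    calc (25 / 4 : ℝ) = N * (25 / (4 * N) + 0) := by field_simp; norm_num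
      _ ≤ N * ((z.re - 5 / Real.sqrt N * m) ^ 2 + (z.im - 5 / Real.sqrt N * n) ^ 2) := by
          gcongr; positivity
      _ = _ := by ring
  · have h1 := coord_far hs z.im h
    have e1 : (5 / (2 * Real.sqrt N)) ^ 2 ≤ (z.im - 5 / Real.sqrt N * n) ^ 2 := by
      rw [← sq_abs (z.im - 5 / Real.sqrt N * n)]; gcongr
    rw [e3] at e1
    calc (25 / 4 : ℝ) = N * (0 + 25 / (4 * N)) := by field_simp; norm_num
      _ ≤ N * ((z.re - 5 / Real.sqrt N * m) ^ 2 + (z.im - 5 / Real.sqrt N * n) ^ 2) := by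
          gcongr; positivity
      _ = _ := by ring

/-- Distinct lattice points are `5/√N` apart. -/
lemma sq_dist_lat_lat {N : ℝ} (hN : 0 < N) {c c' : ℂ} (hc : IsLat N c) (hc' : IsLat N c')
    (hne : c ≠ c') : 25 ≤ N * ‖c - c'‖ ^ 2 := by
  have hs : 0 < Real.sqrt N := Real.sqrt_pos.2 hN
  obtain ⟨m, n, rfl⟩ := hc
  obtain ⟨m', n', rfl⟩ := hc'
  have e : ((5 / Real.sqrt N : ℝ) : ℂ) * ((m : ℂ) + (n : ℂ) * I) -
      ((5 / Real.sqrt N : ℝ) : ℂ) * ((m' : ℂ) + (n' : ℂ) * I) =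
      ((5 / Real.sqrt N : ℝ) : ℂ) * (((m - m' : ℤ) : ℂ) + ((n - n' : ℤ) : ℂ) * I) := by
    push_cast; ring
  rw [e, norm_mul, mul_pow, Complex.norm_real, Real.norm_eq_abs,
    abs_of_pos (by positivity : 0 < 5 / Real.sqrt N), div_pow, Real.sq_sqrt hN.le]
  have h2 : (1 : ℝ) ≤ ‖(((m - m' : ℤ) : ℂ) + ((n - n' : ℤ) : ℂ) * I)‖ ^ 2 := by
    rw [Complex.sq_norm, Complex.normSq_apply]
    have hre : ((((m - m' : ℤ) : ℂ) + ((n - n' : ℤ) : ℂ) * I)).re = ((m - m' : ℤ) : ℝ) := by simp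
    have him : ((((m - m' : ℤ) : ℂ) + ((n - n' : ℤ) : ℂ) * I)).im = ((n - n' : ℤ) : ℝ) := by simp
    rw [hre, him]
    have : (1 : ℤ) ≤ (m - m') * (m - m') + (n - n') * (n - n') := by
      by_contra hcon
      push Not at hcon
      have h3 : (m - m') * (m - m') + (n - n') * (n - n') = 0 := by
        nlinarith [mul_self_nonneg (m - m'), mul_self_nonneg (n - n')]
      have h4 : (m - m') * (m - m') = 0 := by
        nlinarith [mul_self_nonneg (m - m'), mul_self_nonneg (n - n')]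
      have h5 : (n - n') * (n - n') = 0 := by
        nlinarith [mul_self_nonneg (m - m'), mul_self_nonneg (n - n')]
      have h6 : m = m' := by have := mul_self_eq_zero.1 h4; omega
      have h7 : n = n' := by have := mul_self_eq_zero.1 h5; omega
      apply hne; rw [h6, h7]
    exact_mod_cast this
  calc (25 : ℝ) = N * (5 ^ 2 / N * 1) := by field_simp; norm_num
    _ ≤ _ := by gcongr

/-- Near `z = 0` the centre of the nearest island is small. -/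
lemma norm_latPt_le {N : ℝ} (hN : 0 < N) (z : ℂ) : ‖latPt N z‖ ≤ 5 / 2 * ‖z‖ := by
  by_cases h : latPt N z = 0
  · rw [h]; simp
  · have h0 : IsLat N 0 := ⟨0, 0, by simp⟩
    have h1 := sq_dist_lat_ge hN z h0 (fun h' => h h'.symm)
    rw [sub_zero] at h1
    have h2 := sq_dist_latPt_le hN z
    have h3 : ‖z - latPt N z‖ ^ 2 ≤ 2 * ‖z‖ ^ 2 := by
      have : N * ‖z - latPt N z‖ ^ 2 ≤ N * (2 * ‖z‖ ^ 2) := by linarith
      exact le_of_mul_le_mul_left this hN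
    have h4 : ‖z - latPt N z‖ ≤ 3 / 2 * ‖z‖ := by
      apply abs_le_of_sq_le_sq' _ (by positivity) |>.2
      nlinarith [norm_nonneg z]
    calc ‖latPt N z‖ = ‖z - (z - latPt N z)‖ := by ring_nf
      _ ≤ ‖z‖ + ‖z - latPt N z‖ := norm_sub_le _ _
      _ ≤ 5 / 2 * ‖z‖ := by linarith

section VV
variable {v : ℂ → ℝ} {Cv M L : ℝ}

lemma VV_eq_of_near {N : ℝ} {x : ℂ × ℂ} (hN : 0 < N) (hx : ‖x.1‖ < 1 / 40) :
    VV v N x = v (EE N (latPt N x.1) x) := by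
  unfold VV
  rw [if_pos]
  have := norm_latPt_le hN x.1
  linarith

lemma VV_eq_zero (hv : IsDip v Cv M L) {N : ℝ} {x : ℂ × ℂ}
    (h : 1 ≤ N * (rho x + ‖x.1 - latPt N x.1‖ ^ 2)) : VV v N x = 0 := by
  unfold VV
  split_ifs
  · exact hv.zero _ (norm_EE_le _ h)
  · rfl

lemma VV_eq_zero_of_high (hv : IsDip v Cv M L) {N : ℝ} (hN : 0 < N) {x : ℂ × ℂ}
    (h : 1 ≤ N * rho x) : VV v N x = 0 := by
  apply VV_eq_zero hv
  have : 0 ≤ N * ‖x.1 - latPt N x.1‖ ^ 2 := by positivity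
  linarith [mul_add N (rho x) (‖x.1 - latPt N x.1‖ ^ 2)]

lemma VV_le (hv : IsDip v Cv M L) (hC : 0 ≤ Cv) {N : ℝ} (hN : 0 < N) {x : ℂ × ℂ}
    (hx : 0 ≤ rho x) : VV v N x ≤ Cv := by
  unfold VV
  split_ifs
  · exact hv.le _ (norm_EE_le_one hN.le _ hx)
  · exact hC

/-- Evaluation of `VV` with any lattice centre that is isolated from the other islands. -/
lemma VV_eq_of_isolated (hv : IsDip v Cv M L) {N : ℝ} (hN : 0 < N) {x : ℂ × ℂ} (hx : 0 ≤ rho x)
    (hz : ‖x.1‖ < 1 / 40) {c : ℂ} (hc : IsLat N c)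
    (hiso : ∀ c', IsLat N c' → c' ≠ c → 1 ≤ N * (rho x + ‖x.1 - c'‖ ^ 2)) :
    VV v N x = v (EE N c x) := by
  by_cases h : latPt N x.1 = c
  · rw [VV_eq_of_near hN hz, h]
  · rw [VV_eq_zero hv (hiso _ (isLat_latPt _ _) h)]
    symm
    apply hv.zero
    apply norm_EE_le
    have h1 := sq_dist_lat_ge hN x.1 hc (fun h' => h h'.symm)
    have h2 : 0 ≤ N * rho x := by positivity
    linarith [mul_add N (rho x) (‖x.1 - c‖ ^ 2)]

/-- `exp` is 1-Lipschitz on the closed left half plane. -/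
lemma norm_exp_sub_exp_le {a b : ℂ} (ha : a.re ≤ 0) (hb : b.re ≤ 0) :
    ‖Complex.exp a - Complex.exp b‖ ≤ ‖a - b‖ := by
  have hconv : Convex ℝ {z : ℂ | z.re ≤ 0} := by
    exact (convex_Iic (0 : ℝ)).linear_preimage Complex.reLm
  have := hconv.norm_image_sub_le_of_norm_deriv_le (f := Complex.exp) (C := 1)
    (fun x _ => Complex.differentiableAt_exp) (fun x hx => by
      rw [Complex.deriv_exp, Complex.norm_exp]
      exact Real.exp_le_one_iff.2 hx) (x := b) (y := a) hb ha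
  simpa using this

/-- Variation of `VV` along a complex line `{w - 2 i conj c' z = const}`. -/
lemma VV_variation (hv : IsDip v Cv M L) (hL : 0 ≤ L) {N : ℝ} (hN : 0 < N) {x y : ℂ × ℂ}
    (hx : 0 ≤ rho x) (hy : 0 ≤ rho y) (hxz : ‖x.1‖ < 1 / 40) (hyz : ‖y.1‖ < 1 / 40)
    {c' : ℂ} (hline : x.2 - y.2 = 2 * I * conj c' * (x.1 - y.1))
    (hR : Real.sqrt N * ‖x.1 - y.1‖ ≤ 1) :
    |VV v N x - VV v N y| ≤
      2 * L * (Real.sqrt N * ‖c' - x.1‖ + 4) * (Real.sqrt N * ‖x.1 - y.1‖) := by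
  have hs : 0 < Real.sqrt N := Real.sqrt_pos.2 hN
  set c := latPt N x.1 with hcdef
  have hcL : IsLat N c := isLat_latPt _ _
  have e1 : VV v N x = v (EE N c x) := VV_eq_of_near hN hxz
  have e2 : VV v N y = v (EE N c y) := by
    apply VV_eq_of_isolated hv hN hy hyz hcL
    intro c'' hc'' hne
    have h1 := sq_dist_lat_ge hN x.1 hc'' hne
    have h2 : 5 / 2 ≤ Real.sqrt N * ‖x.1 - c''‖ := by
      have h3 : (5 / 2 : ℝ) ^ 2 ≤ (Real.sqrt N * ‖x.1 - c''‖) ^ 2 := by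
        rw [mul_pow, Real.sq_sqrt hN.le]; linarith
      exact (sq_le_sq₀ (by norm_num) (by positivity)).1 h3
    have h4 : 3 / 2 ≤ Real.sqrt N * ‖y.1 - c''‖ := by
      have h5 : ‖x.1 - c''‖ ≤ ‖x.1 - y.1‖ + ‖y.1 - c''‖ := by
        calc ‖x.1 - c''‖ = ‖(x.1 - y.1) + (y.1 - c'')‖ := by ring_nf
          _ ≤ _ := norm_add_le _ _
      have h6 := mul_le_mul_of_nonneg_left h5 hs.le
      rw [mul_add] at h6
      linarith
    have h7 : 9 / 4 ≤ N * ‖y.1 - c''‖ ^ 2 := by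
      calc (9 / 4 : ℝ) = (3 / 2) ^ 2 := by norm_num
        _ ≤ (Real.sqrt N * ‖y.1 - c''‖) ^ 2 := by gcongr
        _ = _ := by rw [mul_pow, Real.sq_sqrt hN.le]
    have h8 : 0 ≤ N * rho y := by positivity
    linarith [mul_add N (rho y) (‖y.1 - c''‖ ^ 2)]
  rw [e1, e2]
  refine (hv.lip _ _ (norm_EE_le_one hN.le _ hx) (norm_EE_le_one hN.le _ hy)).trans ?_
  have h9 : ‖EE N c x - EE N c y‖ ≤
      2 * (Real.sqrt N * ‖c' - x.1‖ + 4) * (Real.sqrt N * ‖x.1 - y.1‖) := by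
    have hre : ∀ u : ℂ × ℂ, 0 ≤ rho u →
        (I * N * (u.2 - 2 * I * conj c * u.1 + I * (‖c‖ ^ 2 : ℝ))).re ≤ 0 := by
      intro u hu
      have h10 := norm_EE_le_one hN.le c hu
      unfold EE at h10
      rw [Complex.norm_exp] at h10
      exact Real.exp_le_one_iff.1 h10
    have h11 := norm_exp_sub_exp_le (hre x hx) (hre y hy)
    have e3 : I * N * (x.2 - 2 * I * conj c * x.1 + I * (‖c‖ ^ 2 : ℝ)) -
        I * N * (y.2 - 2 * I * conj c * y.1 + I * (‖c‖ ^ 2 : ℝ)) =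
        -(2 * N * (conj (c' - c)) * (x.1 - y.1)) := by
      have : x.2 = y.2 + 2 * I * conj c' * (x.1 - y.1) := by rw [← hline]; ring
      rw [this, map_sub]
      ring_nf
      rw [Complex.I_sq]
      ring
    rw [e3, norm_neg] at h11
    unfold EE
    refine h11.trans ?_
    rw [norm_mul, norm_mul, norm_mul, Complex.norm_conj, Complex.norm_real, Real.norm_eq_abs,
      abs_of_pos hN, Complex.norm_ofNat]
    have h12 : ‖c' - c‖ ≤ ‖c' - x.1‖ + ‖x.1 - c‖ := by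
      calc ‖c' - c‖ = ‖(c' - x.1) + (x.1 - c)‖ := by ring_nf
        _ ≤ _ := norm_add_le _ _
    have h13 : Real.sqrt N * ‖x.1 - c‖ ≤ 4 := by
      have h14 := sq_dist_latPt_le hN x.1
      rw [← hcdef] at h14
      have h15 : (Real.sqrt N * ‖x.1 - c‖) ^ 2 ≤ 4 ^ 2 := by
        rw [mul_pow, Real.sq_sqrt hN.le]; linarith
      exact (sq_le_sq₀ (by positivity) (by norm_num)).1 h15
    have h16 : Real.sqrt N * ‖c' - c‖ ≤ Real.sqrt N * ‖c' - x.1‖ + 4 := by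
      calc Real.sqrt N * ‖c' - c‖ ≤ Real.sqrt N * (‖c' - x.1‖ + ‖x.1 - c‖) := by gcongr
        _ = Real.sqrt N * ‖c' - x.1‖ + Real.sqrt N * ‖x.1 - c‖ := by ring
        _ ≤ _ := by linarith
    calc 2 * N * ‖c' - c‖ * ‖x.1 - y.1‖
        = 2 * (Real.sqrt N * ‖c' - c‖) * (Real.sqrt N * ‖x.1 - y.1‖) := by
          have : N = Real.sqrt N * Real.sqrt N := (Real.mul_self_sqrt hN.le).symm
          calc 2 * N * ‖c' - c‖ * ‖x.1 - y.1‖
              = 2 * (Real.sqrt N * Real.sqrt N) * ‖c' - c‖ * ‖x.1 - y.1‖ := by rw [← this]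
            _ = _ := by ring
      _ ≤ _ := by gcongr
  calc L * ‖EE N c x - EE N c y‖
      ≤ L * (2 * (Real.sqrt N * ‖c' - x.1‖ + 4) * (Real.sqrt N * ‖x.1 - y.1‖)) := by gcongr
    _ = _ := by ring

end VV

end Crest.Agent.R245
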