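import Crest.Agent.R245.Defs

/-!
# Row 245: the explicit island potential `W`

Base `D = {x = (z, w) ∈ ℂ × ℂ : rho x = Im w - |z|² > 0}`.
-/

set_option autoImplicit false

open scoped ContDiff ComplexConjugate
open Complex

namespace Crest.Agent.R245

/-- The (Heisenberg-translated) exponential `exp (i N (w - 2 i conj c z + i |c|²))`. -/
noncomputable def EE (N : ℝ) (c : ℂ) (x : B2) : ℂ :=
  Complex.exp (I * N * (x.2 - 2 * I * conj c * x.1 + I * (‖c‖ ^ 2 : ℝ)))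

/-- Nearest point of the lattice `5 N^{-1/2} ℤ[i]`. -/
noncomputable def latPt (N : ℝ) (z : ℂ) : ℂ :=
  (5 / Real.sqrt N : ℝ) * ((round (Real.sqrt N / 5 * z.re) : ℤ) + (round (Real.sqrt N / 5 * z.im) : ℤ) * I)

/-- Island potential of scale `N` (only islands with centre `‖c‖ < 1/16`). -/
noncomputable def VV (v : ℂ → ℝ) (N : ℝ) (x : B2) : ℝ :=
  if ‖latPt N x.1‖ < 1 / 16 then v (EE N (latPt N x.1) x) else 0

/-- The full potential: scales `N₀ B^j`. -/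
noncomputable def WW (v : ℂ → ℝ) (N₀ B : ℝ) (x : B2) : ℝ :=
  ∑' j : ℕ, VV v (N₀ * B ^ j) x

/-- Properties of the one-variable profile. -/
structure IsDip (v : ℂ → ℝ) (Cv M L : ℝ) : Prop where
  smooth : ContDiff ℝ ∞ v
  zero : ∀ e : ℂ, ‖e‖ ≤ Real.exp (-1) → v e = 0
  le : ∀ e : ℂ, ‖e‖ ≤ 1 → v e ≤ Cv
  dip : v (Real.exp (-1 / 2) : ℝ) = -M
  lip : ∀ e e' : ℂ, ‖e‖ ≤ 1 → ‖e'‖ ≤ 1 → |v e - v e'| ≤ L * ‖e - e'‖
  subh : ∀ e X : ℂ, ‖e‖ ≤ 1 → 0 ≤ (D11 v X X e).re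

end Crest.Agent.R245
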