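import Crest.Agent.R245.IslSmooth

/-! Row 245: normalised jets of the island potential `WW`. -/

set_option autoImplicit false

namespace Crest.Agent.R245

open Complex Filter Topology
open scoped ContDiff ComplexConjugate

namespace IslS

variable {v : ℂ → ℝ} {Cv M L : ℝ}

/-- `u = v ∘ exp` -/
noncomputable def ue (v : ℂ → ℝ) (s : ℂ) : ℝ := v (Complex.exp s)

theorem ue_smooth (hv : ContDiff ℝ ∞ v) : ContDiff ℝ ∞ (ue v) :=
  hv.comp (ContDiff.cexp contDiff_id)

theorem ue_period (n : ℤ) : (fun s => ue v (s + n * (2 * Real.pi * I))) = ue v := by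
  funext s
  unfold ue
  congr 1
  exact Complex.exp_periodic.int_mul n s

theorem ue_zero (hv : IsDip v Cv M L) (k : ℕ) {s : ℂ} (hs : s.re ≤ -1) :
    iteratedFDeriv ℝ k (ue v) s = 0 := by
  have hopen : ∀ t : ℂ, t.re < -1 → iteratedFDeriv ℝ k (ue v) t = 0 := by
    intro t ht
    have hev : ue v =ᶠ[𝓝 t] fun _ => (0 : ℝ) := by
      have : ∀ᶠ x : ℂ in 𝓝 t, x.re < -1 := Complex.continuous_re.continuousAt.eventually_lt_const ht
      filter_upwards [this] with x hx
      unfold ue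
      apply hv.zero
      rw [Complex.norm_exp]
      exact Real.exp_le_exp.2 hx.le
    rw [(hev.iteratedFDeriv ℝ k).eq_of_nhds, iteratedFDeriv_fun_zero]
    rfl
  have hcont : Continuous (iteratedFDeriv ℝ k (ue v)) :=
    (ue_smooth hv.smooth).continuous_iteratedFDeriv (by exact_mod_cast le_top)
  have hseq : Tendsto (fun n : ℕ => s - ((1 / ((n : ℝ) + 1) : ℝ) : ℂ)) atTop (𝓝 s) := by
    have h1 := tendsto_one_div_add_atTop_nhds_zero_nat (𝕜 := ℝ)
    have h2 := (Complex.continuous_ofReal.tendsto 0).comp h1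
    have h3 := h2.const_sub s
    simpa [Function.comp_def] using h3
  have h4 := (hcont.tendsto s).comp hseq
  have h5 : Tendsto (fun _ : ℕ => (0 : ContinuousMultilinearMap ℝ (fun _ : Fin k => ℂ) ℝ)) atTop
      (𝓝 0) := tendsto_const_nhds
  refine tendsto_nhds_unique h4 (h5.congr fun n => ?_)
  symm
  apply hopen
  have : 0 < 1 / ((n : ℝ) + 1) := by positivity
  simp only [Complex.sub_re, Complex.ofReal_re]
  linarith

theorem ue_bdd (hv : ContDiff ℝ ∞ v) (k : ℕ) : ∃ C : ℝ, 0 ≤ C ∧ ∀ s : ℂ, -1 ≤ s.re → s.re ≤ 0 →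
    ‖iteratedFDeriv ℝ k (ue v) s‖ ≤ C := by
  have hcont : Continuous (iteratedFDeriv ℝ k (ue v)) :=
    (ue_smooth hv).continuous_iteratedFDeriv (by exact_mod_cast le_top)
  obtain ⟨C, hC⟩ := ((isCompact_Icc (a := (-1 : ℝ)) (b := 0)).reProdIm
    (isCompact_Icc (a := (0 : ℝ)) (b := 2 * Real.pi))).exists_bound_of_continuousOn
    hcont.continuousOn
  refine ⟨max C 0, le_max_right _ _, fun s h1 h2 => ?_⟩
  set n : ℤ := -⌊s.im / (2 * Real.pi)⌋ with hn
  have hper : iteratedFDeriv ℝ k (ue v) s = iteratedFDeriv ℝ k (ue v) (s + n * (2 * Real.pi * I)) := by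
    have := iteratedFDeriv_comp_add_right (𝕜 := ℝ) (f := ue v) k (n * (2 * Real.pi * I)) s
    rw [ue_period n] at this
    exact this
  rw [hper]
  refine (hC _ ?_).trans (le_max_left _ _)
  have hpi : 0 < 2 * Real.pi := by positivity
  have hfl := Int.floor_le (s.im / (2 * Real.pi))
  have hfl2 := Int.lt_floor_add_one (s.im / (2 * Real.pi))
  rw [Complex.mem_reProdIm]
  have hre : (s + n * (2 * Real.pi * I)).re = s.re := by simp
  have him : (s + n * (2 * Real.pi * I)).im = s.im + n * (2 * Real.pi) := by simp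
  rw [hre, him]
  refine ⟨⟨h1, h2⟩, ?_, ?_⟩
  · rw [le_div_iff₀ hpi] at hfl
    rw [hn]; push_cast; linarith
  · rw [div_lt_iff₀ hpi] at hfl2
    rw [hn]; push_cast; linarith

/-- linear part of the exponent along the chart `gp p` -/
noncomputable def LamR (N : ℝ) (c : ℂ) (p : B2) : B2 →L[ℝ] ℂ :=
  ((I * N * rho p : ℂ) • (ContinuousLinearMap.snd ℂ ℂ ℂ) +
    (-(2 * N * Real.sqrt (rho p) * conj (p.1 - c)) : ℂ) •
      (ContinuousLinearMap.fst ℂ ℂ ℂ)).restrictScalars ℝ

theorem LamR_apply (N : ℝ) (c : ℂ) (p q : B2) : LamR N c p q =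
    I * N * rho p * q.2 + -(2 * N * Real.sqrt (rho p) * conj (p.1 - c)) * q.1 := by
  simp [LamR]

theorem LamR_norm {N : ℝ} (hN : 0 < N) (c : ℂ) {p : B2} (hp : p ∈ Dom)
    (h : N * (rho p + ‖p.1 - c‖ ^ 2) ≤ 1) : ‖LamR N c p‖ ≤ 3 * Real.sqrt (N * rho p) := by
  have hp' : 0 < rho p := hp
  refine ContinuousLinearMap.opNorm_le_bound _ (by positivity) fun q => ?_
  rw [LamR_apply]
  have h1 : N * rho p ≤ 1 := by
    have : 0 ≤ N * ‖p.1 - c‖ ^ 2 := by positivity
    linarith [mul_add N (rho p) (‖p.1 - c‖ ^ 2)]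
  have h2 : N * ‖p.1 - c‖ ^ 2 ≤ 1 := by
    have : 0 ≤ N * rho p := by positivity
    linarith [mul_add N (rho p) (‖p.1 - c‖ ^ 2)]
  have h3 : Real.sqrt (N * rho p) ≤ 1 := Real.sqrt_le_one.2 h1
  have h4 : N * rho p ≤ Real.sqrt (N * rho p) := by
    have h5 : Real.sqrt (N * rho p) * Real.sqrt (N * rho p) = N * rho p :=
      Real.mul_self_sqrt (by positivity)
    calc N * rho p = Real.sqrt (N * rho p) * Real.sqrt (N * rho p) := h5.symm
      _ ≤ Real.sqrt (N * rho p) * 1 := by gcongr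
      _ = _ := mul_one _
  have h6 : Real.sqrt N * ‖p.1 - c‖ ≤ 1 := by
    have : (Real.sqrt N * ‖p.1 - c‖) ^ 2 ≤ 1 ^ 2 := by
      rw [mul_pow, Real.sq_sqrt hN.le]; linarith
    exact (sq_le_sq₀ (by positivity) (by norm_num)).1 this
  have h7 : N * Real.sqrt (rho p) * ‖p.1 - c‖ ≤ Real.sqrt (N * rho p) := by
    have hNN : N = Real.sqrt N * Real.sqrt N := (Real.mul_self_sqrt hN.le).symm
    calc N * Real.sqrt (rho p) * ‖p.1 - c‖
        = (Real.sqrt N * Real.sqrt N) * Real.sqrt (rho p) * ‖p.1 - c‖ := by rw [← hNN]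
      _ = (Real.sqrt N * Real.sqrt (rho p)) * (Real.sqrt N * ‖p.1 - c‖) := by ring
      _ ≤ (Real.sqrt N * Real.sqrt (rho p)) * 1 := by gcongr
      _ = Real.sqrt (N * rho p) := by rw [mul_one, Real.sqrt_mul hN.le]
  have hq1 : ‖q.1‖ ≤ ‖q‖ := norm_fst_le q
  have hq2 : ‖q.2‖ ≤ ‖q‖ := norm_snd_le q
  calc ‖I * N * rho p * q.2 + -(2 * N * Real.sqrt (rho p) * conj (p.1 - c)) * q.1‖
      ≤ ‖I * N * rho p * q.2‖ + ‖-(2 * N * Real.sqrt (rho p) * conj (p.1 - c)) * q.1‖ :=
        norm_add_le _ _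
    _ = N * rho p * ‖q.2‖ + 2 * (N * Real.sqrt (rho p) * ‖p.1 - c‖) * ‖q.1‖ := by
        simp only [norm_mul, norm_neg, Complex.norm_I, Complex.norm_real, Complex.norm_conj,
          Real.norm_eq_abs, abs_of_pos hN, abs_of_pos hp', abs_of_nonneg (Real.sqrt_nonneg _),
          Complex.norm_ofNat]
        ring
    _ ≤ Real.sqrt (N * rho p) * ‖q‖ + 2 * Real.sqrt (N * rho p) * ‖q‖ := by gcongr
    _ = 3 * Real.sqrt (N * rho p) * ‖q‖ := by ring

/-- the exponent in the chart `gp p` -/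
theorem EE_gp (N : ℝ) (c : ℂ) (p q : B2) :
    EE N c (gp p q) = Complex.exp ((I * N * (p.2.re + I * ((‖p.1‖ ^ 2 : ℝ) : ℂ)
      - 2 * I * conj c * p.1 + I * (‖c‖ ^ 2 : ℝ))) + LamR N c p q) := by
  unfold EE gp
  rw [LamR_apply]
  congr 1
  simp only [map_sub]
  linear_combination (2 * N * Real.sqrt (rho p) * conj p.1 * q.1
    - 2 * N * Real.sqrt (rho p) * conj c * q.1) * I_mul_I

/-- real part of the exponent -/
theorem exponent_re (N : ℝ) (c : ℂ) {p : B2} (hp : p ∈ Dom) :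
    ((I * N * (p.2.re + I * ((‖p.1‖ ^ 2 : ℝ) : ℂ)
      - 2 * I * conj c * p.1 + I * (‖c‖ ^ 2 : ℝ))) + LamR N c p q0).re =
      -(N * (rho p + ‖p.1 - c‖ ^ 2)) := by
  have h1 := EE_gp N c p q0
  rw [gp_q0 p hp] at h1
  have h2 := norm_EE N c p
  rw [h1, Complex.norm_exp] at h2
  exact Real.exp_injective h2

theorem gp_continuous (p : B2) : Continuous (gp p) := by
  unfold gp; fun_prop

/-- jets of one scale -/
theorem VV_jet (hv : IsDip v Cv M L) (k : ℕ) (hk : 1 ≤ k) : ∃ C : ℝ, 0 ≤ C ∧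
    ∀ N : ℝ, 0 < N → ∀ p ∈ Dom,
      ‖iteratedFDeriv ℝ k (fun q => VV v N (gp p q)) q0‖ ≤
        if N * rho p < 1 then C * Real.sqrt (N * rho p) else 0 := by
  obtain ⟨C, hC0, hC⟩ := ue_bdd hv.smooth k
  refine ⟨C * 3 ^ k, by positivity, fun N hN p hp => ?_⟩
  have hp' : 0 < rho p := hp
  have hrhs : 0 ≤ if N * rho p < 1 then C * 3 ^ k * Real.sqrt (N * rho p) else 0 := by
    split_ifs
    · positivity
    · exact le_rfl
  have htend : Tendsto (gp p) (𝓝 q0) (𝓝 p) := by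
    have := (gp_continuous p).tendsto q0
    rwa [gp_q0 p hp] at this
  rcases VV_local hv hN hp with ⟨c, _, h⟩ | h
  · have hev : (fun q => VV v N (gp p q)) =ᶠ[𝓝 q0] fun q => v (EE N c (gp p q)) :=
      htend.eventually h
    rw [(hev.iteratedFDeriv ℝ k).eq_of_nhds]
    set a : ℂ := (I * N * (p.2.re + I * ((‖p.1‖ ^ 2 : ℝ) : ℂ)
      - 2 * I * conj c * p.1 + I * (‖c‖ ^ 2 : ℝ))) with ha
    have hfun : (fun q => v (EE N c (gp p q))) = (fun y => ue v (a + y)) ∘ (LamR N c p) := by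
      funext q
      rw [EE_gp]
      rfl
    have hsm : ContDiff ℝ ∞ (fun y => ue v (a + y)) :=
      (ue_smooth hv.smooth).comp (contDiff_const.add contDiff_id)
    rw [hfun, (LamR N c p).iteratedFDeriv_comp_right hsm q0 (by exact_mod_cast le_top),
      iteratedFDeriv_comp_add_left]
    have hre := exponent_re N c hp
    rw [← ha] at hre
    rcases le_or_gt 1 (N * (rho p + ‖p.1 - c‖ ^ 2)) with hcase | hcase
    · rw [ue_zero hv k (by rw [hre]; linarith)]
      have : (0 : ContinuousMultilinearMap ℝ (fun _ : Fin k => ℂ) ℝ).compContinuousLinearMap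
          (fun _ => LamR N c p) = 0 := by
        ext m; simp
      rw [this, norm_zero]
      exact hrhs
    · have h1 : N * rho p < 1 := by
        have : 0 ≤ N * ‖p.1 - c‖ ^ 2 := by positivity
        linarith [mul_add N (rho p) (‖p.1 - c‖ ^ 2)]
      rw [if_pos h1]
      have hΛ := LamR_norm hN c hp hcase.le
      refine (ContinuousMultilinearMap.norm_compContinuousLinearMap_le _ _).trans ?_
      rw [Finset.prod_const, Finset.card_univ, Fintype.card_fin]
      have h0 : 0 ≤ N * (rho p + ‖p.1 - c‖ ^ 2) := by positivity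
      have h2 := hC (a + LamR N c p q0) (by rw [hre]; linarith) (by rw [hre]; linarith)
      have h3 : Real.sqrt (N * rho p) ≤ 1 := Real.sqrt_le_one.2 h1.le
      have h4 : ‖LamR N c p‖ ^ k ≤ 3 ^ k * Real.sqrt (N * rho p) := by
        calc ‖LamR N c p‖ ^ k ≤ (3 * Real.sqrt (N * rho p)) ^ k := by gcongr
          _ = 3 ^ k * Real.sqrt (N * rho p) ^ k := mul_pow _ _ _
          _ ≤ 3 ^ k * Real.sqrt (N * rho p) ^ 1 := by
              have := pow_le_pow_of_le_one (Real.sqrt_nonneg (N * rho p)) h3 hk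
              gcongr
          _ = _ := by rw [pow_one]
      calc ‖iteratedFDeriv ℝ k (ue v) (a + LamR N c p q0)‖ * ‖LamR N c p‖ ^ k
          ≤ C * (3 ^ k * Real.sqrt (N * rho p)) := by gcongr
        _ = _ := by ring
  · have hev : (fun q => VV v N (gp p q)) =ᶠ[𝓝 q0] fun _ => (0 : ℝ) := htend.eventually h
    rw [(hev.iteratedFDeriv ℝ k).eq_of_nhds, iteratedFDeriv_fun_zero]
    simpa using hrhs

/-- geometric sum over the active scales -/
theorem sum_scales {B : ℝ} (hB : 4 ≤ B) {N₀ r : ℝ} (hN₀ : 0 < N₀) (hr : 0 < r) (J : ℕ) :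
    ∑ j ∈ Finset.range J, (if N₀ * B ^ j * r < 1 then Real.sqrt (N₀ * B ^ j * r) else 0) ≤
      min (Real.sqrt (N₀ * B ^ J * r)) 2 := by
  induction J with
  | zero => simp
  | succ J ih =>
    rw [Finset.sum_range_succ]
    have hB0 : (0 : ℝ) < B := by linarith
    have hstep : 2 * Real.sqrt (N₀ * B ^ J * r) ≤ Real.sqrt (N₀ * B ^ (J + 1) * r) := by
      apply Real.le_sqrt_of_sq_le
      rw [mul_pow, Real.sq_sqrt (by positivity)]
      have : N₀ * B ^ (J + 1) * r = B * (N₀ * B ^ J * r) := by ring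
      rw [this]
      have : 0 < N₀ * B ^ J * r := by positivity
      nlinarith
    have hs0 := Real.sqrt_nonneg (N₀ * B ^ J * r)
    split_ifs with hlt
    · have h1 := ih.trans (min_le_left _ _)
      have h2 : Real.sqrt (N₀ * B ^ J * r) ≤ 1 := Real.sqrt_le_one.2 hlt.le
      apply le_min
      · linarith
      · linarith
    · rw [add_zero]
      refine ih.trans (min_le_min_right _ ?_)
      linarith

/-- JetB for the island potential -/
theorem WW_jet (hv : IsDip v Cv M L) : ∃ C : ℝ, 0 ≤ C ∧ ∀ N₀ B : ℝ, 0 < N₀ → 4 ≤ B → ∀ p ∈ Dom,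
    JetB (fun q => WW v N₀ B (gp p q)) C := by
  have hk : ∀ k : ℕ, ∃ C : ℝ, 0 ≤ C ∧ (1 ≤ k → ∀ N : ℝ, 0 < N → ∀ p ∈ Dom,
      ‖iteratedFDeriv ℝ k (fun q => VV v N (gp p q)) q0‖ ≤
        if N * rho p < 1 then C * Real.sqrt (N * rho p) else 0) := by
    intro k
    by_cases h : 1 ≤ k
    · obtain ⟨C, hC0, hC⟩ := VV_jet hv k h
      exact ⟨C, hC0, fun _ => hC⟩
    · exact ⟨0, le_rfl, fun h' => absurd h' h⟩
  choose C hC0 hC using hk
  refine ⟨∑ k ∈ Finset.range 5, C k * 2, Finset.sum_nonneg fun k _ => by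
    have := hC0 k; positivity, ?_⟩
  intro N₀ B hN₀ hB p hp k hk1 hk4
  have hp' : 0 < rho p := hp
  have htend : Tendsto (gp p) (𝓝 q0) (𝓝 p) := by
    have := (gp_continuous p).tendsto q0
    rwa [gp_q0 p hp] at this
  obtain ⟨J, hJ⟩ := WW_local hv hN₀ hB hp
  have hev : (fun q => WW v N₀ B (gp p q)) =ᶠ[𝓝 q0]
      fun q => ∑ j ∈ Finset.range J, VV v (N₀ * B ^ j) (gp p q) := htend.eventually hJ
  rw [(hev.iteratedFDeriv ℝ k).eq_of_nhds]
  have hgp : ContDiff ℝ ∞ (gp p) := by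
    unfold gp
    fun_prop
  have hsm : ∀ j ∈ Finset.range J, ContDiffAt ℝ (k : ℕ∞) (fun q => VV v (N₀ * B ^ j) (gp p q)) q0 := by
    intro j _
    have h1 : ContDiffAt ℝ ∞ (VV v (N₀ * B ^ j)) (gp p q0) := by
      rw [gp_q0 p hp]
      exact VV_contDiffAt hv (by positivity) hp
    exact (h1.comp q0 hgp.contDiffAt).of_le (by exact_mod_cast le_top)
  rw [iteratedFDeriv_fun_sum_apply hsm]
  calc ‖∑ j ∈ Finset.range J, iteratedFDeriv ℝ k (fun q => VV v (N₀ * B ^ j) (gp p q)) q0‖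
      ≤ ∑ j ∈ Finset.range J, ‖iteratedFDeriv ℝ k (fun q => VV v (N₀ * B ^ j) (gp p q)) q0‖ :=
        norm_sum_le _ _
    _ ≤ ∑ j ∈ Finset.range J, (if N₀ * B ^ j * rho p < 1 then
          C k * Real.sqrt (N₀ * B ^ j * rho p) else 0) :=
        Finset.sum_le_sum fun j _ => hC k hk1 _ (by positivity) p hp
    _ = C k * ∑ j ∈ Finset.range J, (if N₀ * B ^ j * rho p < 1 then
          Real.sqrt (N₀ * B ^ j * rho p) else 0) := by
        rw [Finset.mul_sum]
        apply Finset.sum_congr rfl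
        intro j _
        split_ifs <;> simp
    _ ≤ C k * 2 := by
        have h1 := (sum_scales hB hN₀ hp' J).trans (min_le_right _ _)
        have h2 := hC0 k
        gcongr
    _ ≤ ∑ k ∈ Finset.range 5, C k * 2 := by
        apply Finset.single_le_sum (f := fun k => C k * 2)
          (fun k _ => by have := hC0 k; positivity)
        simp; omega

end IslS

end Crest.Agent.R245
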