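import Crest.Agent.R245.Defs

/-! Row 245: normalized jets of the transition functions. -/

set_option autoImplicit false

namespace Crest.Agent.R245

open Complex Filter Topology
open scoped ContDiff ComplexConjugate Nat

section General

variable {E F G : Type*} [NormedAddCommGroup E] [NormedSpace ℝ E] [NormedAddCommGroup F]
  [NormedSpace ℝ F] [NormedAddCommGroup G] [NormedSpace ℝ G]

theorem jet_comp_le {g : F → G} {f : E → F} {s : Set E} (hs : IsOpen s) {x : E} (hx : x ∈ s)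
    (hf : ContDiffOn ℝ ∞ f s) (hg : ContDiff ℝ ∞ g) {n : ℕ} {C D : ℝ}
    (hC : ∀ i, i ≤ n → ‖iteratedFDeriv ℝ i g (f x)‖ ≤ C)
    (hD : ∀ i, 1 ≤ i → i ≤ n → ‖iteratedFDeriv ℝ i f x‖ ≤ D ^ i) :
    ‖iteratedFDeriv ℝ n (fun y => g (f y)) x‖ ≤ n ! * C * D ^ n := by
  have h1 := norm_iteratedFDerivWithin_comp_le (n := n) (N := ∞) (g := g) (f := f) (s := s)
    (t := Set.univ) (x := x) hg.contDiffOn hf (by exact_mod_cast le_top) uniqueDiffOn_univ
    hs.uniqueDiffOn (fun _ _ => Set.mem_univ _) hx (C := C) (D := D)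
    (fun i hi => by rw [iteratedFDerivWithin_univ]; exact hC i hi)
    (fun i h1 h2 => by rw [iteratedFDerivWithin_of_isOpen i hs hx]; exact hD i h1 h2)
  rw [iteratedFDerivWithin_of_isOpen n hs hx] at h1
  exact h1

theorem jet_mul_le {f g : E → ℝ} {s : Set E} (hs : IsOpen s) {x : E} (hx : x ∈ s)
    (hf : ContDiffOn ℝ ∞ f s) (hg : ContDiffOn ℝ ∞ g s) (n : ℕ) :
    ‖iteratedFDeriv ℝ n (fun y => f y * g y) x‖ ≤ ∑ i ∈ Finset.range (n + 1),
      (n.choose i : ℝ) * ‖iteratedFDeriv ℝ i f x‖ * ‖iteratedFDeriv ℝ (n - i) g x‖ := by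
  have h1 := norm_iteratedFDerivWithin_mul_le (𝕜 := ℝ) (A := ℝ) (N := ∞) hf hg hs.uniqueDiffOn hx
    (n := n) (by exact_mod_cast le_top)
  rw [iteratedFDerivWithin_of_isOpen n hs hx] at h1
  refine h1.trans (le_of_eq ?_)
  apply Finset.sum_congr rfl
  intro i _
  rw [iteratedFDerivWithin_of_isOpen i hs hx, iteratedFDerivWithin_of_isOpen (n - i) hs hx]

/-- product bound with a uniform constant -/
theorem jet_mul_le' {f g : E → ℝ} {s : Set E} (hs : IsOpen s) {x : E} (hx : x ∈ s)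
    (hf : ContDiffOn ℝ ∞ f s) (hg : ContDiffOn ℝ ∞ g s) (n : ℕ) {a b : ℝ} (ha : 0 ≤ a)
    (hfa : ∀ i, i ≤ n → ‖iteratedFDeriv ℝ i f x‖ ≤ a)
    (hgb : ∀ i, i ≤ n → ‖iteratedFDeriv ℝ i g x‖ ≤ b) :
    ‖iteratedFDeriv ℝ n (fun y => f y * g y) x‖ ≤ 2 ^ n * a * b := by
  refine (jet_mul_le hs hx hf hg n).trans ?_
  calc ∑ i ∈ Finset.range (n + 1),
      (n.choose i : ℝ) * ‖iteratedFDeriv ℝ i f x‖ * ‖iteratedFDeriv ℝ (n - i) g x‖
      ≤ ∑ i ∈ Finset.range (n + 1), (n.choose i : ℝ) * a * b := by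
        apply Finset.sum_le_sum
        intro i hi
        rw [Finset.mem_range] at hi
        have h1 := hfa i (by omega)
        have h2 := hgb (n - i) (by omega)
        gcongr
    _ = 2 ^ n * a * b := by
        rw [← Finset.sum_mul, ← Finset.sum_mul]
        congr 2
        exact_mod_cast Nat.sum_range_choose n

end General

theorem rho_contDiff' : ContDiff ℝ ∞ rho := by
  unfold rho
  exact (Complex.imCLM.contDiff.comp contDiff_snd).sub (contDiff_fst.norm_sq ℝ)

theorem isOpen_Dom' : IsOpen Dom := isOpen_lt continuous_const rho_contDiff'.continuous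

theorem q0_mem' : q0 ∈ Dom := by simp [Dom, rho, q0]

theorem aS_smooth' : ContDiffOn ℝ ∞ aS Dom := by
  unfold aS
  exact (rho_contDiff'.contDiffOn.log (fun x hx => ne_of_gt hx)).neg

theorem aS_q0 : aS q0 = 0 := by simp [aS, rho, q0]

theorem gp_q0 (p : B2) (hp : p ∈ Dom) : gp p q0 = p := by
  have h1 : (0:ℝ) ≤ rho p := le_of_lt hp
  apply Prod.ext
  · simp [gp, q0]
  · simp only [gp, q0]
    apply Complex.ext
    · simp [rho]
    · simp [rho]

theorem rho_gp (p q : B2) (hp : 0 ≤ rho p) : rho (gp p q) = rho p * rho q := by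
  obtain ⟨z, w⟩ := p
  obtain ⟨z', w'⟩ := q
  have hs : Real.sqrt (rho (z, w)) * Real.sqrt (rho (z, w)) = rho (z, w) := Real.mul_self_sqrt hp
  simp only [gp]
  set s := Real.sqrt (rho (z, w)) with hsdef
  set r := rho (z, w) with hr
  simp only [rho, Complex.sq_norm, Complex.normSq_apply, Complex.add_re, Complex.add_im,
    Complex.mul_re, Complex.mul_im, Complex.ofReal_re, Complex.ofReal_im, Complex.I_re,
    Complex.I_im, Complex.conj_re, Complex.conj_im, Complex.re_ofNat, Complex.im_ofNat]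
  linear_combination (-(z'.re * z'.re + z'.im * z'.im)) * hs

theorem gp_mem (p : B2) (hp : p ∈ Dom) {q : B2} (hq : q ∈ Dom) : gp p q ∈ Dom := by
  have h1 : 0 < rho p := hp
  have h2 : 0 < rho q := hq
  show 0 < rho (gp p q)
  rw [rho_gp p q h1.le]
  positivity

theorem aS_gp (p : B2) (hp : p ∈ Dom) (q : B2) (hq : q ∈ Dom) :
    aS (gp p q) = aS p + aS q := by
  have h1 : 0 < rho p := hp
  have h2 : 0 < rho q := hq
  unfold aS
  rw [rho_gp p q h1.le, Real.log_mul h1.ne' h2.ne']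
  ring

/-- all derivatives of a bump function are bounded -/
theorem bump_bdd (χ : ℂ → ℝ) (hχ : ContDiff ℝ ∞ χ) (hχc : HasCompactSupport χ) :
    ∃ C : ℝ, 1 ≤ C ∧ ∀ i : ℕ, i ≤ 4 → ∀ z, ‖iteratedFDeriv ℝ i χ z‖ ≤ C := by
  have h : ∀ i : ℕ, ∃ C : ℝ, ∀ z, ‖iteratedFDeriv ℝ i χ z‖ ≤ C := by
    intro i
    have h1 : HasCompactSupport (iteratedFDeriv ℝ i χ) := hχc.iteratedFDeriv i
    have h2 : Continuous (iteratedFDeriv ℝ i χ) :=
      hχ.continuous_iteratedFDeriv (by exact_mod_cast le_top)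
    exact h2.bounded_above_of_compact_support h1
  choose C hC using h
  refine ⟨1 + ∑ i ∈ Finset.range 5, |C i|, ?_, ?_⟩
  · have : 0 ≤ ∑ i ∈ Finset.range 5, |C i| := Finset.sum_nonneg (fun i _ => abs_nonneg _)
    linarith
  · intro i hi z
    have h1 : |C i| ≤ ∑ i ∈ Finset.range 5, |C i| :=
      Finset.single_le_sum (f := fun i => |C i|) (fun i _ => abs_nonneg _)
        (Finset.mem_range.2 (by omega))
    have h2 := hC i z
    have h3 := le_abs_self (C i)
    linarith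

/-- jets of `aS` at `q0` -/
theorem aS_jets : ∃ D : ℝ, 1 ≤ D ∧ ∀ i : ℕ, 1 ≤ i → i ≤ 4 → ‖iteratedFDeriv ℝ i aS q0‖ ≤ D ^ i := by
  refine ⟨1 + ∑ i ∈ Finset.range 5, ‖iteratedFDeriv ℝ i aS q0‖, ?_, ?_⟩
  · have : 0 ≤ ∑ i ∈ Finset.range 5, ‖iteratedFDeriv ℝ i aS q0‖ :=
      Finset.sum_nonneg (fun i _ => norm_nonneg _)
    linarith
  · intro i h1 hi
    have h2 : ‖iteratedFDeriv ℝ i aS q0‖ ≤ ∑ i ∈ Finset.range 5, ‖iteratedFDeriv ℝ i aS q0‖ :=
      Finset.single_le_sum (f := fun i => ‖iteratedFDeriv ℝ i aS q0‖) (fun i _ => norm_nonneg _)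
        (Finset.mem_range.2 (by omega))
    have h3 : (1:ℝ) ≤ 1 + ∑ i ∈ Finset.range 5, ‖iteratedFDeriv ℝ i aS q0‖ := by
      have : 0 ≤ ∑ i ∈ Finset.range 5, ‖iteratedFDeriv ℝ i aS q0‖ :=
        Finset.sum_nonneg (fun i _ => norm_nonneg _)
      linarith
    calc ‖iteratedFDeriv ℝ i aS q0‖ ≤ 1 + ∑ i ∈ Finset.range 5, ‖iteratedFDeriv ℝ i aS q0‖ := by
          linarith
      _ ≤ (1 + ∑ i ∈ Finset.range 5, ‖iteratedFDeriv ℝ i aS q0‖) ^ i :=
          le_self_pow₀ h3 (by omega)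

/-- `(1+x) e^{-x/2}` is small for `x` large -/
theorem exp_small (δ : ℝ) (hδ : 0 < δ) : ∃ A₀ : ℝ, 1 ≤ A₀ ∧ ∀ x, A₀ ≤ x →
    Real.exp (-x / 2) * (1 + x) ≤ δ := by
  refine ⟨max 1 (16 / δ), le_max_left _ _, fun x hx => ?_⟩
  have hx1 : 1 ≤ x := (le_max_left _ _).trans hx
  have hx2 : 16 / δ ≤ x := (le_max_right _ _).trans hx
  have h1 : (1 + x) ^ 2 / 16 ≤ Real.exp (x / 2) := by
    have h2 : 1 + x / 4 ≤ Real.exp (x / 4) := by
      have := Real.add_one_le_exp (x / 4); linarith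
    have h3 : Real.exp (x / 2) = Real.exp (x / 4) ^ 2 := by
      rw [← Real.exp_nat_mul]; congr 1; push_cast; ring
    rw [h3]
    have h4 : (1 + x) / 4 ≤ Real.exp (x / 4) := by linarith
    calc (1 + x) ^ 2 / 16 = ((1 + x) / 4) ^ 2 := by ring
      _ ≤ Real.exp (x / 4) ^ 2 := by gcongr
  have h5 : Real.exp (-x / 2) = (Real.exp (x / 2))⁻¹ := by
    rw [← Real.exp_neg]; congr 1; ring
  rw [h5, inv_mul_le_iff₀ (Real.exp_pos _)]
  have h6 : 16 ≤ x * δ := by rwa [div_le_iff₀ hδ] at hx2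
  calc 1 + x ≤ (1 + x) * ((1 + x) * δ / 16) := by
        have : 1 ≤ (1 + x) * δ / 16 := by rw [le_div_iff₀ (by norm_num)]; linarith
        nlinarith
    _ = (1 + x) ^ 2 / 16 * δ := by ring
    _ ≤ Real.exp (x / 2) * δ := by gcongr

theorem sqrt_rho_eq (p : B2) (hp : p ∈ Dom) : Real.sqrt (rho p) = Real.exp (-aS p / 2) := by
  have h1 : 0 < rho p := hp
  rw [Real.sqrt_eq_rpow, Real.rpow_def_of_pos h1]
  unfold aS
  congr 1; ring

theorem jet_sub_const {E : Type*} [NormedAddCommGroup E] [NormedSpace ℝ E] {f : E → ℝ} {x : E}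
    {i : ℕ} (hi : 1 ≤ i) (hf : ContDiffAt ℝ ∞ f x) (c : ℝ) :
    iteratedFDeriv ℝ i (fun q => f q - c) x = iteratedFDeriv ℝ i f x := by
  have h1 : iteratedFDeriv ℝ i (fun q => f q - c) x
      = iteratedFDeriv ℝ i f x - iteratedFDeriv ℝ i (fun _ => c) x :=
    iteratedFDeriv_sub_apply (hf.of_le (by exact_mod_cast le_top)) contDiffAt_const
  rw [h1, iteratedFDeriv_const_of_ne (by omega)]
  simp

/-- the bump part -/
theorem bump_part (χ : ℂ → ℝ) (hχ : ContDiff ℝ ∞ χ) {C : ℝ} (hC0 : 0 ≤ C)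
    (hC : ∀ i : ℕ, i ≤ 4 → ∀ z, ‖iteratedFDeriv ℝ i χ z‖ ≤ C) (z0 : ℂ) {s : ℝ} (hs : 0 ≤ s)
    (hs1 : s ≤ 1) (q : B2) (hq : q.1 = 0) (i : ℕ) (hi : i ≤ 4) :
    ‖iteratedFDeriv ℝ i (fun q : B2 => χ (z0 + (s : ℂ) * q.1) - χ z0) q‖ ≤ C * s := by
  rcases Nat.eq_zero_or_pos i with rfl | hpos
  · rw [norm_iteratedFDeriv_zero]
    simp only [hq, mul_zero, add_zero, sub_self, norm_zero]
    positivity
  · set L : B2 →L[ℝ] ℂ := s • ContinuousLinearMap.fst ℝ ℂ ℂ with hL
    have hLn : ‖L‖ ≤ s := by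
      rw [hL, norm_smul, Real.norm_of_nonneg hs]
      have := ContinuousLinearMap.norm_fst_le ℝ ℂ ℂ
      calc s * ‖ContinuousLinearMap.fst ℝ ℂ ℂ‖ ≤ s * 1 := by gcongr
        _ = s := mul_one s
    set g : ℂ → ℝ := fun z => χ (z0 + z) with hg
    have hgc : ContDiff ℝ ∞ g := hχ.comp (contDiff_const.add contDiff_id)
    have e1 : (fun q : B2 => χ (z0 + (s : ℂ) * q.1)) = g ∘ L := by
      funext q
      simp [hg, hL]
    rw [jet_sub_const hpos (by rw [e1]; exact (hgc.comp L.contDiff).contDiffAt), e1,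
      ContinuousLinearMap.iteratedFDeriv_comp_right L hgc q (by exact_mod_cast le_top)]
    refine (ContinuousMultilinearMap.norm_compContinuousLinearMap_le _ _).trans ?_
    rw [Finset.prod_const, Finset.card_univ, Fintype.card_fin]
    have h1 : ‖iteratedFDeriv ℝ i g (L q)‖ ≤ C := by
      rw [hg, iteratedFDeriv_comp_add_left]; exact hC i hi _
    have h2 : ‖L‖ ^ i ≤ s := by
      calc ‖L‖ ^ i ≤ s ^ i := by gcongr
        _ ≤ s ^ 1 := pow_le_pow_of_le_one hs hs1 hpos
        _ = s := pow_one s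
    gcongr

/-- the transition functions have small normalized jets -/
theorem jet_transition' (χ : ℂ → ℝ) (hχ : ContDiff ℝ ∞ χ) (hχc : HasCompactSupport χ)
    (hχ01 : ∀ z, 0 ≤ χ z ∧ χ z ≤ 1) (δ : ℝ) (hδ : 0 < δ) :
    ∃ ε₁ > 0, ∃ A₀ : ℝ, 1 ≤ A₀ ∧ ∀ (a₀ : ℝ) (ψ : ℝ → ℝ), A₀ ≤ a₀ → ContDiff ℝ ∞ ψ →
      (∀ t, t ≤ a₀ → ψ t = 0) → (∀ t, 0 ≤ deriv ψ t ∧ deriv ψ t ≤ 1) →
      (∀ k : ℕ, 2 ≤ k → k ≤ 4 → ∀ t, |iteratedDeriv k ψ t| ≤ ε₁) →
      ∀ p ∈ Dom, JetB (fun q => χ (gp p q).1 * ψ (aS (gp p q))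
        - (χ p.1 * deriv ψ (aS p)) * aS q) δ := by
  obtain ⟨C, hC1, hC⟩ := bump_bdd χ hχ hχc
  obtain ⟨D, hD1, hD⟩ := aS_jets
  set K1 : ℝ := 384 * C * D ^ 4 with hK1
  set K2 : ℝ := 24 * D ^ 4 with hK2
  have hC0 : 0 < C := by linarith
  have hD0 : 0 < D := by linarith
  have hK1p : 0 < K1 := by positivity
  have hK2p : 0 < K2 := by positivity
  obtain ⟨A₀, hA1, hA⟩ := exp_small (δ / (2 * K1)) (by positivity)
  refine ⟨min 1 (δ / (2 * K2)), lt_min one_pos (by positivity), A₀, hA1, ?_⟩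
  intro a₀ ψ ha₀ hψ hψ0 hψ1 hψk p hp k hk hk4
  have hε1 : ∀ k : ℕ, 2 ≤ k → k ≤ 4 → ∀ t, |iteratedDeriv k ψ t| ≤ 1 :=
    fun k h1 h2 t => (hψk k h1 h2 t).trans (min_le_left _ _)
  set ε₁ : ℝ := min 1 (δ / (2 * K2)) with hε
  have hε0 : 0 < ε₁ := lt_min one_pos (by positivity)
  have hεK : K2 * ε₁ ≤ δ / 2 := by
    have : ε₁ ≤ δ / (2 * K2) := min_le_right _ _
    calc K2 * ε₁ ≤ K2 * (δ / (2 * K2)) := by gcongr
      _ = δ / 2 := by field_simp
  have hρ : 0 < rho p := hp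
  set a := aS p with hadef
  set s := Real.sqrt (rho p) with hsdef
  have hDomN : Dom ∈ 𝓝 q0 := isOpen_Dom'.mem_nhds q0_mem'
  rcases lt_or_ge a a₀ with hlt | hge
  · -- everything vanishes near `q0`
    have hz : (fun q => χ (gp p q).1 * ψ (aS (gp p q)) - (χ p.1 * deriv ψ a) * aS q)
        =ᶠ[𝓝 q0] fun _ => (0:ℝ) := by
      have hd0 : deriv ψ a = 0 := by
        have : ψ =ᶠ[𝓝 a] fun _ => (0:ℝ) := by
          filter_upwards [Iio_mem_nhds hlt] with t ht using hψ0 t (le_of_lt ht)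
        rw [this.deriv_eq]; simp
      have hcont : ContinuousAt aS q0 := (aS_smooth'.continuousOn).continuousAt hDomN
      have h1 : ∀ᶠ q in 𝓝 q0, aS q < a₀ - a := by
        apply hcont.eventually_lt_const
        rw [aS_q0]; linarith
      filter_upwards [h1, hDomN] with q hq1 hq2
      rw [aS_gp p hp q hq2, hd0, hψ0 _ (by linarith : aS p + aS q ≤ a₀)]
      ring
    rw [(hz.iteratedFDeriv ℝ k).eq_of_nhds, iteratedFDeriv_const_of_ne (by omega)]
    simpa using hδ.le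
  · have ha1 : 1 ≤ a := by linarith
    have hsexp : s = Real.exp (-a / 2) := sqrt_rho_eq p hp
    have hs0 : 0 ≤ s := Real.sqrt_nonneg _
    have hs1 : s ≤ 1 := by
      rw [hsexp, Real.exp_le_one_iff]; linarith
    -- values of ψ
    have hdiff : ∀ t, DifferentiableAt ℝ ψ t := fun t =>
      (hψ.differentiable (by simp)) t
    have hmono : Monotone ψ := monotone_of_deriv_nonneg hdiff (fun t => (hψ1 t).1)
    have hψnn : 0 ≤ ψ a := by
      rw [← hψ0 a₀ le_rfl]; exact hmono hge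
    have hψle : ψ a ≤ a := by
      have h : Monotone fun t : ℝ => t - ψ t := by
        apply monotone_of_deriv_nonneg
        · intro t; exact differentiableAt_id.sub (hdiff t)
        · intro t
          have : HasDerivAt (fun t : ℝ => t - ψ t) (1 - deriv ψ t) t :=
            (hasDerivAt_id t).sub (hdiff t).hasDerivAt
          rw [this.deriv]; linarith [(hψ1 t).2]
      have := h hge
      simp only [hψ0 a₀ le_rfl] at this
      linarith
    set f : B2 → ℝ := fun q => χ (p.1 + (s : ℂ) * q.1) - χ p.1 with hf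
    set g : B2 → ℝ := fun q => ψ (a + aS q) with hg
    set G : ℝ → ℝ := fun t => ψ (a + t) with hG
    set H : ℝ → ℝ := fun t => ψ (a + t) - deriv ψ a * t - ψ a with hH
    have hGc : ContDiff ℝ ∞ G := hψ.comp (contDiff_const.add contDiff_id)
    have hHc : ContDiff ℝ ∞ H := (hGc.sub (contDiff_const.mul contDiff_id)).sub contDiff_const
    have hfc : ContDiff ℝ ∞ f := by
      refine ContDiff.sub (hχ.comp ?_) contDiff_const
      exact contDiff_const.add (contDiff_const.mul contDiff_fst)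
    have hgc : ContDiffOn ℝ ∞ g Dom := hGc.comp_contDiffOn aS_smooth'
    have hGk : ∀ i : ℕ, iteratedDeriv i G 0 = iteratedDeriv i ψ a := by
      intro i
      have := congrFun (iteratedDeriv_comp_const_add i ψ a) 0
      rw [hG, this, add_zero]
    -- decomposition
    have hdec : (fun q => χ (gp p q).1 * ψ (aS (gp p q)) - (χ p.1 * deriv ψ a) * aS q)
        =ᶠ[𝓝 q0] fun q => (f q * g q + χ p.1 * H (aS q)) - (-(χ p.1 * ψ a)) := by
      filter_upwards [hDomN] with q hq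
      rw [aS_gp p hp q hq]
      simp only [hf, hg, hH, gp, ← hsdef, ← hadef]
      ring
    have hHcd : ContDiffOn ℝ ∞ (fun q => H (aS q)) Dom := hHc.comp_contDiffOn aS_smooth'
    have hfg : ContDiffOn ℝ ∞ (fun q => f q * g q) Dom := hfc.contDiffOn.mul hgc
    have hcH : ContDiffOn ℝ ∞ (fun q => χ p.1 * H (aS q)) Dom := contDiffOn_const.mul hHcd
    rw [(hdec.iteratedFDeriv ℝ k).eq_of_nhds,
      jet_sub_const hk ((hfg.add hcH).contDiffAt hDomN)]
    have hsplit : iteratedFDeriv ℝ k (fun q => f q * g q + χ p.1 * H (aS q)) q0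
        = iteratedFDeriv ℝ k (fun q => f q * g q) q0
          + iteratedFDeriv ℝ k (fun q => χ p.1 * H (aS q)) q0 :=
      iteratedFDeriv_add_apply ((hfg.contDiffAt hDomN).of_le (by exact_mod_cast le_top))
        ((hcH.contDiffAt hDomN).of_le (by exact_mod_cast le_top))
    rw [hsplit]
    refine (norm_add_le _ _).trans ?_
    -- first term
    have hT1 : ‖iteratedFDeriv ℝ k (fun q => f q * g q) q0‖ ≤ δ / 2 := by
      have hfb : ∀ i, i ≤ k → ‖iteratedFDeriv ℝ i f q0‖ ≤ C * s := fun i hi =>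
        bump_part χ hχ hC0.le hC p.1 hs0 hs1 q0 rfl i (hi.trans hk4)
      have hgb : ∀ i, i ≤ k → ‖iteratedFDeriv ℝ i g q0‖ ≤ 24 * (a + 1) * D ^ 4 := by
        intro i hi
        have h1 := jet_comp_le (g := G) (f := aS) isOpen_Dom' q0_mem' aS_smooth' hGc (n := i)
          (C := a + 1) (D := D) ?_ (fun j h1 h2 => hD j h1 (h2.trans (hi.trans hk4)))
        · refine h1.trans ?_
          have hfac : ((i !: ℕ) : ℝ) ≤ 24 := by
            have : i ! ≤ 4 ! := Nat.factorial_le (hi.trans hk4)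
            have h24 : (4 ! : ℕ) = 24 := rfl
            rw [h24] at this
            exact_mod_cast this
          have hpw : D ^ i ≤ D ^ 4 := pow_le_pow_right₀ hD1 (hi.trans hk4)
          gcongr
        · intro j hj
          rw [aS_q0, norm_iteratedFDeriv_eq_norm_iteratedDeriv, hGk, Real.norm_eq_abs]
          have hj4 : j ≤ 4 := hj.trans (hi.trans hk4)
          rcases Nat.lt_or_ge j 2 with h2 | h2
          · have : j = 0 ∨ j = 1 := by omega
            rcases this with rfl | rfl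
            · rw [iteratedDeriv_zero, abs_of_nonneg hψnn]; linarith
            · rw [iteratedDeriv_one, abs_of_nonneg (hψ1 a).1]; linarith [(hψ1 a).2]
          · have := hε1 j h2 hj4 a; linarith
      have h1 := jet_mul_le' isOpen_Dom' q0_mem' hfc.contDiffOn hgc k (by positivity) hfb hgb
      refine h1.trans ?_
      have h2 : (2:ℝ) ^ k ≤ 2 ^ 4 := pow_le_pow_right₀ (by norm_num) hk4
      have h3 := hA a (ha₀.trans hge)
      rw [← hsexp] at h3
      calc (2:ℝ) ^ k * (C * s) * (24 * (a + 1) * D ^ 4)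
          ≤ 2 ^ 4 * (C * s) * (24 * (a + 1) * D ^ 4) := by gcongr
        _ = K1 * (s * (1 + a)) := by rw [hK1]; ring
        _ ≤ K1 * (δ / (2 * K1)) := by gcongr
        _ = δ / 2 := by field_simp
    -- second term
    have hT2 : ‖iteratedFDeriv ℝ k (fun q => χ p.1 * H (aS q)) q0‖ ≤ δ / 2 := by
      have e1 : iteratedFDeriv ℝ k (fun q => χ p.1 * H (aS q)) q0
          = χ p.1 • iteratedFDeriv ℝ k (fun q => H (aS q)) q0 :=
        iteratedFDeriv_const_smul_apply' (a := χ p.1)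
          ((hHcd.contDiffAt hDomN).of_le (by exact_mod_cast le_top))
      rw [e1, norm_smul, Real.norm_of_nonneg (hχ01 _).1]
      have h1 := jet_comp_le (g := H) (f := aS) isOpen_Dom' q0_mem' aS_smooth' hHc (n := k)
        (C := ε₁) (D := D) ?_ (fun j h1 h2 => hD j h1 (h2.trans hk4))
      · have hfac : ((k !: ℕ) : ℝ) ≤ 24 := by
          have : k ! ≤ 4 ! := Nat.factorial_le hk4
          have h24 : (4 ! : ℕ) = 24 := rfl
          rw [h24] at this
          exact_mod_cast this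
        have hpw : D ^ k ≤ D ^ 4 := pow_le_pow_right₀ hD1 hk4
        calc χ p.1 * ‖iteratedFDeriv ℝ k (fun q => H (aS q)) q0‖
            ≤ 1 * ((k ! : ℝ) * ε₁ * D ^ k) :=
              mul_le_mul (hχ01 _).2 h1 (norm_nonneg _) (by norm_num)
          _ ≤ 1 * (24 * ε₁ * D ^ 4) := by gcongr
          _ = K2 * ε₁ := by rw [hK2]; ring
          _ ≤ δ / 2 := hεK
      · intro j hj
        rw [aS_q0, norm_iteratedFDeriv_eq_norm_iteratedDeriv, Real.norm_eq_abs]
        have hj4 : j ≤ 4 := hj.trans hk4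
        have hder : deriv H = fun t => deriv ψ (a + t) - deriv ψ a := by
          funext t
          have h1 : HasDerivAt G (deriv ψ (a + t)) t := by
            have := ((hdiff (a + t)).hasDerivAt).comp_const_add a t
            exact this
          have h2 : HasDerivAt (fun t : ℝ => deriv ψ a * t) (deriv ψ a) t := by
            simpa using (hasDerivAt_id t).const_mul (deriv ψ a)
          have h3 : HasDerivAt H (deriv ψ (a + t) - deriv ψ a) t := (h1.sub h2).sub_const _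
          exact h3.deriv
        rcases Nat.lt_or_ge j 2 with h2 | h2
        · have : j = 0 ∨ j = 1 := by omega
          rcases this with rfl | rfl
          · rw [iteratedDeriv_zero]; simp only [hH]; simpa using hε0.le
          · rw [iteratedDeriv_one, hder]; simpa using hε0.le
        · obtain ⟨i, rfl⟩ : ∃ i, j = i + 1 := ⟨j - 1, by omega⟩
          have e2 : iteratedDeriv (i + 1) H 0 = iteratedDeriv (i + 1) ψ a := by
            rw [← hGk, iteratedDeriv_succ', iteratedDeriv_succ', hder]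
            have hGd : deriv G = fun t => deriv ψ (a + t) := by
              funext t; exact (((hdiff (a + t)).hasDerivAt).comp_const_add a t).deriv
            rw [hGd]
            obtain ⟨l, rfl⟩ : ∃ l, i = l + 1 := ⟨i - 1, by omega⟩
            rw [iteratedDeriv_succ', iteratedDeriv_succ']
            congr 1
            funext t
            rw [deriv_sub_const]
          rw [e2]; exact hψk _ h2 hj4 a
    linarith

end Crest.Agent.R245
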