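import Crest.Agent.R245.Ops

/-! Row 245, OpsForms: the forms `D11, D21, D22`. -/

set_option autoImplicit false
set_option linter.unusedSectionVars false
set_option linter.unusedVariables false

namespace Crest.Agent.R245

open Complex Filter Topology
open scoped ContDiff ComplexConjugate

section Forms

variable {V : Type*} [NormedAddCommGroup V] [NormedSpace ℝ V] [NormedSpace ℂ V] [IsScalarTower ℝ ℂ V]
variable {V' : Type*} [NormedAddCommGroup V'] [NormedSpace ℝ V'] [NormedSpace ℂ V']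
  [IsScalarTower ℝ ℂ V']
variable {P Q : V → ℝ} {p : V}

/-! congruence -/
theorem ofReal_congr (h : P =ᶠ[𝓝 p] Q) :
    (fun q => (P q : ℂ)) =ᶠ[𝓝 p] (fun q => (Q q : ℂ)) := by
  filter_upwards [h] with q hq
  rw [hq]
theorem D11_congr (h : P =ᶠ[𝓝 p] Q) (X Y : V) : D11 P X Y p = D11 Q X Y p :=
  dz_congr (dzb_eventuallyEq (ofReal_congr h))
theorem D21_congr (h : P =ᶠ[𝓝 p] Q) (X Y Z : V) : D21 P X Y Z p = D21 Q X Y Z p :=
  dz_congr (dz_eventuallyEq (dzb_eventuallyEq (ofReal_congr h)))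
theorem D22_congr (h : P =ᶠ[𝓝 p] Q) (X Y Z W : V) : D22 P X Y Z W p = D22 Q X Y Z W p :=
  dz_congr (dz_eventuallyEq (dzb_eventuallyEq (dzb_eventuallyEq (ofReal_congr h))))

/-! smoothness helpers -/
section smooth
variable {u v : V → ℂ}

theorem cd_ev {n : ℕ} (h : ContDiffAt ℝ n u p) : ∀ᶠ q in 𝓝 p, ContDiffAt ℝ n u q :=
  h.eventually (by simp)

theorem cd_diff {n : ℕ} (hn : n ≠ 0) (h : ContDiffAt ℝ n u p) : DifferentiableAt ℝ u p :=
  h.differentiableAt (by exact_mod_cast hn)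

theorem cd_dz {n : ℕ} (X : V) (h : ContDiffAt ℝ (n + 1 : ℕ) u p) :
    ContDiffAt ℝ n (dz X u) p := contDiffAt_dz_le X h (by push_cast; exact le_rfl)

theorem cd_dzb {n : ℕ} (X : V) (h : ContDiffAt ℝ (n + 1 : ℕ) u p) :
    ContDiffAt ℝ n (dzb X u) p := contDiffAt_dzb_le X h (by push_cast; exact le_rfl)

theorem dz_add_ev (X : V) (hu : ContDiffAt ℝ (1 : ℕ) u p) (hv : ContDiffAt ℝ (1 : ℕ) v p) :
    dz X (fun q => u q + v q) =ᶠ[𝓝 p] fun q => dz X u q + dz X v q := by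
  filter_upwards [cd_ev hu, cd_ev hv] with q h1 h2
  exact dz_add (cd_diff one_ne_zero h1) (cd_diff one_ne_zero h2)

theorem dzb_add_ev (X : V) (hu : ContDiffAt ℝ (1 : ℕ) u p) (hv : ContDiffAt ℝ (1 : ℕ) v p) :
    dzb X (fun q => u q + v q) =ᶠ[𝓝 p] fun q => dzb X u q + dzb X v q := by
  filter_upwards [cd_ev hu, cd_ev hv] with q h1 h2
  exact dzb_add (cd_diff one_ne_zero h1) (cd_diff one_ne_zero h2)

theorem dz_cmul_ev (X : V) (c : ℂ) (hu : ContDiffAt ℝ (1 : ℕ) u p) :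
    dz X (fun q => c * u q) =ᶠ[𝓝 p] fun q => c * dz X u q := by
  filter_upwards [cd_ev hu] with q h1
  exact dz_const_mul c (cd_diff one_ne_zero h1)

theorem dzb_cmul_ev (X : V) (c : ℂ) (hu : ContDiffAt ℝ (1 : ℕ) u p) :
    dzb X (fun q => c * u q) =ᶠ[𝓝 p] fun q => c * dzb X u q := by
  filter_upwards [cd_ev hu] with q h1
  exact dzb_const_mul c (cd_diff one_ne_zero h1)

theorem dz_comm_ev (X Y : V) (hu : ContDiffAt ℝ (2 : ℕ) u p) :
    dz X (dz Y u) =ᶠ[𝓝 p] dz Y (dz X u) := by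
  filter_upwards [cd_ev hu] with q h1 using dz_comm h1

theorem dzb_comm_ev (X Y : V) (hu : ContDiffAt ℝ (2 : ℕ) u p) :
    dzb X (dzb Y u) =ᶠ[𝓝 p] dzb Y (dzb X u) := by
  filter_upwards [cd_ev hu] with q h1 using dzb_comm h1

theorem dz_dzb_comm_ev (X Y : V) (hu : ContDiffAt ℝ (2 : ℕ) u p) :
    dz X (dzb Y u) =ᶠ[𝓝 p] dzb Y (dz X u) := by
  filter_upwards [cd_ev hu] with q h1 using dz_dzb_comm h1

theorem cd_mono {m n : ℕ} (hmn : m ≤ n) (h : ContDiffAt ℝ n u p) : ContDiffAt ℝ m u p :=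
  h.of_le (by exact_mod_cast hmn)

theorem cdP (n : ℕ) (h : ContDiffAt ℝ ∞ P p) : ContDiffAt ℝ n (fun q => (P q : ℂ)) p :=
  (contDiffAt_ofReal h).of_le (by exact_mod_cast le_top)

theorem conj_dz_fun (X : V) (u : V → ℂ) :
    (fun q => conj (dz X u q)) = dzb X (fun q => conj (u q)) := by
  funext q; exact (dzb_conj X u q).symm

theorem conj_dzb_fun (X : V) (u : V → ℂ) :
    (fun q => conj (dzb X u q)) = dz X (fun q => conj (u q)) := by
  funext q; exact (dz_conj X u q).symm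

end smooth

/-! sesquilinearity and symmetry -/
theorem D11_add_left' (X X' Y : V) :
    D11 P (X + X') Y p = D11 P X Y p + D11 P X' Y p := dz_vec_add _ _ _ _
theorem D11_smul_left' (c : ℂ) (X Y : V) :
    D11 P (c • X) Y p = c * D11 P X Y p := dz_vec_smul _ _ _ _

theorem dzb_add_dir_fun (X Y : V) (u : V → ℂ) :
    dzb (X + Y) u = fun q => dzb X u q + dzb Y u q := by
  funext q; exact dzb_vec_add _ _ _ _
theorem dzb_smul_dir_fun (c : ℂ) (X : V) (u : V → ℂ) :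
    dzb (c • X) u = fun q => conj c * dzb X u q := by
  funext q; exact dzb_vec_smul _ _ _ _
theorem dz_add_dir_fun (X Y : V) (u : V → ℂ) :
    dz (X + Y) u = fun q => dz X u q + dz Y u q := by
  funext q; exact dz_vec_add _ _ _ _
theorem dz_smul_dir_fun (c : ℂ) (X : V) (u : V → ℂ) :
    dz (c • X) u = fun q => c * dz X u q := by
  funext q; exact dz_vec_smul _ _ _ _

theorem D11_add_right' (hP : ContDiffAt ℝ (2 : ℕ) (fun q => (P q : ℂ)) p) (X Y Y' : V) :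
    D11 P X (Y + Y') p = D11 P X Y p + D11 P X Y' p := by
  unfold D11
  rw [dzb_add_dir_fun]
  exact dz_add (cd_diff one_ne_zero (cd_dzb (n := 1) _ hP)) (cd_diff one_ne_zero (cd_dzb (n := 1) _ hP))
theorem D11_smul_right' (hP : ContDiffAt ℝ (2 : ℕ) (fun q => (P q : ℂ)) p) (c : ℂ) (X Y : V) :
    D11 P X (c • Y) p = conj c * D11 P X Y p := by
  unfold D11
  rw [dzb_smul_dir_fun]
  exact dz_const_mul _ (cd_diff one_ne_zero (cd_dzb (n := 1) _ hP))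
theorem D11_conj' (hP : ContDiffAt ℝ (2 : ℕ) (fun q => (P q : ℂ)) p) (X Y : V) :
    conj (D11 P X Y p) = D11 P Y X p := by
  unfold D11
  rw [← dzb_conj, conj_dzb_fun]
  have h : (fun q => conj ((P q : ℂ))) = fun q => (P q : ℂ) := by
    funext q; exact conj_ofReal _
  rw [h]
  exact (dz_dzb_comm hP).symm
theorem D21_symm' (hP : ContDiffAt ℝ (3 : ℕ) (fun q => (P q : ℂ)) p) (X Y Z : V) :
    D21 P X Y Z p = D21 P Y X Z p :=
  dz_comm (cd_dzb (n := 2) _ hP)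
theorem D21_add_3' (hP : ContDiffAt ℝ (3 : ℕ) (fun q => (P q : ℂ)) p) (X Y Z Z' : V) :
    D21 P X Y (Z + Z') p = D21 P X Y Z p + D21 P X Y Z' p := by
  unfold D21
  rw [dzb_add_dir_fun]
  have h2 : ∀ Z : V, ContDiffAt ℝ (2 : ℕ) (dzb Z (fun q => (P q : ℂ))) p := fun Z => cd_dzb (n := 2) _ hP
  rw [dz_congr (dz_add_ev Y (cd_mono (by norm_num) (h2 Z)) (cd_mono (by norm_num) (h2 Z')))]
  exact dz_add (cd_diff one_ne_zero (cd_dz (n := 1) _ (h2 Z)))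
    (cd_diff one_ne_zero (cd_dz (n := 1) _ (h2 Z')))
theorem D21_smul_3' (hP : ContDiffAt ℝ (3 : ℕ) (fun q => (P q : ℂ)) p) (c : ℂ) (X Y Z : V) :
    D21 P X Y (c • Z) p = conj c * D21 P X Y Z p := by
  unfold D21
  rw [dzb_smul_dir_fun]
  have h2 : ContDiffAt ℝ (2 : ℕ) (dzb Z (fun q => (P q : ℂ))) p := cd_dzb (n := 2) _ hP
  rw [dz_congr (dz_cmul_ev Y _ (cd_mono (by norm_num) h2))]
  exact dz_const_mul _ (cd_diff one_ne_zero (cd_dz (n := 1) _ h2))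

theorem D11_add_left (hP : ContDiffAt ℝ ∞ P p) (X X' Y : V) :
    D11 P (X + X') Y p = D11 P X Y p + D11 P X' Y p := dz_vec_add _ _ _ _
theorem D11_smul_left (hP : ContDiffAt ℝ ∞ P p) (c : ℂ) (X Y : V) :
    D11 P (c • X) Y p = c * D11 P X Y p := dz_vec_smul _ _ _ _
theorem D11_add_right (hP : ContDiffAt ℝ ∞ P p) (X Y Y' : V) :
    D11 P X (Y + Y') p = D11 P X Y p + D11 P X Y' p := D11_add_right' (cdP 2 hP) _ _ _
theorem D11_smul_right (hP : ContDiffAt ℝ ∞ P p) (c : ℂ) (X Y : V) :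
    D11 P X (c • Y) p = conj c * D11 P X Y p := D11_smul_right' (cdP 2 hP) _ _ _
theorem D11_conj (hP : ContDiffAt ℝ ∞ P p) (X Y : V) : conj (D11 P X Y p) = D11 P Y X p :=
  D11_conj' (cdP 2 hP) _ _
theorem D21_add_1 (hP : ContDiffAt ℝ ∞ P p) (X X' Y Z : V) :
    D21 P (X + X') Y Z p = D21 P X Y Z p + D21 P X' Y Z p := dz_vec_add _ _ _ _
theorem D21_smul_1 (hP : ContDiffAt ℝ ∞ P p) (c : ℂ) (X Y Z : V) :
    D21 P (c • X) Y Z p = c * D21 P X Y Z p := dz_vec_smul _ _ _ _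
theorem D21_symm (hP : ContDiffAt ℝ ∞ P p) (X Y Z : V) : D21 P X Y Z p = D21 P Y X Z p :=
  D21_symm' (cdP 3 hP) _ _ _
theorem D21_add_3 (hP : ContDiffAt ℝ ∞ P p) (X Y Z Z' : V) :
    D21 P X Y (Z + Z') p = D21 P X Y Z p + D21 P X Y Z' p := D21_add_3' (cdP 3 hP) _ _ _ _
theorem D21_smul_3 (hP : ContDiffAt ℝ ∞ P p) (c : ℂ) (X Y Z : V) :
    D21 P X Y (c • Z) p = conj c * D21 P X Y Z p := D21_smul_3' (cdP 3 hP) _ _ _ _
theorem D22_add_1 (hP : ContDiffAt ℝ ∞ P p) (X X' Y Z W : V) :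
    D22 P (X + X') Y Z W p = D22 P X Y Z W p + D22 P X' Y Z W p := dz_vec_add _ _ _ _
theorem D22_smul_1 (hP : ContDiffAt ℝ ∞ P p) (c : ℂ) (X Y Z W : V) :
    D22 P (c • X) Y Z W p = c * D22 P X Y Z W p := dz_vec_smul _ _ _ _
theorem D22_symm12 (hP : ContDiffAt ℝ ∞ P p) (X Y Z W : V) :
    D22 P X Y Z W p = D22 P Y X Z W p :=
  dz_comm (cd_dzb (n := 2) _ (cd_dzb (n := 3) _ (cdP 4 hP)))
theorem D22_symm34 (hP : ContDiffAt ℝ ∞ P p) (X Y Z W : V) :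
    D22 P X Y Z W p = D22 P X Y W Z p :=
  dz_congr (dz_eventuallyEq (dzb_comm_ev Z W (cdP 2 hP)))
theorem D22_conj (hP : ContDiffAt ℝ ∞ P p) (X Y Z W : V) :
    conj (D22 P X Y Z W p) = D22 P Z W X Y p := by
  unfold D22
  rw [← dzb_conj, conj_dz_fun, conj_dzb_fun, conj_dzb_fun]
  have h : (fun q => conj ((P q : ℂ))) = fun q => (P q : ℂ) := by
    funext q; exact conj_ofReal _
  rw [h]
  have h4 := cdP 4 hP
  -- move `dzb Y` inside
  have e1 : dzb Y (dz Z (dz W (fun q => (P q : ℂ)))) =ᶠ[𝓝 p]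
      dz Z (dz W (dzb Y (fun q => (P q : ℂ)))) := by
    refine (dz_dzb_comm_ev Z Y (cd_dz (n := 2) _ (cdP 3 hP))).symm.trans ?_
    exact dz_eventuallyEq (dz_dzb_comm_ev W Y (cdP 2 hP)).symm
  rw [dzb_congr e1]
  have h5 : ContDiffAt ℝ (3 : ℕ) (dzb Y (fun q => (P q : ℂ))) p := cd_dzb (n := 3) _ h4
  rw [← dz_dzb_comm (cd_dz (n := 2) _ h5)]
  exact dz_congr (dz_dzb_comm_ev W X (cd_mono (by norm_num) h5)).symm

/-! linearity in the potential -/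
theorem D11_add (hP : ContDiffAt ℝ ∞ P p) (hQ : ContDiffAt ℝ ∞ Q p) (X Y : V) :
    D11 (fun q => P q + Q q) X Y p = D11 P X Y p + D11 Q X Y p := by
  unfold D11
  have e : (fun q => ((P q + Q q : ℝ) : ℂ)) = fun q => (P q : ℂ) + (Q q : ℂ) := by
    funext q; push_cast; rfl
  rw [e, dz_congr (dzb_add_ev Y (cdP 1 hP) (cdP 1 hQ))]
  exact dz_add (cd_diff one_ne_zero (cd_dzb (n := 1) _ (cdP 2 hP)))
    (cd_diff one_ne_zero (cd_dzb (n := 1) _ (cdP 2 hQ)))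
theorem D21_add (hP : ContDiffAt ℝ ∞ P p) (hQ : ContDiffAt ℝ ∞ Q p) (X Y Z : V) :
    D21 (fun q => P q + Q q) X Y Z p = D21 P X Y Z p + D21 Q X Y Z p := by
  unfold D21
  have e : (fun q => ((P q + Q q : ℝ) : ℂ)) = fun q => (P q : ℂ) + (Q q : ℂ) := by
    funext q; push_cast; rfl
  have e2 : dz Y (dzb Z (fun q => ((P q + Q q : ℝ) : ℂ))) =ᶠ[𝓝 p]
      fun q => dz Y (dzb Z (fun q => (P q : ℂ))) q + dz Y (dzb Z (fun q => (Q q : ℂ))) q := by
    rw [e]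
    refine (dz_eventuallyEq (dzb_add_ev Z (cdP 1 hP) (cdP 1 hQ))).trans ?_
    exact dz_add_ev Y (cd_dzb (n := 1) _ (cdP 2 hP)) (cd_dzb (n := 1) _ (cdP 2 hQ))
  rw [dz_congr e2]
  exact dz_add (cd_diff one_ne_zero (cd_dz (n := 1) _ (cd_dzb (n := 2) _ (cdP 3 hP))))
    (cd_diff one_ne_zero (cd_dz (n := 1) _ (cd_dzb (n := 2) _ (cdP 3 hQ))))
theorem D22_add (hP : ContDiffAt ℝ ∞ P p) (hQ : ContDiffAt ℝ ∞ Q p) (X Y Z W : V) :
    D22 (fun q => P q + Q q) X Y Z W p = D22 P X Y Z W p + D22 Q X Y Z W p := by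
  unfold D22
  have e : (fun q => ((P q + Q q : ℝ) : ℂ)) = fun q => (P q : ℂ) + (Q q : ℂ) := by
    funext q; push_cast; rfl
  have e1 : dzb Z (dzb W (fun q => ((P q + Q q : ℝ) : ℂ))) =ᶠ[𝓝 p]
      fun q => dzb Z (dzb W (fun q => (P q : ℂ))) q + dzb Z (dzb W (fun q => (Q q : ℂ))) q := by
    rw [e]
    refine (dzb_eventuallyEq (dzb_add_ev W (cdP 1 hP) (cdP 1 hQ))).trans ?_
    exact dzb_add_ev Z (cd_dzb (n := 1) _ (cdP 2 hP)) (cd_dzb (n := 1) _ (cdP 2 hQ))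
  have e2 : dz Y (dzb Z (dzb W (fun q => ((P q + Q q : ℝ) : ℂ)))) =ᶠ[𝓝 p]
      fun q => dz Y (dzb Z (dzb W (fun q => (P q : ℂ)))) q
        + dz Y (dzb Z (dzb W (fun q => (Q q : ℂ)))) q := by
    refine (dz_eventuallyEq e1).trans ?_
    exact dz_add_ev Y (cd_dzb (n := 1) _ (cd_dzb (n := 2) _ (cdP 3 hP)))
      (cd_dzb (n := 1) _ (cd_dzb (n := 2) _ (cdP 3 hQ)))
  rw [dz_congr e2]
  exact dz_add
    (cd_diff one_ne_zero (cd_dz (n := 1) _ (cd_dzb (n := 2) _ (cd_dzb (n := 3) _ (cdP 4 hP)))))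
    (cd_diff one_ne_zero (cd_dz (n := 1) _ (cd_dzb (n := 2) _ (cd_dzb (n := 3) _ (cdP 4 hQ)))))
theorem D11_const_mul (hP : ContDiffAt ℝ ∞ P p) (r : ℝ) (X Y : V) :
    D11 (fun q => r * P q) X Y p = r * D11 P X Y p := by
  unfold D11
  have e : (fun q => ((r * P q : ℝ) : ℂ)) = fun q => (r : ℂ) * (P q : ℂ) := by
    funext q; push_cast; rfl
  rw [e, dz_congr (dzb_cmul_ev Y _ (cdP 1 hP))]
  exact dz_const_mul _ (cd_diff one_ne_zero (cd_dzb (n := 1) _ (cdP 2 hP)))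
theorem D21_const_mul (hP : ContDiffAt ℝ ∞ P p) (r : ℝ) (X Y Z : V) :
    D21 (fun q => r * P q) X Y Z p = r * D21 P X Y Z p := by
  unfold D21
  have e : (fun q => ((r * P q : ℝ) : ℂ)) = fun q => (r : ℂ) * (P q : ℂ) := by
    funext q; push_cast; rfl
  have e2 : dz Y (dzb Z (fun q => ((r * P q : ℝ) : ℂ))) =ᶠ[𝓝 p]
      fun q => (r : ℂ) * dz Y (dzb Z (fun q => (P q : ℂ))) q := by
    rw [e]
    refine (dz_eventuallyEq (dzb_cmul_ev Z _ (cdP 1 hP))).trans ?_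
    exact dz_cmul_ev Y _ (cd_dzb (n := 1) _ (cdP 2 hP))
  rw [dz_congr e2]
  exact dz_const_mul _ (cd_diff one_ne_zero (cd_dz (n := 1) _ (cd_dzb (n := 2) _ (cdP 3 hP))))
theorem D22_const_mul (hP : ContDiffAt ℝ ∞ P p) (r : ℝ) (X Y Z W : V) :
    D22 (fun q => r * P q) X Y Z W p = r * D22 P X Y Z W p := by
  unfold D22
  have e : (fun q => ((r * P q : ℝ) : ℂ)) = fun q => (r : ℂ) * (P q : ℂ) := by
    funext q; push_cast; rfl
  have e1 : dzb Z (dzb W (fun q => ((r * P q : ℝ) : ℂ))) =ᶠ[𝓝 p]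
      fun q => (r : ℂ) * dzb Z (dzb W (fun q => (P q : ℂ))) q := by
    rw [e]
    refine (dzb_eventuallyEq (dzb_cmul_ev W _ (cdP 1 hP))).trans ?_
    exact dzb_cmul_ev Z _ (cd_dzb (n := 1) _ (cdP 2 hP))
  have e2 : dz Y (dzb Z (dzb W (fun q => ((r * P q : ℝ) : ℂ)))) =ᶠ[𝓝 p]
      fun q => (r : ℂ) * dz Y (dzb Z (dzb W (fun q => (P q : ℂ)))) q := by
    refine (dz_eventuallyEq e1).trans ?_
    exact dz_cmul_ev Y _ (cd_dzb (n := 1) _ (cd_dzb (n := 2) _ (cdP 3 hP)))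
  rw [dz_congr e2]
  exact dz_const_mul _
    (cd_diff one_ne_zero (cd_dz (n := 1) _ (cd_dzb (n := 2) _ (cd_dzb (n := 3) _ (cdP 4 hP)))))
theorem dzb_const_fun (c : ℂ) (X : V) : dzb X (fun _ : V => c) = fun _ => 0 := by
  funext q; exact dzb_const c
theorem dz_const_fun (c : ℂ) (X : V) : dz X (fun _ : V => c) = fun _ => 0 := by
  funext q; exact dz_const c
theorem D11_const (r : ℝ) (X Y : V) : D11 (fun _ : V => r) X Y p = 0 := by
  unfold D11; rw [dzb_const_fun, dz_const]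
theorem D21_const (r : ℝ) (X Y Z : V) : D21 (fun _ : V => r) X Y Z p = 0 := by
  unfold D21; rw [dzb_const_fun, dz_const_fun, dz_const]
theorem D22_const (r : ℝ) (X Y Z W : V) : D22 (fun _ : V => r) X Y Z W p = 0 := by
  unfold D22; rw [dzb_const_fun, dzb_const_fun, dz_const_fun, dz_const]

/-! composition with affine maps -/
theorem dz_comp_ev (L : V →L[ℂ] V') (x₀ : V') {f : V' → ℂ} (X : V)
    (hf : ContDiffAt ℝ (1 : ℕ) f (L p + x₀)) :
    dz X (fun q => f (L q + x₀)) =ᶠ[𝓝 p] fun q => dz (L X) f (L q + x₀) := by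
  have hc : Tendsto (fun q => L q + x₀) (𝓝 p) (𝓝 (L p + x₀)) :=
    (L.continuous.add continuous_const).continuousAt
  filter_upwards [hc.eventually (cd_ev hf)] with q hq
  exact dz_comp_affine L x₀ (cd_diff one_ne_zero hq)
theorem dzb_comp_ev (L : V →L[ℂ] V') (x₀ : V') {f : V' → ℂ} (X : V)
    (hf : ContDiffAt ℝ (1 : ℕ) f (L p + x₀)) :
    dzb X (fun q => f (L q + x₀)) =ᶠ[𝓝 p] fun q => dzb (L X) f (L q + x₀) := by
  have hc : Tendsto (fun q => L q + x₀) (𝓝 p) (𝓝 (L p + x₀)) :=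
    (L.continuous.add continuous_const).continuousAt
  filter_upwards [hc.eventually (cd_ev hf)] with q hq
  exact dzb_comp_affine L x₀ (cd_diff one_ne_zero hq)

theorem D11_comp_affine (L : V →L[ℂ] V') (x₀ : V') {f : V' → ℝ}
    (hf : ContDiffAt ℝ ∞ f (L p + x₀)) (X Y : V) :
    D11 (fun q => f (L q + x₀)) X Y p = D11 f (L X) (L Y) (L p + x₀) := by
  unfold D11
  rw [dz_congr (dzb_comp_ev L x₀ (f := fun q => (f q : ℂ)) Y (cdP 1 hf))]
  exact dz_comp_affine L x₀ (cd_diff one_ne_zero (cd_dzb (n := 1) _ (cdP 2 hf)))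
theorem D21_comp_affine (L : V →L[ℂ] V') (x₀ : V') {f : V' → ℝ}
    (hf : ContDiffAt ℝ ∞ f (L p + x₀)) (X Y Z : V) :
    D21 (fun q => f (L q + x₀)) X Y Z p = D21 f (L X) (L Y) (L Z) (L p + x₀) := by
  unfold D21
  rw [dz_congr (dz_eventuallyEq (dzb_comp_ev L x₀ (f := fun q => (f q : ℂ)) Z (cdP 1 hf))),
    dz_congr (dz_comp_ev L x₀ Y (cd_dzb (n := 1) _ (cdP 2 hf)))]
  exact dz_comp_affine L x₀
    (cd_diff one_ne_zero (cd_dz (n := 1) _ (cd_dzb (n := 2) _ (cdP 3 hf))))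
theorem D22_comp_affine (L : V →L[ℂ] V') (x₀ : V') {f : V' → ℝ}
    (hf : ContDiffAt ℝ ∞ f (L p + x₀)) (X Y Z W : V) :
    D22 (fun q => f (L q + x₀)) X Y Z W p = D22 f (L X) (L Y) (L Z) (L W) (L p + x₀) := by
  unfold D22
  rw [dz_congr (dz_eventuallyEq (dzb_eventuallyEq
      (dzb_comp_ev L x₀ (f := fun q => (f q : ℂ)) W (cdP 1 hf)))),
    dz_congr (dz_eventuallyEq (dzb_comp_ev L x₀ Z (cd_dzb (n := 1) _ (cdP 2 hf)))),
    dz_congr (dz_comp_ev L x₀ Y (cd_dzb (n := 1) _ (cd_dzb (n := 2) _ (cdP 3 hf))))]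
  exact dz_comp_affine L x₀
    (cd_diff one_ne_zero (cd_dz (n := 1) _ (cd_dzb (n := 2) _ (cd_dzb (n := 3) _ (cdP 4 hf)))))

end Forms

end Crest.Agent.R245
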