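import Crest.Agent.R245.Isl
import Crest.Agent.R245.OpsForms
import Crest.Agent.R245.JetTrans

/-! Row 245: smoothness, zero set, growth, Levi form of the island potential `WW`. -/

set_option autoImplicit false

namespace Crest.Agent.R245

open Complex Filter Topology
open scoped ContDiff ComplexConjugate

namespace IslS

variable {v : ℂ → ℝ} {Cv M L : ℝ}

theorem latPt_eq_of_lt {N : ℝ} (hN : 0 < N) {z c : ℂ} (hc : IsLat N c)
    (h : N * ‖z - c‖ ^ 2 < 25 / 4) : latPt N z = c := by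
  by_contra hne
  have := sq_dist_lat_ge hN z hc (fun h' => hne h'.symm)
  linarith

theorem contDiff_EE (N : ℝ) (c : ℂ) : ContDiff ℝ ∞ (EE N c) := by
  unfold EE
  apply ContDiff.cexp
  fun_prop

/-- local form of one scale -/
theorem VV_local (hv : IsDip v Cv M L) {N : ℝ} (hN : 0 < N) {p : B2} (hp : p ∈ Dom) :
    (∃ c, ‖c‖ < 1 / 16 ∧ VV v N =ᶠ[𝓝 p] fun x => v (EE N c x)) ∨
      VV v N =ᶠ[𝓝 p] fun _ => 0 := by
  set c0 := latPt N p.1 with hc0
  have hlat : IsLat N c0 := isLat_latPt N p.1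
  rcases lt_or_ge (N * ‖p.1 - c0‖ ^ 2) 4 with h | h
  · have hev : ∀ᶠ x : B2 in 𝓝 p, latPt N x.1 = c0 := by
      have hc : Continuous fun x : B2 => N * ‖x.1 - c0‖ ^ 2 := by fun_prop
      have := hc.continuousAt.eventually_lt_const (show N * ‖p.1 - c0‖ ^ 2 < 25 / 4 by linarith)
      filter_upwards [this] with x hx
      exact latPt_eq_of_lt hN hlat hx
    by_cases hlt : ‖c0‖ < 1 / 16
    · left
      refine ⟨c0, hlt, ?_⟩
      filter_upwards [hev] with x hx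
      unfold VV
      rw [hx, if_pos hlt]
    · right
      filter_upwards [hev] with x hx
      unfold VV
      rw [hx, if_neg hlt]
  · right
    have hs : 0 < Real.sqrt N := Real.sqrt_pos.2 hN
    have hev1 : ∀ᶠ x : B2 in 𝓝 p, Real.sqrt N * ‖x.1 - p.1‖ < 1 := by
      have hc : Continuous fun x : B2 => Real.sqrt N * ‖x.1 - p.1‖ := by fun_prop
      exact hc.continuousAt.eventually_lt_const (by simp)
    have hev2 : ∀ᶠ x : B2 in 𝓝 p, x ∈ Dom := isOpen_Dom'.mem_nhds hp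
    filter_upwards [hev1, hev2] with x hx1 hx2
    apply VV_eq_zero hv
    have hx2' : 0 < rho x := hx2
    set c' := latPt N x.1 with hc'
    have hlat' : IsLat N c' := isLat_latPt N x.1
    have h1 : 2 ≤ Real.sqrt N * ‖p.1 - c'‖ := by
      have h2 : 4 ≤ N * ‖p.1 - c'‖ ^ 2 := by
        by_cases hcc : c' = c0
        · rw [hcc]; exact h
        · have := sq_dist_lat_ge hN p.1 hlat' hcc
          linarith
      have h3 : (2 : ℝ) ^ 2 ≤ (Real.sqrt N * ‖p.1 - c'‖) ^ 2 := by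
        rw [mul_pow, Real.sq_sqrt hN.le]; linarith
      exact (sq_le_sq₀ (by norm_num) (by positivity)).1 h3
    have h4 : ‖p.1 - c'‖ ≤ ‖x.1 - p.1‖ + ‖x.1 - c'‖ := by
      calc ‖p.1 - c'‖ = ‖-(x.1 - p.1) + (x.1 - c')‖ := by ring_nf
        _ ≤ ‖-(x.1 - p.1)‖ + ‖x.1 - c'‖ := norm_add_le _ _
        _ = _ := by rw [norm_neg]
    have h5 : 1 ≤ Real.sqrt N * ‖x.1 - c'‖ := by
      have := mul_le_mul_of_nonneg_left h4 hs.le
      rw [mul_add] at this
      linarith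
    have h6 : 1 ≤ N * ‖x.1 - c'‖ ^ 2 := by
      calc (1 : ℝ) = 1 ^ 2 := by norm_num
        _ ≤ (Real.sqrt N * ‖x.1 - c'‖) ^ 2 := by gcongr
        _ = _ := by rw [mul_pow, Real.sq_sqrt hN.le]
    have h7 : 0 ≤ N * rho x := by positivity
    linarith [mul_add N (rho x) (‖x.1 - c'‖ ^ 2)]

theorem VV_contDiffAt (hv : IsDip v Cv M L) {N : ℝ} (hN : 0 < N) {p : B2} (hp : p ∈ Dom) :
    ContDiffAt ℝ ∞ (VV v N) p := by
  rcases VV_local hv hN hp with ⟨c, _, h⟩ | h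
  · refine ContDiffAt.congr_of_eventuallyEq ?_ h
    exact (hv.smooth.comp (contDiff_EE N c)).contDiffAt
  · exact ContDiffAt.congr_of_eventuallyEq contDiffAt_const h

theorem pow_big {B : ℝ} (hB : 4 ≤ B) {N₀ r : ℝ} (hN₀ : 0 < N₀) (hr : 0 < r) :
    ∃ J : ℕ, ∀ j, J ≤ j → 1 ≤ N₀ * B ^ j * r := by
  obtain ⟨J, hJ⟩ := pow_unbounded_of_one_lt (1 / (N₀ * r)) (by linarith : (1 : ℝ) < B)
  refine ⟨J, fun j hj => ?_⟩
  have h1 : B ^ J ≤ B ^ j := pow_le_pow_right₀ (by linarith) hj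
  have h2 : 1 / (N₀ * r) ≤ B ^ j := hJ.le.trans h1
  rw [div_le_iff₀ (by positivity)] at h2
  linarith

/-- local finiteness -/
theorem WW_local (hv : IsDip v Cv M L) {N₀ B : ℝ} (hN₀ : 0 < N₀) (hB : 4 ≤ B) {p : B2}
    (hp : p ∈ Dom) : ∃ J : ℕ, ∀ᶠ x in 𝓝 p,
      WW v N₀ B x = ∑ j ∈ Finset.range J, VV v (N₀ * B ^ j) x := by
  have hp' : 0 < rho p := hp
  obtain ⟨J, hJ⟩ := pow_big hB hN₀ (show 0 < rho p / 2 by positivity)
  refine ⟨J, ?_⟩
  have hev : ∀ᶠ x in 𝓝 p, rho p / 2 < rho x :=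
    rho_contDiff'.continuous.continuousAt.eventually_const_lt (by linarith)
  filter_upwards [hev] with x hx
  unfold WW
  apply tsum_eq_sum
  intro j hj
  rw [Finset.mem_range, not_lt] at hj
  apply VV_eq_zero_of_high hv (by positivity)
  calc 1 ≤ N₀ * B ^ j * (rho p / 2) := hJ j hj
    _ ≤ N₀ * B ^ j * rho x := by gcongr

theorem WW_contDiffAt (hv : IsDip v Cv M L) {N₀ B : ℝ} (hN₀ : 0 < N₀) (hB : 4 ≤ B) {p : B2}
    (hp : p ∈ Dom) : ContDiffAt ℝ ∞ (WW v N₀ B) p := by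
  obtain ⟨J, hJ⟩ := WW_local hv hN₀ hB hp
  refine ContDiffAt.congr_of_eventuallyEq ?_ hJ
  apply ContDiffAt.sum
  intro j _
  exact VV_contDiffAt hv (by positivity) hp

theorem WW_contDiffOn (hv : IsDip v Cv M L) {N₀ B : ℝ} (hN₀ : 0 < N₀) (hB : 4 ≤ B) :
    ContDiffOn ℝ ∞ (WW v N₀ B) Dom := fun _ hp => (WW_contDiffAt hv hN₀ hB hp).contDiffWithinAt

/-- zero set -/
theorem WW_eq_zero (hv : IsDip v Cv M L) {N₀ B K : ℝ} (hN₀ : 256 ≤ N₀) (hB : 4 ≤ B) (hK : 1 ≤ K)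
    (hKN : K ≤ N₀) {p : B2} (hp : p ∈ Dom) (h : 1 / K ≤ rho p ∨ 1 / 8 ≤ ‖p.1‖) :
    WW v N₀ B p = 0 := by
  have hp' : 0 < rho p := hp
  have hall : ∀ j : ℕ, VV v (N₀ * B ^ j) p = 0 := by
    intro j
    have hBj : (1 : ℝ) ≤ B ^ j := one_le_pow₀ (by linarith)
    have hNj : N₀ ≤ N₀ * B ^ j := le_mul_of_one_le_right (by linarith) hBj
    have hNpos : 0 < N₀ * B ^ j := by positivity
    rcases h with h | h
    · apply VV_eq_zero_of_high hv hNpos
      calc (1 : ℝ) = K * (1 / K) := by field_simp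
        _ ≤ (N₀ * B ^ j) * rho p := by
            apply mul_le_mul (hKN.trans hNj) h (by positivity) hNpos.le
    · unfold VV
      split_ifs with hc
      · apply hv.zero
        apply norm_EE_le
        have h1 : 1 / 16 ≤ ‖p.1 - latPt (N₀ * B ^ j) p.1‖ := by
          have := norm_sub_norm_le p.1 (latPt (N₀ * B ^ j) p.1)
          linarith
        have h2 : (1 / 16 : ℝ) ^ 2 ≤ ‖p.1 - latPt (N₀ * B ^ j) p.1‖ ^ 2 := by gcongr
        have h3 : (256 : ℝ) ≤ N₀ * B ^ j := hN₀.trans hNj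
        calc (1 : ℝ) = 256 * (0 + (1 / 16 : ℝ) ^ 2) := by norm_num
          _ ≤ (N₀ * B ^ j) * (rho p + ‖p.1 - latPt (N₀ * B ^ j) p.1‖ ^ 2) := by
              gcongr
      · rfl
  unfold WW
  simp [hall]

/-- growth -/
theorem WW_growth (hv : IsDip v Cv M L) (hC : 0 ≤ Cv) {N₀ B : ℝ} (hN₀ : 1 ≤ N₀) (hB : 4 ≤ B)
    {p : B2} (hp : p ∈ Dom) (ha : 0 ≤ aS p) : WW v N₀ B p ≤ Cv * (1 + aS p) := by
  have hp' : 0 < rho p := hp
  set J : ℕ := ⌈aS p⌉₊ with hJ
  have hsum : WW v N₀ B p = ∑ j ∈ Finset.range J, VV v (N₀ * B ^ j) p := by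
    unfold WW
    apply tsum_eq_sum
    intro j hj
    rw [Finset.mem_range, not_lt] at hj
    apply VV_eq_zero_of_high hv (by positivity)
    have h1 : aS p ≤ j := (Nat.le_ceil _).trans (by exact_mod_cast hj)
    have h2 : Real.exp (aS p) * rho p = 1 := by
      unfold aS
      rw [Real.exp_neg, Real.exp_log hp', inv_mul_cancel₀ hp'.ne']
    have h3 : Real.exp (aS p) ≤ B ^ j := by
      calc Real.exp (aS p) ≤ Real.exp (j : ℝ) := Real.exp_le_exp.2 h1
        _ = Real.exp 1 ^ j := by rw [← Real.exp_nat_mul]; simp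
        _ ≤ B ^ j := by
            have := Real.exp_one_lt_d9
            apply pow_le_pow_left₀ (Real.exp_pos _).le
            linarith
    calc (1 : ℝ) = 1 * (Real.exp (aS p) * rho p) := by rw [h2]; ring
      _ ≤ N₀ * (B ^ j * rho p) := by gcongr
      _ = _ := by ring
  rw [hsum]
  calc ∑ j ∈ Finset.range J, VV v (N₀ * B ^ j) p ≤ ∑ j ∈ Finset.range J, Cv :=
        Finset.sum_le_sum fun j _ => VV_le hv hC (by positivity) hp'.le
    _ = J * Cv := by simp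
    _ ≤ (aS p + 1) * Cv := by
        have : (J : ℝ) ≤ aS p + 1 := (Nat.ceil_lt_add_one ha).le
        gcongr
    _ = Cv * (1 + aS p) := by ring

/-! Levi form -/

theorem dzb_comp_hol {V : Type*} [NormedAddCommGroup V] [NormedSpace ℂ V] {E : V → ℂ} {u : ℂ → ℂ}
    {q : V} (hE : DifferentiableAt ℂ E q) (hu : DifferentiableAt ℝ u (E q)) (Y : V) :
    dzb Y (fun x => u (E x)) q = conj (fderiv ℂ E q Y) * dzb 1 u (E q) := by
  have h1 : HasFDerivAt E ((fderiv ℂ E q).restrictScalars ℝ) q :=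
    hE.hasFDerivAt.restrictScalars ℝ
  have h2 : HasFDerivAt (fun x => u (E x)) ((fderiv ℝ u (E q)).comp
      ((fderiv ℂ E q).restrictScalars ℝ)) q := hu.hasFDerivAt.comp q h1
  have h3 : dzb Y (fun x => u (E x)) q = dzb (fderiv ℂ E q Y) u (E q) := by
    unfold dzb
    rw [h2.fderiv]
    simp
  rw [h3]
  have h4 : (fderiv ℂ E q Y) = (fderiv ℂ E q Y) • (1 : ℂ) := by simp
  conv_lhs => rw [h4]
  rw [dzb_vec_smul]

theorem dz_comp_hol {V : Type*} [NormedAddCommGroup V] [NormedSpace ℂ V] {E : V → ℂ} {u : ℂ → ℂ}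
    {q : V} (hE : DifferentiableAt ℂ E q) (hu : DifferentiableAt ℝ u (E q)) (Y : V) :
    dz Y (fun x => u (E x)) q = fderiv ℂ E q Y * dz 1 u (E q) := by
  have h1 : HasFDerivAt E ((fderiv ℂ E q).restrictScalars ℝ) q :=
    hE.hasFDerivAt.restrictScalars ℝ
  have h2 : HasFDerivAt (fun x => u (E x)) ((fderiv ℝ u (E q)).comp
      ((fderiv ℂ E q).restrictScalars ℝ)) q := hu.hasFDerivAt.comp q h1
  have h3 : dz Y (fun x => u (E x)) q = dz (fderiv ℂ E q Y) u (E q) := by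
    unfold dz
    rw [h2.fderiv]
    simp
  rw [h3]
  have h4 : (fderiv ℂ E q Y) = (fderiv ℂ E q Y) • (1 : ℂ) := by simp
  conv_lhs => rw [h4]
  rw [dz_vec_smul]

/-- linear part of the exponent of `EE` -/
noncomputable def Lam (N : ℝ) (c : ℂ) : B2 →L[ℂ] ℂ :=
  (I * N : ℂ) • (ContinuousLinearMap.snd ℂ ℂ ℂ) + (2 * N * conj c : ℂ) • (ContinuousLinearMap.fst ℂ ℂ ℂ)

theorem Lam_apply (N : ℝ) (c : ℂ) (x : B2) : Lam N c x = I * N * x.2 + 2 * N * conj c * x.1 := by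
  simp [Lam]

theorem EE_eq (N : ℝ) (c : ℂ) (x : B2) :
    EE N c x = Complex.exp (Lam N c x + -(N * (‖c‖ ^ 2 : ℝ))) := by
  unfold EE
  rw [Lam_apply]
  congr 1
  linear_combination (-(2 * N * conj c * x.1) + N * ((‖c‖ ^ 2 : ℝ) : ℂ)) * I_mul_I

/-- derivative of the exponential `EE` -/
theorem hasFDerivAt_EE (N : ℝ) (c : ℂ) (x : B2) :
    HasFDerivAt (EE N c) ((EE N c x) • Lam N c) x := by
  have h1 : HasFDerivAt (fun x : B2 => Lam N c x + -(N * (‖c‖ ^ 2 : ℝ))) (Lam N c) x :=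
    (Lam N c).hasFDerivAt.add_const _
  have h2 := h1.cexp
  rw [← EE_eq] at h2
  exact h2.congr_of_eventuallyEq (Eventually.of_forall fun x => EE_eq N c x)

theorem Levi_comp (hv : ContDiff ℝ ∞ v) (N : ℝ) (c : ℂ) (p ξ : B2) :
    D11 (fun x => v (EE N c x)) ξ ξ p =
      ((‖fderiv ℂ (EE N c) p ξ‖ ^ 2 : ℝ) : ℂ) * D11 v 1 1 (EE N c p) := by
  set a : ℂ := Lam N c ξ with ha
  have hEd : ∀ q, DifferentiableAt ℂ (EE N c) q := fun q => (hasFDerivAt_EE N c q).differentiableAt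
  have hEf : ∀ q, fderiv ℂ (EE N c) q ξ = EE N c q * a := by
    intro q
    rw [(hasFDerivAt_EE N c q).fderiv, ha]
    rfl
  have hvc : ContDiff ℝ ∞ (fun e => (v e : ℂ)) := Complex.ofRealCLM.contDiff.comp hv
  have hvd : ∀ e, DifferentiableAt ℝ (fun e => (v e : ℂ)) e := fun e =>
    hvc.differentiable (by simp) e
  set g : ℂ → ℂ := dzb 1 (fun e => (v e : ℂ)) with hg
  have hgd : ∀ e, DifferentiableAt ℝ g e := fun e =>
    (contDiffAt_dzb_inf 1 hvc.contDiffAt).differentiableAt (by simp)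
  have h1 : dzb ξ (fun x => ((v (EE N c x) : ℝ) : ℂ)) =
      fun q => conj (EE N c q * a) * g (EE N c q) := by
    funext q
    rw [← hEf q]
    exact dzb_comp_hol (u := fun e => (v e : ℂ)) (hEd q) (hvd _) ξ
  have hEr : ∀ q, DifferentiableAt ℝ (EE N c) q := fun q => (hEd q).restrictScalars ℝ
  have d1 : DifferentiableAt ℝ (fun q => conj (EE N c q * a)) p :=
    Complex.conjCLE.differentiableAt.comp p ((hEr p).mul_const a)
  have d2 : DifferentiableAt ℝ (fun q => g (EE N c q)) p := (hgd _).comp p (hEr p)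
  have h2 : dz ξ (fun q => conj (EE N c q * a)) p = 0 := by
    rw [dz_conj, dzb_hol ((hEd p).mul_const a), map_zero]
  have h3 : dz ξ (fun q => g (EE N c q)) p = fderiv ℂ (EE N c) p ξ * dz 1 g (EE N c p) :=
    dz_comp_hol (hEd p) (hgd _) ξ
  unfold D11
  rw [h1, dz_mul d1 d2, h2, h3, zero_mul, zero_add, ← hEf p, ← mul_assoc,
    ← Complex.normSq_eq_norm_sq, ← Complex.mul_conj, mul_comm (conj _)]

theorem VV_levi (hv : IsDip v Cv M L) {N : ℝ} (hN : 0 < N) {p : B2} (hp : p ∈ Dom) (ξ : B2) :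
    0 ≤ (D11 (VV v N) ξ ξ p).re := by
  rcases VV_local hv hN hp with ⟨c, _, h⟩ | h
  · rw [D11_congr h, Levi_comp hv.smooth, Complex.re_ofReal_mul]
    have hp' : 0 < rho p := hp
    have := hv.subh (EE N c p) 1 (norm_EE_le_one hN.le c hp'.le)
    positivity
  · rw [D11_congr h, D11_const]
    simp

theorem D11_sum {V : Type*} [NormedAddCommGroup V] [NormedSpace ℂ V] (J : ℕ) (P : ℕ → V → ℝ)
    {p : V} (hP : ∀ j, ContDiffAt ℝ ∞ (P j) p) (X Y : V) :
    D11 (fun x => ∑ j ∈ Finset.range J, P j x) X Y p = ∑ j ∈ Finset.range J, D11 (P j) X Y p := by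
  induction J with
  | zero => simp [D11_const]
  | succ J ih =>
    simp_rw [Finset.sum_range_succ]
    rw [D11_add (ContDiffAt.sum fun j _ => hP j) (hP J), ih]

theorem WW_levi (hv : IsDip v Cv M L) {N₀ B : ℝ} (hN₀ : 0 < N₀) (hB : 4 ≤ B) {p : B2}
    (hp : p ∈ Dom) (ξ : B2) : 0 ≤ (D11 (WW v N₀ B) ξ ξ p).re := by
  obtain ⟨J, hJ⟩ := WW_local hv hN₀ hB hp
  have hJ' : WW v N₀ B =ᶠ[𝓝 p] fun x => ∑ j ∈ Finset.range J, VV v (N₀ * B ^ j) x := hJ
  rw [D11_congr hJ', D11_sum J (fun j => VV v (N₀ * B ^ j))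
    (fun j => VV_contDiffAt hv (by positivity) hp), Complex.re_sum]
  exact Finset.sum_nonneg fun j _ => VV_levi hv (by positivity) hp ξ

end IslS

end Crest.Agent.R245
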