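import Crest.Agent.R245.KCWirt

/-!
R245 (helper676).  Christoffel map and curvature of a Kaehler metric `HermitianMetricOn`, from the
Prelude definitions.
-/

set_option autoImplicit false
set_option linter.deprecated false

open scoped ComplexConjugate ContDiff
open Crest Crest.GeometryTopology

namespace Crest.Agent.R245.KC

variable {n : ℕ} {U : Set (Fin n → ℂ)} (g : HermitianMetricOn n U)

section Algebra

variable {p : Fin n → ℂ}

theorem herm_add_left (X Y Z : Fin n → ℂ) :
    g.herm p (X + Y) Z = g.herm p X Z + g.herm p Y Z := by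
  simp only [HermitianMetricOn.herm, Pi.add_apply, ← Finset.sum_add_distrib]
  refine Finset.sum_congr rfl fun i _ => Finset.sum_congr rfl fun j _ => by ring

theorem herm_add_right (X Y Z : Fin n → ℂ) :
    g.herm p X (Y + Z) = g.herm p X Y + g.herm p X Z := by
  simp only [HermitianMetricOn.herm, Pi.add_apply, ← Finset.sum_add_distrib, map_add]
  refine Finset.sum_congr rfl fun i _ => Finset.sum_congr rfl fun j _ => by ring

theorem herm_smul_left (c : ℂ) (X Y : Fin n → ℂ) :
    g.herm p (c • X) Y = c * g.herm p X Y := by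
  simp only [HermitianMetricOn.herm, Pi.smul_apply, Finset.mul_sum, smul_eq_mul]
  refine Finset.sum_congr rfl fun i _ => Finset.sum_congr rfl fun j _ => by ring

theorem herm_smul_right (c : ℂ) (X Y : Fin n → ℂ) :
    g.herm p X (c • Y) = conj c * g.herm p X Y := by
  simp only [HermitianMetricOn.herm, Pi.smul_apply, Finset.mul_sum, smul_eq_mul, map_mul]
  refine Finset.sum_congr rfl fun i _ => Finset.sum_congr rfl fun j _ => by ring

theorem herm_neg_left (X Y : Fin n → ℂ) : g.herm p (-X) Y = - g.herm p X Y := by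
  have := herm_smul_left g (p := p) (-1) X Y; simpa using this

theorem herm_neg_right (X Y : Fin n → ℂ) : g.herm p X (-Y) = - g.herm p X Y := by
  have := herm_smul_right g (p := p) (-1) X Y; simpa using this

theorem herm_sub_left (X Y Z : Fin n → ℂ) :
    g.herm p (X - Y) Z = g.herm p X Z - g.herm p Y Z := by
  rw [sub_eq_add_neg, herm_add_left, herm_neg_left]; ring

theorem herm_sub_right (X Y Z : Fin n → ℂ) :
    g.herm p X (Y - Z) = g.herm p X Y - g.herm p X Z := by
  rw [sub_eq_add_neg, herm_add_right, herm_neg_right]; ring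

theorem herm_zero_left (Y : Fin n → ℂ) : g.herm p 0 Y = 0 := by
  have := herm_smul_left g (p := p) 0 0 Y; simpa using this

theorem herm_zero_right (Y : Fin n → ℂ) : g.herm p Y 0 = 0 := by
  have := herm_smul_right g (p := p) 0 Y 0; simpa using this

theorem herm_conj (hp : p ∈ U) (X Y : Fin n → ℂ) : conj (g.herm p X Y) = g.herm p Y X := by
  simp only [HermitianMetricOn.herm, map_sum, map_mul, Complex.conj_conj]
  rw [Finset.sum_comm]
  refine Finset.sum_congr rfl fun i _ => Finset.sum_congr rfl fun j _ => ?_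
  rw [← g.hermitian p hp i j]; ring

theorem herm_self_pos (hp : p ∈ U) (X : Fin n → ℂ) (hX : X ≠ 0) : 0 < (g.herm p X X).re :=
  g.posDef p hp X hX

theorem herm_self_im (hp : p ∈ U) (X : Fin n → ℂ) : (g.herm p X X).im = 0 := by
  have h := herm_conj g hp X X
  exact Complex.conj_eq_iff_im.mp h

theorem herm_ext (hp : p ∈ U) {V W : Fin n → ℂ} (h : ∀ Z, g.herm p V Z = g.herm p W Z) :
    V = W := by
  by_contra hne
  have h1 : V - W ≠ 0 := sub_ne_zero.mpr hne
  have h2 := herm_self_pos g hp (V - W) h1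
  rw [herm_sub_left, h] at h2
  simp at h2

theorem det_ne_zero (hp : p ∈ U) : (Matrix.of fun i j => g.h j i p).det ≠ 0 := by
  intro h0
  obtain ⟨v, hv0, hv⟩ := Matrix.exists_mulVec_eq_zero_iff.mpr h0
  have h1 := g.posDef p hp v hv0
  have h2 : ∑ i, ∑ j, g.h i j p * v i * conj (v j) = 0 := by
    rw [Finset.sum_comm]
    refine Finset.sum_eq_zero fun j _ => ?_
    have h3 := congrFun hv j
    simp only [Matrix.mulVec, dotProduct, Matrix.of_apply, Pi.zero_apply] at h3
    rw [← Finset.sum_mul, h3, zero_mul]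
  rw [h2] at h1
  simp at h1

theorem herm_raise (hp : p ∈ U) (ℓ : (Fin n → ℂ) → ℝ) (Z : Fin n → ℂ) :
    g.herm p (g.raise p ℓ) Z =
      ∑ j, ((ℓ (stdVec j) : ℂ) + Complex.I * ℓ (Complex.I • stdVec j)) * conj (Z j) := by
  set M : Matrix (Fin n) (Fin n) ℂ := Matrix.of fun i j => g.h j i p with hM
  set c : Fin n → ℂ := fun i => (ℓ (stdVec i) : ℂ) + Complex.I * ℓ (Complex.I • stdVec i) with hc
  have hu : IsUnit M.det := isUnit_iff_ne_zero.mpr (det_ne_zero g hp)
  have h1 : M.mulVec (g.raise p ℓ) = c := by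
    show M.mulVec (M⁻¹.mulVec c) = c
    rw [Matrix.mulVec_mulVec, Matrix.mul_nonsing_inv _ hu, Matrix.one_mulVec]
  simp only [HermitianMetricOn.herm]
  rw [Finset.sum_comm]
  refine Finset.sum_congr rfl fun j _ => ?_
  rw [← Finset.sum_mul]
  congr 1
  exact congrFun h1 j

/-- If `ℓ` is the real part of a conjugate linear functional, `raise` represents it. -/
theorem herm_raise_of (hp : p ∈ U) (ℓ : (Fin n → ℂ) → ℝ) (T : (Fin n → ℂ) → ℂ)
    (hT : ∀ Z, T Z = ∑ j, T (stdVec j) * conj (Z j)) (hℓ : ∀ Z, ℓ Z = (T Z).re)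
    (Z : Fin n → ℂ) : g.herm p (g.raise p ℓ) Z = T Z := by
  rw [herm_raise g hp, hT Z]
  refine Finset.sum_congr rfl fun j _ => ?_
  congr 1
  have h1 : T (Complex.I • stdVec j) = - Complex.I * T (stdVec j) := by
    rw [hT]
    have : ∀ k, T (stdVec k) * conj ((Complex.I • (stdVec j : Fin n → ℂ)) k) =
        if k = j then -Complex.I * T (stdVec j) else 0 := by
      intro k
      by_cases hk : k = j
      · subst hk; simp [stdVec]; ring
      · simp [stdVec, hk]
    simp only [this]
    simp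
  rw [hℓ, hℓ, h1]
  apply Complex.ext <;> simp

end Algebra

section Smooth

theorem herm_contDiffOn (Y Z : Fin n → ℂ) : ContDiffOn ℝ ∞ (fun q => g.herm q Y Z) U := by
  unfold HermitianMetricOn.herm
  refine ContDiffOn.sum fun i _ => ContDiffOn.sum fun j _ => ?_
  exact ((g.smooth i j).mul contDiffOn_const).mul contDiffOn_const

theorem dz_herm_eq (hU : IsOpen U) {p : Fin n → ℂ} (hp : p ∈ U) (X Y Z : Fin n → ℂ) :
    dz X (fun q => g.herm q Y Z) p =
      ∑ i, ∑ j, dz X (g.h i j) p * Y i * conj (Z j) := by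
  have hd : ∀ i j, DifferentiableAt ℝ (g.h i j) p := fun i j =>
    differentiableAt_of_contDiffOn hU (g.smooth i j) hp
  have h1 : (fun q => g.herm q Y Z) = fun q => ∑ i, ∑ j, (Y i * conj (Z j)) * g.h i j q := by
    ext q
    simp only [HermitianMetricOn.herm]
    refine Finset.sum_congr rfl fun i _ => Finset.sum_congr rfl fun j _ => by ring
  rw [h1, dz_sum]
  · refine Finset.sum_congr rfl fun i _ => ?_
    rw [dz_sum]
    · refine Finset.sum_congr rfl fun j _ => ?_
      rw [dz_const_mul]; ring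
    · intro j _; exact (hd i j).const_mul _
  · intro i _
    exact DifferentiableAt.fun_sum fun j _ => (hd i j).const_mul _

theorem dz_herm_symm (hU : IsOpen U) (hK : g.IsKahler) {p : Fin n → ℂ} (hp : p ∈ U)
    (X Y Z : Fin n → ℂ) :
    dz X (fun q => g.herm q Y Z) p = dz Y (fun q => g.herm q X Z) p := by
  rw [dz_herm_eq g hU hp, dz_herm_eq g hU hp]
  have h1 : ∀ i j, dz X (g.h i j) p = ∑ k, X k * wirtingerDeriv (g.h i j) k p := fun i j => by
    rw [dz_eq_sum]; rfl
  have h2 : ∀ i j, dz Y (g.h i j) p = ∑ k, Y k * wirtingerDeriv (g.h i j) k p := fun i j => by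
    rw [dz_eq_sum]; rfl
  simp only [h1, h2, Finset.sum_mul]
  have e1 : ∑ i, ∑ j, ∑ k, X k * wirtingerDeriv (g.h i j) k p * Y i * conj (Z j) =
      ∑ i, ∑ k, ∑ j, X k * wirtingerDeriv (g.h i j) k p * Y i * conj (Z j) :=
    Finset.sum_congr rfl fun i _ => Finset.sum_comm
  have e2 : ∑ i, ∑ j, ∑ k, Y k * wirtingerDeriv (g.h i j) k p * X i * conj (Z j) =
      ∑ i, ∑ k, ∑ j, Y k * wirtingerDeriv (g.h i j) k p * X i * conj (Z j) :=
    Finset.sum_congr rfl fun i _ => Finset.sum_comm
  rw [e1, e2, Finset.sum_comm]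
  refine Finset.sum_congr rfl fun k _ => Finset.sum_congr rfl fun i _ =>
    Finset.sum_congr rfl fun j _ => ?_
  rw [hK p hp i j k]; ring

theorem dzb_herm_eq_conj (hU : IsOpen U) {p : Fin n → ℂ} (hp : p ∈ U) (X Y Z : Fin n → ℂ) :
    dzb X (fun q => g.herm q Y Z) p = conj (dz X (fun q => g.herm q Z Y) p) := by
  rw [← dzb_conj]
  refine dzb_congr_of_eventuallyEq X ?_
  filter_upwards [hU.mem_nhds hp] with q hq
  exact (herm_conj g hq Z Y).symm

theorem dz_herm_conjLinear (hU : IsOpen U) {p : Fin n → ℂ} (hp : p ∈ U)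
    (X Y Z : Fin n → ℂ) :
    dz X (fun q => g.herm q Y Z) p = ∑ j, dz X (fun q => g.herm q Y (stdVec j)) p * conj (Z j) := by
  rw [dz_herm_eq g hU hp, Finset.sum_comm]
  refine Finset.sum_congr rfl fun j _ => ?_
  rw [dz_herm_eq g hU hp, Finset.sum_mul]
  refine Finset.sum_congr rfl fun i _ => ?_
  congr 1
  rw [Finset.sum_eq_single j]
  · simp [stdVec]
  · intro k _ hk
    simp [stdVec, hk]
  · simp

theorem dRiem_eq (hU : IsOpen U) {p : Fin n → ℂ} (hp : p ∈ U) (X Y Z : Fin n → ℂ) :
    g.dRiem p X Y Z = (dz X (fun q => g.herm q Y Z) p +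
      conj (dz X (fun q => g.herm q Z Y) p)).re := by
  rw [← dzb_herm_eq_conj g hU hp, dz_add_dzb]
  unfold HermitianMetricOn.dRiem HermitianMetricOn.riem
  have hd : DifferentiableAt ℝ (fun q => g.herm q Y Z) p :=
    differentiableAt_of_contDiffOn hU (herm_contDiffOn g Y Z) hp
  have h1 : HasFDerivAt (fun q => (g.herm q Y Z).re)
      (Complex.reCLM.comp (fderiv ℝ (fun q => g.herm q Y Z) p)) p :=
    Complex.reCLM.hasFDerivAt.comp p hd.hasFDerivAt
  rw [h1.fderiv]
  simp

/-- Christoffel map of a Kaehler metric: `H(Γ(X,Y),Z) = ∂_X (H(Y,Z))`. -/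
theorem herm_christoffel (hU : IsOpen U) (hK : g.IsKahler) {p : Fin n → ℂ} (hp : p ∈ U)
    (X Y Z : Fin n → ℂ) :
    g.herm p (g.christoffel p X Y) Z = dz X (fun q => g.herm q Y Z) p := by
  unfold HermitianMetricOn.christoffel
  refine herm_raise_of g hp _ (fun Z => dz X (fun q => g.herm q Y Z) p) ?_ ?_ Z
  · intro Z
    exact dz_herm_conjLinear g hU hp X Y Z
  · intro Z
    rw [dRiem_eq g hU hp, dRiem_eq g hU hp, dRiem_eq g hU hp,
      dz_herm_symm g hU hK hp Y X Z, dz_herm_symm g hU hK hp Z X Y,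
      dz_herm_symm g hU hK hp Z Y X, dz_herm_symm g hU hK hp Y Z X]
    simp only [Complex.add_re, Complex.conj_re]
    ring

theorem christoffel_symm (hU : IsOpen U) (hK : g.IsKahler) {p : Fin n → ℂ} (hp : p ∈ U)
    (X Y : Fin n → ℂ) : g.christoffel p X Y = g.christoffel p Y X := by
  refine herm_ext g hp fun Z => ?_
  rw [herm_christoffel g hU hK hp, herm_christoffel g hU hK hp, dz_herm_symm g hU hK hp]

theorem det_contDiffOn {m : ℕ} {M : (Fin n → ℂ) → Matrix (Fin m) (Fin m) ℂ}
    (hM : ∀ i j, ContDiffOn ℝ ∞ (fun q => M q i j) U) :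
    ContDiffOn ℝ ∞ (fun q => (M q).det) U := by
  have : (fun q => (M q).det) = fun q => ∑ σ : Equiv.Perm (Fin m),
      ((Equiv.Perm.sign σ : ℤ) : ℂ) * ∏ i, M q (σ i) i := by
    ext q
    rw [Matrix.det_apply']
  rw [this]
  refine ContDiffOn.sum fun σ _ => contDiffOn_const.mul ?_
  exact contDiffOn_prod fun i _ => hM _ _

theorem christoffel_contDiffOn (hU : IsOpen U) (hK : g.IsKahler) (X Y : Fin n → ℂ) :
    ContDiffOn ℝ ∞ (fun q => g.christoffel q X Y) U := by
  set M : (Fin n → ℂ) → Matrix (Fin n) (Fin n) ℂ := fun q => Matrix.of fun i j => g.h j i q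
    with hM
  set c : (Fin n → ℂ) → Fin n → ℂ := fun q j => dz X (fun q => g.herm q Y (stdVec j)) q with hc
  have hcs : ∀ j, ContDiffOn ℝ ∞ (fun q => c q j) U := fun j =>
    contDiffOn_dz X hU (herm_contDiffOn g Y (stdVec j))
  have hdet : ContDiffOn ℝ ∞ (fun q => (M q).det) U := det_contDiffOn fun i j => g.smooth j i
  have hadj : ∀ i j, ContDiffOn ℝ ∞ (fun q => (M q).adjugate i j) U := by
    intro i j
    have : (fun q => (M q).adjugate i j) = fun q => ((M q).updateRow j (Pi.single i 1)).det := by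
      ext q; rw [Matrix.adjugate_apply]
    rw [this]
    refine det_contDiffOn fun a b => ?_
    by_cases ha : a = j
    · subst ha
      simp only [Matrix.updateRow_self]
      exact contDiffOn_const
    · simp only [Matrix.updateRow_ne ha]
      exact g.smooth b a
  have heq : ∀ q ∈ U, g.christoffel q X Y = fun i => ∑ j, ((M q).det)⁻¹ *
      (M q).adjugate i j * c q j := by
    intro q hq
    have hu : IsUnit (M q).det := isUnit_iff_ne_zero.mpr (det_ne_zero g hq)
    have h1 : (M q).mulVec (g.christoffel q X Y) = c q := by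
      ext j
      have h2 := herm_christoffel g hU hK hq X Y (stdVec j)
      rw [hc]
      simp only
      rw [← h2]
      simp only [HermitianMetricOn.herm, Matrix.mulVec, dotProduct, hM, Matrix.of_apply]
      refine Finset.sum_congr rfl fun i _ => ?_
      rw [Finset.sum_eq_single j]
      · simp [stdVec]
      · intro k _ hk; simp [stdVec, hk]
      · simp
    have h3 : g.christoffel q X Y = (M q)⁻¹.mulVec (c q) := by
      rw [← h1, Matrix.mulVec_mulVec, Matrix.nonsing_inv_mul _ hu, Matrix.one_mulVec]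
    rw [h3]
    ext i
    simp only [Matrix.mulVec, dotProduct, Matrix.inv_def, Ring.inverse_eq_inv',
      Matrix.smul_apply, smul_eq_mul]
  rw [contDiffOn_pi]
  intro i
  have h5 : ContDiffOn ℝ ∞ (fun q => ∑ j, ((M q).det)⁻¹ * (M q).adjugate i j * c q j) U := by
    refine ContDiffOn.sum fun j _ => ?_
    refine ContDiffOn.mul (ContDiffOn.mul ?_ (hadj i j)) (hcs j)
    exact hdet.inv fun q hq => det_ne_zero g hq
  refine h5.congr fun q hq => ?_
  rw [heq q hq]

theorem fderiv_herm_comp (hU : IsOpen U) {p : Fin n → ℂ} (hp : p ∈ U)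
    {G : (Fin n → ℂ) → (Fin n → ℂ)} (hG : DifferentiableAt ℝ G p) (X V : Fin n → ℂ) :
    fderiv ℝ (fun q => g.herm q (G q) V) p X =
      fderiv ℝ (fun q => g.herm q (G p) V) p X + g.herm p (fderiv ℝ G p X) V := by
  have hd : ∀ i j, DifferentiableAt ℝ (g.h i j) p := fun i j =>
    differentiableAt_of_contDiffOn hU (g.smooth i j) hp
  have hGi : ∀ i, HasFDerivAt (fun q => G q i)
      ((ContinuousLinearMap.proj (R := ℝ) (φ := fun _ : Fin n => ℂ) i).comp (fderiv ℝ G p)) p :=
    fun i => (ContinuousLinearMap.proj (R := ℝ) (φ := fun _ : Fin n => ℂ) i).hasFDerivAt.comp p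
      hG.hasFDerivAt
  have h1 : HasFDerivAt (fun q => g.herm q (G q) V)
      (∑ i, ∑ j, (((g.h i j p) • ((ContinuousLinearMap.proj (R := ℝ)
        (φ := fun _ : Fin n => ℂ) i).comp (fderiv ℝ G p)) + (G p i) • fderiv ℝ (g.h i j) p)).smulRight
          (conj (V j))) p := by
    unfold HermitianMetricOn.herm
    refine HasFDerivAt.fun_sum fun i _ => HasFDerivAt.fun_sum fun j _ => ?_
    have h3 := ((hd i j).hasFDerivAt.mul (hGi i)).mul_const (conj (V j))
    refine h3.congr_fderiv ?_
    ext Z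
    simp
    ring
  have h2 : HasFDerivAt (fun q => g.herm q (G p) V)
      (∑ i, ∑ j, ((G p i) • fderiv ℝ (g.h i j) p).smulRight (conj (V j))) p := by
    unfold HermitianMetricOn.herm
    refine HasFDerivAt.fun_sum fun i _ => HasFDerivAt.fun_sum fun j _ => ?_
    have h3 := ((hd i j).hasFDerivAt.mul_const (G p i)).mul_const (conj (V j))
    refine h3.congr_fderiv ?_
    ext Z
    simp
    ring
  rw [h1.fderiv, h2.fderiv]
  simp only [HermitianMetricOn.herm, ContinuousLinearMap.sum_apply,
    ContinuousLinearMap.smulRight_apply, ContinuousLinearMap.add_apply,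
    ContinuousLinearMap.smul_apply, ContinuousLinearMap.comp_apply,
    ContinuousLinearMap.proj_apply, smul_eq_mul, ← Finset.sum_add_distrib]
  refine Finset.sum_congr rfl fun i _ => Finset.sum_congr rfl fun j _ => ?_
  ring

/-- Half of the curvature computation. -/
theorem herm_fderiv_christoffel (hU : IsOpen U) (hK : g.IsKahler) {p : Fin n → ℂ} (hp : p ∈ U)
    (X Y Z V : Fin n → ℂ) :
    g.herm p (fderiv ℝ (fun q => g.christoffel q Y Z) p X +
        g.christoffel p X (g.christoffel p Y Z)) V =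
      dz X (dz Y (fun q => g.herm q Z V)) p + dzb X (dz Y (fun q => g.herm q Z V)) p
        - g.herm p (g.christoffel p Y Z) (g.christoffel p X V) := by
  have hG : DifferentiableAt ℝ (fun q => g.christoffel q Y Z) p :=
    ((christoffel_contDiffOn g hU hK Y Z).contDiffAt (hU.mem_nhds hp)).differentiableAt (by simp)
  have h1 := fderiv_herm_comp g hU hp hG X V
  have h2 : fderiv ℝ (fun q => g.herm q (g.christoffel q Y Z) V) p X =
      fderiv ℝ (dz Y (fun q => g.herm q Z V)) p X := by
    have : (fun q => g.herm q (g.christoffel q Y Z) V) =ᶠ[nhds p]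
        dz Y (fun q => g.herm q Z V) := by
      filter_upwards [hU.mem_nhds hp] with q hq
      exact herm_christoffel g hU hK hq Y Z V
    rw [this.fderiv_eq]
  rw [h2, ← dz_add_dzb, ← dz_add_dzb, ← herm_christoffel g hU hK hp,
    dzb_herm_eq_conj g hU hp, ← herm_christoffel g hU hK hp X V, herm_conj g hp] at h1
  rw [herm_add_left, h1]
  ring

/-- **Curvature of a Kaehler metric.** -/
theorem herm_curvature (hU : IsOpen U) (hK : g.IsKahler) {p : Fin n → ℂ} (hp : p ∈ U)
    (X Y Z V : Fin n → ℂ) :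
    g.herm p (g.curvature p X Y Z) V =
      (dzb X (dz Y (fun q => g.herm q Z V)) p
        - g.herm p (g.christoffel p Y Z) (g.christoffel p X V))
      - (dzb Y (dz X (fun q => g.herm q Z V)) p
        - g.herm p (g.christoffel p X Z) (g.christoffel p Y V)) := by
  have h1 := herm_fderiv_christoffel g hU hK hp X Y Z V
  have h2 := herm_fderiv_christoffel g hU hK hp Y X Z V
  have h3 : dz X (dz Y (fun q => g.herm q Z V)) p = dz Y (dz X (fun q => g.herm q Z V)) p :=
    dz_dz_comm hU (herm_contDiffOn g Z V) hp X Y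
  have h4 : g.curvature p X Y Z = (fderiv ℝ (fun q => g.christoffel q Y Z) p X +
        g.christoffel p X (g.christoffel p Y Z)) - (fderiv ℝ (fun q => g.christoffel q X Z) p Y +
        g.christoffel p Y (g.christoffel p X Z)) := by
    unfold HermitianMetricOn.curvature
    abel
  rw [h4, herm_sub_left, h1, h2, h3]
  ring

end Smooth

end Crest.Agent.R245.KC
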