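import Crest.Agent.R245.KCCurv

/-! R245 (helper676): the Kähler metric of a potential; its sectional curvature is `- negK / area`. -/

set_option autoImplicit false
set_option linter.deprecated false

namespace Crest.Agent.R245.KC

open Complex Filter Topology
open scoped ContDiff ComplexConjugate
open Crest.GeometryTopology

variable {n : ℕ} {U : Set (Fin n → ℂ)}

theorem contDiffOn_cast {P : (Fin n → ℂ) → ℝ} (hP : ContDiffOn ℝ ∞ P U) :
    ContDiffOn ℝ ∞ (fun q => (P q : ℂ)) U :=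
  Complex.ofRealCLM.contDiff.comp_contDiffOn hP

theorem contDiffOn_D11 (hU : IsOpen U) {P : (Fin n → ℂ) → ℝ} (hP : ContDiffOn ℝ ∞ P U)
    (X Y : Fin n → ℂ) : ContDiffOn ℝ ∞ (D11 P X Y) U := by
  have : D11 P X Y = dz X (dzb Y (fun q => (P q : ℂ))) := rfl
  rw [this]
  exact contDiffOn_dz X hU (contDiffOn_dzb Y hU (contDiffOn_cast hP))

theorem D11_conj (hU : IsOpen U) {P : (Fin n → ℂ) → ℝ} (hP : ContDiffOn ℝ ∞ P U)
    {p : Fin n → ℂ} (hp : p ∈ U) (X Y : Fin n → ℂ) : conj (D11 P X Y p) = D11 P Y X p := by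
  unfold D11
  rw [← dzb_conj]
  have h1 : (fun q => conj (dzb Y (fun q => (P q : ℂ)) q)) = dz Y (fun q => (P q : ℂ)) := by
    ext q
    rw [← dz_conj]
    simp
  rw [h1, dz_dzb_comm hU (contDiffOn_cast hP) hp]

theorem D11_eq_sum (hU : IsOpen U) {P : (Fin n → ℂ) → ℝ} (hP : ContDiffOn ℝ ∞ P U)
    {p : Fin n → ℂ} (hp : p ∈ U) (X Y : Fin n → ℂ) :
    D11 P X Y p = ∑ i, ∑ j, D11 P (stdVec i) (stdVec j) p * X i * conj (Y j) := by
  have h1 : D11 P X Y p = ∑ i, X i * dz (stdVec i) (dzb Y (fun q => (P q : ℂ))) p :=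
    dz_eq_sum X _ p
  rw [h1]
  refine Finset.sum_congr rfl fun i _ => ?_
  have h2 : dzb Y (fun q => (P q : ℂ)) = fun q => ∑ j, conj (Y j) *
      dzb (stdVec j) (fun q => (P q : ℂ)) q := by
    ext q
    exact dzb_eq_sum Y _ q
  have hd : ∀ j : Fin n, DifferentiableAt ℝ (dzb (stdVec j) (fun q => (P q : ℂ))) p := fun j =>
    differentiableAt_of_contDiffOn hU (contDiffOn_dzb _ hU (contDiffOn_cast hP)) hp
  rw [h2, dz_sum _ _ _ (fun j _ => (hd j).const_mul _), Finset.mul_sum]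
  refine Finset.sum_congr rfl fun j _ => ?_
  rw [dz_const_mul]
  unfold D11
  ring

/-- The metric with coefficients `∂_i ∂̄_j P`. -/
noncomputable def kmetric (hU : IsOpen U) (P : (Fin n → ℂ) → ℝ) (hP : ContDiffOn ℝ ∞ P U)
    (hpd : ∀ p ∈ U, PD P p) : HermitianMetricOn n U where
  h i j p := D11 P (stdVec i) (stdVec j) p
  hermitian p hp i j := (D11_conj hU hP hp _ _).symm
  posDef p hp X hX := by
    rw [← D11_eq_sum hU hP hp]; exact hpd p hp X hX
  smooth i j := contDiffOn_D11 hU hP _ _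

theorem kmetric_herm (hU : IsOpen U) (P : (Fin n → ℂ) → ℝ) (hP : ContDiffOn ℝ ∞ P U)
    (hpd : ∀ p ∈ U, PD P p) {p : Fin n → ℂ} (hp : p ∈ U) (X Y : Fin n → ℂ) :
    (kmetric hU P hP hpd).herm p X Y = D11 P X Y p := (D11_eq_sum hU hP hp X Y).symm

theorem kmetric_kahler (hU : IsOpen U) (P : (Fin n → ℂ) → ℝ) (hP : ContDiffOn ℝ ∞ P U)
    (hpd : ∀ p ∈ U, PD P p) : (kmetric hU P hP hpd).IsKahler := by
  intro p hp i j k
  exact dz_dz_comm hU (contDiffOn_dzb _ hU (contDiffOn_cast hP)) hp (stdVec k) (stdVec i)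

theorem kmetric_isGam (hU : IsOpen U) (P : (Fin n → ℂ) → ℝ) (hP : ContDiffOn ℝ ∞ P U)
    (hpd : ∀ p ∈ U, PD P p) {p : Fin n → ℂ} (hp : p ∈ U) (X Y : Fin n → ℂ) :
    IsGam P p X Y ((kmetric hU P hP hpd).christoffel p X Y) := by
  intro Z
  rw [← kmetric_herm hU P hP hpd hp,
    herm_christoffel _ hU (kmetric_kahler hU P hP hpd) hp]
  unfold D21
  refine dz_congr_of_eventuallyEq X ?_
  filter_upwards [hU.mem_nhds hp] with q hq
  exact kmetric_herm hU P hP hpd hq Y Z

theorem kmetric_curv (hU : IsOpen U) (P : (Fin n → ℂ) → ℝ) (hP : ContDiffOn ℝ ∞ P U)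
    (hpd : ∀ p ∈ U, PD P p) {p : Fin n → ℂ} (hp : p ∈ U) (X Y : Fin n → ℂ) :
    (kmetric hU P hP hpd).riem p ((kmetric hU P hP hpd).curvature p X Y Y) X =
      - negK P p X Y ((kmetric hU P hP hpd).christoffel p X X)
        ((kmetric hU P hP hpd).christoffel p X Y) ((kmetric hU P hP hpd).christoffel p Y Y) := by
  set g := kmetric hU P hP hpd with hg
  have hK := kmetric_kahler hU P hP hpd
  have hPc := contDiffOn_cast hP
  unfold HermitianMetricOn.riem
  rw [herm_curvature g hU hK hp]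
  have e1 : dzb X (dz Y (fun q => g.herm q Y X)) p = conj (D22 P X X Y Y p) := by
    have a1 : Set.EqOn (fun q => g.herm q Y X) (dz Y (dzb X (fun q => (P q : ℂ)))) U :=
      fun q hq => kmetric_herm hU P hP hpd hq Y X
    rw [dzb_congr_on X hU (dz_congr_on Y hU a1) hp]
    unfold D22
    rw [← dzb_conj]
    refine dzb_congr_on X hU ?_ hp
    intro q hq
    have a2 : ∀ q, conj (dz X (dzb Y (dzb Y (fun q => (P q : ℂ)))) q) =
        dzb X (dz Y (dz Y (fun q => (P q : ℂ)))) q := by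
      intro q
      rw [← dzb_conj]
      have a3 : (fun q => conj (dzb Y (dzb Y (fun q => (P q : ℂ))) q)) =
          dz Y (dz Y (fun q => (P q : ℂ))) := by
        ext q
        rw [← dz_conj]
        have a4 : (fun q => conj (dzb Y (fun q => (P q : ℂ)) q)) = dz Y (fun q => (P q : ℂ)) := by
          ext q
          rw [← dz_conj]
          simp
        rw [a4]
      rw [a3]
    refine Eq.trans ?_ (a2 q).symm
    have a5 : Set.EqOn (dz Y (dzb X (fun q => (P q : ℂ)))) (dzb X (dz Y (fun q => (P q : ℂ)))) U :=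
      fun q hq => dz_dzb_comm hU hPc hq Y X
    rw [dz_congr_on Y hU a5 hq]
    exact dz_dzb_comm hU (contDiffOn_dz Y hU hPc) hq Y X
  have e2 : dzb Y (dz X (fun q => g.herm q Y X)) p = D22 P X Y X Y p := by
    have a1 : Set.EqOn (fun q => g.herm q Y X) (dz Y (dzb X (fun q => (P q : ℂ)))) U :=
      fun q hq => kmetric_herm hU P hP hpd hq Y X
    rw [dzb_congr_on Y hU (dz_congr_on X hU a1) hp]
    unfold D22
    have b0 := contDiffOn_dzb X hU hPc
    rw [← dz_dzb_comm hU (contDiffOn_dz Y hU b0) hp X Y]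
    refine dz_congr_on X hU ?_ hp
    intro q hq
    rw [← dz_dzb_comm hU b0 hq Y Y]
    refine dz_congr_on Y hU ?_ hq
    intro r hr
    exact dzb_dzb_comm hU hPc hr Y X
  have e3 : g.christoffel p Y X = g.christoffel p X Y := christoffel_symm g hU hK hp Y X
  rw [e1, e2, e3, kmetric_herm hU P hP hpd hp, kmetric_herm hU P hP hpd hp]
  unfold negK
  have e4 : D11 P (g.christoffel p Y Y) (g.christoffel p X X) p =
      conj (D11 P (g.christoffel p X X) (g.christoffel p Y Y) p) := (D11_conj hU hP hp _ _).symm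
  rw [e4]
  simp only [Complex.sub_re, Complex.add_re, Complex.conj_re]
  ring

/-- Cauchy–Schwarz for the real part. -/
theorem gram_nonneg (g : HermitianMetricOn n U) {p : Fin n → ℂ} (hp : p ∈ U)
    (X Y : Fin n → ℂ) : 0 ≤ g.riem p X X * g.riem p Y Y - g.riem p X Y ^ 2 := by
  by_cases hY : Y = 0
  · subst hY
    have h1 : g.riem p X 0 = 0 := by
      unfold HermitianMetricOn.riem; rw [herm_zero_right]; simp
    have h2 : g.riem p 0 0 = 0 := by
      unfold HermitianMetricOn.riem; rw [herm_zero_right]; simp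
    rw [h1, h2]; simp
  have hYY : 0 < g.riem p Y Y := herm_self_pos g hp Y hY
  set t : ℝ := g.riem p X Y / g.riem p Y Y with ht
  have h1 : 0 ≤ g.riem p (X - (t : ℂ) • Y) (X - (t : ℂ) • Y) := by
    by_cases h0 : X - (t : ℂ) • Y = 0
    · rw [h0]
      unfold HermitianMetricOn.riem
      rw [herm_zero_right]; simp
    · exact (herm_self_pos g hp _ h0).le
  have h2 : g.riem p (X - (t : ℂ) • Y) (X - (t : ℂ) • Y) =
      g.riem p X X - 2 * t * g.riem p X Y + t ^ 2 * g.riem p Y Y := by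
    unfold HermitianMetricOn.riem
    rw [herm_sub_left, herm_sub_right, herm_sub_right, herm_smul_left, herm_smul_right,
      herm_smul_left, herm_smul_right, ← herm_conj g hp X Y]
    simp
    ring
  rw [h2] at h1
  have h3 : t * g.riem p Y Y = g.riem p X Y := by
    rw [ht]; field_simp
  have h4 : g.riem p X X * g.riem p Y Y - g.riem p X Y ^ 2 = g.riem p Y Y *
      (g.riem p X X - 2 * t * g.riem p X Y + t ^ 2 * g.riem p Y Y) := by
    rw [← h3]; ring
  rw [h4]
  exact mul_nonneg hYY.le h1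

theorem kmetric_sectional (hU : IsOpen U) (P : (Fin n → ℂ) → ℝ) (hP : ContDiffOn ℝ ∞ P U)
    (hpd : ∀ p ∈ U, PD P p) {p : Fin n → ℂ} (hp : p ∈ U) {c B : ℝ} (hKB : KB P p c B)
    (X Y : Fin n → ℂ)
    (hne : (kmetric hU P hP hpd).riem p X X * (kmetric hU P hP hpd).riem p Y Y -
      (kmetric hU P hP hpd).riem p X Y ^ 2 ≠ 0) :
    -B ≤ (kmetric hU P hP hpd).sectional p X Y ∧ (kmetric hU P hP hpd).sectional p X Y ≤ -c := by
  have hpos := lt_of_le_of_ne (gram_nonneg (kmetric hU P hP hpd) hp X Y) (Ne.symm hne)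
  obtain ⟨h1, h2⟩ := hKB X Y _ _ _ (kmetric_isGam hU P hP hpd hp X X)
    (kmetric_isGam hU P hP hpd hp X Y) (kmetric_isGam hU P hP hpd hp Y Y)
  have harea : area P p X Y = (kmetric hU P hP hpd).riem p X X * (kmetric hU P hP hpd).riem p Y Y -
      (kmetric hU P hP hpd).riem p X Y ^ 2 := by
    unfold area HermitianMetricOn.riem
    rw [kmetric_herm hU P hP hpd hp, kmetric_herm hU P hP hpd hp, kmetric_herm hU P hP hpd hp]
  unfold HermitianMetricOn.sectional
  rw [kmetric_curv hU P hP hpd hp]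
  rw [harea] at h1 h2
  constructor
  · rw [le_div_iff₀ hpos]; linarith
  · rw [div_le_iff₀ hpos]; linarith

end Crest.Agent.R245.KC
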