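import Crest.Agent.R245.Defs

/-!
R245 (helper676).  Directional Wirtinger calculus on `Fin n → ℂ` (used for Kaehler metrics
`HermitianMetricOn` on open sets).
-/

set_option autoImplicit false
set_option linter.deprecated false

open scoped ComplexConjugate ContDiff
open Crest Crest.GeometryTopology

namespace Crest.Agent.R245.KC

section Wirtinger

variable {n : ℕ}

variable (X Y : Fin n → ℂ) (f g : (Fin n → ℂ) → ℂ) (p : Fin n → ℂ)

theorem wirtingerDeriv_eq_dz (k : Fin n) : wirtingerDeriv f k p = dz (stdVec k) f p := rfl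

theorem dz_add_dzb : dz X f p + dzb X f p = fderiv ℝ f p X := by
  unfold dz dzb; ring

theorem dz_add_left : dz (X + Y) f p = dz X f p + dz Y f p := by
  unfold dz; rw [smul_add, map_add, map_add]; ring

theorem dzb_add_left : dzb (X + Y) f p = dzb X f p + dzb Y f p := by
  unfold dzb; rw [smul_add, map_add, map_add]; ring

theorem fderiv_smul_complex (c : ℂ) :
    fderiv ℝ f p (c • X) = c.re * fderiv ℝ f p X + c.im * fderiv ℝ f p (Complex.I • X) := by
  have h : c • X = c.re • X + c.im • (Complex.I • X) := by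
    ext i
    simp only [Pi.smul_apply, Pi.add_apply, smul_eq_mul, Complex.real_smul]
    conv_lhs => rw [← Complex.re_add_im c]
    ring
  rw [h, map_add, map_smul, map_smul, Complex.real_smul, Complex.real_smul]

theorem dz_smul_left (c : ℂ) : dz (c • X) f p = c * dz X f p := by
  unfold dz
  rw [smul_smul, fderiv_smul_complex X f p c, fderiv_smul_complex X f p (Complex.I * c)]
  have h1 : (Complex.I * c).re = -c.im := by simp
  have h2 : (Complex.I * c).im = c.re := by simp
  rw [h1, h2]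
  conv_rhs => rw [← Complex.re_add_im c]
  push_cast
  ring_nf
  rw [Complex.I_sq]
  ring

theorem dzb_smul_left (c : ℂ) : dzb (c • X) f p = conj c * dzb X f p := by
  unfold dzb
  rw [smul_smul, fderiv_smul_complex X f p c, fderiv_smul_complex X f p (Complex.I * c)]
  have h1 : (Complex.I * c).re = -c.im := by simp
  have h2 : (Complex.I * c).im = c.re := by simp
  rw [h1, h2]
  have h3 : conj c = c.re - c.im * Complex.I := by
    apply Complex.ext <;> simp
  rw [h3]
  push_cast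
  ring_nf
  rw [Complex.I_sq]
  ring

theorem dz_zero_left : dz (0 : Fin n → ℂ) f p = 0 := by
  simp [dz]

theorem dzb_zero_left : dzb (0 : Fin n → ℂ) f p = 0 := by
  simp [dzb]

theorem dz_neg_left : dz (-X) f p = -dz X f p := by
  have := dz_smul_left X f p (-1); simpa using this

theorem dzb_neg_left : dzb (-X) f p = -dzb X f p := by
  have := dzb_smul_left X f p (-1); simpa using this

/-- `∂_X f` as a linear functional of `X`. -/
noncomputable def dzL (f : (Fin n → ℂ) → ℂ) (p : Fin n → ℂ) : (Fin n → ℂ) →ₗ[ℂ] ℂ where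
  toFun X := dz X f p
  map_add' X Y := dz_add_left X Y f p
  map_smul' c X := dz_smul_left X f p c

theorem sum_stdVec (X : Fin n → ℂ) : X = ∑ k, X k • (stdVec k : Fin n → ℂ) := by
  ext i
  simp [stdVec, Finset.sum_apply, Pi.single_apply]

theorem dz_eq_sum : dz X f p = ∑ k, X k * dz (stdVec k) f p := by
  have h : dz X f p = dzL f p X := rfl
  conv_lhs => rw [h, sum_stdVec X, map_sum]
  simp only [map_smul, smul_eq_mul]
  rfl

/-- conjugation exchanges the two operators -/
theorem fderiv_conj : fderiv ℝ (fun q => conj (f q)) p X = conj (fderiv ℝ f p X) := by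
  have h := ContinuousLinearEquiv.comp_fderiv (Complex.conjCLE) (f := f) (x := p)
  have h2 : (Complex.conjCLE ∘ f) = fun q => conj (f q) := by
    ext q; simp
  rw [h2] at h
  rw [h]
  simp

theorem dz_conj : dz X (fun q => conj (f q)) p = conj (dzb X f p) := by
  unfold dz dzb
  rw [fderiv_conj, fderiv_conj]
  simp only [map_div₀, map_add, map_sub, map_mul, Complex.conj_I, map_ofNat]
  ring

theorem dzb_conj : dzb X (fun q => conj (f q)) p = conj (dz X f p) := by
  unfold dz dzb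
  rw [fderiv_conj, fderiv_conj]
  simp only [map_div₀, map_add, map_sub, map_mul, Complex.conj_I, map_ofNat]
  ring

theorem dzb_eq_sum : dzb X f p = ∑ k, conj (X k) * dzb (stdVec k) f p := by
  have h := dz_eq_sum X (fun q => conj (f q)) p
  rw [dz_conj] at h
  have h2 := congrArg conj h
  rw [Complex.conj_conj] at h2
  rw [h2, map_sum]
  refine Finset.sum_congr rfl fun k _ => ?_
  rw [map_mul, dz_conj, Complex.conj_conj]

variable {f g} {p}

theorem dz_congr_of_eventuallyEq (h : f =ᶠ[nhds p] g) : dz X f p = dz X g p := by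
  unfold dz; rw [h.fderiv_eq]

theorem dzb_congr_of_eventuallyEq (h : f =ᶠ[nhds p] g) : dzb X f p = dzb X g p := by
  unfold dzb; rw [h.fderiv_eq]

theorem dz_congr_on {U : Set (Fin n → ℂ)} (hU : IsOpen U) (h : Set.EqOn f g U) :
    Set.EqOn (dz X f) (dz X g) U := fun _ hq =>
  dz_congr_of_eventuallyEq X (h.eventuallyEq_of_mem (hU.mem_nhds hq))

theorem dzb_congr_on {U : Set (Fin n → ℂ)} (hU : IsOpen U) (h : Set.EqOn f g U) :
    Set.EqOn (dzb X f) (dzb X g) U := fun _ hq =>
  dzb_congr_of_eventuallyEq X (h.eventuallyEq_of_mem (hU.mem_nhds hq))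

theorem dz_const (c : ℂ) : dz X (fun _ => c) p = 0 := by simp [dz]
theorem dzb_const (c : ℂ) : dzb X (fun _ => c) p = 0 := by simp [dzb]

theorem dz_add (hf : DifferentiableAt ℝ f p) (hg : DifferentiableAt ℝ g p) :
    dz X (fun q => f q + g q) p = dz X f p + dz X g p := by
  unfold dz; rw [fderiv_fun_add hf hg]; simp only [ContinuousLinearMap.add_apply]; ring

theorem dzb_add (hf : DifferentiableAt ℝ f p) (hg : DifferentiableAt ℝ g p) :
    dzb X (fun q => f q + g q) p = dzb X f p + dzb X g p := by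
  unfold dzb; rw [fderiv_fun_add hf hg]; simp only [ContinuousLinearMap.add_apply]; ring

theorem dz_sub (hf : DifferentiableAt ℝ f p) (hg : DifferentiableAt ℝ g p) :
    dz X (fun q => f q - g q) p = dz X f p - dz X g p := by
  unfold dz; rw [fderiv_fun_sub hf hg]; simp only [ContinuousLinearMap.sub_apply]; ring

theorem dzb_sub (hf : DifferentiableAt ℝ f p) (hg : DifferentiableAt ℝ g p) :
    dzb X (fun q => f q - g q) p = dzb X f p - dzb X g p := by
  unfold dzb; rw [fderiv_fun_sub hf hg]; simp only [ContinuousLinearMap.sub_apply]; ring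

theorem dz_neg : dz X (fun q => - f q) p = - dz X f p := by
  unfold dz; rw [fderiv_fun_neg]; simp only [ContinuousLinearMap.neg_apply]; ring

theorem dzb_neg : dzb X (fun q => - f q) p = - dzb X f p := by
  unfold dzb; rw [fderiv_fun_neg]; simp only [ContinuousLinearMap.neg_apply]; ring

theorem dz_mul (hf : DifferentiableAt ℝ f p) (hg : DifferentiableAt ℝ g p) :
    dz X (fun q => f q * g q) p = f p * dz X g p + g p * dz X f p := by
  unfold dz; rw [fderiv_fun_mul hf hg]
  simp only [ContinuousLinearMap.add_apply, ContinuousLinearMap.smul_apply, smul_eq_mul]; ring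

theorem dzb_mul (hf : DifferentiableAt ℝ f p) (hg : DifferentiableAt ℝ g p) :
    dzb X (fun q => f q * g q) p = f p * dzb X g p + g p * dzb X f p := by
  unfold dzb; rw [fderiv_fun_mul hf hg]
  simp only [ContinuousLinearMap.add_apply, ContinuousLinearMap.smul_apply, smul_eq_mul]; ring

theorem dz_const_mul (c : ℂ) : dz X (fun q => c * f q) p = c * dz X f p := by
  by_cases hf : DifferentiableAt ℝ f p
  · rw [dz_mul X (differentiableAt_const c) hf, dz_const]; ring
  · by_cases hc : c = 0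
    · subst hc; simp [dz]
    · have : ¬ DifferentiableAt ℝ (fun q => c * f q) p := by
        intro h
        apply hf
        have h2 := h.const_mul c⁻¹
        refine h2.congr_of_eventuallyEq (Filter.Eventually.of_forall fun q => ?_)
        simp [← mul_assoc, inv_mul_cancel₀ hc]
      unfold dz
      rw [fderiv_zero_of_not_differentiableAt this, fderiv_zero_of_not_differentiableAt hf]
      simp

theorem dzb_const_mul (c : ℂ) : dzb X (fun q => c * f q) p = c * dzb X f p := by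
  have h := dz_const_mul (f := fun q => conj (f q)) X (p := p) (conj c)
  have h2 : (fun q => conj c * conj (f q)) = fun q => conj (c * f q) := by
    ext q; rw [map_mul]
  rw [h2, dz_conj, dz_conj] at h
  have h3 := congrArg conj h
  rw [map_mul, Complex.conj_conj, Complex.conj_conj, Complex.conj_conj] at h3
  exact h3

theorem dz_sum {ι : Type*} (s : Finset ι) (F : ι → (Fin n → ℂ) → ℂ)
    (h : ∀ i ∈ s, DifferentiableAt ℝ (F i) p) :
    dz X (fun q => ∑ i ∈ s, F i q) p = ∑ i ∈ s, dz X (F i) p := by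
  unfold dz
  rw [fderiv_fun_sum h]
  simp only [ContinuousLinearMap.sum_apply, ← Finset.sum_div, Finset.sum_sub_distrib,
    Finset.mul_sum]

theorem dzb_sum {ι : Type*} (s : Finset ι) (F : ι → (Fin n → ℂ) → ℂ)
    (h : ∀ i ∈ s, DifferentiableAt ℝ (F i) p) :
    dzb X (fun q => ∑ i ∈ s, F i q) p = ∑ i ∈ s, dzb X (F i) p := by
  unfold dzb
  rw [fderiv_fun_sum h]
  simp only [ContinuousLinearMap.sum_apply, ← Finset.sum_div, Finset.sum_add_distrib,
    Finset.mul_sum]

/-- real chain rule -/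
theorem dz_comp_ofReal {u : (Fin n → ℂ) → ℝ} {F : ℝ → ℝ} {F' : ℝ}
    (hF : HasDerivAt F F' (u p)) (hu : DifferentiableAt ℝ u p) :
    dz X (fun q => ((F (u q) : ℝ) : ℂ)) p = (F' : ℂ) * dz X (fun q => ((u q : ℝ) : ℂ)) p := by
  have key : ∀ Z, fderiv ℝ (fun q => ((F (u q) : ℝ) : ℂ)) p Z = (F' : ℂ) *
      fderiv ℝ (fun q => ((u q : ℝ) : ℂ)) p Z := by
    intro Z
    have h1 : HasFDerivAt (fun q => ((F (u q) : ℝ) : ℂ))
        (Complex.ofRealCLM.comp (F' • fderiv ℝ u p)) p :=
      Complex.ofRealCLM.hasFDerivAt.comp p (hF.comp_hasFDerivAt p hu.hasFDerivAt)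
    have h2 : HasFDerivAt (fun q => ((u q : ℝ) : ℂ)) (Complex.ofRealCLM.comp (fderiv ℝ u p)) p :=
      Complex.ofRealCLM.hasFDerivAt.comp p hu.hasFDerivAt
    rw [h1.fderiv, h2.fderiv]
    simp
  unfold dz
  rw [key, key]; ring

theorem dzb_comp_ofReal {u : (Fin n → ℂ) → ℝ} {F : ℝ → ℝ} {F' : ℝ}
    (hF : HasDerivAt F F' (u p)) (hu : DifferentiableAt ℝ u p) :
    dzb X (fun q => ((F (u q) : ℝ) : ℂ)) p = (F' : ℂ) * dzb X (fun q => ((u q : ℝ) : ℂ)) p := by
  have key : ∀ Z, fderiv ℝ (fun q => ((F (u q) : ℝ) : ℂ)) p Z = (F' : ℂ) *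
      fderiv ℝ (fun q => ((u q : ℝ) : ℂ)) p Z := by
    intro Z
    have h1 : HasFDerivAt (fun q => ((F (u q) : ℝ) : ℂ))
        (Complex.ofRealCLM.comp (F' • fderiv ℝ u p)) p :=
      Complex.ofRealCLM.hasFDerivAt.comp p (hF.comp_hasFDerivAt p hu.hasFDerivAt)
    have h2 : HasFDerivAt (fun q => ((u q : ℝ) : ℂ)) (Complex.ofRealCLM.comp (fderiv ℝ u p)) p :=
      Complex.ofRealCLM.hasFDerivAt.comp p hu.hasFDerivAt
    rw [h1.fderiv, h2.fderiv]
    simp
  unfold dzb
  rw [key, key]; ring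

theorem dz_conj_real {u : (Fin n → ℂ) → ℝ} :
    dzb X (fun q => ((u q : ℝ) : ℂ)) p = conj (dz X (fun q => ((u q : ℝ) : ℂ)) p) := by
  have := dzb_conj X (fun q => ((u q : ℝ) : ℂ)) p
  simpa using this

/-- smoothness -/
theorem contDiffOn_dz {U : Set (Fin n → ℂ)} (hU : IsOpen U) (hf : ContDiffOn ℝ ∞ f U) :
    ContDiffOn ℝ ∞ (dz X f) U := by
  have h1 : ContDiffOn ℝ ∞ (fun q => fderiv ℝ f q) U :=
    hf.fderiv_of_isOpen hU (by simp)
  unfold dz
  exact ((h1.clm_apply contDiffOn_const).sub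
    (contDiffOn_const.mul (h1.clm_apply contDiffOn_const))).div_const 2

theorem contDiffOn_dzb {U : Set (Fin n → ℂ)} (hU : IsOpen U) (hf : ContDiffOn ℝ ∞ f U) :
    ContDiffOn ℝ ∞ (dzb X f) U := by
  have h1 : ContDiffOn ℝ ∞ (fun q => fderiv ℝ f q) U :=
    hf.fderiv_of_isOpen hU (by simp)
  unfold dzb
  exact ((h1.clm_apply contDiffOn_const).add
    (contDiffOn_const.mul (h1.clm_apply contDiffOn_const))).div_const 2

theorem fderiv_fderiv_comm {U : Set (Fin n → ℂ)} (hU : IsOpen U) (hf : ContDiffOn ℝ ∞ f U)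
    (hp : p ∈ U) (Z W : Fin n → ℂ) :
    fderiv ℝ (fun q => fderiv ℝ f q Z) p W = fderiv ℝ (fun q => fderiv ℝ f q W) p Z := by
  have hfp : ContDiffAt ℝ ∞ f p := hf.contDiffAt (hU.mem_nhds hp)
  have hd : DifferentiableAt ℝ (fun q => fderiv ℝ f q) p :=
    (((hf.fderiv_of_isOpen hU (m := ∞) (by simp)).contDiffAt (hU.mem_nhds hp)).differentiableAt
      (by simp))
  have e : ∀ Z : Fin n → ℂ, HasFDerivAt (fun q => fderiv ℝ f q Z)
      ((fderiv ℝ (fun q => fderiv ℝ f q) p).flip Z) p := by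
    intro Z
    have := hd.hasFDerivAt.clm_apply (hasFDerivAt_const Z p)
    simpa using this
  rw [(e Z).fderiv, (e W).fderiv]
  simp only [ContinuousLinearMap.flip_apply]
  have hs : IsSymmSndFDerivAt ℝ f p := by
    apply hfp.isSymmSndFDerivAt
    simp only [minSmoothness_of_isRCLikeNormedField]
    show ((2 : ℕ∞) : WithTop ℕ∞) ≤ ((⊤ : ℕ∞) : WithTop ℕ∞)
    exact WithTop.coe_le_coe.mpr le_top
  exact hs.eq W Z

theorem differentiableAt_of_contDiffOn {U : Set (Fin n → ℂ)} (hU : IsOpen U)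
    (hf : ContDiffOn ℝ ∞ f U) (hp : p ∈ U) : DifferentiableAt ℝ f p :=
  (hf.contDiffAt (hU.mem_nhds hp)).differentiableAt (by simp)

theorem fderiv_dz {U : Set (Fin n → ℂ)} (hU : IsOpen U) (hf : ContDiffOn ℝ ∞ f U)
    (hp : p ∈ U) (Z W : Fin n → ℂ) :
    fderiv ℝ (dz Z f) p W = (fderiv ℝ (fun q => fderiv ℝ f q Z) p W -
      Complex.I * fderiv ℝ (fun q => fderiv ℝ f q (Complex.I • Z)) p W) / 2 := by
  have h1 : ∀ Z : Fin n → ℂ, DifferentiableAt ℝ (fun q => fderiv ℝ f q Z) p := fun Z =>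
    differentiableAt_of_contDiffOn hU
      ((hf.fderiv_of_isOpen hU (m := ∞) (by simp)).clm_apply contDiffOn_const) hp
  have h2 : HasFDerivAt (dz Z f) ((2 : ℂ)⁻¹ • (fderiv ℝ (fun q => fderiv ℝ f q Z) p -
      Complex.I • fderiv ℝ (fun q => fderiv ℝ f q (Complex.I • Z)) p)) p := by
    have h3 := (((h1 Z).hasFDerivAt).sub
      (((h1 (Complex.I • Z)).hasFDerivAt).const_smul Complex.I)).const_smul (2 : ℂ)⁻¹
    refine h3.congr_of_eventuallyEq (Filter.Eventually.of_forall fun q => ?_)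
    simp only [dz, Pi.smul_apply, Pi.sub_apply, smul_eq_mul]
    ring
  rw [h2.fderiv]
  simp only [ContinuousLinearMap.smul_apply, ContinuousLinearMap.sub_apply, smul_eq_mul]
  ring

theorem fderiv_dzb {U : Set (Fin n → ℂ)} (hU : IsOpen U) (hf : ContDiffOn ℝ ∞ f U)
    (hp : p ∈ U) (Z W : Fin n → ℂ) :
    fderiv ℝ (dzb Z f) p W = (fderiv ℝ (fun q => fderiv ℝ f q Z) p W +
      Complex.I * fderiv ℝ (fun q => fderiv ℝ f q (Complex.I • Z)) p W) / 2 := by
  have h1 : ∀ Z : Fin n → ℂ, DifferentiableAt ℝ (fun q => fderiv ℝ f q Z) p := fun Z =>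
    differentiableAt_of_contDiffOn hU
      ((hf.fderiv_of_isOpen hU (m := ∞) (by simp)).clm_apply contDiffOn_const) hp
  have h2 : HasFDerivAt (dzb Z f) ((2 : ℂ)⁻¹ • (fderiv ℝ (fun q => fderiv ℝ f q Z) p +
      Complex.I • fderiv ℝ (fun q => fderiv ℝ f q (Complex.I • Z)) p)) p := by
    have h3 := (((h1 Z).hasFDerivAt).add
      (((h1 (Complex.I • Z)).hasFDerivAt).const_smul Complex.I)).const_smul (2 : ℂ)⁻¹
    refine h3.congr_of_eventuallyEq (Filter.Eventually.of_forall fun q => ?_)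
    simp only [dzb, Pi.smul_apply, Pi.add_apply, smul_eq_mul]
    ring
  rw [h2.fderiv]
  simp only [ContinuousLinearMap.smul_apply, ContinuousLinearMap.add_apply, smul_eq_mul]
  ring

theorem dz_dz_comm {U : Set (Fin n → ℂ)} (hU : IsOpen U) (hf : ContDiffOn ℝ ∞ f U)
    (hp : p ∈ U) (Z W : Fin n → ℂ) : dz Z (dz W f) p = dz W (dz Z f) p := by
  show (fderiv ℝ (dz W f) p Z - Complex.I * fderiv ℝ (dz W f) p (Complex.I • Z)) / 2 =
    (fderiv ℝ (dz Z f) p W - Complex.I * fderiv ℝ (dz Z f) p (Complex.I • W)) / 2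
  simp only [fderiv_dz hU hf hp]
  rw [fderiv_fderiv_comm hU hf hp Z W, fderiv_fderiv_comm hU hf hp Z (Complex.I • W),
    fderiv_fderiv_comm hU hf hp (Complex.I • Z) W,
    fderiv_fderiv_comm hU hf hp (Complex.I • Z) (Complex.I • W)]
  ring

theorem dzb_dzb_comm {U : Set (Fin n → ℂ)} (hU : IsOpen U) (hf : ContDiffOn ℝ ∞ f U)
    (hp : p ∈ U) (Z W : Fin n → ℂ) : dzb Z (dzb W f) p = dzb W (dzb Z f) p := by
  show (fderiv ℝ (dzb W f) p Z + Complex.I * fderiv ℝ (dzb W f) p (Complex.I • Z)) / 2 =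
    (fderiv ℝ (dzb Z f) p W + Complex.I * fderiv ℝ (dzb Z f) p (Complex.I • W)) / 2
  simp only [fderiv_dzb hU hf hp]
  rw [fderiv_fderiv_comm hU hf hp Z W, fderiv_fderiv_comm hU hf hp Z (Complex.I • W),
    fderiv_fderiv_comm hU hf hp (Complex.I • Z) W,
    fderiv_fderiv_comm hU hf hp (Complex.I • Z) (Complex.I • W)]
  ring

theorem dz_dzb_comm {U : Set (Fin n → ℂ)} (hU : IsOpen U) (hf : ContDiffOn ℝ ∞ f U)
    (hp : p ∈ U) (Z W : Fin n → ℂ) : dz Z (dzb W f) p = dzb W (dz Z f) p := by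
  show (fderiv ℝ (dzb W f) p Z - Complex.I * fderiv ℝ (dzb W f) p (Complex.I • Z)) / 2 =
    (fderiv ℝ (dz Z f) p W + Complex.I * fderiv ℝ (dz Z f) p (Complex.I • W)) / 2
  simp only [fderiv_dz hU hf hp, fderiv_dzb hU hf hp]
  rw [fderiv_fderiv_comm hU hf hp Z W, fderiv_fderiv_comm hU hf hp Z (Complex.I • W),
    fderiv_fderiv_comm hU hf hp (Complex.I • Z) W,
    fderiv_fderiv_comm hU hf hp (Complex.I • Z) (Complex.I • W)]
  ring

end Wirtinger

end Crest.Agent.R245.KC
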