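import Crest.Agent.R245.Ops

/-!
Row 245: curvature of a Kähler metric on an open subset of `ℂⁿ` (Prelude definitions) in terms of
Wirtinger derivatives of the Hermitian form.
-/

set_option autoImplicit false

namespace Crest.Agent.R245

open Complex Filter Topology
open scoped ContDiff ComplexConjugate
open Crest.GeometryTopology

namespace MC

variable {n : ℕ} {U : Set (Fin n → ℂ)}

lemma wirtingerDeriv_eq_dz (f : (Fin n → ℂ) → ℂ) (k : Fin n) (p : Fin n → ℂ) :
    wirtingerDeriv f k p = dz (stdVec k) f p := rfl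

lemma fderiv_complex_smul (f : (Fin n → ℂ) → ℂ) (p : Fin n → ℂ) (c : ℂ) (X : Fin n → ℂ) :
    fderiv ℝ f p (c • X) =
      (c.re : ℂ) * fderiv ℝ f p X + (c.im : ℂ) * fderiv ℝ f p (Complex.I • X) := by
  have h : c • X = (c.re : ℝ) • X + (c.im : ℝ) • (Complex.I • X) := by
    ext i
    simp only [Pi.smul_apply, Pi.add_apply, smul_eq_mul, Complex.real_smul]
    conv_lhs => rw [← Complex.re_add_im c]
    ring
  rw [h, map_add, map_smul, map_smul, Complex.real_smul, Complex.real_smul]

lemma dz_add_dir (X Y : Fin n → ℂ) (f : (Fin n → ℂ) → ℂ) (p : Fin n → ℂ) :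
    dz (X + Y) f p = dz X f p + dz Y f p := by
  simp only [dz, smul_add, map_add]; ring

lemma dz_smul_dir (c : ℂ) (X : Fin n → ℂ) (f : (Fin n → ℂ) → ℂ) (p : Fin n → ℂ) :
    dz (c • X) f p = c * dz X f p := by
  have h1 := fderiv_complex_smul f p c X
  have h2 : fderiv ℝ f p (Complex.I • (c • X)) =
      ((Complex.I * c).re : ℂ) * fderiv ℝ f p X
        + ((Complex.I * c).im : ℂ) * fderiv ℝ f p (Complex.I • X) := by
    rw [smul_smul]; exact fderiv_complex_smul f p (Complex.I * c) X
  simp only [dz, h1, h2]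
  have e1 : ((Complex.I * c).re : ℂ) = - (c.im : ℂ) := by simp
  have e2 : ((Complex.I * c).im : ℂ) = (c.re : ℂ) := by simp
  rw [e1, e2]
  conv_rhs => rw [← Complex.re_add_im c]
  have hI := Complex.I_mul_I
  generalize fderiv ℝ f p X = a
  generalize fderiv ℝ f p (Complex.I • X) = b
  linear_combination ((c.im : ℂ) * b / 2) * hI

lemma dz_zero_dir (f : (Fin n → ℂ) → ℂ) (p : Fin n → ℂ) : dz 0 f p = 0 := by
  simp [dz]

lemma dz_sum_dir {ι : Type*} (s : Finset ι) (X : ι → Fin n → ℂ) (f : (Fin n → ℂ) → ℂ)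
    (p : Fin n → ℂ) : dz (∑ k ∈ s, X k) f p = ∑ k ∈ s, dz (X k) f p := by
  classical
  induction s using Finset.induction_on with
  | empty => simp [dz_zero_dir]
  | insert a s ha ih => rw [Finset.sum_insert ha, Finset.sum_insert ha, dz_add_dir, ih]

lemma eq_sum_smul_stdVec (X : Fin n → ℂ) : X = ∑ k, X k • stdVec k := by
  ext i
  simp [stdVec, Finset.sum_apply, Pi.single_apply]

/-- `∂_X f = ∑ X_k ∂f/∂z_k`. -/
lemma dz_eq_sum (X : Fin n → ℂ) (f : (Fin n → ℂ) → ℂ) (p : Fin n → ℂ) :
    dz X f p = ∑ k, X k * wirtingerDeriv f k p := by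
  conv_lhs => rw [eq_sum_smul_stdVec X]
  rw [dz_sum_dir]
  refine Finset.sum_congr rfl fun k _ => ?_
  rw [dz_smul_dir]; rfl

lemma fderiv_conj_comp (f : (Fin n → ℂ) → ℂ) (p X : Fin n → ℂ) :
    fderiv ℝ (fun q => conj (f q)) p X = conj (fderiv ℝ f p X) := by
  have h : (fun q => conj (f q)) = (Complex.conjCLE : ℂ ≃L[ℝ] ℂ) ∘ f := by
    ext q; simp
  rw [h, ContinuousLinearEquiv.comp_fderiv]
  simp

/-- `∂̄_X (conj f) = conj (∂_X f)`. -/
lemma dzb_conj' (X : Fin n → ℂ) (f : (Fin n → ℂ) → ℂ) (p : Fin n → ℂ) :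
    dzb X (fun q => conj (f q)) p = conj (dz X f p) := by
  simp only [dz, dzb, fderiv_conj_comp, map_div₀, map_sub, map_mul, Complex.conj_I]
  simp only [map_ofNat]
  ring

variable (g : HermitianMetricOn n U) {p : Fin n → ℂ}

lemma h_contDiffAt (hU : IsOpen U) (hp : p ∈ U) (i j : Fin n) : ContDiffAt ℝ ∞ (g.h i j) p :=
  (g.smooth i j).contDiffAt (hU.mem_nhds hp)

lemma h_differentiableAt (hU : IsOpen U) (hp : p ∈ U) (i j : Fin n) :
    DifferentiableAt ℝ (g.h i j) p :=
  (h_contDiffAt g hU hp i j).differentiableAt (by simp)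

lemma herm_contDiffAt (hU : IsOpen U) (hp : p ∈ U) (Y W : Fin n → ℂ) :
    ContDiffAt ℝ ∞ (fun q => g.herm q Y W) p := by
  unfold HermitianMetricOn.herm
  refine ContDiffAt.sum fun i _ => ContDiffAt.sum fun j _ => ?_
  exact ((h_contDiffAt g hU hp i j).mul contDiffAt_const).mul contDiffAt_const

lemma herm_differentiableAt (hU : IsOpen U) (hp : p ∈ U) (Y W : Fin n → ℂ) :
    DifferentiableAt ℝ (fun q => g.herm q Y W) p :=
  (herm_contDiffAt g hU hp Y W).differentiableAt (by simp)

lemma fderiv_herm (hU : IsOpen U) (hp : p ∈ U) (X Y W : Fin n → ℂ) :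
    fderiv ℝ (fun q => g.herm q Y W) p X =
      ∑ i, ∑ j, fderiv ℝ (g.h i j) p X * Y i * conj (W j) := by
  unfold HermitianMetricOn.herm
  have hd : ∀ i j, DifferentiableAt ℝ (fun q => g.h i j q * Y i * conj (W j)) p := fun i j =>
    ((h_differentiableAt g hU hp i j).mul_const _).mul_const _
  rw [fderiv_fun_sum (fun i _ => DifferentiableAt.fun_sum fun j _ => hd i j)]
  simp only [sum_apply]
  refine Finset.sum_congr rfl fun i _ => ?_
  rw [fderiv_fun_sum (fun j _ => hd i j)]
  simp only [sum_apply]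
  refine Finset.sum_congr rfl fun j _ => ?_
  rw [fderiv_mul_const ((h_differentiableAt g hU hp i j).mul_const _),
    fderiv_mul_const (h_differentiableAt g hU hp i j)]
  simp only [smul_apply, smul_eq_mul]
  ring

lemma dz_herm (hU : IsOpen U) (hp : p ∈ U) (X Y W : Fin n → ℂ) :
    dz X (fun q => g.herm q Y W) p = ∑ i, ∑ j, dz X (g.h i j) p * Y i * conj (W j) := by
  simp only [dz, fderiv_herm g hU hp, Finset.mul_sum, ← Finset.sum_sub_distrib, Finset.sum_div]
  refine Finset.sum_congr rfl fun i _ => Finset.sum_congr rfl fun j _ => ?_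
  ring

lemma dz_herm_symm (hU : IsOpen U) (hK : g.IsKahler) (hp : p ∈ U) (X Y W : Fin n → ℂ) :
    dz X (fun q => g.herm q Y W) p = dz Y (fun q => g.herm q X W) p := by
  rw [dz_herm g hU hp, dz_herm g hU hp]
  simp only [dz_eq_sum, Finset.sum_mul]
  -- ∑ i, ∑ j, ∑ k
  have h1 : ∀ (A B : Fin n → ℂ),
      (∑ i, ∑ j, ∑ k, A k * wirtingerDeriv (g.h i j) k p * B i * conj (W j)) =
      ∑ i, ∑ k, ∑ j, A k * wirtingerDeriv (g.h i j) k p * B i * conj (W j) := by
    intro A B
    refine Finset.sum_congr rfl fun i _ => ?_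
    rw [Finset.sum_comm]
  rw [h1, h1, Finset.sum_comm]
  refine Finset.sum_congr rfl fun k _ => Finset.sum_congr rfl fun i _ =>
    Finset.sum_congr rfl fun j _ => ?_
  rw [hK p hp i j k]
  ring

lemma herm_conj (hp : p ∈ U) (Y W : Fin n → ℂ) : conj (g.herm p Y W) = g.herm p W Y := by
  unfold HermitianMetricOn.herm
  simp only [map_sum, map_mul, Complex.conj_conj]
  rw [Finset.sum_comm]
  refine Finset.sum_congr rfl fun j _ => Finset.sum_congr rfl fun i _ => ?_
  rw [g.hermitian p hp j i]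
  ring

lemma dzb_herm (hU : IsOpen U) (hp : p ∈ U) (X Y W : Fin n → ℂ) :
    dzb X (fun q => g.herm q Y W) p = conj (dz X (fun q => g.herm q W Y) p) := by
  have h : (fun q => g.herm q Y W) =ᶠ[𝓝 p] fun q => conj (g.herm q W Y) := by
    filter_upwards [hU.mem_nhds hp] with q hq
    rw [herm_conj g hq]
  rw [← dzb_conj']
  simp only [dzb, h.fderiv_eq]

lemma dRiem_eq (hU : IsOpen U) (hp : p ∈ U) (X Y Z : Fin n → ℂ) :
    g.dRiem p X Y Z = (fderiv ℝ (fun q => g.herm q Y Z) p X).re := by
  unfold HermitianMetricOn.dRiem HermitianMetricOn.riem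
  have h : (fun q => (g.herm q Y Z).re) = (Complex.reCLM : ℂ →L[ℝ] ℝ) ∘ (fun q => g.herm q Y Z) := by
    ext q; simp
  rw [h, fderiv_comp p Complex.reCLM.differentiableAt (herm_differentiableAt g hU hp Y Z)]
  simp

lemma koszul (hU : IsOpen U) (hK : g.IsKahler) (hp : p ∈ U) (X Y Z : Fin n → ℂ) :
    (g.dRiem p X Y Z + g.dRiem p Y X Z - g.dRiem p Z X Y) / 2 =
      (dz X (fun q => g.herm q Y Z) p).re := by
  rw [dRiem_eq g hU hp, dRiem_eq g hU hp, dRiem_eq g hU hp]
  have e : ∀ A B C : Fin n → ℂ, (fderiv ℝ (fun q => g.herm q B C) p A).re =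
      (dz A (fun q => g.herm q B C) p).re + (dz A (fun q => g.herm q C B) p).re := by
    intro A B C
    have h1 : fderiv ℝ (fun q => g.herm q B C) p A =
        dz A (fun q => g.herm q B C) p + dzb A (fun q => g.herm q B C) p := by
      simp only [dz, dzb]; ring
    rw [h1, dzb_herm g hU hp, Complex.add_re, Complex.conj_re]
  rw [e, e, e]
  rw [dz_herm_symm g hU hK hp Y X Z, dz_herm_symm g hU hK hp X Z Y,
    dz_herm_symm g hU hK hp Y Z X]
  ring

/-! ### Linearity of the Hermitian form -/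

lemma herm_add_left (p X X' Y : Fin n → ℂ) :
    g.herm p (X + X') Y = g.herm p X Y + g.herm p X' Y := by
  unfold HermitianMetricOn.herm
  simp only [← Finset.sum_add_distrib]
  refine Finset.sum_congr rfl fun i _ => Finset.sum_congr rfl fun j _ => ?_
  simp only [Pi.add_apply]; ring

lemma herm_sub_left (p X X' Y : Fin n → ℂ) :
    g.herm p (X - X') Y = g.herm p X Y - g.herm p X' Y := by
  unfold HermitianMetricOn.herm
  simp only [← Finset.sum_sub_distrib]
  refine Finset.sum_congr rfl fun i _ => Finset.sum_congr rfl fun j _ => ?_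
  simp only [Pi.sub_apply]; ring

lemma herm_smul_right (c : ℂ) (p X Y : Fin n → ℂ) :
    g.herm p X (c • Y) = conj c * g.herm p X Y := by
  unfold HermitianMetricOn.herm
  simp only [Finset.mul_sum]
  refine Finset.sum_congr rfl fun i _ => Finset.sum_congr rfl fun j _ => ?_
  simp only [Pi.smul_apply, smul_eq_mul, map_mul]; ring

lemma herm_self_pos (hp : p ∈ U) {X : Fin n → ℂ} (hX : X ≠ 0) : 0 < (g.herm p X X).re :=
  g.posDef p hp X hX

/-- non-degeneracy -/
lemma herm_nondeg (hp : p ∈ U) {V W : Fin n → ℂ} (h : ∀ Z, g.herm p V Z = g.herm p W Z) :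
    V = W := by
  by_contra hne
  have h1 : V - W ≠ 0 := sub_ne_zero.2 hne
  have h2 := herm_self_pos g hp h1
  rw [herm_sub_left, h, sub_self] at h2
  simp at h2

/-- the coefficient matrix used by `raise` -/
noncomputable def coefM (q : Fin n → ℂ) : Matrix (Fin n) (Fin n) ℂ := Matrix.of fun i j => g.h j i q

lemma coefM_mulVec (q : Fin n → ℂ) (W : Fin n → ℂ) (i : Fin n) :
    (coefM g q).mulVec W i = ∑ j, g.h j i q * W j := by
  simp [coefM, Matrix.mulVec, dotProduct]

lemma herm_eq_mulVec (q W Z : Fin n → ℂ) :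
    g.herm q W Z = ∑ i, (coefM g q).mulVec W i * conj (Z i) := by
  unfold HermitianMetricOn.herm
  rw [Finset.sum_comm]
  refine Finset.sum_congr rfl fun j _ => ?_
  rw [coefM_mulVec, Finset.sum_mul]

lemma coefM_det_ne_zero (hp : p ∈ U) : (coefM g p).det ≠ 0 := by
  intro h0
  obtain ⟨v, hv, hv0⟩ := Matrix.exists_mulVec_eq_zero_iff.2 h0
  have h1 := herm_self_pos g hp hv
  rw [herm_eq_mulVec, hv0] at h1
  simp at h1

lemma herm_stdVec (q W : Fin n → ℂ) (i : Fin n) :
    g.herm q W (stdVec i) = (coefM g q).mulVec W i := by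
  rw [herm_eq_mulVec]
  rw [Finset.sum_eq_single i]
  · simp [stdVec]
  · intro b _ hb
    simp [stdVec, Pi.single_eq_of_ne hb]
  · intro h; exact absurd (Finset.mem_univ i) h

/-- an antilinear functional is determined by its values at the standard basis -/
lemma antilin_eq_sum {φ : (Fin n → ℂ) → ℂ} (hadd : ∀ Z Z', φ (Z + Z') = φ Z + φ Z')
    (hsmul : ∀ (c : ℂ) Z, φ (c • Z) = conj c * φ Z) (Z : Fin n → ℂ) :
    φ Z = ∑ i, φ (stdVec i) * conj (Z i) := by
  have h0 : φ 0 = 0 := by
    have := hsmul 0 0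
    simpa using this
  have hsum : ∀ (s : Finset (Fin n)) (X : Fin n → (Fin n → ℂ)),
      φ (∑ k ∈ s, X k) = ∑ k ∈ s, φ (X k) := by
    classical
    intro s X
    induction s using Finset.induction_on with
    | empty => simp [h0]
    | insert a s ha ih => rw [Finset.sum_insert ha, Finset.sum_insert ha, hadd, ih]
  conv_lhs => rw [eq_sum_smul_stdVec Z]
  rw [hsum]
  refine Finset.sum_congr rfl fun i _ => ?_
  rw [hsmul, mul_comm]

lemma raise_spec (hp : p ∈ U) {φ : (Fin n → ℂ) → ℂ} {ℓ : (Fin n → ℂ) → ℝ}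
    (hadd : ∀ Z Z', φ (Z + Z') = φ Z + φ Z')
    (hsmul : ∀ (c : ℂ) Z, φ (c • Z) = conj c * φ Z) (hℓ : ∀ Z, ℓ Z = (φ Z).re)
    (Z : Fin n → ℂ) : g.herm p (g.raise p ℓ) Z = φ Z := by
  have hc : ∀ i : Fin n, ((ℓ (stdVec i) : ℂ) + Complex.I * ℓ (Complex.I • stdVec i)) =
      φ (stdVec i) := by
    intro i
    rw [hℓ, hℓ, hsmul]
    apply Complex.ext <;> simp
  have hM : (coefM g p).mulVec (g.raise p ℓ) = fun i => φ (stdVec i) := by
    have h1 : g.raise p ℓ = (coefM g p)⁻¹.mulVec (fun i => φ (stdVec i)) := by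
      unfold HermitianMetricOn.raise
      simp only [hc]
      rfl
    rw [h1, Matrix.mulVec_mulVec, Matrix.mul_nonsing_inv _ (isUnit_iff_ne_zero.2
      (coefM_det_ne_zero g hp)), Matrix.one_mulVec]
  rw [herm_eq_mulVec, hM]
  exact (antilin_eq_sum hadd hsmul Z).symm

lemma dz_herm_add_right (hU : IsOpen U) (hp : p ∈ U) (X Y Z Z' : Fin n → ℂ) :
    dz X (fun q => g.herm q Y (Z + Z')) p =
      dz X (fun q => g.herm q Y Z) p + dz X (fun q => g.herm q Y Z') p := by
  simp only [dz_herm g hU hp, ← Finset.sum_add_distrib]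
  refine Finset.sum_congr rfl fun i _ => Finset.sum_congr rfl fun j _ => ?_
  simp only [Pi.add_apply, map_add]; ring

lemma dz_herm_smul_right (hU : IsOpen U) (hp : p ∈ U) (c : ℂ) (X Y Z : Fin n → ℂ) :
    dz X (fun q => g.herm q Y (c • Z)) p = conj c * dz X (fun q => g.herm q Y Z) p := by
  simp only [dz_herm g hU hp, Finset.mul_sum]
  refine Finset.sum_congr rfl fun i _ => Finset.sum_congr rfl fun j _ => ?_
  simp only [Pi.smul_apply, smul_eq_mul, map_mul]; ring

/-- the Christoffel vector of a Kähler metric -/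
theorem christoffel_spec (hU : IsOpen U) (hK : g.IsKahler) (hp : p ∈ U) (X Y W : Fin n → ℂ) :
    g.herm p (g.christoffel p X Y) W = dz X (fun q => g.herm q Y W) p := by
  unfold HermitianMetricOn.christoffel
  exact raise_spec g hp (φ := fun Z => dz X (fun q => g.herm q Y Z) p)
    (fun Z Z' => dz_herm_add_right g hU hp X Y Z Z')
    (fun c Z => dz_herm_smul_right g hU hp c X Y Z)
    (fun Z => koszul g hU hK hp X Y Z) W

theorem christoffel_symm (hU : IsOpen U) (hK : g.IsKahler) (hp : p ∈ U) (X Y : Fin n → ℂ) :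
    g.christoffel p X Y = g.christoffel p Y X := by
  apply herm_nondeg g hp
  intro Z
  rw [christoffel_spec g hU hK hp, christoffel_spec g hU hK hp, dz_herm_symm g hU hK hp]

/-! ### Smoothness of the Christoffel map -/

lemma contDiffAt_det {E : Type*} [NormedAddCommGroup E] [NormedSpace ℝ E] {k : WithTop ℕ∞}
    {m : ℕ} {M : E → Matrix (Fin m) (Fin m) ℂ} {p : E}
    (h : ∀ i j, ContDiffAt ℝ k (fun q => M q i j) p) :
    ContDiffAt ℝ k (fun q => (M q).det) p := by
  simp only [Matrix.det_apply]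
  refine ContDiffAt.sum fun σ _ => ?_
  refine ContDiffAt.const_smul _ ?_
  exact contDiffAt_prod fun i _ => h _ _

lemma contDiffAt_inv {E : Type*} [NormedAddCommGroup E] [NormedSpace ℝ E] {k : WithTop ℕ∞}
    {m : ℕ} {M : E → Matrix (Fin m) (Fin m) ℂ} {p : E}
    (h : ∀ i j, ContDiffAt ℝ k (fun q => M q i j) p) (hdet : (M p).det ≠ 0) (i j : Fin m) :
    ContDiffAt ℝ k (fun q => (M q)⁻¹ i j) p := by
  have e : (fun q => (M q)⁻¹ i j) = fun q => ((M q).det)⁻¹ * (M q).adjugate i j := by
    ext q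
    rw [Matrix.inv_def, Ring.inverse_eq_inv']
    simp [Matrix.smul_apply]
  rw [e]
  refine ((contDiffAt_det h).inv hdet).mul ?_
  simp only [Matrix.adjugate_apply]
  refine contDiffAt_det fun a b => ?_
  by_cases hab : a = j
  · subst hab
    simp only [Matrix.updateRow_self]
    exact contDiffAt_const
  · simp only [Matrix.updateRow_ne hab]
    exact h a b

variable (g : HermitianMetricOn n U) {p : Fin n → ℂ}

lemma christoffel_eq (hU : IsOpen U) (hK : g.IsKahler) (hp : p ∈ U) (X Y : Fin n → ℂ) :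
    g.christoffel p X Y =
      (coefM g p)⁻¹.mulVec (fun i => dz X (fun q => g.herm q Y (stdVec i)) p) := by
  have h1 : (coefM g p).mulVec (g.christoffel p X Y) =
      fun i => dz X (fun q => g.herm q Y (stdVec i)) p := by
    ext i
    rw [← herm_stdVec, christoffel_spec g hU hK hp]
  rw [← h1, Matrix.mulVec_mulVec, Matrix.nonsing_inv_mul _ (isUnit_iff_ne_zero.2
      (coefM_det_ne_zero g hp)), Matrix.one_mulVec]

lemma christoffel_contDiffAt (hU : IsOpen U) (hK : g.IsKahler) (hp : p ∈ U) (X Y : Fin n → ℂ) :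
    ContDiffAt ℝ ∞ (fun q => g.christoffel q X Y) p := by
  have h1 : (fun q => g.christoffel q X Y) =ᶠ[𝓝 p] fun q =>
      (coefM g q)⁻¹.mulVec (fun i => dz X (fun q' => g.herm q' Y (stdVec i)) q) := by
    filter_upwards [hU.mem_nhds hp] with q hq
    exact christoffel_eq g hU hK hq X Y
  refine ContDiffAt.congr_of_eventuallyEq ?_ h1
  rw [contDiffAt_pi]
  intro i
  simp only [Matrix.mulVec, dotProduct]
  refine ContDiffAt.sum fun j _ => ?_
  refine ContDiffAt.mul ?_ ?_
  · exact contDiffAt_inv (fun a b => h_contDiffAt g hU hp b a) (coefM_det_ne_zero g hp) i j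
  · exact contDiffAt_dz_inf X (herm_contDiffAt g hU hp Y (stdVec j))

lemma fderiv_herm_mul (hU : IsOpen U) (hp : p ∈ U) {G : (Fin n → ℂ) → (Fin n → ℂ)}
    (hG : DifferentiableAt ℝ G p) (X W : Fin n → ℂ) :
    fderiv ℝ (fun q => g.herm q (G q) W) p X =
      fderiv ℝ (fun q => g.herm q (G p) W) p X + g.herm p (fderiv ℝ G p X) W := by
  rw [fderiv_herm g hU hp]
  have hGi : ∀ i, DifferentiableAt ℝ (fun q => G q i) p := fun i =>
    differentiableAt_pi.1 hG i
  have hGd : ∀ i, fderiv ℝ (fun q => G q i) p X = fderiv ℝ G p X i := by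
    intro i
    rw [fderiv_apply hG i]
    rfl
  unfold HermitianMetricOn.herm
  have hd : ∀ i j, DifferentiableAt ℝ (fun q => g.h i j q * G q i * conj (W j)) p := fun i j =>
    ((h_differentiableAt g hU hp i j).mul (hGi i)).mul_const _
  rw [fderiv_fun_sum (fun i _ => DifferentiableAt.fun_sum fun j _ => hd i j)]
  simp only [sum_apply]
  rw [← Finset.sum_add_distrib]
  refine Finset.sum_congr rfl fun i _ => ?_
  rw [fderiv_fun_sum (fun j _ => hd i j)]
  simp only [sum_apply]
  rw [← Finset.sum_add_distrib]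
  refine Finset.sum_congr rfl fun j _ => ?_
  have hm : DifferentiableAt ℝ (fun q => g.h i j q * G q i) p :=
    (h_differentiableAt g hU hp i j).mul (hGi i)
  rw [fderiv_mul_const hm,
    fderiv_fun_mul (h_differentiableAt g hU hp i j) (hGi i)]
  simp only [smul_apply, add_apply, smul_eq_mul, hGd]
  ring

lemma herm_curvature_aux (hU : IsOpen U) (hK : g.IsKahler) (hp : p ∈ U) (X Y Z W : Fin n → ℂ) :
    g.herm p (fderiv ℝ (fun q => g.christoffel q Y Z) p X
        + g.christoffel p X (g.christoffel p Y Z)) W =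
      fderiv ℝ (dz Y (fun q => g.herm q Z W)) p X
        - g.herm p (g.christoffel p Y Z) (g.christoffel p X W) := by
  have h1 := fderiv_herm_mul g hU hp
    ((christoffel_contDiffAt g hU hK hp Y Z).differentiableAt (by simp)) X W
  have h2 : (fun q => g.herm q (g.christoffel q Y Z) W) =ᶠ[𝓝 p] dz Y (fun q => g.herm q Z W) := by
    filter_upwards [hU.mem_nhds hp] with q hq
    exact christoffel_spec g hU hK hq Y Z W
  rw [h2.fderiv_eq] at h1
  have h3 : fderiv ℝ (fun q => g.herm q (g.christoffel p Y Z) W) p X =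
      dz X (fun q => g.herm q (g.christoffel p Y Z) W) p
        + dzb X (fun q => g.herm q (g.christoffel p Y Z) W) p := by
    simp only [dz, dzb]; ring
  rw [h3, dzb_herm g hU hp, ← christoffel_spec g hU hK hp X (g.christoffel p Y Z) W,
    ← christoffel_spec g hU hK hp X W (g.christoffel p Y Z), herm_conj g hp] at h1
  rw [herm_add_left]
  linear_combination -h1

/-- the curvature tensor of a Kähler metric -/
theorem herm_curvature (hU : IsOpen U) (hK : g.IsKahler) (hp : p ∈ U) (X Y Z W : Fin n → ℂ) :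
    g.herm p (g.curvature p X Y Z) W =
      dzb X (dz Y (fun q => g.herm q Z W)) p - dzb Y (dz X (fun q => g.herm q Z W)) p
        - g.herm p (g.christoffel p Y Z) (g.christoffel p X W)
        + g.herm p (g.christoffel p X Z) (g.christoffel p Y W) := by
  have e1 := herm_curvature_aux g hU hK hp X Y Z W
  have e2 := herm_curvature_aux g hU hK hp Y X Z W
  have e3 : g.curvature p X Y Z = (fderiv ℝ (fun q => g.christoffel q Y Z) p X
        + g.christoffel p X (g.christoffel p Y Z)) - (fderiv ℝ (fun q => g.christoffel q X Z) p Y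
        + g.christoffel p Y (g.christoffel p X Z)) := by
    unfold HermitianMetricOn.curvature
    abel
  rw [e3, herm_sub_left, e1, e2]
  have hc : ContDiffAt ℝ ∞ (fun q => g.herm q Z W) p := herm_contDiffAt g hU hp Z W
  have e4 : fderiv ℝ (dz Y (fun q => g.herm q Z W)) p X =
      dz X (dz Y (fun q => g.herm q Z W)) p + dzb X (dz Y (fun q => g.herm q Z W)) p := by
    rw [fderiv_eq_dz_add_dzb]
  have e5 : fderiv ℝ (dz X (fun q => g.herm q Z W)) p Y =
      dz Y (dz X (fun q => g.herm q Z W)) p + dzb Y (dz X (fun q => g.herm q Z W)) p := by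
    rw [fderiv_eq_dz_add_dzb]
  rw [e4, e5, dz_comm (X := X) (Y := Y) (hc.of_le (by norm_cast))]
  ring

/-- the curvature numerator of a Kähler metric -/
theorem riem_curvature (hU : IsOpen U) (hK : g.IsKahler) (hp : p ∈ U) (X Y : Fin n → ℂ) :
    g.riem p (g.curvature p X Y Y) X =
      (dzb X (dz Y (fun q => g.herm q Y X)) p - dzb Y (dz X (fun q => g.herm q Y X)) p
        - g.herm p (g.christoffel p Y Y) (g.christoffel p X X)
        + g.herm p (g.christoffel p X Y) (g.christoffel p X Y)).re := by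
  unfold HermitianMetricOn.riem
  rw [herm_curvature g hU hK hp, christoffel_symm g hU hK hp Y X]

end MC

end Crest.Agent.R245
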