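import Crest.Agent.R245.OpsKB
import Crest.Agent.R245.MetricCurv

/-! TASK Metric: the Kähler metric of a potential; its sectional curvature is `- negK / area`. -/

set_option autoImplicit false

namespace Crest.Agent.R245

open Complex Filter Topology
open scoped ContDiff ComplexConjugate
open Crest.GeometryTopology

namespace MC

variable {n : ℕ} {U : Set (Fin n → ℂ)}

/-- a ℂ-linear functional is determined by its values at the standard basis -/
lemma lin_eq_sum {φ : (Fin n → ℂ) → ℂ} (hadd : ∀ Z Z', φ (Z + Z') = φ Z + φ Z')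
    (hsmul : ∀ (c : ℂ) Z, φ (c • Z) = c * φ Z) (Z : Fin n → ℂ) :
    φ Z = ∑ i, φ (stdVec i) * Z i := by
  have h0 : φ 0 = 0 := by
    have := hsmul 0 0
    simpa using this
  have hsum : ∀ (s : Finset (Fin n)) (X : Fin n → (Fin n → ℂ)),
      φ (∑ k ∈ s, X k) = ∑ k ∈ s, φ (X k) := by
    classical
    intro s X
    induction s using Finset.induction_on with
    | empty => simp [h0]
    | insert a s ha ih => rw [Finset.sum_insert ha, Finset.sum_insert ha, hadd, ih]
  conv_lhs => rw [eq_sum_smul_stdVec Z]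
  rw [hsum]
  refine Finset.sum_congr rfl fun i _ => ?_
  rw [hsmul, mul_comm]

lemma D11_eq_sum {P : (Fin n → ℂ) → ℝ} {p : Fin n → ℂ} (hP : ContDiffAt ℝ ∞ P p)
    (X Y : Fin n → ℂ) :
    D11 P X Y p = ∑ i, ∑ j, D11 P (stdVec i) (stdVec j) p * X i * conj (Y j) := by
  rw [lin_eq_sum (φ := fun X => D11 P X Y p) (fun Z Z' => D11_add_left hP Z Z' Y)
    (fun c Z => D11_smul_left hP c Z Y) X]
  refine Finset.sum_congr rfl fun i _ => ?_
  rw [antilin_eq_sum (φ := fun Y => D11 P (stdVec i) Y p)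
    (fun Z Z' => D11_add_right hP (stdVec i) Z Z')
    (fun c Z => D11_smul_right hP c (stdVec i) Z) Y, Finset.sum_mul]
  refine Finset.sum_congr rfl fun j _ => ?_
  ring

lemma contDiffAt_ofReal {P : (Fin n → ℂ) → ℝ} {p : Fin n → ℂ} (hP : ContDiffAt ℝ ∞ P p) :
    ContDiffAt ℝ ∞ (fun q => (P q : ℂ)) p :=
  (Complex.ofRealCLM.contDiff (n := ∞)).contDiffAt.comp p hP

lemma contDiffAt_D11 {P : (Fin n → ℂ) → ℝ} {p : Fin n → ℂ} (hP : ContDiffAt ℝ ∞ P p)
    (X Y : Fin n → ℂ) : ContDiffAt ℝ ∞ (D11 P X Y) p := by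
  have : D11 P X Y = dz X (dzb Y (fun q => (P q : ℂ))) := by
    ext q; rfl
  rw [this]
  exact contDiffAt_dz_inf X (contDiffAt_dzb_inf Y (contDiffAt_ofReal hP))

/-- the Hermitian metric of a potential -/
noncomputable def potMetric (hU : IsOpen U) (P : (Fin n → ℂ) → ℝ)
    (hP : ContDiffOn ℝ ∞ P U) (hpd : ∀ p ∈ U, PD P p) : HermitianMetricOn n U where
  h i j p := D11 P (stdVec i) (stdVec j) p
  hermitian p hp i j := by
    rw [D11_conj (hP.contDiffAt (hU.mem_nhds hp))]
  posDef p hp X hX := by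
    rw [← D11_eq_sum (hP.contDiffAt (hU.mem_nhds hp))]
    exact hpd p hp X hX
  smooth i j := by
    intro p hp
    exact (contDiffAt_D11 (hP.contDiffAt (hU.mem_nhds hp)) _ _).contDiffWithinAt

variable (hU : IsOpen U) (P : (Fin n → ℂ) → ℝ)
    (hP : ContDiffOn ℝ ∞ P U) (hpd : ∀ p ∈ U, PD P p)

include hU hP hpd

lemma potMetric_herm {p : Fin n → ℂ} (hp : p ∈ U) (X Y : Fin n → ℂ) :
    (potMetric hU P hP hpd).herm p X Y = D11 P X Y p := by
  rw [D11_eq_sum (hP.contDiffAt (hU.mem_nhds hp))]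
  rfl

lemma potMetric_riem {p : Fin n → ℂ} (hp : p ∈ U) (X Y : Fin n → ℂ) :
    (potMetric hU P hP hpd).riem p X Y = (D11 P X Y p).re := by
  unfold HermitianMetricOn.riem
  rw [potMetric_herm hU P hP hpd hp]

lemma potMetric_isKahler : (potMetric hU P hP hpd).IsKahler := by
  intro p hp i j k
  have hc : ContDiffAt ℝ ∞ (dzb (stdVec j) (fun q => (P q : ℂ))) p :=
    contDiffAt_dzb_inf _ (contDiffAt_ofReal (hP.contDiffAt (hU.mem_nhds hp)))
  exact dz_comm (X := stdVec k) (Y := stdVec i) (hc.of_le (by norm_cast))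

lemma potMetric_isGam {p : Fin n → ℂ} (hp : p ∈ U) (X Y : Fin n → ℂ) :
    IsGam P p X Y ((potMetric hU P hP hpd).christoffel p X Y) := by
  intro Z
  rw [← potMetric_herm hU P hP hpd hp, christoffel_spec _ hU (potMetric_isKahler hU P hP hpd) hp]
  have : (fun q => (potMetric hU P hP hpd).herm q Y Z) =ᶠ[𝓝 p] dz Y (dzb Z (fun q => (P q : ℂ))) := by
    filter_upwards [hU.mem_nhds hp] with q hq
    rw [potMetric_herm hU P hP hpd hq]
    rfl
  exact dz_congr this

lemma potMetric_negK {p : Fin n → ℂ} (hp : p ∈ U) (X Y : Fin n → ℂ) :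
    (potMetric hU P hP hpd).riem p ((potMetric hU P hP hpd).curvature p X Y Y) X =
      - negK P p X Y ((potMetric hU P hP hpd).christoffel p X X)
        ((potMetric hU P hP hpd).christoffel p X Y)
        ((potMetric hU P hP hpd).christoffel p Y Y) := by
  set g := potMetric hU P hP hpd with hg
  have hPp : ContDiffAt ℝ ∞ P p := hP.contDiffAt (hU.mem_nhds hp)
  have hPc := contDiffAt_ofReal hPp
  have hK := potMetric_isKahler hU P hP hpd
  rw [riem_curvature g hU hK hp]
  rw [potMetric_herm hU P hP hpd hp, potMetric_herm hU P hP hpd hp]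
  have h1 : (fun q => g.herm q Y X) =ᶠ[𝓝 p] dz Y (dzb X (fun q => (P q : ℂ))) := by
    filter_upwards [hU.mem_nhds hp] with q hq
    rw [potMetric_herm hU P hP hpd hq]
    rfl
  -- first term
  have e1 : dzb X (dz Y (fun q => g.herm q Y X)) p = D22 P Y Y X X p := by
    rw [dzb_congr (dz_eventuallyEq h1)]
    unfold D22
    -- dzb X (dz Y (dz Y (dzb X P))) = dz Y (dz Y (dzb X (dzb X P)))
    have a1 : ContDiffAt ℝ ∞ (dz Y (dzb X (fun q => (P q : ℂ)))) p :=
      contDiffAt_dz_inf _ (contDiffAt_dzb_inf _ hPc)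
    rw [← dz_dzb_comm (X := Y) (Y := X) (a1.of_le (by norm_cast))]
    have a2 : dzb X (dz Y (dzb X (fun q => (P q : ℂ)))) =ᶠ[𝓝 p]
        dz Y (dzb X (dzb X (fun q => (P q : ℂ)))) := by
      filter_upwards [hU.mem_nhds hp] with q hq
      have hq1 : ContDiffAt ℝ ∞ (dzb X (fun q => (P q : ℂ))) q :=
        contDiffAt_dzb_inf _ (contDiffAt_ofReal (hP.contDiffAt (hU.mem_nhds hq)))
      exact (dz_dzb_comm (X := Y) (Y := X) (hq1.of_le (by norm_cast))).symm
    exact dz_congr a2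
  have e2 : dzb Y (dz X (fun q => g.herm q Y X)) p = D22 P X Y X Y p := by
    rw [dzb_congr (dz_eventuallyEq h1)]
    unfold D22
    -- dzb Y (dz X (dz Y (dzb X P))) = dz X (dz Y (dzb X (dzb Y P)))
    have a1 : ContDiffAt ℝ ∞ (dz Y (dzb X (fun q => (P q : ℂ)))) p :=
      contDiffAt_dz_inf _ (contDiffAt_dzb_inf _ hPc)
    rw [← dz_dzb_comm (X := X) (Y := Y) (a1.of_le (by norm_cast))]
    have a2 : dzb Y (dz Y (dzb X (fun q => (P q : ℂ)))) =ᶠ[𝓝 p]
        dz Y (dzb X (dzb Y (fun q => (P q : ℂ)))) := by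
      filter_upwards [hU.mem_nhds hp] with q hq
      have hq0 := contDiffAt_ofReal (hP.contDiffAt (hU.mem_nhds hq))
      have hq1 : ContDiffAt ℝ ∞ (dzb X (fun q => (P q : ℂ))) q :=
        contDiffAt_dzb_inf _ hq0
      rw [← dz_dzb_comm (X := Y) (Y := Y) (hq1.of_le (by norm_cast))]
      have a3 : dzb Y (dzb X (fun q => (P q : ℂ))) =ᶠ[𝓝 q] dzb X (dzb Y (fun q => (P q : ℂ))) := by
        filter_upwards [hU.mem_nhds hq] with r hr
        have hr0 := contDiffAt_ofReal (hP.contDiffAt (hU.mem_nhds hr))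
        exact dzb_comm (hr0.of_le (by norm_cast))
      exact dz_congr a3
    exact dz_congr a2
  rw [e1, e2]
  unfold negK
  have e3 : (D22 P Y Y X X p).re = (D22 P X X Y Y p).re := by
    rw [← D22_conj hPp X X Y Y, Complex.conj_re]
  have e4 : (D11 P (g.christoffel p Y Y) (g.christoffel p X X) p).re =
      (D11 P (g.christoffel p X X) (g.christoffel p Y Y) p).re := by
    rw [← D11_conj hPp (g.christoffel p X X) (g.christoffel p Y Y), Complex.conj_re]
  simp only [Complex.add_re, Complex.sub_re]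
  rw [e3, e4]
  ring

end MC

theorem metric_of_potential {U : Set V3} (hU : IsOpen U) (P : V3 → ℝ)
    (hP : ContDiffOn ℝ ∞ P U) (hpd : ∀ p ∈ U, PD P p) :
    ∃ g : HermitianMetricOn 3 U, g.IsKahler ∧
      (∀ p ∈ U, ∀ X Y, g.riem p X Y = (D11 P X Y p).re) ∧
      (∀ p ∈ U, ∀ c B, KB P p c B → ∀ X Y,
        g.riem p X X * g.riem p Y Y - g.riem p X Y ^ 2 ≠ 0 →
          -B ≤ g.sectional p X Y ∧ g.sectional p X Y ≤ -c) := by
  refine ⟨MC.potMetric hU P hP hpd, MC.potMetric_isKahler hU P hP hpd,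
    fun p hp X Y => MC.potMetric_riem hU P hP hpd hp X Y, ?_⟩
  intro p hp c B hKB X Y hne
  have hPp : ContDiffAt ℝ ∞ P p := hP.contDiffAt (hU.mem_nhds hp)
  have h1 := hKB X Y _ _ _ (MC.potMetric_isGam hU P hP hpd hp X X)
    (MC.potMetric_isGam hU P hP hpd hp X Y) (MC.potMetric_isGam hU P hP hpd hp Y Y)
  have harea : (MC.potMetric hU P hP hpd).riem p X X * (MC.potMetric hU P hP hpd).riem p Y Y
      - (MC.potMetric hU P hP hpd).riem p X Y ^ 2 = area P p X Y := by
    simp only [MC.potMetric_riem hU P hP hpd hp, area]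
  unfold HermitianMetricOn.sectional
  rw [harea] at hne ⊢
  have hpos : 0 < area P p X Y := lt_of_le_of_ne (area_nonneg hPp (hpd p hp) X Y) (Ne.symm hne)
  rw [MC.potMetric_negK hU P hP hpd hp, neg_div]
  constructor
  · rw [neg_le_neg_iff, div_le_iff₀ hpos]
    exact h1.2
  · rw [neg_le_neg_iff, le_div_iff₀ hpos]
    exact h1.1

end Crest.Agent.R245
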