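import Crest.Agent.R245.BasePertA
import Crest.Agent.R245.Hol

/-! TASK NS1: the sup-point argument. -/

set_option autoImplicit false

namespace Crest.Agent.R245

open Complex Filter Topology
open scoped ContDiff ComplexConjugate

namespace NS1

theorem continuous_rho : Continuous rho := by
  unfold rho
  fun_prop

theorem isOpen_Dom : IsOpen Dom := isOpen_lt continuous_const continuous_rho

theorem convex_Dom : Convex ℝ Dom := by
  intro p hp q hq a b ha hb hab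
  simp only [Dom, rho, Set.mem_ofPred_eq] at hp hq ⊢
  have h1 : (a • p + b • q).2.im = a * p.2.im + b * q.2.im := by simp
  have h2 : ‖(a • p + b • q).1‖ ^ 2 ≤ a * ‖p.1‖ ^ 2 + b * ‖q.1‖ ^ 2 := by
    have h3 : ‖(a • p + b • q).1‖ ≤ a * ‖p.1‖ + b * ‖q.1‖ := by
      have := norm_add_le (a • p.1) (b • q.1)
      rw [norm_smul, norm_smul, Real.norm_of_nonneg ha, Real.norm_of_nonneg hb] at this
      simpa using this
    have h4 : ‖(a • p + b • q).1‖ ^ 2 ≤ (a * ‖p.1‖ + b * ‖q.1‖) ^ 2 :=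
      pow_le_pow_left₀ (norm_nonneg _) h3 2
    have h5 : (a * ‖p.1‖ + b * ‖q.1‖) ^ 2 + a * b * (‖p.1‖ - ‖q.1‖) ^ 2
        = (a + b) * (a * ‖p.1‖ ^ 2 + b * ‖q.1‖ ^ 2) := by ring
    rw [hab, one_mul] at h5
    have h6 : 0 ≤ a * b * (‖p.1‖ - ‖q.1‖) ^ 2 := by positivity
    linarith
  rw [h1]
  rcases eq_or_lt_of_le ha with h | h
  · subst h
    have hb1 : b = 1 := by linarith
    subst hb1
    nlinarith
  · nlinarith [mul_pos h hp, mul_nonneg hb hq.le]

theorem im_pos {p : B2} (hp : p ∈ Dom) : 0 < p.2.im := by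
  simp only [Dom, rho, Set.mem_ofPred_eq] at hp
  nlinarith [sq_nonneg ‖p.1‖]

/-- nonvanishing at arbitrarily low height -/
theorem exists_low {F : B2 → ℂ} (hF : DifferentiableOn ℂ F Dom) (hne : ∃ p ∈ Dom, F p ≠ 0)
    {m : ℝ} (hm : 0 < m) : ∃ p ∈ Dom, p.2.im < m ∧ F p ≠ 0 := by
  by_contra hcon
  push Not at hcon
  obtain ⟨x, hx, hFx⟩ := hne
  -- the point (0, i m/2)
  set p : B2 := (0, I * ((m / 2 : ℝ) : ℂ)) with hp
  have hpim : p.2.im = m / 2 := by
    simp only [hp, Complex.mul_im, Complex.I_re, Complex.I_im, Complex.ofReal_re,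
      Complex.ofReal_im]
    ring
  have hpD : p ∈ Dom := by
    simp only [Dom, rho, Set.mem_ofPred_eq]
    rw [hpim, hp]
    simp
    exact hm
  apply hFx
  refine Hol.eq_zero_of_convex isOpen_Dom convex_Dom hF hpD ?_ hx
  have h1 : {q : B2 | q.2.im < m} ∈ 𝓝 p := by
    apply IsOpen.mem_nhds
    · exact isOpen_lt (by fun_prop) continuous_const
    · change p.2.im < m
      rw [hpim]; linarith
  filter_upwards [isOpen_Dom.mem_nhds hpD, h1] with q hq1 hq2
  exact hcon q hq1 hq2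

theorem norm_exp_IM (M : ℝ) (a b : ℂ) :
    ‖Complex.exp (I * M * (a - b))‖ = Real.exp (-(M * (a.im - b.im))) := by
  rw [Complex.norm_exp]
  congr 1
  simp only [Complex.mul_re, Complex.I_re, Complex.I_im, Complex.ofReal_re, Complex.ofReal_im,
    Complex.mul_im, Complex.sub_re, Complex.sub_im]
  ring

end NS1

open NS1

/-- almost maximum point of `log |F| - τ/2 Ψ - M Im w`. -/
theorem sup_point (Ψ : B2 → ℝ) (F : B2 → ℂ) (hF : DifferentiableOn ℂ F Dom)
    (τ C Vh v δ : ℝ) (hτ : 0 < τ) (hVh : 0 < Vh) (hv : 0 < v) (hδ : 0 < δ)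
    (hC : ∀ p ∈ Dom, p.2.im < Vh → ‖F p‖ ≤ C * Real.exp (τ / 2 * Ψ p))
    (hne : ∃ p ∈ Dom, F p ≠ 0) :
    ∃ p ∈ Dom, p.2.im < v ∧ F p ≠ 0 ∧ ∃ M : ℝ, ∀ q ∈ Dom, q.2.im < Vh →
      ‖F q * Complex.exp (I * M * (q.2 - p.2)) / F p‖ ≤ Real.exp (τ / 2 * (Ψ q - Ψ p) + δ) := by
  set v' : ℝ := min v Vh / 2 with hv'
  have hmin : 0 < min v Vh := lt_min hv hVh
  obtain ⟨p0, hp0, hp0im, hFp0⟩ := exists_low hF hne (m := min v Vh / 4) (by positivity)
  have hp0Vh : p0.2.im < Vh := by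
    have : min v Vh ≤ Vh := min_le_right _ _
    linarith
  set A0 : ℝ := ‖F p0‖ * Real.exp (-(τ / 2 * Ψ p0)) with hA0
  have hA0pos : 0 < A0 := mul_pos (norm_pos_iff.mpr hFp0) (Real.exp_pos _)
  have hCpos : 0 < C := by
    have h1 := hC p0 hp0 hp0Vh
    have h2 : 0 < ‖F p0‖ := norm_pos_iff.mpr hFp0
    have h3 : 0 < C * Real.exp (τ / 2 * Ψ p0) := lt_of_lt_of_le h2 h1
    exact pos_of_mul_pos_left h3 (Real.exp_pos _).le
  have hc : 0 < v' - p0.2.im := by
    have : v' = min v Vh / 2 := hv'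
    linarith
  obtain ⟨M, hM0, hM⟩ : ∃ M : ℝ, 0 ≤ M ∧ C < A0 * Real.exp (M * (v' - p0.2.im)) := by
    refine ⟨C / A0 / (v' - p0.2.im), by positivity, ?_⟩
    rw [div_mul_cancel₀ _ hc.ne']
    have h1 : C / A0 + 1 ≤ Real.exp (C / A0) := Real.add_one_le_exp _
    have h2 : A0 * (C / A0 + 1) ≤ A0 * Real.exp (C / A0) := mul_le_mul_of_nonneg_left h1 hA0pos.le
    have h3 : A0 * (C / A0 + 1) = C + A0 := by field_simp
    linarith
  -- the functional
  set g : B2 → ℝ := fun q => ‖F q‖ * Real.exp (-(τ / 2 * Ψ q)) * Real.exp (-(M * q.2.im)) with hg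
  set Ω : Set B2 := {q | q ∈ Dom ∧ q.2.im < Vh} with hΩ
  have hgle : ∀ q ∈ Ω, g q ≤ C * Real.exp (-(M * q.2.im)) := by
    intro q hq
    have h1 := hC q hq.1 hq.2
    have h2 : ‖F q‖ * Real.exp (-(τ / 2 * Ψ q)) ≤ C := by
      calc ‖F q‖ * Real.exp (-(τ / 2 * Ψ q))
          ≤ C * Real.exp (τ / 2 * Ψ q) * Real.exp (-(τ / 2 * Ψ q)) :=
            mul_le_mul_of_nonneg_right h1 (Real.exp_pos _).le
        _ = C := by rw [mul_assoc, ← Real.exp_add]; simp
    exact mul_le_mul_of_nonneg_right h2 (Real.exp_pos _).le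
  have hgC : ∀ q ∈ Ω, g q ≤ C := by
    intro q hq
    refine (hgle q hq).trans ?_
    have : Real.exp (-(M * q.2.im)) ≤ 1 := by
      rw [Real.exp_le_one_iff]
      have := mul_nonneg hM0 (im_pos hq.1).le
      linarith
    nlinarith
  have hp0Ω : p0 ∈ Ω := ⟨hp0, hp0Vh⟩
  have hbdd : BddAbove (g '' Ω) := ⟨C, by rintro _ ⟨q, hq, rfl⟩; exact hgC q hq⟩
  set S : ℝ := sSup (g '' Ω) with hS
  have hgS : ∀ q ∈ Ω, g q ≤ S := fun q hq => le_csSup hbdd ⟨q, hq, rfl⟩
  have hgp0 : g p0 = A0 * Real.exp (-(M * p0.2.im)) := rfl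
  have hgp0pos : 0 < g p0 := by rw [hgp0]; positivity
  have hSpos : 0 < S := lt_of_lt_of_le hgp0pos (hgS p0 hp0Ω)
  have hlow : C * Real.exp (-(M * v')) < g p0 := by
    rw [hgp0]
    have h1 : Real.exp (-(M * p0.2.im)) = Real.exp (M * (v' - p0.2.im)) * Real.exp (-(M * v')) := by
      rw [← Real.exp_add]; congr 1; ring
    rw [h1, ← mul_assoc]
    exact mul_lt_mul_of_pos_right hM (Real.exp_pos _)
  have hmax : max (S * Real.exp (-δ)) (C * Real.exp (-(M * v'))) < S := by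
    refine max_lt ?_ (lt_of_lt_of_le hlow (hgS p0 hp0Ω))
    have : Real.exp (-δ) < 1 := by rw [Real.exp_lt_one_iff]; linarith
    nlinarith
  obtain ⟨_, ⟨p, hpΩ, rfl⟩, hp⟩ := exists_lt_of_lt_csSup
    (⟨g p0, p0, hp0Ω, rfl⟩ : (g '' Ω).Nonempty) hmax
  have hp1 : S * Real.exp (-δ) < g p := (le_max_left _ _).trans_lt hp
  have hp2 : C * Real.exp (-(M * v')) < g p := (le_max_right _ _).trans_lt hp
  have hgp : 0 < g p := lt_of_le_of_lt (by positivity) hp2
  have hFp : F p ≠ 0 := by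
    intro h0
    have : g p = 0 := by simp [hg, h0]
    linarith
  have himp : p.2.im < v' := by
    by_contra hcon
    push Not at hcon
    have h1 := hgle p hpΩ
    have h2 : Real.exp (-(M * p.2.im)) ≤ Real.exp (-(M * v')) := by
      apply Real.exp_le_exp.mpr
      have := mul_le_mul_of_nonneg_left hcon hM0
      linarith
    have h3 := mul_le_mul_of_nonneg_left h2 hCpos.le
    linarith
  refine ⟨p, hpΩ.1, ?_, hFp, M, fun q hq hqV => ?_⟩
  · have : min v Vh ≤ v := min_le_left _ _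
    linarith
  · have h1 : g q ≤ S := hgS q ⟨hq, hqV⟩
    have h2 : S < g p * Real.exp δ := by
      have h3 := mul_lt_mul_of_pos_right hp1 (Real.exp_pos δ)
      rw [mul_assoc, ← Real.exp_add] at h3
      simpa using h3
    have h3 : g q ≤ g p * Real.exp δ := (h1.trans_lt h2).le
    have hFppos : 0 < ‖F p‖ := norm_pos_iff.mpr hFp
    rw [norm_div, norm_mul, norm_exp_IM, div_le_iff₀ hFppos]
    simp only [hg] at h3
    -- multiply by exponentials
    have h4 := mul_le_mul_of_nonneg_right h3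
      (Real.exp_pos (τ / 2 * Ψ q + M * p.2.im)).le
    have e1 : ‖F q‖ * Real.exp (-(τ / 2 * Ψ q)) * Real.exp (-(M * q.2.im)) *
        Real.exp (τ / 2 * Ψ q + M * p.2.im) = ‖F q‖ * Real.exp (-(M * (q.2.im - p.2.im))) := by
      rw [mul_assoc, mul_assoc, ← Real.exp_add, ← Real.exp_add]
      congr 2; ring
    have e2 : ‖F p‖ * Real.exp (-(τ / 2 * Ψ p)) * Real.exp (-(M * p.2.im)) * Real.exp δ *
        Real.exp (τ / 2 * Ψ q + M * p.2.im) = Real.exp (τ / 2 * (Ψ q - Ψ p) + δ) * ‖F p‖ := by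
      rw [mul_assoc, mul_assoc, mul_assoc, ← Real.exp_add, ← Real.exp_add, ← Real.exp_add,
        mul_comm]
      congr 2; ring
    rw [e1, e2] at h4
    exact h4

end Crest.Agent.R245
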