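import Mathlib

/-! TASK NS2: Harnack chain in one complex variable. -/

set_option autoImplicit false

namespace Crest.Agent.R245

open Complex Filter Topology
open scoped ContDiff ComplexConjugate

private lemma ns2_re_poisson {g : ℂ → ℂ} {c y : ℂ} {R : ℝ} (hR : 0 < R)
    (hg : DiffContOnCl ℂ g (Metric.ball c R)) (hy : y ∈ Metric.ball c R) :
    Real.circleAverage
      (fun z => ((z - c + (y - c)) / ((z - c) - (y - c))).re * (g z).re) c R = (g y).re ∧
    CircleIntegrable
      (fun z => ((z - c + (y - c)) / ((z - c) - (y - c))).re * (g z).re) c R := by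
  have h1 := hg.circleAverage_re_herglotzRieszKernel_smul' hy
  have habs : |R| = R := abs_of_pos hR
  have hK : ContinuousOn (fun z => ((z - c + (y - c)) / ((z - c) - (y - c))).re)
      (Metric.sphere c |R|) := by
    have := continuousOn_herglotzRieszKernel_sphere (c := c) (w := y) (R := R) hy
    exact Complex.continuous_re.comp_continuousOn this
  have hgc : ContinuousOn g (Metric.sphere c |R|) := by
    rw [habs]
    refine hg.continuousOn.mono ?_
    rw [closure_ball c hR.ne']
    exact Metric.sphere_subset_closedBall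
  have hint : CircleIntegrable
      (fun z => ((z - c + (y - c)) / ((z - c) - (y - c))).re • g z) c R :=
    (ContinuousOn.smul hK hgc).circleIntegrable'
  have h2 := Complex.reCLM.circleAverage_comp_comm hint
  constructor
  · rw [h1] at h2
    rw [← Complex.reCLM_apply (g y), ← h2]
    congr 1
    ext z
    simp
  · refine ContinuousOn.circleIntegrable' ?_
    exact hK.mul (Complex.continuous_re.comp_continuousOn hgc)

private lemma ns2_harnack_step {G : ℂ → ℂ} {c y : ℂ} {R K : ℝ} (hR : 0 < R)
    (hG : DiffContOnCl ℂ G (Metric.ball c R))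
    (hle : ∀ z ∈ Metric.sphere c R, (G z).re ≤ K) (hy : ‖y - c‖ ≤ R / 2) :
    K - (G y).re ≤ 3 * (K - (G c).re) := by
  have hg : DiffContOnCl ℂ (fun z => (K : ℂ) - G z) (Metric.ball c R) :=
    (diffContOnCl_const (c := (K : ℂ))).sub hG
  have hyb : y ∈ Metric.ball c R := by
    rw [Metric.mem_ball, dist_eq_norm]; linarith
  have hcb : c ∈ Metric.ball c R := Metric.mem_ball_self hR
  obtain ⟨ey, iy⟩ := ns2_re_poisson hR hg hyb
  obtain ⟨ec, ic⟩ := ns2_re_poisson hR hg hcb
  have habs : |R| = R := abs_of_pos hR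
  have hmono : Real.circleAverage
      (fun z => ((z - c + (y - c)) / ((z - c) - (y - c))).re * ((K : ℂ) - G z).re) c R ≤
      Real.circleAverage
      (fun z => 3 * (((z - c + (c - c)) / ((z - c) - (c - c))).re * ((K : ℂ) - G z).re)) c R := by
    refine Real.circleAverage_mono iy (CircleIntegrable.const_fun_smul (a := (3:ℝ)) ic) ?_
    intro z hz
    rw [habs] at hz
    have h1 := _root_.re_herglotzRieszKernel_le (c := c) (w := y) (R := R) hz hyb
    have hre : 0 ≤ ((K : ℂ) - G z).re := by
      rw [Complex.sub_re, Complex.ofReal_re]; linarith [hle z hz]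
    have hzc : z - c ≠ 0 := by
      intro h
      rw [mem_sphere_iff_norm, h, norm_zero] at hz
      linarith
    have h2 : ((z - c + (c - c)) / ((z - c) - (c - c))).re = 1 := by
      rw [sub_self, add_zero, sub_zero, div_self hzc, Complex.one_re]
    have h3 : ((z - c + (y - c)) / ((z - c) - (y - c))).re ≤ 3 := by
      refine h1.trans ?_
      rw [div_le_iff₀ (by linarith)]
      linarith
    show ((z - c + (y - c)) / ((z - c) - (y - c))).re * ((K : ℂ) - G z).re ≤
      3 * (((z - c + (c - c)) / ((z - c) - (c - c))).re * ((K : ℂ) - G z).re)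
    rw [h2, one_mul]
    exact mul_le_mul_of_nonneg_right h3 hre
  have e3 : Real.circleAverage
      (fun z => 3 * (((z - c + (c - c)) / ((z - c) - (c - c))).re * ((K : ℂ) - G z).re)) c R =
      3 * ((K : ℂ) - G c).re := by
    have := Real.circleAverage_fun_smul (a := (3:ℝ))
      (f := fun z => ((z - c + (c - c)) / ((z - c) - (c - c))).re * ((K : ℂ) - G z).re)
      (c := c) (R := R)
    simp only [smul_eq_mul] at this
    rw [this, ec]
  rw [e3, ey] at hmono
  simpa using hmono

/-- `Re G ≤ K` on the `r`-neighbourhood of `[0,1]`, `Re G(0) ≥ 0` ⟹ `Re G(1) ≥ -3^n K`, `n ≥ 2/r`. -/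
theorem harnack_chain (G : ℂ → ℂ) (r K : ℝ) (n : ℕ) (hr : 0 < r) (hK : 0 ≤ K)
    (hn : 2 / r ≤ n)
    (hG : ∀ z : ℂ, (∃ t ∈ Set.Icc (0:ℝ) 1, ‖z - t‖ ≤ r) → DifferentiableAt ℂ G z)
    (hle : ∀ z : ℂ, (∃ t ∈ Set.Icc (0:ℝ) 1, ‖z - t‖ ≤ r) → (G z).re ≤ K)
    (h0 : 0 ≤ (G 0).re) : -(3 ^ n * K) ≤ (G 1).re := by
  have hnpos : (0:ℝ) < n := lt_of_lt_of_le (by positivity) hn
  have hn1 : (1:ℝ) / n ≤ r / 2 := by
    rw [div_le_div_iff₀ hnpos (by norm_num)]
    rw [div_le_iff₀ hr] at hn
    linarith
  have key : ∀ k : ℕ, k ≤ n → K - (G (((k:ℝ) / n : ℝ) : ℂ)).re ≤ 3 ^ k * K := by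
    intro k
    induction k with
    | zero => intro _; simpa using h0
    | succ k ih =>
      intro hk
      have hk' : k ≤ n := by omega
      have ht : ((k:ℝ) / n) ∈ Set.Icc (0:ℝ) 1 := by
        constructor
        · positivity
        · rw [div_le_one hnpos]; exact_mod_cast hk'
      have hmem : ∀ z ∈ Metric.closedBall ((((k:ℝ) / n : ℝ)) : ℂ) r,
          ∃ t ∈ Set.Icc (0:ℝ) 1, ‖z - t‖ ≤ r := by
        intro z hz
        refine ⟨(k:ℝ) / n, ht, ?_⟩
        rwa [mem_closedBall_iff_norm] at hz
      have hd : DiffContOnCl ℂ G (Metric.ball ((((k:ℝ) / n : ℝ)) : ℂ) r) := by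
        apply DifferentiableOn.diffContOnCl
        intro z hz
        have hz' := Metric.closure_ball_subset_closedBall hz
        exact (hG z (hmem z hz')).differentiableWithinAt
      have hstep := ns2_harnack_step (y := ((((k + 1 : ℕ):ℝ) / n : ℝ) : ℂ)) hr hd
        (fun z hz => hle z (hmem z (Metric.sphere_subset_closedBall hz))) (by
          rw [← Complex.ofReal_sub, Complex.norm_real]
          have : ((k + 1 : ℕ):ℝ) / n - (k:ℝ) / n = 1 / n := by
            push_cast; ring
          rw [this, Real.norm_eq_abs, abs_of_pos (by positivity)]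
          exact hn1)
      calc K - (G ((((k + 1 : ℕ):ℝ) / n : ℝ) : ℂ)).re
          ≤ 3 * (K - (G (((k:ℝ) / n : ℝ) : ℂ)).re) := hstep
        _ ≤ 3 * (3 ^ k * K) := by linarith [ih hk']
        _ = 3 ^ (k + 1) * K := by ring
  have h1 := key n le_rfl
  rw [div_self hnpos.ne', Complex.ofReal_one] at h1
  linarith

end Crest.Agent.R245
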