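import Crest.Agent.R245.WildE

/-! TASK NS3: the geometric estimate. -/

set_option autoImplicit false

namespace Crest.Agent.R245

open Complex Filter Topology
open scoped ContDiff ComplexConjugate

noncomputable def Psi (ε T M b η : ℝ) (p : B2) : ℝ := PhiW ε T M b p + η * aS p

/-- the complex line `{π_{z0} = const}` through `p` -/
noncomputable def lineq (z0 : ℂ) (p : B2) (z : ℂ) : B2 := (z, p.2 + 2 * I * conj z0 * (z - p.1))

namespace NS3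

/-! ### lattice -/

theorem coord_near (t : ℝ) : |t - 4 * (round (t / 4) : ℤ)| ≤ 2 := by
  have h := abs_sub_round (t / 4)
  have e : t - 4 * (round (t / 4) : ℤ) = 4 * (t / 4 - (round (t / 4) : ℤ)) := by ring
  rw [e, abs_mul, abs_of_pos (by norm_num : (0:ℝ) < 4)]
  linarith

theorem mul_zlat {M : ℝ} (hM : 0 < M) (m : ℤ × ℤ) :
    (M : ℂ) * zlat M m = 4 * ((m.1 : ℂ) + (m.2 : ℂ) * I) := by
  unfold zlat
  have : (M : ℂ) ≠ 0 := by exact_mod_cast hM.ne'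
  push_cast
  field_simp

theorem sq_norm_smul {M : ℝ} (z : ℂ) : M ^ 2 * ‖z‖ ^ 2 = ‖(M : ℂ) * z‖ ^ 2 := by
  rw [norm_mul, mul_pow, Complex.norm_real, Real.norm_eq_abs, sq_abs]

/-- nearest lattice point -/
theorem exists_lat {M : ℝ} (hM : 0 < M) (z : ℂ) : ∃ m : ℤ × ℤ, M ^ 2 * ‖z - zlat M m‖ ^ 2 ≤ 8 := by
  refine ⟨(round ((M * z.re) / 4), round ((M * z.im) / 4)), ?_⟩
  rw [sq_norm_smul, mul_sub, mul_zlat hM, Complex.sq_norm, Complex.normSq_apply]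
  have h1 := coord_near (M * z.re)
  have h2 := coord_near (M * z.im)
  have e1 : ((M : ℂ) * z - 4 * (((round ((M * z.re) / 4) : ℤ) : ℂ) +
      ((round ((M * z.im) / 4) : ℤ) : ℂ) * I)).re = M * z.re - 4 * (round (M * z.re / 4) : ℤ) := by
    simp
  have e2 : ((M : ℂ) * z - 4 * (((round ((M * z.re) / 4) : ℤ) : ℂ) +
      ((round ((M * z.im) / 4) : ℤ) : ℂ) * I)).im = M * z.im - 4 * (round (M * z.im / 4) : ℤ) := by
    simp
  simp only [e1, e2]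
  rw [abs_le] at h1 h2
  nlinarith [h1.1, h1.2, h2.1, h2.2]

/-- distinct lattice points are far apart -/
theorem lat_sep {M : ℝ} (hM : 0 < M) {m m' : ℤ × ℤ} (h : m ≠ m') :
    4 ≤ M * ‖zlat M m - zlat M m'‖ := by
  have e : M * ‖zlat M m - zlat M m'‖ = ‖(M : ℂ) * (zlat M m - zlat M m')‖ := by
    rw [norm_mul, Complex.norm_real, Real.norm_of_nonneg hM.le]
  rw [e, mul_sub, mul_zlat hM, mul_zlat hM]
  have e2 : (4 : ℂ) * ((m.1 : ℂ) + (m.2 : ℂ) * I) - 4 * ((m'.1 : ℂ) + (m'.2 : ℂ) * I) =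
      4 * (((m.1 - m'.1 : ℤ) : ℂ) + ((m.2 - m'.2 : ℤ) : ℂ) * I) := by push_cast; ring
  rw [e2, norm_mul]
  have h4 : ‖(4 : ℂ)‖ = 4 := by simp
  rw [h4]
  have h2 : (1 : ℝ) ≤ ‖(((m.1 - m'.1 : ℤ) : ℂ) + ((m.2 - m'.2 : ℤ) : ℂ) * I)‖ := by
    have hre : ((((m.1 - m'.1 : ℤ) : ℂ) + ((m.2 - m'.2 : ℤ) : ℂ) * I)).re = ((m.1 - m'.1 : ℤ) : ℝ) := by
      simp
    have him : ((((m.1 - m'.1 : ℤ) : ℂ) + ((m.2 - m'.2 : ℤ) : ℂ) * I)).im = ((m.2 - m'.2 : ℤ) : ℝ) := by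
      simp
    by_cases h1 : m.1 = m'.1
    · have h3 : m.2 ≠ m'.2 := fun h3 => h (Prod.ext h1 h3)
      have h5 := Complex.abs_im_le_norm ((((m.1 - m'.1 : ℤ) : ℂ) + ((m.2 - m'.2 : ℤ) : ℂ) * I))
      rw [him] at h5
      refine le_trans ?_ h5
      have : 1 ≤ |m.2 - m'.2| := Int.one_le_abs (sub_ne_zero.2 h3)
      exact_mod_cast this
    · have h5 := Complex.abs_re_le_norm ((((m.1 - m'.1 : ℤ) : ℂ) + ((m.2 - m'.2 : ℤ) : ℂ) * I))
      rw [hre] at h5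
      refine le_trans ?_ h5
      have : 1 ≤ |m.1 - m'.1| := Int.one_le_abs (sub_ne_zero.2 h1)
      exact_mod_cast this
  linarith

/-- if `z` is near `z_{m0}`, it is far from the others. -/
theorem lat_other {M : ℝ} (hM : 0 < M) {z : ℂ} {m0 : ℤ × ℤ} (h0 : M ^ 2 * ‖z - zlat M m0‖ ^ 2 < 2)
    {m : ℤ × ℤ} (hm : m ≠ m0) : 2 ≤ M ^ 2 * ‖z - zlat M m‖ ^ 2 := by
  have h1 := lat_sep hM hm
  have h2 : ‖zlat M m - zlat M m0‖ ≤ ‖z - zlat M m‖ + ‖z - zlat M m0‖ := by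
    calc ‖zlat M m - zlat M m0‖ = ‖(z - zlat M m0) - (z - zlat M m)‖ := by congr 1; ring
      _ ≤ ‖z - zlat M m0‖ + ‖z - zlat M m‖ := norm_sub_le _ _
      _ = _ := by ring
  set x := M * ‖z - zlat M m‖ with hx
  set y := M * ‖z - zlat M m0‖ with hy
  have hy0 : 0 ≤ y := by positivity
  have hx0 : 0 ≤ x := by positivity
  have hy2 : y ^ 2 < 2 := by rw [hy, mul_pow]; exact h0
  have hxy : 4 ≤ x + y := by
    have := mul_le_mul_of_nonneg_left h2 hM.le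
    rw [mul_add] at this
    linarith
  have hy15 : y ≤ 3 / 2 := by nlinarith
  have : M ^ 2 * ‖z - zlat M m‖ ^ 2 = x ^ 2 := by rw [hx]; ring
  rw [this]
  nlinarith

/-! ### the line -/

theorem piz_lineq (z0 : ℂ) (p : B2) (z : ℂ) : piz z0 (lineq z0 p z) = piz z0 p := by
  unfold piz lineq; ring

theorem rho_eq (z0 : ℂ) (p : B2) : rho p = (piz z0 p).im - ‖p.1 - z0‖ ^ 2 := by
  rw [piz_im]; ring

theorem rho_lineq (z0 : ℂ) (p : B2) (z : ℂ) :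
    rho (lineq z0 p z) = rho p + ‖p.1 - z0‖ ^ 2 - ‖z - z0‖ ^ 2 := by
  rw [rho_eq z0 (lineq z0 p z), piz_lineq, piz_im]
  rfl

theorem wterm_lineq (ε T M : ℝ) (m : ℤ × ℤ) (p : B2) (z : ℂ) :
    wterm ε T M m (lineq (zlat M m) p z) = wterm ε T M m p := by
  unfold wterm
  rw [piz_lineq]

/-! ### sums -/

theorem sum_geo1 {r : ℝ} (hr0 : 0 ≤ r) (hr : r ≤ 1 / 2) (s : ℕ) :
    ∑ i ∈ Finset.range s, r ^ (s - i) ≤ 2 * r := by
  induction s with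
  | zero => simp; exact hr0
  | succ n ih =>
    rw [Finset.sum_range_succ]
    have h1 : ∑ i ∈ Finset.range n, r ^ (n + 1 - i) = r * ∑ i ∈ Finset.range n, r ^ (n - i) := by
      rw [Finset.mul_sum]
      apply Finset.sum_congr rfl
      intro i hi
      have : n + 1 - i = (n - i) + 1 := by
        have := Finset.mem_range.1 hi; omega
      rw [this, pow_succ]; ring
    rw [h1]
    have h2 : n + 1 - n = 1 := by omega
    rw [h2, pow_one]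
    have h3 : r * ∑ i ∈ Finset.range n, r ^ (n - i) ≤ r * (2 * r) := mul_le_mul_of_nonneg_left ih hr0
    nlinarith

theorem sum_geo2 (J : ℕ) : ∑ k ∈ Finset.range J, (1 / 2 : ℝ) ^ (k + 1) ≤ 1 := by
  have h : ∑ k ∈ Finset.range J, (1 / 2 : ℝ) ^ (k + 1) = 1 - (1 / 2) ^ J := by
    induction J with
    | zero => simp
    | succ n ih => rw [Finset.sum_range_succ, ih, pow_succ]; ring
  rw [h]
  have : (0:ℝ) ≤ (1 / 2) ^ J := by positivity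
  linarith

/-- comparison of `PhiW` at two points, scale by scale -/
theorem PhiW_sub_le {ε T M b : ℝ} (hε : 0 < ε) (hT : 3 ≤ T) (hb : 2 ≤ b)
    (hM : 256 * T ≤ M ^ 2) (hM0 : 0 < M) {x p : B2} (hx : x ∈ Dom) (hp : p ∈ Dom) (g : ℕ → ℝ)
    (hg : ∀ i, Wsc ε T (M * b ^ i) x - Wsc ε T (M * b ^ i) p ≤ g i) (K : ℝ) (J₀ : ℕ)
    (hK : ∀ J, J₀ ≤ J → ∑ i ∈ Finset.range J, g i ≤ K) :
    PhiW ε T M b x - PhiW ε T M b p ≤ K := by
  have hz : ∀ q : B2, q ∈ Dom → ∃ J : ℕ, ∀ i, J ≤ i → Wsc ε T (M * b ^ i) q = 0 := by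
    intro q hq
    have hrq : 0 < rho q := hq
    obtain ⟨J, hJ⟩ : ∃ J : ℕ, T / (M ^ 2 * rho q) < b ^ J :=
      pow_unbounded_of_one_lt _ (by linarith)
    refine ⟨J, fun i hi => ?_⟩
    apply Wsc_eq_zero hT (by positivity) hq
    have h1 : b ^ J ≤ b ^ i := pow_le_pow_right₀ (by linarith) hi
    have h1' : (1 : ℝ) ≤ b ^ i := one_le_pow₀ (by linarith)
    have h2 : T < b ^ J * (M ^ 2 * rho q) := by
      rwa [div_lt_iff₀ (by positivity)] at hJ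
    have h3 : b ^ J * (M ^ 2 * rho q) ≤ b ^ i * (M ^ 2 * rho q) :=
      mul_le_mul_of_nonneg_right h1 (by positivity)
    have h4 : (M * b ^ i) ^ 2 * rho q = b ^ i * (b ^ i * (M ^ 2 * rho q)) := by ring
    rw [h4]
    have h5 : 0 ≤ b ^ i * (M ^ 2 * rho q) := by positivity
    nlinarith
  obtain ⟨J1, hJ1⟩ := hz x hx
  obtain ⟨J2, hJ2⟩ := hz p hp
  set J := max J₀ (max J1 J2) with hJ
  have hs : ∀ q : B2, q ∈ Dom → (∀ i, J ≤ i → Wsc ε T (M * b ^ i) q = 0) →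
      PhiW ε T M b q = ∑ i ∈ Finset.range J, Wsc ε T (M * b ^ i) q := by
    intro q hq h
    rw [PhiW_eq_sum hε hT hb hM hM0 hq]
    apply finsum_eq_sum_of_support_subset
    intro i hi
    simp only [Finset.coe_range, Set.mem_Iio]
    by_contra hcon
    push Not at hcon
    exact hi (h i hcon)
  rw [hs x hx (fun i hi => hJ1 i (by omega)), hs p hp (fun i hi => hJ2 i (by omega)),
    ← Finset.sum_sub_distrib]
  exact (Finset.sum_le_sum fun i _ => hg i).trans (hK J (le_max_left _ _))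

/-! ### the tube -/

theorem exists_odd (x : ℝ) : ∃ n : ℤ, |Real.pi * (2 * n + 1) - x| ≤ Real.pi := by
  refine ⟨⌊x / (2 * Real.pi)⌋, ?_⟩
  have hpi := Real.pi_pos
  have h1 := Int.floor_le (x / (2 * Real.pi))
  have h2 := Int.lt_floor_add_one (x / (2 * Real.pi))
  rw [le_div_iff₀ (by positivity)] at h1
  rw [div_lt_iff₀ (by positivity)] at h2
  rw [abs_le]
  constructor <;> nlinarith

/-- the dip point -/
noncomputable def dipPt (N : ℝ) (zs : ℂ) (n : ℤ) : B2 :=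
  (zs, (((Real.pi * (2 * n + 1) : ℝ) : ℂ) + I) / (N : ℂ) + I * ((‖zs‖ ^ 2 : ℝ) : ℂ))

theorem piz_dipPt {N : ℝ} (hN : 0 < N) (zs : ℂ) (n : ℤ) :
    (N : ℂ) * piz zs (dipPt N zs n) = ((Real.pi * (2 * n + 1) : ℝ) : ℂ) + I := by
  unfold piz dipPt
  have hN' : (N : ℂ) ≠ 0 := by exact_mod_cast hN.ne'
  have h : ((‖zs‖ ^ 2 : ℝ) : ℂ) = zs * conj zs := by
    rw [Complex.mul_conj, Complex.normSq_eq_norm_sq]
  simp only
  rw [h]
  field_simp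
  ring

theorem tube {M : ℝ} (hM : 0 < M) {q1 : B2} {zs : ℂ} {n : ℤ} (h1 : M ^ 2 * rho q1 = 2)
    (h2 : M ^ 2 * ‖q1.1 - zs‖ ^ 2 ≤ 8)
    (h3 : |Real.pi * (2 * n + 1) - (((M ^ 2 : ℝ) : ℂ) * piz zs q1).re| ≤ Real.pi)
    {l : ℂ} {t : ℝ} (ht : t ∈ Set.Icc (0:ℝ) 1) (hl : ‖l - t‖ ≤ 1 / 80) :
    1 / 2 ≤ M ^ 2 * rho (q1 + l • (dipPt (M ^ 2) zs n - q1)) ∧
    M ^ 2 * rho (q1 + l • (dipPt (M ^ 2) zs n - q1)) ≤ 11 ∧
    M * ‖(q1 + l • (dipPt (M ^ 2) zs n - q1)).1 - q1.1‖ ≤ 3 ∧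
    M ^ 2 * ‖(q1 + l • (dipPt (M ^ 2) zs n - q1)).2 - q1.2 -
      2 * I * conj q1.1 * ((q1 + l • (dipPt (M ^ 2) zs n - q1)).1 - q1.1)‖ ≤ 30 := by
  have hN : 0 < M ^ 2 := by positivity
  set x : B2 := q1 + l • (dipPt (M ^ 2) zs n - q1) with hx
  set Ω1 : ℂ := ((M ^ 2 : ℝ) : ℂ) * piz zs q1 with hΩ1
  set Ω2 : ℂ := ((Real.pi * (2 * n + 1) : ℝ) : ℂ) + I with hΩ2
  set D : ℂ := Ω2 - Ω1 with hD
  set S : ℝ := M ^ 2 * ‖q1.1 - zs‖ ^ 2 with hS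
  have hS0 : 0 ≤ S := by positivity
  have x1 : x.1 = q1.1 + l * (zs - q1.1) := rfl
  have x2 : x.2 = q1.2 + l * ((dipPt (M ^ 2) zs n).2 - q1.2) := rfl
  have hΩ2' : ((M ^ 2 : ℝ) : ℂ) * piz zs (dipPt (M ^ 2) zs n) = Ω2 := piz_dipPt hN zs n
  have hpx : ((M ^ 2 : ℝ) : ℂ) * piz zs x = Ω1 + l * D := by
    have e : piz zs x = piz zs q1 + l * (piz zs (dipPt (M ^ 2) zs n) - piz zs q1) := by
      have d1 : (dipPt (M ^ 2) zs n).1 = zs := rfl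
      unfold piz
      rw [x1, x2, d1]; ring
    rw [e, hD, ← hΩ2', hΩ1]; ring
  have imΩ1 : Ω1.im = 2 + S := by
    rw [hΩ1, Complex.im_ofReal_mul, piz_im, mul_add, h1]
  have imΩ2 : Ω2.im = 1 := by rw [hΩ2]; simp
  have reΩ2 : Ω2.re = Real.pi * (2 * n + 1) := by
    rw [hΩ2, Complex.add_re, Complex.ofReal_re, Complex.I_re, add_zero]
  have imD : D.im = -1 - S := by rw [hD, Complex.sub_im, imΩ1, imΩ2]; ring
  have hpi : Real.pi ≤ 3.15 := Real.pi_lt_d2.le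
  have nD : ‖D‖ ≤ 12.15 := by
    have e1 := Complex.norm_le_abs_re_add_abs_im D
    have e2 : |D.re| ≤ 3.15 := by
      rw [hD, Complex.sub_re, reΩ2]; exact h3.trans hpi
    have e3 : |D.im| ≤ 9 := by
      rw [imD, abs_le]; constructor <;> linarith
    linarith
  have rhox : M ^ 2 * rho x = (Ω1 + l * D).im - ‖1 - l‖ ^ 2 * S := by
    rw [rho_eq zs x, mul_sub]
    have e1 : M ^ 2 * (piz zs x).im = (((M ^ 2 : ℝ) : ℂ) * piz zs x).im := by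
      rw [Complex.im_ofReal_mul]
    have e2 : M ^ 2 * ‖x.1 - zs‖ ^ 2 = ‖1 - l‖ ^ 2 * S := by
      have : x.1 - zs = (1 - l) * (q1.1 - zs) := by rw [x1]; ring
      rw [this, norm_mul, hS]; ring
    rw [e1, e2, hpx]
  -- decompose l
  set e : ℂ := l - t with he
  have hle : l = (t : ℂ) + e := by rw [he]; ring
  have ht0 := ht.1
  have ht1 := ht.2
  have imlD : (l * D).im = t * (-1 - S) + (e * D).im := by
    rw [hle, add_mul, Complex.add_im, Complex.im_ofReal_mul, imD]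
  have heD : |(e * D).im| ≤ 0.152 := by
    refine (Complex.abs_im_le_norm _).trans ?_
    rw [norm_mul]
    calc ‖e‖ * ‖D‖ ≤ (1 / 80) * 12.15 := by gcongr
      _ ≤ 0.152 := by norm_num
  rw [abs_le] at heD
  have h1l : ‖1 - l‖ ≤ (1 - t) + 1 / 80 := by
    have : (1 : ℂ) - l = ((1 - t : ℝ) : ℂ) - e := by rw [hle]; push_cast; ring
    rw [this]
    refine (norm_sub_le _ _).trans ?_
    rw [Complex.norm_real, Real.norm_of_nonneg (by linarith)]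
    linarith
  have h1l2 : ‖1 - l‖ ^ 2 ≤ (1 - t) ^ 2 + 1 / 39 := by
    have : ‖1 - l‖ ^ 2 ≤ ((1 - t) + 1 / 80) ^ 2 := pow_le_pow_left₀ (norm_nonneg _) h1l 2
    nlinarith
  have hS1 : ‖1 - l‖ ^ 2 * S ≤ ((1 - t) ^ 2 + 1 / 39) * S := mul_le_mul_of_nonneg_right h1l2 hS0
  have hnl : ‖l‖ ≤ 81 / 80 := by
    rw [hle]
    refine (norm_add_le _ _).trans ?_
    rw [Complex.norm_real, Real.norm_of_nonneg ht0]
    linarith
  refine ⟨?_, ?_, ?_, ?_⟩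
  · rw [rhox, Complex.add_im, imΩ1, imlD]
    nlinarith [mul_nonneg (mul_nonneg hS0 ht0) (sub_nonneg.2 ht1)]
  · rw [rhox, Complex.add_im, imΩ1, imlD]
    have : 0 ≤ ‖1 - l‖ ^ 2 * S := by positivity
    nlinarith [mul_nonneg hS0 ht0]
  · have e1 : x.1 - q1.1 = l * (zs - q1.1) := by rw [x1]; ring
    rw [e1, norm_mul, norm_sub_rev zs]
    have e2 : M * ‖q1.1 - zs‖ ≤ 2.83 := by
      have : (M * ‖q1.1 - zs‖) ^ 2 ≤ 2.83 ^ 2 := by
        rw [mul_pow]; norm_num; linarith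
      exact (sq_le_sq₀ (by positivity) (by norm_num)).1 this
    calc M * (‖l‖ * ‖q1.1 - zs‖) = ‖l‖ * (M * ‖q1.1 - zs‖) := by ring
      _ ≤ 81 / 80 * 2.83 := by gcongr
      _ ≤ 3 := by norm_num
  · have e1 : ((M ^ 2 : ℝ) : ℂ) * (x.2 - q1.2 - 2 * I * conj q1.1 * (x.1 - q1.1)) =
        l * D + 2 * I * l * ((S : ℝ) : ℂ) := by
      have e2 : x.2 - q1.2 - 2 * I * conj q1.1 * (x.1 - q1.1) =
          piz zs x - piz zs q1 - 2 * I * conj (q1.1 - zs) * (x.1 - q1.1) := by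
        unfold piz; rw [map_sub]; ring
      have e3 : x.1 - q1.1 = -(l * (q1.1 - zs)) := by rw [x1]; ring
      have e4 : ((S : ℝ) : ℂ) = ((M ^ 2 : ℝ) : ℂ) * ((q1.1 - zs) * conj (q1.1 - zs)) := by
        rw [hS, Complex.ofReal_mul, Complex.mul_conj, Complex.normSq_eq_norm_sq]
      rw [e2, e3, e4, mul_sub, mul_sub, hpx, hΩ1]
      ring
    have e5 : M ^ 2 * ‖x.2 - q1.2 - 2 * I * conj q1.1 * (x.1 - q1.1)‖ =
        ‖((M ^ 2 : ℝ) : ℂ) * (x.2 - q1.2 - 2 * I * conj q1.1 * (x.1 - q1.1))‖ := by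
      rw [norm_mul, Complex.norm_real, Real.norm_of_nonneg hN.le]
    rw [e5, e1]
    refine (norm_add_le _ _).trans ?_
    rw [norm_mul, norm_mul, norm_mul, norm_mul, Complex.norm_I, Complex.norm_real,
      Real.norm_of_nonneg hS0]
    have h2' : ‖(2 : ℂ)‖ = 2 := by simp
    rw [h2']
    calc ‖l‖ * ‖D‖ + 2 * 1 * ‖l‖ * S ≤ 81 / 80 * 12.15 + 2 * 1 * (81 / 80) * 8 := by gcongr
      _ ≤ 30 := by norm_num

theorem exp_neg_nat_le (k : ℕ) : Real.exp (-(k : ℝ)) ≤ (1 / 2) ^ k := by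
  have h : Real.exp (-(k : ℝ)) = (Real.exp (-1)) ^ k := by
    rw [← Real.exp_nat_mul]; ring_nf
  rw [h]
  apply pow_le_pow_left₀ (Real.exp_pos _).le
  rw [Real.exp_neg, inv_le_comm₀ (Real.exp_pos _) (by norm_num)]
  have := Real.add_one_le_exp (1:ℝ)
  linarith

theorem sq_pow_ge {b : ℝ} (hb : 2 ≤ b) (k : ℕ) : 2 * (k : ℝ) ≤ (b ^ k) ^ 2 := by
  have h1 : (1 : ℝ) + k * 3 ≤ (1 + 3) ^ k := one_add_mul_le_pow (by norm_num) k
  have h2 : (1 + 3 : ℝ) ^ k ≤ (b ^ k) ^ 2 := by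
    rw [← pow_mul, mul_comm k 2, pow_mul]
    apply pow_le_pow_left₀ (by norm_num)
    nlinarith
  have h3 : (0:ℝ) ≤ k := Nat.cast_nonneg k
  linarith

/-- the bounds for the differences of single scales -/
noncomputable def gB (s : ℕ) (c r A B E : ℝ) (i : ℕ) : ℝ :=
  if i < s then c * r ^ (s - i) else if i = s then B else if i = s + 1 then A
    else E * (1 / 2) ^ (i - (s + 1))

theorem gB_sum {s : ℕ} {c r A B E : ℝ} (hc : 0 ≤ c) (hr0 : 0 ≤ r) (hr : r ≤ 1 / 2) (hE : 0 ≤ E)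
    {J : ℕ} (hJ : s + 2 ≤ J) :
    ∑ i ∈ Finset.range J, gB s c r A B E i ≤ c * (2 * r) + B + A + E := by
  obtain ⟨J', rfl⟩ := Nat.exists_eq_add_of_le hJ
  rw [Finset.sum_range_add, Finset.sum_range_succ, Finset.sum_range_succ]
  have h1 : ∑ i ∈ Finset.range s, gB s c r A B E i ≤ c * (2 * r) := by
    have : ∑ i ∈ Finset.range s, gB s c r A B E i = c * ∑ i ∈ Finset.range s, r ^ (s - i) := by
      rw [Finset.mul_sum]
      apply Finset.sum_congr rfl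
      intro i hi
      unfold gB
      rw [if_pos (Finset.mem_range.1 hi)]
    rw [this]
    exact mul_le_mul_of_nonneg_left (sum_geo1 hr0 hr s) hc
  have h2 : gB s c r A B E s = B := by unfold gB; simp
  have h3 : gB s c r A B E (s + 1) = A := by unfold gB; simp
  have h4 : ∑ k ∈ Finset.range J', gB s c r A B E (s + 2 + k) ≤ E := by
    have : ∑ k ∈ Finset.range J', gB s c r A B E (s + 2 + k) =
        E * ∑ k ∈ Finset.range J', (1 / 2 : ℝ) ^ (k + 1) := by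
      rw [Finset.mul_sum]
      apply Finset.sum_congr rfl
      intro k _
      unfold gB
      rw [if_neg (by omega), if_neg (by omega), if_neg (by omega)]
      congr 2
      omega
    rw [this]
    have := mul_le_mul_of_nonneg_left (sum_geo2 J') hE
    linarith
  rw [h2, h3]
  linarith

/-- high scales -/
theorem high_est {ε T C1 C2 b Mj : ℝ} {x p : B2} (hε : 0 < ε) (hε1 : ε ≤ 1) (hT : 3 ≤ T)
    (hC1 : 0 < C1) (hC2 : 0 < C2) (hb2 : 2 ≤ b) (hMj0 : 0 < Mj)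
    (hle : ∀ (ε T M : ℝ) (p : B2), 0 < ε → ε ≤ 1 → 3 ≤ T → 0 < M →
      p ∈ Dom → Wsc ε T M p ≤ C1 * Real.exp (-(M ^ 2 * rho p)))
    (hge : ∀ (ε T M : ℝ) (p : B2), 0 < ε → ε ≤ 1 → 3 ≤ T → 0 < M →
      p ∈ Dom → (∀ m, 2 ≤ M ^ 2 * (rho p + ‖p.1 - zlat M m‖ ^ 2)) →
      -C2 * Real.exp (-(M ^ 2 * rho p) / 2) ≤ Wsc ε T M p)
    (hx : x ∈ Dom) (hp : p ∈ Dom) (hx1 : 1 / 2 ≤ Mj ^ 2 * rho x) (hs2 : 2 < Mj ^ 2 * rho p) (k : ℕ) :
    Wsc ε T (Mj * b ^ k) x - Wsc ε T (Mj * b ^ k) p ≤ (C1 + C2) * (1 / 2) ^ k := by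
  have hbk := sq_pow_ge hb2 k
  have hb0 : 0 < b := by linarith
  have hMi0 : 0 < Mj * b ^ k := by positivity
  have h5 := hle ε T (Mj * b ^ k) x hε hε1 hT hMi0 hx
  have e1 : (Mj * b ^ k) ^ 2 * rho p = (b ^ k) ^ 2 * (Mj ^ 2 * rho p) := by ring
  have e2 : (Mj * b ^ k) ^ 2 * rho x = (b ^ k) ^ 2 * (Mj ^ 2 * rho x) := by ring
  have hbk1 : (1:ℝ) ≤ (b ^ k) ^ 2 := by
    have : (1:ℝ) ≤ b ^ k := one_le_pow₀ (by linarith)
    exact one_le_pow₀ this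
  have hk0 : (0:ℝ) ≤ k := Nat.cast_nonneg k
  have m1 := mul_le_mul_of_nonneg_left hx1 (show 0 ≤ (b ^ k) ^ 2 by positivity)
  have m2 := mul_le_mul_of_nonneg_left hs2.le (show 0 ≤ (b ^ k) ^ 2 by positivity)
  have h6 := hge ε T (Mj * b ^ k) p hε hε1 hT hMi0 hp (fun m => by
    have : 0 ≤ (Mj * b ^ k) ^ 2 * ‖p.1 - zlat (Mj * b ^ k) m‖ ^ 2 := by positivity
    rw [mul_add, e1]; linarith)
  have h7 : Real.exp (-((Mj * b ^ k) ^ 2 * rho x)) ≤ (1 / 2) ^ k := by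
    refine le_trans (Real.exp_le_exp.2 ?_) (exp_neg_nat_le k)
    rw [e2]
    linarith
  have h8 : Real.exp (-((Mj * b ^ k) ^ 2 * rho p) / 2) ≤ (1 / 2) ^ k := by
    refine le_trans (Real.exp_le_exp.2 ?_) (exp_neg_nat_le k)
    rw [e1]
    linarith
  have h9 := mul_le_mul_of_nonneg_left h7 hC1.le
  have h10 := mul_le_mul_of_nonneg_left h8 hC2.le
  linarith

/-- low scales -/
theorem low_est {ε T C5 b Ms : ℝ} {x p : B2} (hT : 3 ≤ T) (hC5 : 0 < C5)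
    (hb120 : 120 ≤ b) (hMs0 : 0 < Ms)
    (hlip : ∀ (T M : ℝ) (p q : B2), 3 ≤ T → 0 < M → p ∈ Dom → q ∈ Dom →
      M * ‖q.1 - p.1‖ ≤ 1 → M ^ 2 * ‖q.2 - p.2 - 2 * I * conj p.1 * (q.1 - p.1)‖ ≤ 1 →
      |Wsc ε T M q - Wsc ε T M p| ≤ C5 * (M * ‖q.1 - p.1‖
        + M ^ 2 * ‖q.2 - p.2 - 2 * I * conj p.1 * (q.1 - p.1)‖))
    (hx : x ∈ Dom) (hp : p ∈ Dom) (hxp1 : Ms * ‖x.1 - p.1‖ ≤ 4)
    (hxp2 : Ms ^ 2 * ‖x.2 - p.2 - 2 * I * conj p.1 * (x.1 - p.1)‖ ≤ 13) {k : ℕ} (hk1 : 1 ≤ k) :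
    Wsc ε T (Ms * (1 / b) ^ k) x - Wsc ε T (Ms * (1 / b) ^ k) p ≤ 17 * C5 * (1 / b) ^ k := by
  have hb0 : 0 < b := by linarith
  have hr0 : (0:ℝ) < (1 / b) ^ k := by positivity
  have hr1 : (1 / b) ^ k ≤ 1 / 120 := by
    calc (1 / b) ^ k ≤ (1 / b) ^ 1 := by
          apply pow_le_pow_of_le_one (by positivity) _ hk1
          rw [div_le_one hb0]; linarith
      _ = 1 / b := pow_one _
      _ ≤ 1 / 120 := by apply one_div_le_one_div_of_le (by norm_num) hb120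
  generalize hr : (1 / b) ^ k = r at *
  have e1 : Ms * r * ‖x.1 - p.1‖ ≤ 4 * r := by
    calc Ms * r * ‖x.1 - p.1‖ = (Ms * ‖x.1 - p.1‖) * r := by ring
      _ ≤ 4 * r := by gcongr
  have e2 : (Ms * r) ^ 2 * ‖x.2 - p.2 - 2 * I * conj p.1 * (x.1 - p.1)‖ ≤ 13 * r := by
    calc (Ms * r) ^ 2 * ‖x.2 - p.2 - 2 * I * conj p.1 * (x.1 - p.1)‖
        = (Ms ^ 2 * ‖x.2 - p.2 - 2 * I * conj p.1 * (x.1 - p.1)‖) * (r * r) := by ring
      _ ≤ 13 * (r * 1) := by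
          apply mul_le_mul hxp2 _ (by positivity) (by norm_num)
          apply mul_le_mul_of_nonneg_left _ hr0.le
          linarith
      _ = 13 * r := by ring
  have := hlip T (Ms * r) p x hT (by positivity) hp hx (by linarith) (by linarith)
  have h5 := (abs_le.1 this).2
  have h6 : C5 * (Ms * r * ‖x.1 - p.1‖ +
      (Ms * r) ^ 2 * ‖x.2 - p.2 - 2 * I * conj p.1 * (x.1 - p.1)‖) ≤
      C5 * (4 * r + 13 * r) := by gcongr
  linarith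

/-- distances at scale `s` -/
theorem sizes {b Ms Mj : ℝ} {x q1 p : B2} {z0 : ℂ} (hb120 : 120 ≤ b) (hMs0 : 0 < Ms)
    (hMjs : Mj = Ms * b) (hz0 : Ms ^ 2 * ‖p.1 - z0‖ ^ 2 ≤ 2) (hMsR : Ms ^ 2 * ‖q1.1 - z0‖ ^ 2 ≤ 4)
    (e1 : q1.2 = p.2 + 2 * I * conj z0 * (q1.1 - p.1))
    (hx2 : Mj * ‖x.1 - q1.1‖ ≤ 3)
    (hx3 : Mj ^ 2 * ‖x.2 - q1.2 - 2 * I * conj q1.1 * (x.1 - q1.1)‖ ≤ 30) :
    Ms * ‖x.1 - p.1‖ ≤ 4 ∧ Ms ^ 2 * ‖x.2 - p.2 - 2 * I * conj p.1 * (x.1 - p.1)‖ ≤ 13 ∧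
    Ms * ‖x.1 - q1.1‖ ≤ 3 / b ∧
    Ms ^ 2 * ‖x.2 - q1.2 - 2 * I * conj q1.1 * (x.1 - q1.1)‖ ≤ 1 / 4 / b ∧
    3 / b ≤ 1 / 40 ∧ 1 / 4 / b ≤ 1 / 480 := by
  have hb0 : 0 < b := by linarith
  have hMs2 : 0 < Ms ^ 2 := by positivity
  have hsx1 : Ms * ‖x.1 - q1.1‖ ≤ 3 / b := by
    rw [le_div_iff₀ hb0]
    calc Ms * ‖x.1 - q1.1‖ * b = Mj * ‖x.1 - q1.1‖ := by rw [hMjs]; ring
      _ ≤ 3 := hx2
  have hsx2 : Ms ^ 2 * ‖x.2 - q1.2 - 2 * I * conj q1.1 * (x.1 - q1.1)‖ ≤ 30 / b ^ 2 := by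
    rw [le_div_iff₀ (by positivity)]
    calc Ms ^ 2 * ‖x.2 - q1.2 - 2 * I * conj q1.1 * (x.1 - q1.1)‖ * b ^ 2
        = Mj ^ 2 * ‖x.2 - q1.2 - 2 * I * conj q1.1 * (x.1 - q1.1)‖ := by rw [hMjs]; ring
      _ ≤ 30 := hx3
  have h3b : 3 / b ≤ 1 / 40 := by
    rw [div_le_iff₀ hb0]; linarith
  have h30b : 30 / b ^ 2 ≤ 1 / 4 / b := by
    rw [div_div, div_le_div_iff₀ (by positivity) (by positivity)]
    nlinarith
  have h14b : 1 / 4 / b ≤ 1 / 480 := by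
    rw [div_le_iff₀ hb0]; linarith
  have hpz' : Ms * ‖p.1 - z0‖ ≤ 3 / 2 := by
    have : (Ms * ‖p.1 - z0‖) ^ 2 ≤ (3 / 2) ^ 2 := by rw [mul_pow]; linarith
    exact (sq_le_sq₀ (by positivity) (by norm_num)).1 this
  have hzz' : Ms * ‖q1.1 - z0‖ ≤ 2 := by
    have : (Ms * ‖q1.1 - z0‖) ^ 2 ≤ 2 ^ 2 := by rw [mul_pow]; linarith
    exact (sq_le_sq₀ (by positivity) (by norm_num)).1 this
  have hz1p : Ms * ‖q1.1 - p.1‖ ≤ 7 / 2 := by
    have : ‖q1.1 - p.1‖ ≤ ‖q1.1 - z0‖ + ‖p.1 - z0‖ := by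
      calc ‖q1.1 - p.1‖ = ‖(q1.1 - z0) - (p.1 - z0)‖ := by congr 1; ring
        _ ≤ _ := norm_sub_le _ _
    calc Ms * ‖q1.1 - p.1‖ ≤ Ms * (‖q1.1 - z0‖ + ‖p.1 - z0‖) := by gcongr
      _ = Ms * ‖q1.1 - z0‖ + Ms * ‖p.1 - z0‖ := by ring
      _ ≤ 7 / 2 := by linarith
  refine ⟨?_, ?_, hsx1, hsx2.trans h30b, h3b, h14b⟩
  · have : ‖x.1 - p.1‖ ≤ ‖x.1 - q1.1‖ + ‖q1.1 - p.1‖ := by
      calc ‖x.1 - p.1‖ = ‖(x.1 - q1.1) + (q1.1 - p.1)‖ := by congr 1; ring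
        _ ≤ _ := norm_add_le _ _
    calc Ms * ‖x.1 - p.1‖ ≤ Ms * (‖x.1 - q1.1‖ + ‖q1.1 - p.1‖) := by gcongr
      _ = Ms * ‖x.1 - q1.1‖ + Ms * ‖q1.1 - p.1‖ := by ring
      _ ≤ 4 := by linarith
  · have e : x.2 - p.2 - 2 * I * conj p.1 * (x.1 - p.1) =
        (x.2 - q1.2 - 2 * I * conj q1.1 * (x.1 - q1.1))
        + 2 * I * conj (q1.1 - p.1) * (x.1 - q1.1)
        + (-(2 * I * conj (p.1 - z0) * (q1.1 - p.1))) := by
      rw [e1, map_sub, map_sub]; ring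
    have t1 : ‖2 * I * conj (q1.1 - p.1) * (x.1 - q1.1)‖ = 2 * ‖q1.1 - p.1‖ * ‖x.1 - q1.1‖ := by
      rw [norm_mul, norm_mul, norm_mul, Complex.norm_I, RCLike.norm_conj]; simp
    have t2 : ‖-(2 * I * conj (p.1 - z0) * (q1.1 - p.1))‖ = 2 * ‖p.1 - z0‖ * ‖q1.1 - p.1‖ := by
      rw [norm_neg, norm_mul, norm_mul, norm_mul, Complex.norm_I, RCLike.norm_conj]; simp
    have t3 := norm_add₃_le (a := x.2 - q1.2 - 2 * I * conj q1.1 * (x.1 - q1.1))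
      (b := 2 * I * conj (q1.1 - p.1) * (x.1 - q1.1))
      (c := -(2 * I * conj (p.1 - z0) * (q1.1 - p.1)))
    rw [t1, t2, ← e] at t3
    have t4 := mul_le_mul_of_nonneg_left t3 hMs2.le
    have t5 : (Ms * ‖q1.1 - p.1‖) * (Ms * ‖x.1 - q1.1‖) ≤ 7 / 2 * (1 / 40) := by
      apply mul_le_mul hz1p (hsx1.trans h3b) (by positivity) (by norm_num)
    have t6 : (Ms * ‖p.1 - z0‖) * (Ms * ‖q1.1 - p.1‖) ≤ 3 / 2 * (7 / 2) := by
      apply mul_le_mul hpz' hz1p (by positivity) (by norm_num)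
    have t7 : Ms ^ 2 * (‖x.2 - q1.2 - 2 * I * conj q1.1 * (x.1 - q1.1)‖ +
        2 * ‖q1.1 - p.1‖ * ‖x.1 - q1.1‖ + 2 * ‖p.1 - z0‖ * ‖q1.1 - p.1‖) =
        Ms ^ 2 * ‖x.2 - q1.2 - 2 * I * conj q1.1 * (x.1 - q1.1)‖ +
        2 * ((Ms * ‖q1.1 - p.1‖) * (Ms * ‖x.1 - q1.1‖)) +
        2 * ((Ms * ‖p.1 - z0‖) * (Ms * ‖q1.1 - p.1‖)) := by ring
    rw [t7] at t4
    linarith

/-- the main comparison -/
theorem key_est {ε T M b η C1 C2 C3 C4 C5 : ℝ} (hε : 0 < ε) (hε1 : ε ≤ 1) (hT : 3 ≤ T)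
    (hTM : 256 * T ≤ M ^ 2) (hM : 0 < M) (hη : 0 < η) (hηη : η ≤ 1 / (4 * b ^ 2))
    (hC1 : 0 < C1) (hC2 : 0 < C2) (hC3 : 0 < C3) (hC4 : 0 < C4) (hC5 : 0 < C5)
    (hb120 : 120 ≤ b) (hC5b : 100 * C5 ≤ b)
    (hle : ∀ (ε T M : ℝ) (p : B2), 0 < ε → ε ≤ 1 → 3 ≤ T → 0 < M →
      p ∈ Dom → Wsc ε T M p ≤ C1 * Real.exp (-(M ^ 2 * rho p)))
    (hge : ∀ (ε T M : ℝ) (p : B2), 0 < ε → ε ≤ 1 → 3 ≤ T → 0 < M →
      p ∈ Dom → (∀ m, 2 ≤ M ^ 2 * (rho p + ‖p.1 - zlat M m‖ ^ 2)) →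
      -C2 * Real.exp (-(M ^ 2 * rho p) / 2) ≤ Wsc ε T M p)
    (hlip : ∀ (T M : ℝ) (p q : B2), 3 ≤ T → 0 < M → p ∈ Dom → q ∈ Dom →
      M * ‖q.1 - p.1‖ ≤ 1 → M ^ 2 * ‖q.2 - p.2 - 2 * I * conj p.1 * (q.1 - p.1)‖ ≤ 1 →
      |Wsc ε T M q - Wsc ε T M p| ≤ C5 * (M * ‖q.1 - p.1‖
        + M ^ 2 * ‖q.2 - p.2 - 2 * I * conj p.1 * (q.1 - p.1)‖))
    {s : ℕ} {p q1 : B2} {z0 : ℂ} (hp : p ∈ Dom) (hq1D : q1 ∈ Dom)
    (hs1 : (M * b ^ s) ^ 2 * rho p ≤ 2) (hs2 : 2 < (M * b ^ (s + 1)) ^ 2 * rho p)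
    (hz0 : (M * b ^ s) ^ 2 * ‖p.1 - z0‖ ^ 2 ≤ 2)
    (hMsR : (M * b ^ s) ^ 2 * ‖q1.1 - z0‖ ^ 2 ≤ 4)
    (e1 : q1.2 = p.2 + 2 * I * conj z0 * (q1.1 - p.1))
    (hWs : Wsc ε T (M * b ^ s) q1 - Wsc ε T (M * b ^ s) p ≤ C1 + C2 + C3 + C4)
    {x : B2} (hx1 : 1 / 2 ≤ (M * b ^ (s + 1)) ^ 2 * rho x)
    (hx2 : (M * b ^ (s + 1)) * ‖x.1 - q1.1‖ ≤ 3)
    (hx3 : (M * b ^ (s + 1)) ^ 2 * ‖x.2 - q1.2 - 2 * I * conj q1.1 * (x.1 - q1.1)‖ ≤ 30)
    {A : ℝ} (hA : Wsc ε T (M * b ^ (s + 1)) x + C2 ≤ A) :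
    Psi ε T M b η x - Psi ε T M b η p ≤ 2 * C1 + 2 * C2 + C3 + C4 + 3 + A := by
  have hb0 : 0 < b := by linarith
  have hb2 : 2 ≤ b := by linarith
  have hMs0 : 0 < M * b ^ s := by positivity
  have hMj0 : 0 < M * b ^ (s + 1) := by positivity
  have hMs2 : 0 < (M * b ^ s) ^ 2 := by positivity
  have hMj2 : 0 < (M * b ^ (s + 1)) ^ 2 := by positivity
  have hMjs : M * b ^ (s + 1) = (M * b ^ s) * b := by rw [pow_succ]; ring
  have hρ0 : 0 < rho p := hp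
  have hρx : 0 < rho x := by
    by_contra hcon
    push Not at hcon
    have : (M * b ^ (s + 1)) ^ 2 * rho x ≤ 0 := mul_nonpos_of_nonneg_of_nonpos hMj2.le hcon
    linarith
  have hxD : x ∈ Dom := hρx
  obtain ⟨hxp1, hxp2, hsx1, hsx2, h3b, h14b⟩ := sizes hb120 hMs0 hMjs hz0 hMsR e1 hx2 hx3
  have hg : ∀ i, Wsc ε T (M * b ^ i) x - Wsc ε T (M * b ^ i) p ≤
      gB s (17 * C5) (1 / b) A (C1 + C2 + C3 + C4 + 1) (C1 + C2) i := by
    intro i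
    unfold gB
    split_ifs with h1 h2 h3
    · have hMi : (M * b ^ i) = (M * b ^ s) * (1 / b) ^ (s - i) := by
        have h4 : b ^ s = b ^ i * b ^ (s - i) := by rw [← pow_add]; congr 1; omega
        rw [h4, one_div, inv_pow]
        have h5 : b ^ (s - i) ≠ 0 := by positivity
        field_simp
      rw [hMi]
      exact low_est hT hC5 hb120 hMs0 hlip hxD hp hxp1 hxp2 (by omega)
    · subst h2
      have h6 := hlip T (M * b ^ i) q1 x hT hMs0 hq1D hxD (by linarith) (by linarith)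
      have h7 := (abs_le.1 h6).2
      have h8 : C5 * ((M * b ^ i) * ‖x.1 - q1.1‖ +
          (M * b ^ i) ^ 2 * ‖x.2 - q1.2 - 2 * I * conj q1.1 * (x.1 - q1.1)‖) ≤
          C5 * (3 / b + 1 / 4 / b) := by
        apply mul_le_mul_of_nonneg_left _ hC5.le
        linarith
      have h9 : C5 * (3 / b + 1 / 4 / b) ≤ 1 := by
        have : C5 * (3 / b + 1 / 4 / b) = (13 / 4 * C5) / b := by ring
        rw [this, div_le_one hb0]; linarith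
      linarith
    · subst h3
      have h5 := hge ε T (M * b ^ (s + 1)) p hε hε1 hT hMj0 hp (fun m => by
        have : 0 ≤ (M * b ^ (s + 1)) ^ 2 * ‖p.1 - zlat (M * b ^ (s + 1)) m‖ ^ 2 := by positivity
        rw [mul_add]; linarith)
      have h4 : Real.exp (-((M * b ^ (s + 1)) ^ 2 * rho p) / 2) ≤ 1 := by
        apply Real.exp_le_one_iff.2; linarith
      have h6 := mul_le_mul_of_nonneg_left h4 hC2.le
      linarith
    · have hMi : M * b ^ i = (M * b ^ (s + 1)) * b ^ (i - (s + 1)) := by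
        rw [mul_assoc, ← pow_add]; congr 2; omega
      rw [hMi]
      exact high_est hε hε1 hT hC1 hC2 hb2 hMj0 hle hge hxD hp hx1 hs2 _
  have hPhi : PhiW ε T M b x - PhiW ε T M b p ≤ 2 * C1 + 2 * C2 + C3 + C4 + 2 + A := by
    refine PhiW_sub_le hε hT hb2 hTM hM hxD hp _ hg _ (s + 2) (fun J hJ => ?_)
    have h1b : 1 / b ≤ 1 / 2 := by
      apply one_div_le_one_div_of_le (by norm_num) hb2
    have h1b0 : 0 ≤ 1 / b := by positivity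
    have h17 : 0 ≤ 17 * C5 := by positivity
    have hE : 0 ≤ C1 + C2 := by positivity
    have h1 := gB_sum (A := A) (B := C1 + C2 + C3 + C4 + 1) h17 h1b0 h1b hE hJ
    have h2 : 17 * C5 * (2 * (1 / b)) ≤ 1 := by
      have : 17 * C5 * (2 * (1 / b)) = (34 * C5) / b := by ring
      rw [this, div_le_one hb0]; linarith
    linarith
  have hη1 : η * (aS x - aS p) ≤ 1 := by
    have h1 : aS x - aS p = Real.log (rho p / rho x) := by
      unfold aS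
      rw [Real.log_div hρ0.ne' hρx.ne']; ring
    have h2 : rho p / rho x ≤ 4 * b ^ 2 := by
      rw [div_le_iff₀ hρx]
      have h3 : (M * b ^ s) ^ 2 * rho p ≤ (M * b ^ s) ^ 2 * (4 * b ^ 2 * rho x) := by
        have : (M * b ^ s) ^ 2 * (4 * b ^ 2 * rho x) = 4 * ((M * b ^ (s + 1)) ^ 2 * rho x) := by
          rw [hMjs]; ring
        rw [this]; linarith
      exact le_of_mul_le_mul_left h3 hMs2
    have h4 : Real.log (rho p / rho x) ≤ 4 * b ^ 2 := by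
      have := Real.log_le_sub_one_of_pos (show 0 < rho p / rho x by positivity)
      linarith
    rw [h1]
    calc η * Real.log (rho p / rho x) ≤ η * (4 * b ^ 2) := by gcongr
      _ ≤ 1 / (4 * b ^ 2) * (4 * b ^ 2) := by gcongr
      _ = 1 := by field_simp
  unfold Psi
  linarith

end NS3

set_option maxHeartbeats 4000000 in
open NS3 in
theorem geo : ∃ r₀ K₁ : ℝ, 0 < r₀ ∧ r₀ ≤ 1 ∧ 1 ≤ K₁ ∧ ∀ L : ℝ, 0 < L → ∃ ε b η₀ : ℝ,
    0 < ε ∧ ε ≤ 1 ∧ 2 ≤ b ∧ 0 < η₀ ∧ η₀ ≤ 1 ∧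
    ∀ T M η Vh : ℝ, 3 ≤ T → 256 * T ≤ M ^ 2 → 0 < M → 0 < η → η ≤ η₀ → 0 < Vh →
    ∃ v₀ > 0, ∀ p ∈ Dom, p.2.im < v₀ → ∃ (z0 : ℂ) (R : ℝ), ‖p.1 - z0‖ ≤ R ∧
      (∀ z, ‖z - z0‖ ≤ R → lineq z0 p z ∈ Dom ∧ (lineq z0 p z).2.im < Vh) ∧
      ∀ z1, ‖z1 - z0‖ = R → ∃ q2 : B2,
        (∀ l : ℂ, (∃ t ∈ Set.Icc (0:ℝ) 1, ‖l - t‖ ≤ r₀) →
          lineq z0 p z1 + l • (q2 - lineq z0 p z1) ∈ Dom ∧
          (lineq z0 p z1 + l • (q2 - lineq z0 p z1)).2.im < Vh ∧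
          Psi ε T M b η (lineq z0 p z1 + l • (q2 - lineq z0 p z1)) - Psi ε T M b η p ≤ K₁) ∧
        Psi ε T M b η q2 - Psi ε T M b η p ≤ -L := by
  obtain ⟨C1, hC1, hle⟩ := Wsc_le
  obtain ⟨C2, hC2, hge⟩ := Wsc_ge
  obtain ⟨C3, hC3, hge'⟩ := Wsc_ge'
  obtain ⟨C4, hC4, hle'⟩ := Wsc_le'
  set K₁ : ℝ := 3 * (C1 + C2) + C3 + C4 + 3 with hK₁
  refine ⟨1 / 80, K₁, by norm_num, by norm_num, by rw [hK₁]; linarith, fun L hL => ?_⟩
  set ε : ℝ := Real.exp (-(L + K₁ + C4) / 2) with hεdef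
  have hε : 0 < ε := Real.exp_pos _
  have hK₁0 : 0 < K₁ := by rw [hK₁]; positivity
  have hε1 : ε ≤ 1 := by
    rw [hεdef]; apply Real.exp_le_one_iff.2; linarith
  have hlogε : Real.log ε = -(L + K₁ + C4) / 2 := by rw [hεdef, Real.log_exp]
  obtain ⟨C5, hC5, hlip⟩ := Wsc_lip ε hε hε1
  set b : ℝ := 120 + 100 * C5 with hb
  have hb120 : 120 ≤ b := by rw [hb]; linarith
  have hb2 : 2 ≤ b := by linarith
  have hb0 : 0 < b := by linarith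
  have hC5b : 100 * C5 ≤ b := by rw [hb]; linarith
  refine ⟨ε, b, 1 / (4 * b ^ 2), hε, hε1, hb2, by positivity, ?_, ?_⟩
  · rw [div_le_one (by positivity)]; nlinarith
  intro T M η Vh hT hTM hM hη hηη hVh
  set V : ℝ := min (min Vh (1 / M ^ 2)) 1 with hV
  have hV0 : 0 < V := by rw [hV]; apply lt_min (lt_min hVh (by positivity)) one_pos
  have hVVh : V ≤ Vh := (min_le_left _ _).trans (min_le_left _ _)
  have hVM : V ≤ 1 / M ^ 2 := (min_le_left _ _).trans (min_le_right _ _)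
  have hV1 : V ≤ 1 := min_le_right _ _
  refine ⟨V / (25600 * b ^ 2), by positivity, ?_⟩
  intro p hp hpv
  set v₀ : ℝ := V / (25600 * b ^ 2) with hv₀
  have hbv : b ^ 2 * v₀ = V / 25600 := by rw [hv₀]; field_simp
  have hv₀V : 14400 * v₀ ≤ V / 25600 := by
    rw [← hbv]
    have : 0 < v₀ := by positivity
    have : (14400 : ℝ) ≤ b ^ 2 := by nlinarith
    nlinarith
  have hρ0 : 0 < rho p := hp
  have hρim : rho p = p.2.im - ‖p.1‖ ^ 2 := rfl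
  have hρv : rho p < v₀ := by rw [hρim]; nlinarith [sq_nonneg ‖p.1‖]
  have hp1 : ‖p.1‖ ^ 2 ≤ v₀ := by linarith
  -- the scale
  obtain ⟨s, hs1, hs2⟩ : ∃ s : ℕ, (M * b ^ s) ^ 2 * rho p ≤ 2 ∧ 2 < (M * b ^ (s + 1)) ^ 2 * rho p := by
    have hx : 1 ≤ 2 / (M ^ 2 * rho p) := by
      rw [le_div_iff₀ (by positivity), one_mul]
      have h1 : M ^ 2 * rho p ≤ M ^ 2 * V := by
        apply mul_le_mul_of_nonneg_left _ (by positivity)
        have : 0 < v₀ := by positivity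
        linarith
      have h2 : M ^ 2 * V ≤ M ^ 2 * (1 / M ^ 2) := mul_le_mul_of_nonneg_left hVM (by positivity)
      have h3 : M ^ 2 * (1 / M ^ 2) = 1 := by field_simp
      linarith
    obtain ⟨s, h1, h2⟩ := exists_nat_pow_near hx (show (1:ℝ) < b ^ 2 by nlinarith)
    refine ⟨s, ?_, ?_⟩
    · rw [le_div_iff₀ (by positivity)] at h1
      calc (M * b ^ s) ^ 2 * rho p = (b ^ 2) ^ s * (M ^ 2 * rho p) := by
            rw [← pow_mul, mul_comm 2 s, pow_mul]; ring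
        _ ≤ 2 := h1
    · rw [div_lt_iff₀ (by positivity)] at h2
      calc 2 < (b ^ 2) ^ (s + 1) * (M ^ 2 * rho p) := h2
        _ = (M * b ^ (s + 1)) ^ 2 * rho p := by
            rw [← pow_mul, mul_comm 2 (s + 1), pow_mul]; ring
  set Ms : ℝ := M * b ^ s with hMs
  set Mj : ℝ := M * b ^ (s + 1) with hMj
  have hMs0 : 0 < Ms := by positivity
  have hMj0 : 0 < Mj := by positivity
  have hMjs : Mj = Ms * b := by rw [hMj, hMs, pow_succ]; ring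
  -- the centre
  obtain ⟨z0, hz0, hWs⟩ : ∃ z0 : ℂ, Ms ^ 2 * ‖p.1 - z0‖ ^ 2 ≤ 2 ∧ ∀ z, lineq z0 p z ∈ Dom →
      Wsc ε T Ms (lineq z0 p z) - Wsc ε T Ms p ≤ C1 + C2 + C3 + C4 := by
    by_cases hlat : ∃ m0 : ℤ × ℤ, Ms ^ 2 * ‖p.1 - zlat Ms m0‖ ^ 2 < 2
    · obtain ⟨m0, hm0⟩ := hlat
      refine ⟨zlat Ms m0, hm0.le, fun z hz => ?_⟩
      have h1 := hle' ε T Ms (lineq (zlat Ms m0) p z) m0 hε hε1 hT hMs0 hz
      have h2 := hge' ε T Ms p m0 hε hε1 hT hMs0 hp (fun m hm => by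
        have := lat_other hMs0 hm0 hm
        have h3 : 0 < Ms ^ 2 * rho p := by positivity
        rw [mul_add]; linarith)
      rw [wterm_lineq] at h1
      linarith
    · push Not at hlat
      refine ⟨p.1, by simp, fun z hz => ?_⟩
      have h1 := hle ε T Ms (lineq p.1 p z) hε hε1 hT hMs0 hz
      have h2 := hge ε T Ms p hε hε1 hT hMs0 hp (fun m => by
        have := hlat m
        have h3 : 0 < Ms ^ 2 * rho p := by positivity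
        rw [mul_add]; linarith)
      have h3 : Real.exp (-(Ms ^ 2 * rho (lineq p.1 p z))) ≤ 1 := by
        apply Real.exp_le_one_iff.2
        have : 0 < rho (lineq p.1 p z) := hz
        have : 0 < Ms ^ 2 * rho (lineq p.1 p z) := by positivity
        linarith
      have h4 : Real.exp (-(Ms ^ 2 * rho p) / 2) ≤ 1 := by
        apply Real.exp_le_one_iff.2
        have : 0 < Ms ^ 2 * rho p := by positivity
        linarith
      have h5 := mul_le_mul_of_nonneg_left h3 hC1.le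
      have h6 := mul_le_mul_of_nonneg_left h4 hC2.le
      linarith
  -- sizes
  have hMs2 : 0 < Ms ^ 2 := by positivity
  have hMj2 : 0 < Mj ^ 2 := by positivity
  have hδ : 1 / Ms ^ 2 ≤ V / 51200 := by
    rw [div_le_iff₀ hMs2]
    have h1 : 2 < b ^ 2 * rho p * Ms ^ 2 := by
      have : Mj ^ 2 * rho p = b ^ 2 * rho p * Ms ^ 2 := by rw [hMjs]; ring
      linarith
    have h2 : b ^ 2 * rho p * Ms ^ 2 ≤ V / 25600 * Ms ^ 2 := by
      rw [← hbv]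
      apply mul_le_mul_of_nonneg_right _ hMs2.le
      exact mul_le_mul_of_nonneg_left hρv.le (by positivity)
    linarith
  have hδj : 1 / Mj ^ 2 ≤ v₀ / 2 := by
    rw [div_le_iff₀ hMj2]
    have : Mj ^ 2 * rho p ≤ Mj ^ 2 * v₀ := mul_le_mul_of_nonneg_left hρv.le hMj2.le
    linarith
  have hpz : ‖p.1 - z0‖ ^ 2 ≤ V / 25600 := by
    have : ‖p.1 - z0‖ ^ 2 = (Ms ^ 2 * ‖p.1 - z0‖ ^ 2) * (1 / Ms ^ 2) := by field_simp
    rw [this]
    calc (Ms ^ 2 * ‖p.1 - z0‖ ^ 2) * (1 / Ms ^ 2) ≤ 2 * (V / 51200) := by gcongr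
      _ = V / 25600 := by ring
  have h2Mj : 2 / Mj ^ 2 < rho p := by
    rw [div_lt_iff₀ hMj2]; linarith
  set R2 : ℝ := rho p + ‖p.1 - z0‖ ^ 2 - 2 / Mj ^ 2 with hR2
  have hR2p : ‖p.1 - z0‖ ^ 2 ≤ R2 := by rw [hR2]; linarith
  have hR20 : 0 ≤ R2 := (sq_nonneg _).trans hR2p
  have hsq : (Real.sqrt R2) ^ 2 = R2 := Real.sq_sqrt hR20
  have hR2V : R2 ≤ V / 12800 := by
    have : 0 < 2 / Mj ^ 2 := by positivity
    rw [hR2]; linarith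
  have hMsR : Ms ^ 2 * R2 ≤ 4 := by
    have h1 : R2 ≤ rho p + ‖p.1 - z0‖ ^ 2 := by
      have : 0 < 2 / Mj ^ 2 := by positivity
      rw [hR2]; linarith
    have := mul_le_mul_of_nonneg_left h1 hMs2.le
    rw [mul_add] at this
    linarith
  refine ⟨z0, Real.sqrt R2, Real.le_sqrt_of_sq_le hR2p, ?_, ?_⟩
  · -- the disc
    intro z hz
    have hz2 : ‖z - z0‖ ^ 2 ≤ R2 := by
      rw [← hsq]; exact pow_le_pow_left₀ (norm_nonneg _) hz 2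
    have hr := rho_lineq z0 p z
    have h2 : 0 < 2 / Mj ^ 2 := by positivity
    have hrpos : 0 < rho (lineq z0 p z) := by rw [hr]; linarith
    refine ⟨hrpos, ?_⟩
    have him : (lineq z0 p z).2.im = rho (lineq z0 p z) + ‖z‖ ^ 2 := by
      unfold rho lineq; simp only; ring
    have hzn : ‖z‖ ^ 2 ≤ 3 * (‖p.1‖ ^ 2 + ‖p.1 - z0‖ ^ 2 + ‖z - z0‖ ^ 2) := by
      have h3 : ‖z‖ ≤ ‖p.1‖ + ‖p.1 - z0‖ + ‖z - z0‖ := by
        calc ‖z‖ = ‖p.1 - (p.1 - z0) + (z - z0)‖ := by congr 1; ring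
          _ ≤ ‖p.1 - (p.1 - z0)‖ + ‖z - z0‖ := norm_add_le _ _
          _ ≤ _ := by gcongr; exact norm_sub_le _ _
      have h4 := pow_le_pow_left₀ (norm_nonneg _) h3 2
      nlinarith [sq_nonneg (‖p.1‖ - ‖p.1 - z0‖), sq_nonneg (‖p.1‖ - ‖z - z0‖),
        sq_nonneg (‖p.1 - z0‖ - ‖z - z0‖)]
    rw [him, hr]
    have h5 : 0 ≤ ‖z - z0‖ ^ 2 := sq_nonneg _
    linarith
  · -- the circle
    intro z1 hz1
    have hz12 : ‖z1 - z0‖ ^ 2 = R2 := by rw [hz1, hsq]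
    set q1 : B2 := lineq z0 p z1 with hq1
    have hq11 : q1.1 = z1 := rfl
    have hρ1 : Mj ^ 2 * rho q1 = 2 := by
      rw [hq1, rho_lineq, hz12, hR2]; field_simp; ring
    have hq1D : q1 ∈ Dom := by
      show 0 < rho q1
      by_contra hcon
      push Not at hcon
      have : Mj ^ 2 * rho q1 ≤ 0 := mul_nonpos_of_nonneg_of_nonpos hMj2.le hcon
      linarith
    have hz1n : ‖z1‖ ^ 2 ≤ 12 * (V / 25600) := by
      have h3 : ‖z1‖ ≤ ‖p.1‖ + ‖p.1 - z0‖ + ‖z1 - z0‖ := by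
        calc ‖z1‖ = ‖p.1 - (p.1 - z0) + (z1 - z0)‖ := by congr 1; ring
          _ ≤ ‖p.1 - (p.1 - z0)‖ + ‖z1 - z0‖ := norm_add_le _ _
          _ ≤ _ := by gcongr; exact norm_sub_le _ _
      have h4 := pow_le_pow_left₀ (norm_nonneg _) h3 2
      have h5 : ‖z1‖ ^ 2 ≤ 3 * (‖p.1‖ ^ 2 + ‖p.1 - z0‖ ^ 2 + ‖z1 - z0‖ ^ 2) := by
        nlinarith [sq_nonneg (‖p.1‖ - ‖p.1 - z0‖), sq_nonneg (‖p.1‖ - ‖z1 - z0‖),
          sq_nonneg (‖p.1 - z0‖ - ‖z1 - z0‖)]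
      linarith
    obtain ⟨ms, hms⟩ := exists_lat hMj0 z1
    set zs : ℂ := zlat Mj ms with hzs
    have hzs8 : Mj ^ 2 * ‖q1.1 - zs‖ ^ 2 ≤ 8 := hms
    have hz1s : ‖z1 - zs‖ ^ 2 ≤ 4 * v₀ := by
      have : ‖z1 - zs‖ ^ 2 = (Mj ^ 2 * ‖z1 - zs‖ ^ 2) * (1 / Mj ^ 2) := by field_simp
      rw [this]
      calc (Mj ^ 2 * ‖z1 - zs‖ ^ 2) * (1 / Mj ^ 2) ≤ 8 * (v₀ / 2) := by
            apply mul_le_mul hms hδj (by positivity) (by norm_num)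
        _ = 4 * v₀ := by ring
    have hzsn : ‖zs‖ < 1 / 16 := by
      have h3 : ‖zs‖ ≤ ‖z1‖ + ‖z1 - zs‖ := by
        calc ‖zs‖ = ‖z1 - (z1 - zs)‖ := by congr 1; ring
          _ ≤ _ := norm_sub_le _ _
      have h4 := pow_le_pow_left₀ (norm_nonneg _) h3 2
      have h5 : ‖zs‖ ^ 2 ≤ 2 * (‖z1‖ ^ 2 + ‖z1 - zs‖ ^ 2) := by
        nlinarith [sq_nonneg (‖z1‖ - ‖z1 - zs‖)]
      have h6 : ‖zs‖ ^ 2 < (1 / 16) ^ 2 := by
        have : 0 < v₀ := by positivity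
        nlinarith
      exact lt_of_pow_lt_pow_left₀ 2 (by norm_num) h6
    obtain ⟨n, hn⟩ := exists_odd (((Mj ^ 2 : ℝ) : ℂ) * piz zs q1).re
    set q2 : B2 := dipPt (Mj ^ 2) zs n with hq2
    -- the estimate on the tube
    have key : ∀ (x : B2), 1 / 2 ≤ Mj ^ 2 * rho x → Mj * ‖x.1 - q1.1‖ ≤ 3 →
        Mj ^ 2 * ‖x.2 - q1.2 - 2 * I * conj q1.1 * (x.1 - q1.1)‖ ≤ 30 →
        ∀ A : ℝ, Wsc ε T Mj x + C2 ≤ A →
        Psi ε T M b η x - Psi ε T M b η p ≤ 2 * C1 + 2 * C2 + C3 + C4 + 3 + A := by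
      intro x hx1 hx2 hx3 A hA
      exact key_est hε hε1 hT hTM hM hη hηη hC1 hC2 hC3 hC4 hC5 hb120 hC5b hle hge hlip hp hq1D
        hs1 hs2 hz0 (by rw [hq11, hz12]; exact hMsR) rfl (hWs z1 hq1D) hx1 hx2 hx3 hA
    refine ⟨q2, ?_, ?_⟩
    · rintro l ⟨t, ht, hl⟩
      obtain ⟨h1, h2, h3, h4⟩ := tube hMj0 hρ1 hzs8 hn ht hl
      set x : B2 := q1 + l • (q2 - q1) with hx
      have hρx : 0 < rho x := by
        by_contra hcon
        push Not at hcon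
        have : Mj ^ 2 * rho x ≤ 0 := mul_nonpos_of_nonneg_of_nonpos hMj2.le hcon
        linarith
      refine ⟨hρx, ?_, ?_⟩
      · have him : x.2.im = rho x + ‖x.1‖ ^ 2 := by unfold rho; ring
        have h5 : rho x ≤ 11 * (v₀ / 2) := by
          have : rho x = (Mj ^ 2 * rho x) * (1 / Mj ^ 2) := by field_simp
          rw [this]
          apply mul_le_mul h2 hδj (by positivity) (by norm_num)
        have h6 : ‖x.1 - q1.1‖ ^ 2 ≤ 9 * (v₀ / 2) := by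
          have : ‖x.1 - q1.1‖ ^ 2 = (Mj * ‖x.1 - q1.1‖) ^ 2 * (1 / Mj ^ 2) := by field_simp
          rw [this]
          have h7 : (Mj * ‖x.1 - q1.1‖) ^ 2 ≤ 9 := by
            have := pow_le_pow_left₀ (by positivity) h3 2
            linarith
          apply mul_le_mul h7 hδj (by positivity) (by norm_num)
        have h8 : ‖x.1‖ ^ 2 ≤ 2 * (‖z1‖ ^ 2 + ‖x.1 - q1.1‖ ^ 2) := by
          have h9 : ‖x.1‖ ≤ ‖z1‖ + ‖x.1 - q1.1‖ := by
            calc ‖x.1‖ = ‖z1 + (x.1 - q1.1)‖ := by rw [hq11]; congr 1; ring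
              _ ≤ _ := norm_add_le _ _
          have := pow_le_pow_left₀ (norm_nonneg _) h9 2
          nlinarith [sq_nonneg (‖z1‖ - ‖x.1 - q1.1‖)]
        rw [him]
        linarith
      · have h5 := key x h1 h3 h4 (C1 + C2) (by
          have h6 := hle ε T Mj x hε hε1 hT hMj0 hρx
          have h7 : Real.exp (-(Mj ^ 2 * rho x)) ≤ 1 := by
            apply Real.exp_le_one_iff.2; linarith
          have h8 := mul_le_mul_of_nonneg_left h7 hC1.le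
          linarith)
        rw [hK₁]; linarith
    · have h0 : q1 + (1:ℂ) • (q2 - q1) = q2 := by rw [one_smul]; abel
      obtain ⟨h1, h2, h3, h4⟩ := tube hMj0 hρ1 hzs8 hn (t := 1) (l := 1) (by simp) (by simp)
      rw [← hq2, h0] at h1 h2 h3 h4
      have hρx : 0 < rho q2 := by
        by_contra hcon
        push Not at hcon
        have : Mj ^ 2 * rho q2 ≤ 0 := mul_nonpos_of_nonneg_of_nonpos hMj2.le hcon
        linarith
      have hdip : wterm ε T Mj ms q2 ≤ 2 * Real.log ε := by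
        unfold wterm
        rw [if_pos hzsn]
        have e1 : ((Mj ^ 2 : ℝ) : ℂ) * piz (zlat Mj ms) q2 = ((Real.pi * (2 * n + 1) : ℝ) : ℂ) + I :=
          piz_dipPt hMj2 zs n
        rw [e1, vfun_dip ε T hT n]
        have : 0 ≤ Real.log (1 + ε ^ 2) := Real.log_nonneg (by nlinarith [sq_nonneg ε])
        linarith
      have h5 := key q2 h1 h3 h4 (2 * Real.log ε + C4 + C2) (by
        have h6 := hle' ε T Mj q2 ms hε hε1 hT hMj0 hρx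
        linarith)
      have h6 : 2 * Real.log ε = -(L + K₁ + C4) := by rw [hlogε]; ring
      rw [h6] at h5
      rw [hK₁] at h5
      linarith

end Crest.Agent.R245
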