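import Crest.Agent.R245.OpsKB

/-! Invariance of the curvature numerator and of the area under the real shear `Y ↦ Y + tX`,
independence of the choice of the Christoffel vectors, Cauchy-Schwarz. (helper699) -/

set_option autoImplicit false

namespace Crest.Agent.R245.Sg

open Complex Filter Topology
open scoped ContDiff ComplexConjugate

section

variable {V : Type*} [NormedAddCommGroup V] [NormedSpace ℝ V] [NormedSpace ℂ V] [IsScalarTower ℝ ℂ V]
variable {P : V → ℝ} {p : V}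

theorem D11_gam_congr {P : V → ℝ} {p X Y Γ Γ' : V} (h : IsGam P p X Y Γ) (h' : IsGam P p X Y Γ')
    (Z : V) : D11 P Γ Z p = D11 P Γ' Z p := (h Z).trans (h' Z).symm

theorem D11_gam_gam (hP : ContDiffAt ℝ ∞ P p) {X Y Z W Γ₁ Γ₁' Γ₂ Γ₂' : V}
    (h₁ : IsGam P p X Y Γ₁) (h₁' : IsGam P p X Y Γ₁') (h₂ : IsGam P p Z W Γ₂)
    (h₂' : IsGam P p Z W Γ₂') : D11 P Γ₁ Γ₂ p = D11 P Γ₁' Γ₂' p := by
  rw [D11_gam_congr h₁ h₁', ← D11_conj hP Γ₂ Γ₁', D11_gam_congr h₂ h₂', D11_conj hP]

/-- the curvature numerator does not depend on the choice of the Christoffel vectors -/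
theorem negK_gam_congr (hP : ContDiffAt ℝ ∞ P p) {X Y a b c a' b' c' : V}
    (ha : IsGam P p X X a) (hb : IsGam P p X Y b) (hc : IsGam P p Y Y c)
    (ha' : IsGam P p X X a') (hb' : IsGam P p X Y b') (hc' : IsGam P p Y Y c') :
    negK P p X Y a b c = negK P p X Y a' b' c' := by
  unfold negK
  rw [D11_gam_gam hP hb hb' hb hb', D11_gam_gam hP ha ha' hc hc']

theorem _root_.Crest.Agent.R245.IsGam.symm (hP : ContDiffAt ℝ ∞ P p) {X Y Γ : V} (h : IsGam P p X Y Γ) :
    IsGam P p Y X Γ := fun Z => by rw [h Z, D21_symm hP]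

theorem _root_.Crest.Agent.R245.IsGam.add_smul (hP : ContDiffAt ℝ ∞ P p) {X X' Y Γ Γ' : V} (c : ℂ)
    (h : IsGam P p X Y Γ) (h' : IsGam P p X' Y Γ') :
    IsGam P p (X + c • X') Y (Γ + c • Γ') := fun Z => by
  rw [D11_add_left hP, D11_smul_left hP, D21_add_1 hP, D21_smul_1 hP, h Z, h' Z]

theorem _root_.Crest.Agent.R245.IsGam.add_smul' (hP : ContDiffAt ℝ ∞ P p) {X Y Y' Γ Γ' : V} (c : ℂ)
    (h : IsGam P p X Y Γ) (h' : IsGam P p X Y' Γ') :
    IsGam P p X (Y + c • Y') (Γ + c • Γ') :=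
  (IsGam.add_smul hP c (h.symm hP) (h'.symm hP)).symm hP

theorem D22_add_2 (hP : ContDiffAt ℝ ∞ P p) (X Y Y' Z W : V) :
    D22 P X (Y + Y') Z W p = D22 P X Y Z W p + D22 P X Y' Z W p := by
  rw [D22_symm12 hP, D22_add_1 hP, D22_symm12 hP Y, D22_symm12 hP Y']

theorem D22_smul_2 (hP : ContDiffAt ℝ ∞ P p) (c : ℂ) (X Y Z W : V) :
    D22 P X (c • Y) Z W p = c * D22 P X Y Z W p := by
  rw [D22_symm12 hP, D22_smul_1 hP, D22_symm12 hP Y]

theorem D22_add_3 (hP : ContDiffAt ℝ ∞ P p) (X Y Z Z' W : V) :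
    D22 P X Y (Z + Z') W p = D22 P X Y Z W p + D22 P X Y Z' W p := by
  rw [← D22_conj hP, D22_add_1 hP, map_add, D22_conj hP, D22_conj hP]

theorem D22_smul_3 (hP : ContDiffAt ℝ ∞ P p) (c : ℂ) (X Y Z W : V) :
    D22 P X Y (c • Z) W p = conj c * D22 P X Y Z W p := by
  rw [← D22_conj hP, D22_smul_1 hP, map_mul, D22_conj hP]

theorem D22_add_4 (hP : ContDiffAt ℝ ∞ P p) (X Y Z W W' : V) :
    D22 P X Y Z (W + W') p = D22 P X Y Z W p + D22 P X Y Z W' p := by
  rw [D22_symm34 hP, D22_add_3 hP, D22_symm34 hP X Y W, D22_symm34 hP X Y W']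

theorem D22_smul_4 (hP : ContDiffAt ℝ ∞ P p) (c : ℂ) (X Y Z W : V) :
    D22 P X Y Z (c • W) p = conj c * D22 P X Y Z W p := by
  rw [D22_symm34 hP, D22_smul_3 hP, D22_symm34 hP X Y W]

theorem D21_add_2 (hP : ContDiffAt ℝ ∞ P p) (X Y Y' Z : V) :
    D21 P X (Y + Y') Z p = D21 P X Y Z p + D21 P X Y' Z p := by
  rw [D21_symm hP, D21_add_1 hP, D21_symm hP Y, D21_symm hP Y']

theorem D21_smul_2 (hP : ContDiffAt ℝ ∞ P p) (c : ℂ) (X Y Z : V) :
    D21 P X (c • Y) Z p = c * D21 P X Y Z p := by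
  rw [D21_symm hP, D21_smul_1 hP, D21_symm hP Y]

theorem D11_self_im (hP : ContDiffAt ℝ ∞ P p) (X : V) : (D11 P X X p).im = 0 := by
  have := congrArg Complex.im (D11_conj hP X X)
  simp only [conj_im] at this
  linarith

theorem D11_self_re (hP : ContDiffAt ℝ ∞ P p) (X : V) :
    (((D11 P X X p).re : ℝ) : ℂ) = D11 P X X p := by
  apply Complex.ext
  · simp
  · simp [D11_self_im hP]

theorem D11_symm_re (hP : ContDiffAt ℝ ∞ P p) (X Y : V) :
    (D11 P Y X p).re = (D11 P X Y p).re := by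
  rw [← D11_conj hP X Y, conj_re]

theorem D11_symm_im (hP : ContDiffAt ℝ ∞ P p) (X Y : V) :
    (D11 P Y X p).im = - (D11 P X Y p).im := by
  rw [← D11_conj hP X Y, conj_im]

/-- the area is invariant under the real shear -/
theorem area_shear (hP : ContDiffAt ℝ ∞ P p) (X Y : V) (t : ℝ) :
    area P p X (Y + (t : ℂ) • X) = area P p X Y := by
  unfold area
  simp only [D11_add_left hP, D11_smul_left hP, D11_add_right hP, D11_smul_right hP, conj_ofReal,
    add_re, re_ofReal_mul, D11_symm_re hP X Y]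
  ring

/-- the curvature numerator is invariant under the real shear -/
theorem negK_shear (hP : ContDiffAt ℝ ∞ P p) (X Y a b c : V) (t : ℝ) :
    negK P p X (Y + (t : ℂ) • X) a (b + (t : ℂ) • a)
      ((c + (t : ℂ) • b) + (t : ℂ) • (b + (t : ℂ) • a)) = negK P p X Y a b c := by
  have e1 : (D22 P X X X Y p).re = (D22 P X Y X X p).re := by
    rw [← D22_conj hP X Y X X, conj_re]
  unfold negK
  simp only [D11_add_left hP, D11_smul_left hP, D11_add_right hP, D11_smul_right hP,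
    D22_add_2 hP, D22_smul_2 hP, D22_add_3 hP, D22_smul_3 hP, D22_add_4 hP, D22_smul_4 hP,
    conj_ofReal, add_re, sub_re, re_ofReal_mul, D11_symm_re hP a b, D22_symm34 hP X X Y X, e1]
  ring

/-- to bound the curvature it suffices to look at one shear of every pair `(X, Y)` -/
theorem KB_of_exists_shear (hP : ContDiffAt ℝ ∞ P p) {c B : ℝ}
    (h : ∀ X Y : V, ∃ t : ℝ, ∀ Γxx Γxy Γyy, IsGam P p X X Γxx →
      IsGam P p X (Y + (t : ℂ) • X) Γxy → IsGam P p (Y + (t : ℂ) • X) (Y + (t : ℂ) • X) Γyy →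
      c * area P p X (Y + (t : ℂ) • X) ≤ negK P p X (Y + (t : ℂ) • X) Γxx Γxy Γyy ∧
        negK P p X (Y + (t : ℂ) • X) Γxx Γxy Γyy ≤ B * area P p X (Y + (t : ℂ) • X)) :
    KB P p c B := by
  intro X Y a b d ha hb hd
  obtain ⟨t, ht⟩ := h X Y
  have h1 : IsGam P p X (Y + (t : ℂ) • X) (b + (t : ℂ) • a) := hb.add_smul' hP _ ha
  have h2 : IsGam P p (Y + (t : ℂ) • X) (Y + (t : ℂ) • X)
      ((d + (t : ℂ) • b) + (t : ℂ) • (b + (t : ℂ) • a)) :=
    IsGam.add_smul' hP _ (IsGam.add_smul hP _ hd hb) (h1.symm hP)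
  have := ht a _ _ ha h1 h2
  rw [area_shear hP, negK_shear hP] at this
  exact this

/-- Cauchy-Schwarz -/
theorem D11_cs (hP : ContDiffAt ℝ ∞ P p) (hpd : PD P p) (X Y : V) :
    ‖D11 P X Y p‖ ^ 2 ≤ (D11 P X X p).re * (D11 P Y Y p).re := by
  by_cases h0 : D11 P X Y p = 0
  · rw [h0]
    simp only [norm_zero, ne_eq, OfNat.ofNat_ne_zero, not_false_eq_true, zero_pow]
    have hX : 0 ≤ (D11 P X X p).re := by
      by_cases hX : X = 0
      · have : D11 P X X p = 0 := by
          have := D11_smul_left hP 0 X X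
          rw [zero_smul] at this
          rw [hX] at this ⊢
          simpa using this
        rw [this]; simp
      · exact (hpd X hX).le
    have hY : 0 ≤ (D11 P Y Y p).re := by
      by_cases hY : Y = 0
      · have : D11 P Y Y p = 0 := by
          have := D11_smul_left hP 0 Y Y
          rw [zero_smul] at this
          rw [hY] at this ⊢
          simpa using this
        rw [this]; simp
      · exact (hpd Y hY).le
    positivity
  · set h := D11 P X Y p with hh
    have hn : (‖h‖ : ℂ) ≠ 0 := by exact_mod_cast norm_ne_zero_iff.2 h0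
    set c : ℂ := h / ‖h‖ with hc
    have hcc : conj c * h = ‖h‖ := by
      rw [hc, map_div₀, conj_ofReal, div_mul_eq_mul_div, div_eq_iff hn, mul_comm, mul_conj,
        normSq_eq_norm_sq]
      push_cast
      ring
    have hc1 : c * conj c = 1 := by
      rw [mul_conj, hc, normSq_eq_norm_sq, norm_div]
      simp only [norm_real, norm_norm]
      rw [div_self (norm_ne_zero_iff.2 h0)]
      simp
    have h1 := area_nonneg hP hpd X (c • Y)
    unfold area at h1
    have h2 : D11 P (c • Y) (c • Y) p = D11 P Y Y p := by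
      rw [D11_smul_left hP, D11_smul_right hP, ← mul_assoc, hc1, one_mul]
    have h3 : D11 P X (c • Y) p = ‖h‖ := by
      rw [D11_smul_right hP, ← hh, hcc]
    rw [h2, h3] at h1
    simp only [ofReal_re] at h1
    linarith

end

end Crest.Agent.R245.Sg
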