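import Crest.Agent.R245.BasePertA

/-! Invariance of the curvature numerator under real shears `(X, Y) ↦ (X, Y + t X)`. -/

set_option autoImplicit false

namespace Crest.Agent.R245.BP

open Complex Filter Topology
open Crest.Agent.R245
open scoped ContDiff ComplexConjugate

section Shear

variable {V : Type*} [NormedAddCommGroup V] [NormedSpace ℝ V] [NormedSpace ℂ V] [IsScalarTower ℝ ℂ V]
variable {P : V → ℝ} {p : V}

theorem D21_add_2 (hP : ContDiffAt ℝ ∞ P p) (X Y Y' Z : V) :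
    D21 P X (Y + Y') Z p = D21 P X Y Z p + D21 P X Y' Z p := by
  rw [D21_symm hP, D21_add_1 hP, D21_symm hP X Y, D21_symm hP X Y']

theorem D21_smul_2 (hP : ContDiffAt ℝ ∞ P p) (c : ℂ) (X Y Z : V) :
    D21 P X (c • Y) Z p = c * D21 P X Y Z p := by
  rw [D21_symm hP, D21_smul_1 hP, D21_symm hP X Y]

theorem D22_add_2 (hP : ContDiffAt ℝ ∞ P p) (X Y Y' Z W : V) :
    D22 P X (Y + Y') Z W p = D22 P X Y Z W p + D22 P X Y' Z W p := by
  rw [D22_symm12 hP, D22_add_1 hP, D22_symm12 hP X Y, D22_symm12 hP X Y']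

theorem D22_smul_2 (hP : ContDiffAt ℝ ∞ P p) (c : ℂ) (X Y Z W : V) :
    D22 P X (c • Y) Z W p = c * D22 P X Y Z W p := by
  rw [D22_symm12 hP, D22_smul_1 hP, D22_symm12 hP X Y]

theorem D22_add_3 (hP : ContDiffAt ℝ ∞ P p) (X Y Z Z' W : V) :
    D22 P X Y (Z + Z') W p = D22 P X Y Z W p + D22 P X Y Z' W p := by
  rw [← D22_conj hP, D22_add_1 hP, map_add, D22_conj hP, D22_conj hP]

theorem D22_smul_3 (hP : ContDiffAt ℝ ∞ P p) (c : ℂ) (X Y Z W : V) :
    D22 P X Y (c • Z) W p = conj c * D22 P X Y Z W p := by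
  rw [← D22_conj hP, D22_smul_1 hP, map_mul, D22_conj hP]

theorem D22_add_4 (hP : ContDiffAt ℝ ∞ P p) (X Y Z W W' : V) :
    D22 P X Y Z (W + W') p = D22 P X Y Z W p + D22 P X Y Z W' p := by
  rw [D22_symm34 hP, D22_add_3 hP, D22_symm34 hP X Y W, D22_symm34 hP X Y W']

theorem D22_smul_4 (hP : ContDiffAt ℝ ∞ P p) (c : ℂ) (X Y Z W : V) :
    D22 P X Y Z (c • W) p = conj c * D22 P X Y Z W p := by
  rw [D22_symm34 hP, D22_smul_3 hP, D22_symm34 hP X Y W]

theorem D11_re_symm (hP : ContDiffAt ℝ ∞ P p) (X Y : V) :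
    (D11 P X Y p).re = (D11 P Y X p).re := by
  rw [← D11_conj hP X Y, Complex.conj_re]

theorem D11_im_symm (hP : ContDiffAt ℝ ∞ P p) (X Y : V) :
    (D11 P X Y p).im = - (D11 P Y X p).im := by
  rw [← D11_conj hP X Y, Complex.conj_im, neg_neg]

theorem D11_self_im (hP : ContDiffAt ℝ ∞ P p) (X : V) : (D11 P X X p).im = 0 := by
  have := D11_im_symm hP X X
  linarith

theorem negK_shear (hP : ContDiffAt ℝ ∞ P p) (t : ℝ) (X Y A B C : V) :
    negK P p X (Y + (t : ℂ) • X) A (B + (t : ℂ) • A)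
      (C + ((2 * t : ℝ) : ℂ) • B + ((t ^ 2 : ℝ) : ℂ) • A) = negK P p X Y A B C := by
  have h1 : (D22 P X Y X X p).re = (D22 P X X X Y p).re := by
    rw [← D22_conj hP X X X Y, Complex.conj_re]
  have h2 : (D11 P B A p).re = (D11 P A B p).re := D11_re_symm hP B A
  have e1 : D22 P X (Y + (t : ℂ) • X) X (Y + (t : ℂ) • X) p
      = D22 P X Y X Y p + t * D22 P X Y X X p + t * D22 P X X X Y p
        + t * t * D22 P X X X X p := by
    rw [D22_add_2 hP, D22_add_4 hP, D22_add_4 hP, D22_smul_2 hP, D22_smul_2 hP, D22_smul_4 hP,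
      D22_smul_4 hP, Complex.conj_ofReal]
    ring
  have e2 : D22 P X X (Y + (t : ℂ) • X) (Y + (t : ℂ) • X) p
      = D22 P X X Y Y p + 2 * t * D22 P X X X Y p + t * t * D22 P X X X X p := by
    rw [D22_add_3 hP, D22_add_4 hP, D22_add_4 hP, D22_smul_3 hP, D22_smul_3 hP, D22_smul_4 hP,
      D22_smul_4 hP, Complex.conj_ofReal, D22_symm34 hP X X Y X]
    ring
  have e3 : D11 P (B + (t : ℂ) • A) (B + (t : ℂ) • A) p
      = D11 P B B p + t * D11 P B A p + t * D11 P A B p + t * t * D11 P A A p := by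
    rw [D11_add_left hP, D11_add_right hP, D11_add_right hP, D11_smul_left hP, D11_smul_left hP,
      D11_smul_right hP, D11_smul_right hP, Complex.conj_ofReal]
    ring
  have e4 : D11 P A (C + ((2 * t : ℝ) : ℂ) • B + ((t ^ 2 : ℝ) : ℂ) • A) p
      = D11 P A C p + 2 * t * D11 P A B p + t * t * D11 P A A p := by
    rw [D11_add_right hP, D11_add_right hP, D11_smul_right hP, D11_smul_right hP,
      Complex.conj_ofReal, Complex.conj_ofReal]
    push_cast
    ring
  unfold negK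
  rw [e1, e2, e3, e4]
  have r : ∀ z : ℂ, ((t : ℂ) * z).re = t * z.re := fun z => by simp
  have r2 : ∀ z : ℂ, (2 * (t : ℂ) * z).re = 2 * t * z.re := fun z => by
    rw [show (2 * (t : ℂ) * z) = ((2 * t : ℝ) : ℂ) * z by push_cast; ring, Complex.re_ofReal_mul]
  have r3 : ∀ z : ℂ, ((t : ℂ) * (t : ℂ) * z).re = t * t * z.re := fun z => by
    rw [show ((t : ℂ) * (t : ℂ) * z) = ((t * t : ℝ) : ℂ) * z by push_cast; ring,
      Complex.re_ofReal_mul]
  simp only [Complex.add_re, Complex.sub_re, r, r2, r3]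
  rw [h1, h2]
  ring

theorem D11_shear_re (hP : ContDiffAt ℝ ∞ P p) (t : ℝ) (X Y : V) :
    (D11 P X (Y + (t : ℂ) • X) p).re = (D11 P X Y p).re + t * (D11 P X X p).re := by
  rw [D11_add_right hP, D11_smul_right hP, Complex.conj_ofReal, Complex.add_re,
    Complex.re_ofReal_mul]

theorem D11_shear_im (hP : ContDiffAt ℝ ∞ P p) (t : ℝ) (X Y : V) :
    (D11 P X (Y + (t : ℂ) • X) p).im = (D11 P X Y p).im := by
  rw [D11_add_right hP, D11_smul_right hP, Complex.conj_ofReal, Complex.add_im,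
    Complex.im_ofReal_mul, D11_self_im hP]
  ring

theorem D11_shear_self (hP : ContDiffAt ℝ ∞ P p) (t : ℝ) (X Y : V) :
    (D11 P (Y + (t : ℂ) • X) (Y + (t : ℂ) • X) p).re
      = (D11 P Y Y p).re + 2 * t * (D11 P X Y p).re + t ^ 2 * (D11 P X X p).re := by
  rw [D11_add_left hP, D11_add_right hP, D11_add_right hP, D11_smul_left hP, D11_smul_left hP,
      D11_smul_right hP, D11_smul_right hP, Complex.conj_ofReal]
  simp only [Complex.add_re, Complex.re_ofReal_mul]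
  rw [D11_re_symm hP Y X]
  ring

theorem area_shear (hP : ContDiffAt ℝ ∞ P p) (t : ℝ) (X Y : V) :
    area P p X (Y + (t : ℂ) • X) = area P p X Y := by
  unfold area
  rw [D11_shear_re hP, D11_shear_self hP]
  ring

theorem IsGam_shear12 (hP : ContDiffAt ℝ ∞ P p) (t : ℝ) {X Y A B : V}
    (hA : IsGam P p X X A) (hB : IsGam P p X Y B) :
    IsGam P p X (Y + (t : ℂ) • X) (B + (t : ℂ) • A) := by
  intro Z
  rw [D11_add_left hP, D11_smul_left hP, D21_add_2 hP, D21_smul_2 hP, hA Z, hB Z]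

theorem IsGam_shear22 (hP : ContDiffAt ℝ ∞ P p) (t : ℝ) {X Y A B C : V}
    (hA : IsGam P p X X A) (hB : IsGam P p X Y B) (hC : IsGam P p Y Y C) :
    IsGam P p (Y + (t : ℂ) • X) (Y + (t : ℂ) • X)
      (C + ((2 * t : ℝ) : ℂ) • B + ((t ^ 2 : ℝ) : ℂ) • A) := by
  intro Z
  rw [D11_add_left hP, D11_add_left hP, D11_smul_left hP, D11_smul_left hP, D21_add_2 hP,
    D21_smul_2 hP, D21_add_1 hP, D21_add_1 hP, D21_smul_1 hP, D21_smul_1 hP, hA Z, hB Z, hC Z,
    D21_symm hP Y X Z]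
  push_cast
  ring

end Shear

theorem calK_shear {S : B2 → ℝ} {p : B2} (hP : ContDiffAt ℝ ∞ S p) (t : ℝ) (X Y : B2) :
    calK S p X (Y + (t : ℂ) • X) = calK S p X Y := by
  unfold calK
  rw [D11_shear_re hP, D11_shear_self hP, D11_shear_im hP]
  ring

end Crest.Agent.R245.BP
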