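import Crest.Agent.R245.OpsKB

/-! Definitions for the wild function (row 245). -/

set_option autoImplicit false

namespace Crest.Agent.R245

open Complex Filter Topology
open scoped ContDiff ComplexConjugate

/-- block function on `ℂ` (used on the upper half plane) -/
noncomputable def vfun (ε T : ℝ) (w : ℂ) : ℝ :=
  Real.smoothTransition (T - w.im) *
    (Real.log (‖1 + Complex.exp (1 + I * w)‖ ^ 2 + ε ^ 2) - Real.log (1 + ε ^ 2))

/-- lattice point `4 m / M` -/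
noncomputable def zlat (M : ℝ) (m : ℤ × ℤ) : ℂ := ((4 / M : ℝ) : ℂ) * ((m.1 : ℂ) + (m.2 : ℂ) * I)

/-- projection to the complex geodesic `z = z0` -/
noncomputable def piz (z0 : ℂ) (p : B2) : ℂ :=
  p.2 - 2 * I * conj z0 * p.1 + I * ((‖z0‖ ^ 2 : ℝ) : ℂ)

noncomputable def wterm (ε T M : ℝ) (m : ℤ × ℤ) (p : B2) : ℝ :=
  if ‖zlat M m‖ < 1/16 then vfun ε T (((M ^ 2 : ℝ) : ℂ) * piz (zlat M m) p) else 0

/-- the wild function; scales `M b^j`, `j = 0,1,2,…` -/
noncomputable def PhiW (ε T M b : ℝ) (p : B2) : ℝ :=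
  ∑ᶠ i : ℕ × (ℤ × ℤ), wterm ε T (M * b ^ i.1) i.2 p

/-- `Im π_{z0}(p) = ρ(p) + |z - z0|²` -/
theorem piz_im (z0 : ℂ) (p : B2) : (piz z0 p).im = rho p + ‖p.1 - z0‖ ^ 2 := by
  unfold piz rho
  rw [Complex.sq_norm, Complex.sq_norm, Complex.sq_norm, Complex.normSq_apply,
    Complex.normSq_apply, Complex.normSq_apply]
  simp [Complex.mul_re, Complex.mul_im]
  ring

end Crest.Agent.R245
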