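import Crest.Agent.R245.WildP1

/-! TASK WildE: estimates for one scale of the wild function. -/

set_option autoImplicit false

namespace Crest.Agent.R245

open Complex Filter Topology
open scoped ContDiff ComplexConjugate

/-- one scale -/
noncomputable def Wsc (ε T M : ℝ) (p : B2) : ℝ := ∑ᶠ m : ℤ × ℤ, wterm ε T M m p

/-! ### finiteness of the lattice sums -/

theorem zlat_norm_ge {M : ℝ} (hM : 0 < M) (m : ℤ × ℤ) :
    4 / M * |(m.1 : ℝ)| ≤ ‖zlat M m‖ ∧ 4 / M * |(m.2 : ℝ)| ≤ ‖zlat M m‖ := by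
  have h4 : 0 < 4 / M := by positivity
  have hn : ‖zlat M m‖ = 4 / M * ‖((m.1 : ℂ) + (m.2 : ℂ) * I)‖ := by
    unfold zlat
    rw [norm_mul, Complex.norm_real, Real.norm_of_nonneg h4.le]
  have h1 : |(m.1 : ℝ)| ≤ ‖((m.1 : ℂ) + (m.2 : ℂ) * I)‖ := by
    have := Complex.abs_re_le_norm ((m.1 : ℂ) + (m.2 : ℂ) * I)
    simpa using this
  have h2 : |(m.2 : ℝ)| ≤ ‖((m.1 : ℂ) + (m.2 : ℂ) * I)‖ := by
    have := Complex.abs_im_le_norm ((m.1 : ℂ) + (m.2 : ℂ) * I)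
    simpa using this
  rw [hn]
  exact ⟨mul_le_mul_of_nonneg_left h1 h4.le, mul_le_mul_of_nonneg_left h2 h4.le⟩

theorem zlat_finite {M : ℝ} (hM : 0 < M) : {m : ℤ × ℤ | ‖zlat M m‖ < 1/16}.Finite := by
  set N : ℤ := ⌈M / 64⌉
  refine ((Set.finite_Icc (-N) N).prod (Set.finite_Icc (-N) N)).subset ?_
  intro m hm
  have hm' : ‖zlat M m‖ < 1/16 := hm
  obtain ⟨h1, h2⟩ := zlat_norm_ge hM m
  have key : ∀ k : ℤ, 4 / M * |(k : ℝ)| < 1 / 16 → k ∈ Set.Icc (-N) N := by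
    intro k hk
    have hk' : |(k : ℝ)| < M / 64 := by
      have := mul_lt_mul_of_pos_left hk (show 0 < M / 4 by positivity)
      have h3 : M / 4 * (4 / M * |(k : ℝ)|) = |(k : ℝ)| := by field_simp
      rw [h3] at this
      linarith
    have hN : M / 64 ≤ (N : ℝ) := Int.le_ceil _
    have h5 : |(k : ℝ)| ≤ (N : ℝ) := hk'.le.trans hN
    rw [abs_le] at h5
    constructor
    · have := h5.1
      exact_mod_cast this
    · exact_mod_cast h5.2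
  exact ⟨key _ (lt_of_le_of_lt h1 hm'), key _ (lt_of_le_of_lt h2 hm')⟩

/-- the finite set of active lattice points -/
noncomputable def actS (M : ℝ) (hM : 0 < M) : Finset (ℤ × ℤ) := (zlat_finite hM).toFinset

theorem Wsc_eq_finset {ε T M : ℝ} (hM : 0 < M) (p : B2) (s : Finset (ℤ × ℤ))
    (hs : actS M hM ⊆ s) : Wsc ε T M p = ∑ m ∈ s, wterm ε T M m p := by
  unfold Wsc
  apply finsum_eq_sum_of_support_subset
  intro m hm
  have hm' : wterm ε T M m p ≠ 0 := hm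
  by_contra hcon
  apply hm'
  unfold wterm
  rw [if_neg]
  intro h
  apply hcon
  apply hs
  simpa [actS] using h

theorem scaled_im {M : ℝ} (z0 : ℂ) (p : B2) :
    ((((M ^ 2 : ℝ) : ℂ) * piz z0 p).im) = M ^ 2 * (rho p + ‖p.1 - z0‖ ^ 2) := by
  rw [Complex.im_ofReal_mul, piz_im]

theorem scaled_im_nonneg {M : ℝ} (z0 : ℂ) {p : B2} (hp : p ∈ Dom) :
    0 ≤ ((((M ^ 2 : ℝ) : ℂ) * piz z0 p).im) := by
  rw [scaled_im]
  have : 0 < rho p := hp
  positivity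

theorem Wsc_eq_zero {ε T M : ℝ} (hT : 3 ≤ T) (hM0 : 0 < M) {p : B2} (hp : p ∈ Dom)
    (h : T ≤ M ^ 2 * rho p) : Wsc ε T M p = 0 := by
  unfold Wsc
  rw [← finsum_zero (α := ℤ × ℤ)]
  apply finsum_congr
  intro m
  unfold wterm
  split_ifs with hz
  · apply vfun_eq_zero
    rw [scaled_im]
    have : 0 ≤ M ^ 2 * ‖p.1 - zlat M m‖ ^ 2 := by positivity
    nlinarith
  · rfl

theorem PhiW_eq_sum {ε T M b : ℝ} (hε : 0 < ε) (hT : 3 ≤ T) (hb : 2 ≤ b)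
    (hM : 256 * T ≤ M ^ 2) (hM0 : 0 < M) {p : B2} (hp : p ∈ Dom) :
    PhiW ε T M b p = ∑ᶠ j : ℕ, Wsc ε T (M * b ^ j) p := by
  have hb0 : 0 < b := by linarith
  have hrho : 0 < rho p := hp
  unfold PhiW Wsc
  apply finsum_curry (fun i : ℕ × (ℤ × ℤ) => wterm ε T (M * b ^ i.1) i.2 p)
  -- finite support
  obtain ⟨J, hJ⟩ : ∃ J : ℕ, T / (M ^ 2 * rho p) < b ^ J :=
    pow_unbounded_of_one_lt _ (by linarith)
  have hfin : (⋃ j ∈ Set.Iio J, (Prod.mk j) '' {m : ℤ × ℤ | ‖zlat (M * b ^ j) m‖ < 1/16}).Finite := by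
    apply Set.Finite.biUnion (Set.finite_Iio J)
    intro j _
    exact (zlat_finite (by positivity)).image _
  refine hfin.subset ?_
  rintro ⟨j, m⟩ hjm
  have hne : wterm ε T (M * b ^ j) m p ≠ 0 := hjm
  have hz : ‖zlat (M * b ^ j) m‖ < 1/16 := by
    by_contra hcon
    exact hne (by unfold wterm; rw [if_neg hcon])
  have hjJ : j < J := by
    by_contra hcon
    push Not at hcon
    apply hne
    unfold wterm
    rw [if_pos hz]
    apply vfun_eq_zero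
    rw [scaled_im]
    have h1 : b ^ J ≤ b ^ j := pow_le_pow_right₀ (by linarith) hcon
    have h1' : (1 : ℝ) ≤ b ^ j := one_le_pow₀ (by linarith)
    have h2 : T < b ^ J * (M ^ 2 * rho p) := by
      rwa [div_lt_iff₀ (by positivity)] at hJ
    have h3 : b ^ J * (M ^ 2 * rho p) ≤ b ^ j * (M ^ 2 * rho p) :=
      mul_le_mul_of_nonneg_right h1 (by positivity)
    have h4 : b ^ j * (M ^ 2 * rho p) ≤ (M * b ^ j) ^ 2 * rho p := by
      have : (M * b ^ j) ^ 2 * rho p = b ^ j * (b ^ j * (M ^ 2 * rho p)) := by ring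
      rw [this]
      have h5 : 0 ≤ b ^ j * (M ^ 2 * rho p) := by positivity
      nlinarith
    have h6 : 0 ≤ (M * b ^ j) ^ 2 * ‖p.1 - zlat (M * b ^ j) m‖ ^ 2 := by positivity
    nlinarith
  simp only [Set.mem_iUnion, Set.mem_image, Set.mem_Iio]
  exact ⟨j, hjJ, m, hz, rfl⟩

/-! ### bounds of single terms -/

theorem wterm_le {ε T M : ℝ} {m : ℤ × ℤ} {p : B2} (hε : 0 < ε) (hε1 : ε ≤ 1) (hT : 3 ≤ T)
    (hM : 0 < M) (hp : p ∈ Dom) :
    wterm ε T M m p ≤ 13 * Real.exp (-(M ^ 2 * rho p)) *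
      Real.exp (-(M ^ 2 * ‖p.1 - zlat M m‖ ^ 2) / 4) := by
  unfold wterm
  split_ifs with hz
  · refine (vfun_le hε hε1 hT (scaled_im_nonneg _ hp)).trans ?_
    rw [scaled_im, mul_assoc, ← Real.exp_add]
    apply mul_le_mul_of_nonneg_left _ (by norm_num)
    apply Real.exp_le_exp.2
    have : 0 ≤ M ^ 2 * ‖p.1 - zlat M m‖ ^ 2 := by positivity
    linarith
  · positivity

theorem Wsc_le : ∃ C : ℝ, 0 < C ∧ ∀ (ε T M : ℝ) (p : B2), 0 < ε → ε ≤ 1 → 3 ≤ T → 0 < M →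
    p ∈ Dom → Wsc ε T M p ≤ C * Real.exp (-(M ^ 2 * rho p)) := by
  obtain ⟨C, hC, hsum⟩ := lat_sum
  refine ⟨13 * C, by positivity, ?_⟩
  intro ε T M p hε hε1 hT hM hp
  rw [Wsc_eq_finset hM p _ (Finset.Subset.refl _)]
  calc ∑ m ∈ actS M hM, wterm ε T M m p
      ≤ ∑ m ∈ actS M hM, 13 * Real.exp (-(M ^ 2 * rho p)) *
        Real.exp (-(M ^ 2 * ‖p.1 - zlat M m‖ ^ 2) / 4) :=
        Finset.sum_le_sum fun m _ => wterm_le hε hε1 hT hM hp
    _ = 13 * Real.exp (-(M ^ 2 * rho p)) *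
        ∑ m ∈ actS M hM, Real.exp (-(M ^ 2 * ‖p.1 - zlat M m‖ ^ 2) / 4) := by
        rw [Finset.mul_sum]
    _ ≤ 13 * Real.exp (-(M ^ 2 * rho p)) * C :=
        mul_le_mul_of_nonneg_left (hsum M p.1 _ hM) (by positivity)
    _ = _ := by ring

/-- lower bound of a single term away from its dips -/
theorem wterm_ge {ε T M C : ℝ} (hC : 0 < C)
    (hv : ∀ (ε T : ℝ) (w : ℂ), 0 < ε → ε ≤ 1 → 3 ≤ T → 2 ≤ w.im →
      -C * Real.exp (-w.im) ≤ vfun ε T w)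
    {m : ℤ × ℤ} {p : B2} (hε : 0 < ε) (hε1 : ε ≤ 1) (hT : 3 ≤ T) (hM : 0 < M) (hp : p ∈ Dom)
    (h2 : 2 ≤ M ^ 2 * (rho p + ‖p.1 - zlat M m‖ ^ 2)) :
    -(C * Real.exp (-(M ^ 2 * rho p))) * Real.exp (-(M ^ 2 * ‖p.1 - zlat M m‖ ^ 2) / 4) ≤
      wterm ε T M m p := by
  unfold wterm
  split_ifs with hz
  · refine le_trans ?_ (hv ε T _ hε hε1 hT (by rw [scaled_im]; exact h2))
    rw [scaled_im]
    have h3 : Real.exp (-(M ^ 2 * (rho p + ‖p.1 - zlat M m‖ ^ 2))) ≤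
        Real.exp (-(M ^ 2 * rho p)) * Real.exp (-(M ^ 2 * ‖p.1 - zlat M m‖ ^ 2) / 4) := by
      rw [← Real.exp_add]
      apply Real.exp_le_exp.2
      have : 0 ≤ M ^ 2 * ‖p.1 - zlat M m‖ ^ 2 := by positivity
      linarith
    have h4 := mul_le_mul_of_nonneg_left h3 hC.le
    linarith
  · have : 0 ≤ C * Real.exp (-(M ^ 2 * rho p)) * Real.exp (-(M ^ 2 * ‖p.1 - zlat M m‖ ^ 2) / 4) := by
      positivity
    linarith

theorem Wsc_ge : ∃ C : ℝ, 0 < C ∧ ∀ (ε T M : ℝ) (p : B2), 0 < ε → ε ≤ 1 → 3 ≤ T → 0 < M →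
    p ∈ Dom → (∀ m, 2 ≤ M ^ 2 * (rho p + ‖p.1 - zlat M m‖ ^ 2)) →
    -C * Real.exp (-(M ^ 2 * rho p) / 2) ≤ Wsc ε T M p := by
  obtain ⟨C, hC, hsum⟩ := lat_sum
  obtain ⟨C', hC', hv⟩ := vfun_ge
  refine ⟨C' * C, by positivity, ?_⟩
  intro ε T M p hε hε1 hT hM hp h2
  have hrho : 0 < rho p := hp
  rw [Wsc_eq_finset hM p _ (Finset.Subset.refl _)]
  have h1 : -(C' * Real.exp (-(M ^ 2 * rho p))) * C ≤ ∑ m ∈ actS M hM, wterm ε T M m p := by
    calc -(C' * Real.exp (-(M ^ 2 * rho p))) * C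
        ≤ -(C' * Real.exp (-(M ^ 2 * rho p))) *
          ∑ m ∈ actS M hM, Real.exp (-(M ^ 2 * ‖p.1 - zlat M m‖ ^ 2) / 4) := by
          have h5 := mul_le_mul_of_nonneg_left (hsum M p.1 (actS M hM) hM)
            (show 0 ≤ C' * Real.exp (-(M ^ 2 * rho p)) by positivity)
          linarith
      _ = ∑ m ∈ actS M hM, -(C' * Real.exp (-(M ^ 2 * rho p))) *
            Real.exp (-(M ^ 2 * ‖p.1 - zlat M m‖ ^ 2) / 4) := by
          rw [Finset.mul_sum]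
      _ ≤ _ := Finset.sum_le_sum fun m _ => wterm_ge hC' hv hε hε1 hT hM hp (h2 m)
  refine le_trans ?_ h1
  have h6 : Real.exp (-(M ^ 2 * rho p)) ≤ Real.exp (-(M ^ 2 * rho p) / 2) := by
    apply Real.exp_le_exp.2
    have : 0 ≤ M ^ 2 * rho p := by positivity
    linarith
  have h7 := mul_le_mul_of_nonneg_left h6 (show 0 ≤ C' * C by positivity)
  linarith

theorem Wsc_ge' : ∃ C : ℝ, 0 < C ∧ ∀ (ε T M : ℝ) (p : B2) (m₀ : ℤ × ℤ), 0 < ε → ε ≤ 1 → 3 ≤ T →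
    0 < M → p ∈ Dom → (∀ m, m ≠ m₀ → 2 ≤ M ^ 2 * (rho p + ‖p.1 - zlat M m‖ ^ 2)) →
    wterm ε T M m₀ p - C ≤ Wsc ε T M p := by
  classical
  obtain ⟨C, hC, hsum⟩ := lat_sum
  obtain ⟨C', hC', hv⟩ := vfun_ge
  refine ⟨C' * C, by positivity, ?_⟩
  intro ε T M p m₀ hε hε1 hT hM hp h2
  have hrho : 0 < rho p := hp
  rw [Wsc_eq_finset hM p (insert m₀ (actS M hM)) (Finset.subset_insert _ _),
    ← Finset.add_sum_erase _ _ (Finset.mem_insert_self m₀ (actS M hM))]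
  have h1 : -(C' * Real.exp (-(M ^ 2 * rho p))) * C ≤
      ∑ m ∈ (insert m₀ (actS M hM)).erase m₀, wterm ε T M m p := by
    calc -(C' * Real.exp (-(M ^ 2 * rho p))) * C
        ≤ -(C' * Real.exp (-(M ^ 2 * rho p))) *
          ∑ m ∈ (insert m₀ (actS M hM)).erase m₀, Real.exp (-(M ^ 2 * ‖p.1 - zlat M m‖ ^ 2) / 4) := by
          have h5 := mul_le_mul_of_nonneg_left (hsum M p.1 ((insert m₀ (actS M hM)).erase m₀) hM)
            (show 0 ≤ C' * Real.exp (-(M ^ 2 * rho p)) by positivity)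
          linarith
      _ = ∑ m ∈ (insert m₀ (actS M hM)).erase m₀, -(C' * Real.exp (-(M ^ 2 * rho p))) *
            Real.exp (-(M ^ 2 * ‖p.1 - zlat M m‖ ^ 2) / 4) := by
          rw [Finset.mul_sum]
      _ ≤ _ := Finset.sum_le_sum fun m hm =>
          wterm_ge hC' hv hε hε1 hT hM hp (h2 m (Finset.ne_of_mem_erase hm))
  have h6 : Real.exp (-(M ^ 2 * rho p)) ≤ 1 := by
    apply Real.exp_le_one_iff.2
    have : 0 ≤ M ^ 2 * rho p := by positivity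
    linarith
  have h7 := mul_le_mul_of_nonneg_left h6 (show 0 ≤ C' * C by positivity)
  linarith

theorem Wsc_le' : ∃ C : ℝ, 0 < C ∧ ∀ (ε T M : ℝ) (p : B2) (m₀ : ℤ × ℤ), 0 < ε → ε ≤ 1 → 3 ≤ T →
    0 < M → p ∈ Dom → Wsc ε T M p ≤ wterm ε T M m₀ p + C := by
  classical
  obtain ⟨C, hC, hsum⟩ := lat_sum
  refine ⟨13 * C, by positivity, ?_⟩
  intro ε T M p m₀ hε hε1 hT hM hp
  have hrho : 0 < rho p := hp
  rw [Wsc_eq_finset hM p (insert m₀ (actS M hM)) (Finset.subset_insert _ _),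
    ← Finset.add_sum_erase _ _ (Finset.mem_insert_self m₀ (actS M hM))]
  have h1 : ∑ m ∈ (insert m₀ (actS M hM)).erase m₀, wterm ε T M m p ≤
      13 * Real.exp (-(M ^ 2 * rho p)) * C := by
    calc ∑ m ∈ (insert m₀ (actS M hM)).erase m₀, wterm ε T M m p
        ≤ ∑ m ∈ (insert m₀ (actS M hM)).erase m₀, 13 * Real.exp (-(M ^ 2 * rho p)) *
          Real.exp (-(M ^ 2 * ‖p.1 - zlat M m‖ ^ 2) / 4) :=
          Finset.sum_le_sum fun m _ => wterm_le hε hε1 hT hM hp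
      _ = 13 * Real.exp (-(M ^ 2 * rho p)) *
          ∑ m ∈ (insert m₀ (actS M hM)).erase m₀,
            Real.exp (-(M ^ 2 * ‖p.1 - zlat M m‖ ^ 2) / 4) := by
          rw [Finset.mul_sum]
      _ ≤ 13 * Real.exp (-(M ^ 2 * rho p)) * C :=
          mul_le_mul_of_nonneg_left (hsum M p.1 _ hM) (by positivity)
  have h6 : Real.exp (-(M ^ 2 * rho p)) ≤ 1 := by
    apply Real.exp_le_one_iff.2
    have : 0 ≤ M ^ 2 * rho p := by positivity
    linarith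
  have h7 := mul_le_mul_of_nonneg_left h6 (show 0 ≤ 13 * C by positivity)
  linarith

/-! ### Lipschitz estimate -/

/-- mean value estimate for `vfun` on the closed upper half plane -/
theorem vfun_lip {ε T C : ℝ} (hε : 0 < ε) (hT : 3 ≤ T) (hC : 0 < C)
    (hd : ∀ (T : ℝ) (w : ℂ), 3 ≤ T → 0 ≤ w.im → ∀ k : ℕ, k ≤ 4 →
      ‖iteratedFDeriv ℝ k (vfun ε T) w‖ ≤ C * Real.exp (-w.im))
    {w w' : ℂ} {s : ℝ} (hs : 0 ≤ s) (hw : s ≤ w.im) (hw' : s ≤ w'.im) :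
    |vfun ε T w' - vfun ε T w| ≤ C * Real.exp (-s) * ‖w' - w‖ := by
  have hconv : Convex ℝ {z : ℂ | s ≤ z.im} := convex_halfSpace_im_ge s
  have hdiff : ∀ z ∈ {z : ℂ | s ≤ z.im}, DifferentiableAt ℝ (vfun ε T) z := fun z _ =>
    ((vfun_contDiff hε).differentiable (by simp)).differentiableAt
  have hbound : ∀ z ∈ {z : ℂ | s ≤ z.im}, ‖fderiv ℝ (vfun ε T) z‖ ≤ C * Real.exp (-s) := by
    intro z hz
    have hz' : s ≤ z.im := hz
    have h1 := hd T z hT (hs.trans hz') 1 (by norm_num)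
    rw [norm_iteratedFDeriv_one] at h1
    refine h1.trans (mul_le_mul_of_nonneg_left (Real.exp_le_exp.2 (by linarith)) hC.le)
  have := hconv.norm_image_sub_le_of_norm_fderiv_le hdiff hbound hw hw'
  rwa [Real.norm_eq_abs] at this

theorem wterm_lip {ε T M C : ℝ} (hε : 0 < ε) (hT : 3 ≤ T) (hC : 0 < C)
    (hd : ∀ (T : ℝ) (w : ℂ), 3 ≤ T → 0 ≤ w.im → ∀ k : ℕ, k ≤ 4 →
      ‖iteratedFDeriv ℝ k (vfun ε T) w‖ ≤ C * Real.exp (-w.im))
    (hM : 0 < M) {p q : B2} (hp : p ∈ Dom) (hq : q ∈ Dom) (h1 : M * ‖q.1 - p.1‖ ≤ 1)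
    (m : ℤ × ℤ) :
    |wterm ε T M m q - wterm ε T M m p| ≤ 9 * C *
      (M * ‖q.1 - p.1‖ + M ^ 2 * ‖q.2 - p.2 - 2 * I * conj p.1 * (q.1 - p.1)‖) *
      Real.exp (-(M ^ 2 * ‖p.1 - zlat M m‖ ^ 2) / 4) := by
  have hrp : 0 < rho p := hp
  have hrq : 0 < rho q := hq
  unfold wterm
  split_ifs with hz
  swap
  · simp only [sub_self, abs_zero]; positivity
  set x : ℝ := M * ‖p.1 - zlat M m‖ with hx
  have hx0 : 0 ≤ x := by positivity
  set a : ℝ := M * ‖q.1 - p.1‖ with ha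
  set h : ℂ := q.2 - p.2 - 2 * I * conj p.1 * (q.1 - p.1) with hh
  -- lower bound for the imaginary parts
  have hx2 : M ^ 2 * ‖p.1 - zlat M m‖ ^ 2 = x ^ 2 := by rw [hx]; ring
  have himp : x ^ 2 / 2 - 1 ≤ (((M ^ 2 : ℝ) : ℂ) * piz (zlat M m) p).im := by
    rw [scaled_im]
    have : 0 < M ^ 2 * rho p := by positivity
    nlinarith [sq_nonneg x]
  have himq : x ^ 2 / 2 - 1 ≤ (((M ^ 2 : ℝ) : ℂ) * piz (zlat M m) q).im := by
    rw [scaled_im]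
    have h0 : 0 < M ^ 2 * rho q := by positivity
    have htri : ‖p.1 - zlat M m‖ ≤ ‖q.1 - zlat M m‖ + ‖q.1 - p.1‖ := by
      calc ‖p.1 - zlat M m‖ = ‖(q.1 - zlat M m) - (q.1 - p.1)‖ := by congr 1; ring
        _ ≤ _ := norm_sub_le _ _
    have htri' : x ≤ M * ‖q.1 - zlat M m‖ + a := by
      have := mul_le_mul_of_nonneg_left htri hM.le
      rw [hx, ha]; linarith
    set y : ℝ := M * ‖q.1 - zlat M m‖ with hy
    have hy0 : 0 ≤ y := by positivity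
    have hy2 : M ^ 2 * ‖q.1 - zlat M m‖ ^ 2 = y ^ 2 := by rw [hy]; ring
    have hxy : x ≤ y + 1 := by linarith
    have : x ^ 2 / 2 - 1 ≤ y ^ 2 := by
      have h5 : x ^ 2 ≤ (y + 1) ^ 2 := pow_le_pow_left₀ hx0 hxy 2
      nlinarith [sq_nonneg (y - 1)]
    nlinarith
  set s : ℝ := max (x ^ 2 / 2 - 1) 0 with hs
  have hs0 : 0 ≤ s := le_max_right _ _
  have hlip := vfun_lip (w := ((M ^ 2 : ℝ) : ℂ) * piz (zlat M m) p)
    (w' := ((M ^ 2 : ℝ) : ℂ) * piz (zlat M m) q) hε hT hC hd hs0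
    (max_le himp (scaled_im_nonneg _ hp)) (max_le himq (scaled_im_nonneg _ hq))
  refine hlip.trans ?_
  -- the increment
  have hinc : ‖((M ^ 2 : ℝ) : ℂ) * piz (zlat M m) q - ((M ^ 2 : ℝ) : ℂ) * piz (zlat M m) p‖ ≤
      M ^ 2 * ‖h‖ + 2 * x * a := by
    have e1 : ((M ^ 2 : ℝ) : ℂ) * piz (zlat M m) q - ((M ^ 2 : ℝ) : ℂ) * piz (zlat M m) p =
        ((M ^ 2 : ℝ) : ℂ) * (h + 2 * I * conj (p.1 - zlat M m) * (q.1 - p.1)) := by
      rw [hh]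
      unfold piz
      rw [map_sub]
      ring
    rw [e1, norm_mul, Complex.norm_real, Real.norm_of_nonneg (by positivity)]
    have e2 : ‖h + 2 * I * conj (p.1 - zlat M m) * (q.1 - p.1)‖ ≤
        ‖h‖ + 2 * ‖p.1 - zlat M m‖ * ‖q.1 - p.1‖ := by
      refine (norm_add_le _ _).trans ?_
      rw [norm_mul, norm_mul, norm_mul, Complex.norm_I, RCLike.norm_conj]
      simp
    calc M ^ 2 * ‖h + 2 * I * conj (p.1 - zlat M m) * (q.1 - p.1)‖
        ≤ M ^ 2 * (‖h‖ + 2 * ‖p.1 - zlat M m‖ * ‖q.1 - p.1‖) :=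
          mul_le_mul_of_nonneg_left e2 (by positivity)
      _ = M ^ 2 * ‖h‖ + 2 * x * a := by rw [hx, ha]; ring
  -- the exponential
  have hexp : Real.exp (-s) ≤ Real.exp 1 * Real.exp (-(x ^ 2) / 2) := by
    rw [← Real.exp_add]
    apply Real.exp_le_exp.2
    have : x ^ 2 / 2 - 1 ≤ s := le_max_left _ _
    linarith
  have hA : 0 ≤ a + M ^ 2 * ‖h‖ := by positivity
  have hinc' : M ^ 2 * ‖h‖ + 2 * x * a ≤ (1 + 2 * x) * (a + M ^ 2 * ‖h‖) := by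
    have h1 : 0 ≤ M ^ 2 * ‖h‖ := by positivity
    have h2 : 0 ≤ a := by positivity
    nlinarith [mul_nonneg hx0 h1]
  have hxe : (1 + 2 * x) * Real.exp (-(x ^ 2) / 4) ≤ 3 := by
    have h1 : x ≤ Real.exp (x ^ 2 / 4) := by
      have := Real.add_one_le_exp (x ^ 2 / 4)
      nlinarith [sq_nonneg (x / 2 - 1)]
    have h2 : (1 : ℝ) ≤ Real.exp (x ^ 2 / 4) := Real.one_le_exp (by positivity)
    have h3 : Real.exp (x ^ 2 / 4) * Real.exp (-(x ^ 2) / 4) = 1 := by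
      rw [← Real.exp_add]
      have : x ^ 2 / 4 + -(x ^ 2) / 4 = 0 := by ring
      rw [this, Real.exp_zero]
    have h4 : 0 < Real.exp (-(x ^ 2) / 4) := Real.exp_pos _
    nlinarith
  have he3 : Real.exp 1 ≤ 3 := by
    have := Real.exp_one_lt_d9
    linarith
  rw [hx2]
  calc C * Real.exp (-s) * ‖((M ^ 2 : ℝ) : ℂ) * piz (zlat M m) q -
        ((M ^ 2 : ℝ) : ℂ) * piz (zlat M m) p‖
      ≤ C * (Real.exp 1 * Real.exp (-(x ^ 2) / 2)) * ((1 + 2 * x) * (a + M ^ 2 * ‖h‖)) := by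
        apply mul_le_mul
        · exact mul_le_mul_of_nonneg_left hexp hC.le
        · exact hinc.trans hinc'
        · exact norm_nonneg _
        · positivity
    _ = C * Real.exp 1 * (a + M ^ 2 * ‖h‖) * ((1 + 2 * x) * Real.exp (-(x ^ 2) / 4)) *
          Real.exp (-(x ^ 2) / 4) := by
        have : Real.exp (-(x ^ 2) / 2) = Real.exp (-(x ^ 2) / 4) * Real.exp (-(x ^ 2) / 4) := by
          rw [← Real.exp_add]; congr 1; ring
        rw [this]; ring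
    _ ≤ C * 3 * (a + M ^ 2 * ‖h‖) * 3 * Real.exp (-(x ^ 2) / 4) := by
        apply mul_le_mul_of_nonneg_right _ (Real.exp_pos _).le
        apply mul_le_mul _ hxe (by positivity) (by positivity)
        apply mul_le_mul_of_nonneg_right _ hA
        exact mul_le_mul_of_nonneg_left he3 hC.le
    _ = _ := by ring

/-- slow variation of the upper scales -/
theorem Wsc_lip (ε : ℝ) (hε : 0 < ε) (hε1 : ε ≤ 1) : ∃ C : ℝ, 0 < C ∧
    ∀ (T M : ℝ) (p q : B2), 3 ≤ T → 0 < M → p ∈ Dom → q ∈ Dom →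
      M * ‖q.1 - p.1‖ ≤ 1 → M ^ 2 * ‖q.2 - p.2 - 2 * I * conj p.1 * (q.1 - p.1)‖ ≤ 1 →
      |Wsc ε T M q - Wsc ε T M p| ≤ C * (M * ‖q.1 - p.1‖
        + M ^ 2 * ‖q.2 - p.2 - 2 * I * conj p.1 * (q.1 - p.1)‖) := by
  obtain ⟨C, hC, hsum⟩ := lat_sum
  obtain ⟨C', hC', hd⟩ := vfun_deriv_le ε hε hε1
  refine ⟨9 * C' * C, by positivity, ?_⟩
  intro T M p q hT hM hp hq h1 _
  rw [Wsc_eq_finset hM p _ (Finset.Subset.refl _), Wsc_eq_finset hM q _ (Finset.Subset.refl _),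
    ← Finset.sum_sub_distrib]
  refine (Finset.abs_sum_le_sum_abs _ _).trans ?_
  calc ∑ m ∈ actS M hM, |wterm ε T M m q - wterm ε T M m p|
      ≤ ∑ m ∈ actS M hM, 9 * C' *
        (M * ‖q.1 - p.1‖ + M ^ 2 * ‖q.2 - p.2 - 2 * I * conj p.1 * (q.1 - p.1)‖) *
        Real.exp (-(M ^ 2 * ‖p.1 - zlat M m‖ ^ 2) / 4) :=
        Finset.sum_le_sum fun m _ => wterm_lip hε hT hC' hd hM hp hq h1 m
    _ = 9 * C' * (M * ‖q.1 - p.1‖ + M ^ 2 * ‖q.2 - p.2 - 2 * I * conj p.1 * (q.1 - p.1)‖) *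
        ∑ m ∈ actS M hM, Real.exp (-(M ^ 2 * ‖p.1 - zlat M m‖ ^ 2) / 4) := by
        rw [Finset.mul_sum]
    _ ≤ 9 * C' * (M * ‖q.1 - p.1‖ + M ^ 2 * ‖q.2 - p.2 - 2 * I * conj p.1 * (q.1 - p.1)‖) * C :=
        mul_le_mul_of_nonneg_left (hsum M p.1 _ hM) (by positivity)
    _ = _ := by ring

end Crest.Agent.R245
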