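import Crest.Agent.R245.WildP1
import Crest.Agent.R245.SiegelPot

/-! TASK WildP3 -/

set_option autoImplicit false

namespace Crest.Agent.R245

open Complex Filter Topology Sg
open scoped ContDiff ComplexConjugate

/-! ### counting lattice points and scales -/

namespace WP3

theorem card_int_le {x r : ℝ} (hr : 0 ≤ r) (t : Finset ℤ) (h : ∀ n ∈ t, |x - 4 * n| ≤ r) :
    (t.card : ℝ) ≤ r / 2 + 1 := by
  have hsub : t ⊆ Finset.Icc ⌈(x - r) / 4⌉ ⌊(x + r) / 4⌋ := by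
    intro n hn
    have := abs_le.1 (h n hn)
    rw [Finset.mem_Icc, Int.ceil_le, Int.le_floor]
    constructor <;> linarith
  have h1 : (t.card : ℝ) ≤ ((Finset.Icc ⌈(x - r) / 4⌉ ⌊(x + r) / 4⌋).card : ℝ) := by
    exact_mod_cast Finset.card_le_card hsub
  rw [Int.card_Icc] at h1
  rcases le_total (⌊(x + r) / 4⌋ + 1 - ⌈(x - r) / 4⌉) 0 with h2 | h2
  · rw [Int.toNat_of_nonpos h2] at h1
    simp only [Nat.cast_zero] at h1
    linarith
  · have h3 : (((⌊(x + r) / 4⌋ + 1 - ⌈(x - r) / 4⌉).toNat : ℕ) : ℝ) =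
        ((⌊(x + r) / 4⌋ + 1 - ⌈(x - r) / 4⌉ : ℤ) : ℝ) := by
      exact_mod_cast Int.toNat_of_nonneg h2
    rw [h3] at h1
    push_cast at h1
    have h4 := Int.floor_le ((x + r) / 4)
    have h5 := Int.le_ceil ((x - r) / 4)
    linarith

theorem card_lat_le {T M : ℝ} (hT : 3 ≤ T) (hM : 0 < M) (z : ℂ) (t : Finset (ℤ × ℤ))
    (h : ∀ m ∈ t, M ^ 2 * ‖z - zlat M m‖ ^ 2 ≤ T) : (t.card : ℝ) ≤ 4 * T := by
  classical
  set r := Real.sqrt T with hr
  have hr1 : 1 ≤ r := by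
    rw [hr, Real.one_le_sqrt]; linarith
  have hr2 : r ^ 2 = T := Real.sq_sqrt (by linarith)
  have key : ∀ m ∈ t, |M * z.re - 4 * m.1| ≤ r ∧ |M * z.im - 4 * m.2| ≤ r := by
    intro m hm
    have e : M ^ 2 * ‖z - zlat M m‖ ^ 2 = (M * z.re - 4 * m.1) ^ 2 + (M * z.im - 4 * m.2) ^ 2 := by
      rw [← Complex.normSq_eq_norm_sq, Complex.normSq_apply]
      have h1 : (z - zlat M m).re = z.re - 4 / M * m.1 := by
        simp only [zlat, Complex.sub_re, Complex.re_ofReal_mul]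
        simp
      have h2 : (z - zlat M m).im = z.im - 4 / M * m.2 := by
        simp only [zlat, Complex.sub_im, Complex.im_ofReal_mul]
        simp
      rw [h1, h2]
      field_simp
    have h3 := h m hm
    rw [e] at h3
    constructor
    · rw [hr]
      apply Real.abs_le_sqrt
      nlinarith [sq_nonneg (M * z.im - 4 * m.2)]
    · rw [hr]
      apply Real.abs_le_sqrt
      nlinarith [sq_nonneg (M * z.re - 4 * m.1)]
  have hsub : t ⊆ (t.image Prod.fst) ×ˢ (t.image Prod.snd) := by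
    intro m hm
    exact Finset.mem_product.mpr ⟨Finset.mem_image_of_mem _ hm, Finset.mem_image_of_mem _ hm⟩
  have h1 : (t.card : ℝ) ≤ ((t.image Prod.fst).card : ℝ) * ((t.image Prod.snd).card : ℝ) := by
    have := Finset.card_le_card hsub
    rw [Finset.card_product] at this
    exact_mod_cast this
  have h2 : ((t.image Prod.fst).card : ℝ) ≤ r / 2 + 1 := by
    apply card_int_le (x := M * z.re) (by linarith)
    intro n hn
    obtain ⟨m, hm, rfl⟩ := Finset.mem_image.1 hn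
    exact (key m hm).1
  have h3 : ((t.image Prod.snd).card : ℝ) ≤ r / 2 + 1 := by
    apply card_int_le (x := M * z.im) (by linarith)
    intro n hn
    obtain ⟨m, hm, rfl⟩ := Finset.mem_image.1 hn
    exact (key m hm).2
  have h4 : ((t.image Prod.fst).card : ℝ) * ((t.image Prod.snd).card : ℝ) ≤
      (r / 2 + 1) * (r / 2 + 1) :=
    mul_le_mul h2 h3 (by positivity) (by positivity)
  nlinarith

/-- geometric growth: partial sums are at most twice the last term -/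
theorem sum_range_le {x : ℕ → ℝ} (hx : ∀ j, 2 * x j ≤ x (j + 1)) (h0 : 0 ≤ x 0) (n : ℕ) :
    ∑ j ∈ Finset.range (n + 1), x j ≤ 2 * x n := by
  induction n with
  | zero => simp; linarith
  | succ n ih =>
    rw [Finset.sum_range_succ]
    have := hx n
    linarith

theorem sum_scales_le {x : ℕ → ℝ} {T : ℝ} (hT : 0 ≤ T) (hx : ∀ j, 2 * x j ≤ x (j + 1))
    (hx0 : ∀ j, 0 ≤ x j) (J : Finset ℕ) (hJ : ∀ j ∈ J, x j ≤ T) : ∑ j ∈ J, x j ≤ 2 * T := by
  classical
  rcases J.eq_empty_or_nonempty with rfl | hne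
  · simp; linarith
  · set N := J.max' hne
    have hsub : J ⊆ Finset.range (N + 1) := by
      intro j hj
      rw [Finset.mem_range]
      exact Nat.lt_succ_of_le (J.le_max' j hj)
    calc ∑ j ∈ J, x j ≤ ∑ j ∈ Finset.range (N + 1), x j :=
          Finset.sum_le_sum_of_subset_of_nonneg hsub (fun j _ _ => hx0 j)
      _ ≤ 2 * x N := sum_range_le hx (hx0 0) N
      _ ≤ 2 * T := by
          have := hJ N (J.max'_mem hne)
          linarith

/-- number of scales -/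
theorem card_scales_le {M b T ρ : ℝ} (hb : 2 ≤ b) (hT : 3 ≤ T) (hM : 256 * T ≤ M ^ 2)
    (hρ : 0 < ρ) (hρ1 : ρ ≤ 1) (J : Finset ℕ) (hJ : ∀ j ∈ J, (M * b ^ j) ^ 2 * ρ < T) :
    (J.card : ℝ) ≤ 1 - Real.log ρ := by
  classical
  have hL : 0 ≤ - Real.log ρ := by
    have := Real.log_nonpos hρ.le hρ1
    linarith
  have key : ∀ j ∈ J, (j : ℝ) ≤ - Real.log ρ := by
    intro j hj
    have h1 := hJ j hj
    have hb2 : (2 : ℝ) ^ j ≤ b ^ j := pow_le_pow_left₀ (by norm_num) hb j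
    have h2 : (256 * T) * (((2 : ℝ) ^ j) ^ 2 * ρ) ≤ (M * b ^ j) ^ 2 * ρ := by
      rw [mul_pow, mul_assoc (M ^ 2)]
      apply mul_le_mul hM _ (by positivity) (by positivity)
      apply mul_le_mul_of_nonneg_right _ hρ.le
      exact pow_le_pow_left₀ (by positivity) hb2 2
    have h3 : ((2 : ℝ) ^ j) ^ 2 * ρ < 1 := by
      by_contra hcon
      push Not at hcon
      nlinarith
    have h4 : (4 : ℝ) ^ j * ρ < 1 := by
      have : ((2 : ℝ) ^ j) ^ 2 = 4 ^ j := by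
        rw [← pow_mul, mul_comm, pow_mul]; norm_num
      rwa [this] at h3
    have h5 : Real.log ((4 : ℝ) ^ j * ρ) < 0 := Real.log_neg (by positivity) h4
    rw [Real.log_mul (by positivity) hρ.ne', Real.log_pow] at h5
    have h6 : (1 : ℝ) ≤ Real.log 4 := by
      rw [Real.le_log_iff_exp_le (by norm_num)]
      have := Real.exp_one_lt_d9
      linarith
    have h7 : (j : ℝ) * 1 ≤ j * Real.log 4 := mul_le_mul_of_nonneg_left h6 (by positivity)
    linarith
  have hsub : J ⊆ Finset.range (⌊- Real.log ρ⌋₊ + 1) := by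
    intro j hj
    rw [Finset.mem_range]
    exact Nat.lt_succ_of_le (Nat.le_floor (key j hj))
  have h1 : (J.card : ℝ) ≤ ((⌊- Real.log ρ⌋₊ + 1 : ℕ) : ℝ) := by
    have := Finset.card_le_card hsub
    rw [Finset.card_range] at this
    exact_mod_cast this
  push_cast at h1
  have h2 := Nat.floor_le hL
  linarith

/-! ### the value of PhiW as a finite sum -/

theorem wterm_le {ε T M : ℝ} (hε : 0 < ε) (hε1 : ε ≤ 1) (hT : 3 ≤ T) {p : B2} (hp : p ∈ Dom)
    (m : ℤ × ℤ) : wterm ε T M m p ≤ if M ^ 2 * rho p < T then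
      13 * Real.exp (-(M ^ 2 * ‖p.1 - zlat M m‖ ^ 2) / 4) else 0 := by
  have hp' : 0 < rho p := hp
  have him : ((((M ^ 2 : ℝ) : ℂ) * piz (zlat M m) p)).im =
      M ^ 2 * rho p + M ^ 2 * ‖p.1 - zlat M m‖ ^ 2 := by
    rw [Complex.im_ofReal_mul, piz_im]; ring
  have hY : 0 ≤ M ^ 2 * ‖p.1 - zlat M m‖ ^ 2 := by positivity
  have hX : 0 ≤ M ^ 2 * rho p := by positivity
  unfold wterm
  split_ifs with h1 h2 h2
  · refine (vfun_le hε hε1 hT (by rw [him]; positivity)).trans ?_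
    rw [him]
    apply mul_le_mul_of_nonneg_left _ (by norm_num)
    apply Real.exp_le_exp.2
    linarith
  · push Not at h2
    rw [vfun_eq_zero (by rw [him]; linarith)]
  · positivity
  · exact le_rfl

end WP3

namespace WP3

/-- linear part of `q ↦ M² π_{z₀}(q)` -/
noncomputable def Lz (M : ℝ) (z0 : ℂ) : B2 →L[ℂ] ℂ :=
  ((M ^ 2 : ℝ) : ℂ) • (ContinuousLinearMap.snd ℂ ℂ ℂ - (2 * I * conj z0) • ContinuousLinearMap.fst ℂ ℂ ℂ)

theorem Lz_apply (M : ℝ) (z0 : ℂ) (q : B2) :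
    Lz M z0 q = ((M ^ 2 : ℝ) : ℂ) * (q.2 - 2 * I * conj z0 * q.1) := by
  simp [Lz]

theorem piz_eq (M : ℝ) (z0 : ℂ) (q : B2) : ((M ^ 2 : ℝ) : ℂ) * piz z0 q =
    Lz M z0 q + ((M ^ 2 : ℝ) : ℂ) * (I * ((‖z0‖ ^ 2 : ℝ) : ℂ)) := by
  rw [Lz_apply]; unfold piz; ring

theorem wterm_eq_of_lt {ε T M : ℝ} {m : ℤ × ℤ} (h : ‖zlat M m‖ < 1/16) :
    wterm ε T M m = fun q => vfun ε T (Lz M (zlat M m) q +
      ((M ^ 2 : ℝ) : ℂ) * (I * ((‖zlat M m‖ ^ 2 : ℝ) : ℂ))) := by
  funext q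
  unfold wterm
  rw [if_pos h, piz_eq]

theorem wterm_eq_of_not_lt {ε T M : ℝ} {m : ℤ × ℤ} (h : ¬ ‖zlat M m‖ < 1/16) :
    wterm ε T M m = fun _ => 0 := by
  funext q
  unfold wterm
  rw [if_neg h]

theorem wterm_smooth {ε T : ℝ} (hε : 0 < ε) (M : ℝ) (m : ℤ × ℤ) :
    ContDiff ℝ ∞ (wterm ε T M m) := by
  by_cases h : ‖zlat M m‖ < 1/16
  · rw [wterm_eq_of_lt h]
    apply (vfun_contDiff hε).comp
    exact ((Lz M (zlat M m)).restrictScalars ℝ).contDiff.add contDiff_const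
  · rw [wterm_eq_of_not_lt h]
    exact contDiff_const

/-- size of the linear part -/
theorem Lz_norm_le {M : ℝ} {p : B2} (hp : 0 < rho p) (z0 : ℂ) (ξ : B2) :
    ‖Lz M z0 ξ‖ ^ 2 ≤ 4 * (M ^ 2 * rho p) * (M ^ 2 * rho p + M ^ 2 * ‖p.1 - z0‖ ^ 2) *
      (D11 aS ξ ξ p).re := by
  have e1 : (D11 aS ξ ξ p).re = ((rho p)⁻¹) ^ 2 * ‖rB ξ p‖ ^ 2 + (rho p)⁻¹ * ‖ξ.1‖ ^ 2 := by
    have h1 : D11 aS ξ ξ p = D11 (aL rho) ξ ξ p := rfl
    rw [h1, siegelB.D11_eq hp]
    have h2 : (SiegelFn.inv rho p) ^ 2 * rB ξ p * conj (rB ξ p) + SiegelFn.inv rho p * sB ξ ξ =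
        ((((rho p)⁻¹) ^ 2 * ‖rB ξ p‖ ^ 2 + (rho p)⁻¹ * ‖ξ.1‖ ^ 2 : ℝ) : ℂ) := by
      unfold sB
      rw [mul_assoc, mul_conj, mul_conj, normSq_eq_norm_sq, normSq_eq_norm_sq]
      unfold SiegelFn.inv
      push_cast
      ring
    rw [h2, ofReal_re]
  have e2 : Lz M z0 ξ = ((M ^ 2 : ℝ) : ℂ) * (2 * I) * (rB ξ p + conj (p.1 - z0) * ξ.1) := by
    rw [Lz_apply]
    unfold rB
    have hI : I ≠ 0 := I_ne_zero
    rw [map_sub]
    field_simp
    ring
  have e3 : ‖Lz M z0 ξ‖ ^ 2 = 4 * (M ^ 2) ^ 2 * ‖rB ξ p + conj (p.1 - z0) * ξ.1‖ ^ 2 := by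
    have h2 : ‖(2 : ℂ)‖ = 2 := by simp
    rw [e2, norm_mul, norm_mul, norm_mul, norm_real, norm_I, h2, mul_pow, mul_pow]
    rw [Real.norm_of_nonneg (by positivity)]
    ring
  have e4 : ‖rB ξ p + conj (p.1 - z0) * ξ.1‖ ≤ ‖rB ξ p‖ + ‖p.1 - z0‖ * ‖ξ.1‖ := by
    refine (norm_add_le _ _).trans ?_
    rw [norm_mul, RCLike.norm_conj]
  set a := ‖rB ξ p‖ with ha
  set d := ‖p.1 - z0‖ with hd
  set c := ‖ξ.1‖ with hc
  set r := rho p with hr
  have ha0 : 0 ≤ a := norm_nonneg _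
  have hd0 : 0 ≤ d := norm_nonneg _
  have hc0 : 0 ≤ c := norm_nonneg _
  have e5 : ‖rB ξ p + conj (p.1 - z0) * ξ.1‖ ^ 2 ≤ (a + d * c) ^ 2 :=
    pow_le_pow_left₀ (norm_nonneg _) e4 2
  have e6 : (a + d * c) ^ 2 ≤ r * (r + d ^ 2) * ((r⁻¹) ^ 2 * a ^ 2 + r⁻¹ * c ^ 2) := by
    have h1 : r * (r + d ^ 2) * ((r⁻¹) ^ 2 * a ^ 2 + r⁻¹ * c ^ 2) =
        a ^ 2 + (r * c ^ 2 + r⁻¹ * (d * a) ^ 2) + (d * c) ^ 2 := by
      field_simp
      ring
    have h2 : 2 * a * (d * c) ≤ r * c ^ 2 + r⁻¹ * (d * a) ^ 2 := by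
      have h3 : 0 ≤ r⁻¹ * (r * c - d * a) ^ 2 := by positivity
      have h4 : r⁻¹ * (r * c - d * a) ^ 2 = r * c ^ 2 + r⁻¹ * (d * a) ^ 2 - 2 * a * (d * c) := by
        field_simp
        ring
      linarith
    rw [h1]
    nlinarith
  rw [e3, e1]
  calc 4 * (M ^ 2) ^ 2 * ‖rB ξ p + conj (p.1 - z0) * ξ.1‖ ^ 2
      ≤ 4 * (M ^ 2) ^ 2 * (r * (r + d ^ 2) * ((r⁻¹) ^ 2 * a ^ 2 + r⁻¹ * c ^ 2)) :=
        mul_le_mul_of_nonneg_left (e5.trans e6) (by positivity)
    _ = _ := by ring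

theorem D11_sum {ι : Type*} (s : Finset ι) (f : ι → B2 → ℝ) (hf : ∀ i, ContDiff ℝ ∞ (f i))
    (X Y p : B2) : D11 (fun q => ∑ i ∈ s, f i q) X Y p = ∑ i ∈ s, D11 (f i) X Y p := by
  classical
  induction s using Finset.induction_on with
  | empty => simp [D11_const]
  | insert i s hi ih =>
    have h1 : (fun q => ∑ j ∈ insert i s, f j q) = fun q => f i q + ∑ j ∈ s, f j q := by
      funext q; rw [Finset.sum_insert hi]
    rw [h1, Finset.sum_insert hi, D11_add (hf i).contDiffAt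
      (ContDiff.sum fun j _ => hf j).contDiffAt, ih]

theorem aS_nonneg {p : B2} (hp : 0 < rho p) (ξ : B2) : 0 ≤ (D11 aS ξ ξ p).re := by
  have h1 : D11 aS ξ ξ p = D11 (aL rho) ξ ξ p := rfl
  rw [h1, siegelB.D11_eq hp]
  have h2 : (SiegelFn.inv rho p) ^ 2 * rB ξ p * conj (rB ξ p) + SiegelFn.inv rho p * sB ξ ξ =
      ((((rho p)⁻¹) ^ 2 * ‖rB ξ p‖ ^ 2 + (rho p)⁻¹ * ‖ξ.1‖ ^ 2 : ℝ) : ℂ) := by
    unfold sB
    rw [mul_assoc, mul_conj, mul_conj, normSq_eq_norm_sq, normSq_eq_norm_sq]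
    unfold SiegelFn.inv
    push_cast
    ring
  rw [h2, ofReal_re]
  positivity

/-- Levi form of one term -/
theorem levi_term {C ε T M : ℝ} (hC : 0 < C)
    (hv : ∀ (w X : ℂ), 0 ≤ w.im → -C * Real.exp (-T) * ‖X‖ ^ 2 ≤ (D11 (vfun ε T) X X w).re)
    (hε : 0 < ε) {p : B2} (hp : 0 < rho p) (m : ℤ × ℤ) (ξ : B2) :
    -(if M ^ 2 * rho p + M ^ 2 * ‖p.1 - zlat M m‖ ^ 2 ≤ T then
        C * Real.exp (-T) * (4 * (M ^ 2 * rho p) * T * (D11 aS ξ ξ p).re) else 0) ≤
      (D11 (wterm ε T M m) ξ ξ p).re := by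
  have hω := aS_nonneg hp ξ
  by_cases h : ‖zlat M m‖ < 1/16
  · rw [wterm_eq_of_lt h]
    rw [D11_comp_affine _ _ (vfun_contDiff hε).contDiffAt, ← piz_eq]
    have him : ((((M ^ 2 : ℝ) : ℂ) * piz (zlat M m) p)).im =
        M ^ 2 * rho p + M ^ 2 * ‖p.1 - zlat M m‖ ^ 2 := by
      rw [Complex.im_ofReal_mul, piz_im]; ring
    split_ifs with h1
    · have h2 := hv (((M ^ 2 : ℝ) : ℂ) * piz (zlat M m) p) (Lz M (zlat M m) ξ)
        (by rw [him]; positivity)
      refine le_trans ?_ h2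
      have h3 := Lz_norm_le (M := M) hp (zlat M m) ξ
      have h4 : ‖Lz M (zlat M m) ξ‖ ^ 2 ≤ 4 * (M ^ 2 * rho p) * T * (D11 aS ξ ξ p).re := by
        refine h3.trans ?_
        apply mul_le_mul_of_nonneg_right _ hω
        apply mul_le_mul_of_nonneg_left h1 (by positivity)
      have h5 : 0 < C * Real.exp (-T) := by positivity
      have h6 := mul_le_mul_of_nonneg_left h4 h5.le
      linarith
    · have h2 : (vfun ε T) =ᶠ[𝓝 (((M ^ 2 : ℝ) : ℂ) * piz (zlat M m) p)] fun _ => 0 := by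
        have h3 : ∀ᶠ w : ℂ in 𝓝 (((M ^ 2 : ℝ) : ℂ) * piz (zlat M m) p), T < w.im := by
          apply Complex.continuous_im.continuousAt.eventually
          apply lt_mem_nhds
          rw [him]
          exact not_le.1 h1
        filter_upwards [h3] with w hw
        exact vfun_eq_zero hw.le
      rw [D11_congr h2, D11_const]
      simp
  · rw [wterm_eq_of_not_lt h, D11_const]
    simp only [zero_re, Left.neg_nonpos_iff]
    split_ifs with h1
    · have hT : 0 ≤ T := le_trans (by positivity) h1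
      positivity
    · exact le_rfl

end WP3

theorem PhiW_levi : ∃ C : ℝ, 0 < C ∧ ∀ ε T M b : ℝ, 0 < ε → ε ≤ 1 → 3 ≤ T → 2 ≤ b →
    256 * T ≤ M ^ 2 → 0 < M → ∀ p ∈ Dom, ∀ ξ : B2,
      -(C * T ^ 3 * Real.exp (-T)) * (D11 aS ξ ξ p).re ≤ (D11 (PhiW ε T M b) ξ ξ p).re := by
  classical
  obtain ⟨C, hC, hlevi⟩ := vfun_levi
  refine ⟨32 * C, by positivity, ?_⟩
  intro ε T M b hε hε1 hT hb hM hM0 p hp ξ
  have hp' : 0 < rho p := hp
  have hom := WP3.aS_nonneg hp' ξ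
  set om := (D11 aS ξ ξ p).re with homdef
  obtain ⟨s, hs⟩ := PhiW_locfin hε hT hb hM hM0 hp
  rw [D11_congr hs, WP3.D11_sum s _ (fun i => WP3.wterm_smooth hε _ _), Complex.re_sum]
  set g : ℕ × (ℤ × ℤ) → ℝ := fun i =>
    if (M * b ^ i.1) ^ 2 * rho p + (M * b ^ i.1) ^ 2 * ‖p.1 - zlat (M * b ^ i.1) i.2‖ ^ 2 ≤ T then
        C * Real.exp (-T) * (4 * ((M * b ^ i.1) ^ 2 * rho p) * T * om) else 0 with hg
  have hg0 : ∀ i, 0 ≤ g i := by
    intro i
    simp only [hg]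
    split_ifs <;> positivity
  have hMj : ∀ j : ℕ, 0 < M * b ^ j := fun j => by positivity
  have h1 : -∑ i ∈ s, g i ≤ ∑ i ∈ s, (D11 (wterm ε T (M * b ^ i.1) i.2) ξ ξ p).re := by
    rw [← Finset.sum_neg_distrib]
    apply Finset.sum_le_sum
    intro i _
    exact WP3.levi_term hC (fun w X hw => (hlevi ε T w X hε hε1 hT hw).1) hε hp' i.2 ξ
  refine le_trans ?_ h1
  rw [neg_mul, neg_le_neg_iff]
  set S := s.image Prod.snd with hS
  set J := (s.image Prod.fst).filter (fun j => (M * b ^ j) ^ 2 * rho p ≤ T) with hJ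
  have hX : ∀ j : ℕ, 0 ≤ (M * b ^ j) ^ 2 * rho p := fun j => by positivity
  calc ∑ i ∈ s, g i ≤ ∑ i ∈ (s.image Prod.fst) ×ˢ S, g i := by
        apply Finset.sum_le_sum_of_subset_of_nonneg
        · intro m hm
          exact Finset.mem_product.mpr ⟨Finset.mem_image_of_mem _ hm, Finset.mem_image_of_mem _ hm⟩
        · intro i _ _
          exact hg0 i
    _ = ∑ j ∈ s.image Prod.fst, ∑ m ∈ S, g (j, m) := Finset.sum_product _ _ _
    _ ≤ ∑ j ∈ s.image Prod.fst, (if (M * b ^ j) ^ 2 * rho p ≤ T then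
          (4 * T) * (C * Real.exp (-T) * (4 * ((M * b ^ j) ^ 2 * rho p) * T * om)) else 0) := by
        apply Finset.sum_le_sum
        intro j _
        have hY : ∀ m, 0 ≤ (M * b ^ j) ^ 2 * ‖p.1 - zlat (M * b ^ j) m‖ ^ 2 :=
          fun m => by positivity
        split_ifs with h
        · have h2 : ∑ m ∈ S, g (j, m) ≤ ∑ m ∈ S.filter
              (fun m => (M * b ^ j) ^ 2 * ‖p.1 - zlat (M * b ^ j) m‖ ^ 2 ≤ T),
              (C * Real.exp (-T) * (4 * ((M * b ^ j) ^ 2 * rho p) * T * om)) := by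
            rw [Finset.sum_filter]
            apply Finset.sum_le_sum
            intro m _
            simp only [hg]
            by_cases h3 : (M * b ^ j) ^ 2 * rho p +
                (M * b ^ j) ^ 2 * ‖p.1 - zlat (M * b ^ j) m‖ ^ 2 ≤ T
            · rw [if_pos h3, if_pos (by linarith [hX j])]
            · rw [if_neg h3]
              split_ifs <;> positivity
          refine h2.trans ?_
          rw [Finset.sum_const, nsmul_eq_mul]
          apply mul_le_mul_of_nonneg_right _ (by positivity)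
          exact WP3.card_lat_le hT (hMj j) p.1 _ (fun m hm => (Finset.mem_filter.1 hm).2)
        · apply le_of_eq
          apply Finset.sum_eq_zero
          intro m _
          simp only [hg]
          rw [if_neg]
          intro h3
          exact h (by linarith [hY m])
    _ = ∑ j ∈ J, (4 * T) * (C * Real.exp (-T) * (4 * ((M * b ^ j) ^ 2 * rho p) * T * om)) := by
        rw [hJ, Finset.sum_filter]
    _ = (16 * T ^ 2 * C * Real.exp (-T) * om) * ∑ j ∈ J, (M * b ^ j) ^ 2 * rho p := by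
        rw [Finset.mul_sum]
        apply Finset.sum_congr rfl
        intro j _
        ring
    _ ≤ (16 * T ^ 2 * C * Real.exp (-T) * om) * (2 * T) := by
        apply mul_le_mul_of_nonneg_left _ (by positivity)
        apply WP3.sum_scales_le (by linarith) _ hX J (fun j hj => (Finset.mem_filter.1 hj).2)
        intro j
        have h2 : (M * b ^ (j + 1)) ^ 2 * rho p = b ^ 2 * ((M * b ^ j) ^ 2 * rho p) := by ring
        rw [h2]
        have h3 : (2 : ℝ) ≤ b ^ 2 := by nlinarith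
        exact mul_le_mul_of_nonneg_right h3 (hX j)
    _ = 32 * C * T ^ 3 * Real.exp (-T) * om := by ring

theorem PhiW_growth : ∃ C : ℝ, 0 < C ∧ ∀ ε T M b : ℝ, 0 < ε → ε ≤ 1 → 3 ≤ T → 2 ≤ b →
    256 * T ≤ M ^ 2 → 0 < M → ∀ p ∈ Dom, 0 ≤ aS p → PhiW ε T M b p ≤ C * (1 + aS p) := by
  classical
  obtain ⟨C, hC, hlat⟩ := lat_sum
  refine ⟨13 * C, by positivity, ?_⟩
  intro ε T M b hε hε1 hT hb hM hM0 p hp ha
  have hp' : 0 < rho p := hp
  have hρ1 : rho p ≤ 1 := by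
    unfold aS at ha
    by_contra hcon
    push Not at hcon
    have := Real.log_pos hcon
    linarith
  obtain ⟨s, hs⟩ := PhiW_locfin hε hT hb hM hM0 hp
  rw [hs.self_of_nhds]
  set g : ℕ × (ℤ × ℤ) → ℝ := fun i => if (M * b ^ i.1) ^ 2 * rho p < T then
      13 * Real.exp (-((M * b ^ i.1) ^ 2 * ‖p.1 - zlat (M * b ^ i.1) i.2‖ ^ 2) / 4) else 0 with hg
  have hg0 : ∀ i, 0 ≤ g i := by
    intro i
    simp only [hg]
    split_ifs <;> positivity
  set J := (s.image Prod.fst).filter (fun j => (M * b ^ j) ^ 2 * rho p < T) with hJ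
  set S := s.image Prod.snd with hS
  have hMj : ∀ j : ℕ, 0 < M * b ^ j := fun j => by positivity
  calc ∑ i ∈ s, wterm ε T (M * b ^ i.1) i.2 p ≤ ∑ i ∈ s, g i :=
        Finset.sum_le_sum fun i _ => WP3.wterm_le hε hε1 hT hp i.2
    _ ≤ ∑ i ∈ (s.image Prod.fst) ×ˢ S, g i := by
        apply Finset.sum_le_sum_of_subset_of_nonneg
        · intro m hm
          exact Finset.mem_product.mpr ⟨Finset.mem_image_of_mem _ hm, Finset.mem_image_of_mem _ hm⟩
        · intro i _ _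
          exact hg0 i
    _ = ∑ j ∈ s.image Prod.fst, ∑ m ∈ S, g (j, m) := Finset.sum_product _ _ _
    _ = ∑ j ∈ s.image Prod.fst, if (M * b ^ j) ^ 2 * rho p < T then
          ∑ m ∈ S, 13 * Real.exp (-((M * b ^ j) ^ 2 * ‖p.1 - zlat (M * b ^ j) m‖ ^ 2) / 4)
          else 0 := by
        apply Finset.sum_congr rfl
        intro j _
        split_ifs with h
        · apply Finset.sum_congr rfl
          intro m _
          simp only [hg]
          rw [if_pos h]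
        · apply Finset.sum_eq_zero
          intro m _
          simp only [hg]
          rw [if_neg h]
    _ = ∑ j ∈ J, ∑ m ∈ S,
          13 * Real.exp (-((M * b ^ j) ^ 2 * ‖p.1 - zlat (M * b ^ j) m‖ ^ 2) / 4) := by
        rw [hJ, Finset.sum_filter]
    _ ≤ ∑ j ∈ J, 13 * C := by
        apply Finset.sum_le_sum
        intro j _
        rw [← Finset.mul_sum]
        exact mul_le_mul_of_nonneg_left (hlat _ _ _ (hMj j)) (by norm_num)
    _ = J.card * (13 * C) := by rw [Finset.sum_const, nsmul_eq_mul]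
    _ ≤ (1 + aS p) * (13 * C) := by
        apply mul_le_mul_of_nonneg_right _ (by positivity)
        have := WP3.card_scales_le hb hT hM hp' hρ1 J (fun j hj => (Finset.mem_filter.1 hj).2)
        unfold aS
        linarith
    _ = 13 * C * (1 + aS p) := by ring

end Crest.Agent.R245
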