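import Crest.Agent.R245.WildV
import Crest.Agent.R245.BasePertA

/-! TASK WildP1 (helper225) -/

set_option autoImplicit false
set_option linter.unusedVariables false

namespace Crest.Agent.R245

open Complex Filter Topology
open scoped ContDiff ComplexConjugate

namespace WP1

theorem wterm_im (N : ℝ) (z0 : ℂ) (q : B2) :
    ((((N ^ 2 : ℝ) : ℂ) * piz z0 q).im) = N ^ 2 * (rho q + ‖q.1 - z0‖ ^ 2) := by
  rw [Complex.im_ofReal_mul, piz_im]

theorem wterm_eq_zero_of_le {ε T N : ℝ} {m : ℤ × ℤ} {q : B2}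
    (h : T ≤ N ^ 2 * (rho q + ‖q.1 - zlat N m‖ ^ 2)) : wterm ε T N m q = 0 := by
  unfold wterm
  split_ifs
  · exact vfun_eq_zero (by rw [wterm_im]; exact h)
  · rfl

theorem piz_contDiff (z0 : ℂ) : ContDiff ℝ ∞ (piz z0) := by
  unfold piz
  have h1 : ContDiff ℝ ∞ (fun p : B2 => p.2) := contDiff_snd
  have h2 : ContDiff ℝ ∞ (fun p : B2 => p.1) := contDiff_fst
  exact (h1.sub (contDiff_const.mul h2)).add contDiff_const

theorem wterm_contDiff {ε T : ℝ} (hε : 0 < ε) (N : ℝ) (m : ℤ × ℤ) :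
    ContDiff ℝ ∞ (wterm ε T N m) := by
  unfold wterm
  split_ifs
  · exact (vfun_contDiff hε).comp (contDiff_const.mul (piz_contDiff _))
  · exact contDiff_const

theorem continuous_rho : Continuous rho := by
  unfold rho
  fun_prop

theorem abs_le_of_zlat {N : ℝ} (hN : 0 < N) {m : ℤ × ℤ} (h : ‖zlat N m‖ < 1 / 16) :
    |(m.1 : ℝ)| ≤ N ∧ |(m.2 : ℝ)| ≤ N := by
  have h0 : ‖zlat N m‖ = 4 / N * ‖(m.1 : ℂ) + (m.2 : ℂ) * I‖ := by
    unfold zlat
    rw [norm_mul, Complex.norm_real, Real.norm_of_nonneg (by positivity)]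
  rw [h0] at h
  have h1 : ‖(m.1 : ℂ) + (m.2 : ℂ) * I‖ ≤ N := by
    have : 4 / N * ‖(m.1 : ℂ) + (m.2 : ℂ) * I‖ * N < 1 / 16 * N := by
      exact mul_lt_mul_of_pos_right h hN
    have e : 4 / N * ‖(m.1 : ℂ) + (m.2 : ℂ) * I‖ * N = 4 * ‖(m.1 : ℂ) + (m.2 : ℂ) * I‖ := by
      field_simp
    rw [e] at this
    have := norm_nonneg ((m.1 : ℂ) + (m.2 : ℂ) * I)
    linarith
  constructor
  · have := Complex.abs_re_le_norm ((m.1 : ℂ) + (m.2 : ℂ) * I)
    simp at this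
    exact this.trans h1
  · have := Complex.abs_im_le_norm ((m.1 : ℂ) + (m.2 : ℂ) * I)
    simp at this
    exact this.trans h1

theorem scale_le {M b : ℝ} (hb : 2 ≤ b) (hM0 : 0 < M) (j : ℕ) : M ≤ M * b ^ j := by
  have : 1 ≤ b ^ j := one_le_pow₀ (by linarith)
  nlinarith

end WP1

open WP1

/-- only finitely many terms are nonzero near a point of `Dom` -/
theorem PhiW_locfin {ε T M b : ℝ} (hε : 0 < ε) (hT : 3 ≤ T) (hb : 2 ≤ b) (hM : 256 * T ≤ M ^ 2)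
    (hM0 : 0 < M) {p : B2} (hp : p ∈ Dom) :
    ∃ s : Finset (ℕ × (ℤ × ℤ)), ∀ᶠ q in 𝓝 p,
      PhiW ε T M b q = ∑ i ∈ s, wterm ε T (M * b ^ i.1) i.2 q := by
  have hp' : 0 < rho p := hp
  -- large scales
  obtain ⟨J, hJ⟩ : ∃ J : ℕ, 2 * T / (M ^ 2 * rho p) < 2 ^ J :=
    pow_unbounded_of_one_lt _ (by norm_num)
  have hlarge : ∀ j : ℕ, J ≤ j → T ≤ (M * b ^ j) ^ 2 * (rho p / 2) := by
    intro j hj
    have h1 : (2 : ℝ) ^ J ≤ b ^ j :=
      (pow_le_pow_right₀ (by norm_num) hj).trans (pow_le_pow_left₀ (by norm_num) hb j)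
    have h2 : (1 : ℝ) ≤ b ^ j := one_le_pow₀ (by linarith)
    have h3 : 2 * T / (M ^ 2 * rho p) < b ^ j := hJ.trans_le h1
    rw [div_lt_iff₀ (by positivity)] at h3
    have h4 : b ^ j ≤ (b ^ j) ^ 2 := by nlinarith
    have h5 : (b ^ j) * (M ^ 2 * rho p) ≤ (b ^ j) ^ 2 * (M ^ 2 * rho p) :=
      mul_le_mul_of_nonneg_right h4 (by positivity)
    have h6 : (M * b ^ j) ^ 2 * (rho p / 2) = (b ^ j) ^ 2 * (M ^ 2 * rho p) / 2 := by ring
    rw [h6]
    linarith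
  -- bound for the lattice indices
  obtain ⟨R, hR⟩ : ∃ R : ℕ, M * b ^ J ≤ R := exists_nat_ge _
  have hscale : ∀ j : ℕ, j < J → M * b ^ j ≤ R := by
    intro j hj
    refine le_trans ?_ hR
    exact mul_le_mul_of_nonneg_left (pow_le_pow_right₀ (by linarith) hj.le) hM0.le
  refine ⟨(Finset.range J) ×ˢ ((Finset.Icc (-(R : ℤ)) R) ×ˢ (Finset.Icc (-(R : ℤ)) R)), ?_⟩
  have hnb : ∀ᶠ q in 𝓝 p, rho p / 2 < rho q :=
    (continuous_rho.continuousAt (x := p)).eventually (lt_mem_nhds (by linarith))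
  filter_upwards [hnb] with q hq
  unfold PhiW
  refine finsum_eq_sum_of_support_subset _ ?_
  intro i hi
  rw [Function.mem_support] at hi
  have hj : i.1 < J := by
    by_contra hcon
    push Not at hcon
    apply hi
    apply wterm_eq_zero_of_le
    refine (hlarge i.1 hcon).trans ?_
    refine mul_le_mul_of_nonneg_left ?_ (by positivity)
    have := sq_nonneg ‖q.1 - zlat (M * b ^ i.1) i.2‖
    linarith
  have hz : ‖zlat (M * b ^ i.1) i.2‖ < 1 / 16 := by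
    by_contra hcon
    apply hi
    unfold wterm
    rw [if_neg hcon]
  have hN : 0 < M * b ^ i.1 := by positivity
  obtain ⟨h1, h2⟩ := abs_le_of_zlat hN hz
  have h3 := hscale i.1 hj
  have hm1 : |i.2.1| ≤ (R : ℤ) := by
    have : (|(i.2.1 : ℝ)|) ≤ R := h1.trans h3
    exact_mod_cast this
  have hm2 : |i.2.2| ≤ (R : ℤ) := by
    have : (|(i.2.2 : ℝ)|) ≤ R := h2.trans h3
    exact_mod_cast this
  rw [abs_le] at hm1 hm2
  simp only [Finset.coe_product, Set.mem_prod, Finset.coe_range, Set.mem_Iio, Finset.coe_Icc,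
    Set.mem_Icc]
  exact ⟨hj, hm1, hm2⟩

theorem PhiW_contDiffOn {ε T M b : ℝ} (hε : 0 < ε) (hT : 3 ≤ T) (hb : 2 ≤ b)
    (hM : 256 * T ≤ M ^ 2) (hM0 : 0 < M) : ContDiffOn ℝ ∞ (PhiW ε T M b) Dom := by
  intro p hp
  obtain ⟨s, hs⟩ := PhiW_locfin hε hT hb hM hM0 hp
  have h : ContDiffAt ℝ ∞ (fun q => ∑ i ∈ s, wterm ε T (M * b ^ i.1) i.2 q) p :=
    ContDiffAt.sum fun i _ => (wterm_contDiff hε _ _).contDiffAt
  exact (h.congr_of_eventuallyEq hs).contDiffWithinAt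

theorem PhiW_eq_zero {ε T M b : ℝ} (hε : 0 < ε) (hT : 3 ≤ T) (hb : 2 ≤ b)
    (hM : 256 * T ≤ M ^ 2) (hM0 : 0 < M) {p : B2} (hp : p ∈ Dom)
    (h : T / M ^ 2 ≤ rho p ∨ 1/8 ≤ ‖p.1‖) : PhiW ε T M b p = 0 := by
  have hp' : 0 < rho p := hp
  unfold PhiW
  rw [← finsum_zero]
  congr 1
  funext i
  have hsc := scale_le hb hM0 i.1
  have hsq : M ^ 2 ≤ (M * b ^ i.1) ^ 2 := pow_le_pow_left₀ hM0.le hsc 2
  by_cases hz : ‖zlat (M * b ^ i.1) i.2‖ < 1 / 16
  · apply wterm_eq_zero_of_le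
    have hn := sq_nonneg ‖p.1 - zlat (M * b ^ i.1) i.2‖
    rcases h with h | h
    · rw [div_le_iff₀ (by positivity)] at h
      calc T ≤ rho p * M ^ 2 := h
        _ ≤ rho p * (M * b ^ i.1) ^ 2 := mul_le_mul_of_nonneg_left hsq hp'.le
        _ ≤ _ := by
          rw [mul_comm]
          exact mul_le_mul_of_nonneg_left (by linarith) (by positivity)
    · have h1 : 1 / 16 ≤ ‖p.1 - zlat (M * b ^ i.1) i.2‖ := by
        have := norm_sub_norm_le p.1 (zlat (M * b ^ i.1) i.2)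
        linarith
      have h2 : 1 / 256 ≤ ‖p.1 - zlat (M * b ^ i.1) i.2‖ ^ 2 := by nlinarith
      calc T ≤ M ^ 2 * (1 / 256) := by linarith
        _ ≤ (M * b ^ i.1) ^ 2 * (1 / 256) := mul_le_mul_of_nonneg_right hsq (by norm_num)
        _ ≤ _ := mul_le_mul_of_nonneg_left (by linarith) (by positivity)
  · unfold wterm
    rw [if_neg hz]

end Crest.Agent.R245
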