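import Crest.Agent.R245.WildP1

/-! TASK WildP2 -/

set_option autoImplicit false

namespace Crest.Agent.R245

open Complex Filter Topology
open scoped ContDiff ComplexConjugate

/-- `x/(1+x²)` summed along a geometric sequence of ratio `≥ 2`. -/
theorem wp2_geo_sum {b x : ℝ} (hb : 2 ≤ b) (hx : 0 ≤ x) (N : ℕ) :
    ∑ j ∈ Finset.range N, (x * b ^ j) / (1 + (x * b ^ j) ^ 2) ≤ 4 := by
  have hstep : ∀ j : ℕ, (x * b ^ j) / (1 + (x * b ^ j) ^ 2) ≤
      4 * ((x * b ^ (j + 1)) / (1 + x * b ^ (j + 1)) - (x * b ^ j) / (1 + x * b ^ j)) := by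
    intro j
    set y := x * b ^ j with hy
    have hy0 : 0 ≤ y := by positivity
    have hz : x * b ^ (j + 1) = y * b := by rw [hy, pow_succ]; ring
    rw [hz]
    have hyb : y * 2 ≤ y * b := mul_le_mul_of_nonneg_left hb hy0
    have h1 : (y * 2) / (1 + y * 2) ≤ (y * b) / (1 + y * b) := by
      rw [div_le_div_iff₀ (by positivity) (by positivity)]
      nlinarith
    have h2 : y / (1 + y ^ 2) ≤ 4 * ((y * 2) / (1 + y * 2) - y / (1 + y)) := by
      have h3 : (y * 2) / (1 + y * 2) - y / (1 + y) = y / ((1 + y * 2) * (1 + y)) := by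
        field_simp
        ring
      rw [h3, ← mul_div_assoc, div_le_div_iff₀ (by positivity) (by positivity)]
      nlinarith [mul_nonneg hy0 (sq_nonneg (y - 1)), mul_nonneg hy0 (sq_nonneg y),
        mul_nonneg hy0 hy0]
    linarith
  calc ∑ j ∈ Finset.range N, (x * b ^ j) / (1 + (x * b ^ j) ^ 2)
      ≤ ∑ j ∈ Finset.range N,
        4 * ((x * b ^ (j + 1)) / (1 + x * b ^ (j + 1)) - (x * b ^ j) / (1 + x * b ^ j)) :=
        Finset.sum_le_sum fun j _ => hstep j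
    _ = 4 * ((x * b ^ N) / (1 + x * b ^ N) - (x * b ^ 0) / (1 + x * b ^ 0)) := by
        rw [← Finset.mul_sum, Finset.sum_range_sub (fun j => (x * b ^ j) / (1 + x * b ^ j))]
    _ ≤ 4 := by
        have h1 : (x * b ^ N) / (1 + x * b ^ N) ≤ 1 := by
          rw [div_le_one (by positivity)]; linarith
        have h2 : 0 ≤ (x * b ^ 0) / (1 + x * b ^ 0) := by positivity
        linarith

/-- elementary bound for one term -/
theorem wp2_term_bound {x y : ℝ} (hx : 0 ≤ x) (hy : 0 ≤ y) {k : ℕ} (hk1 : 1 ≤ k) (hk4 : k ≤ 4) :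
    Real.exp (-(x ^ 2 + y ^ 2)) * (x ^ 2 + 2 * (x * y)) ^ k ≤
      (10 ^ 9) * (x / (1 + x ^ 2)) * Real.exp (-(y ^ 2) / 4) := by
  obtain ⟨u, hu⟩ : ∃ u, u = 1 + x ^ 2 + y ^ 2 := ⟨_, rfl⟩
  have hu1 : 1 ≤ u := by rw [hu]; nlinarith
  have hxu : x ≤ u := by rw [hu]; nlinarith [sq_nonneg (x - 1)]
  have hyu : y ≤ u := by rw [hu]; nlinarith [sq_nonneg (y - 1)]
  have h1 : x ^ 2 + 2 * (x * y) ≤ x * (3 * u) := by nlinarith
  have h0 : 0 ≤ x ^ 2 + 2 * (x * y) := by positivity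
  have h2 : (x ^ 2 + 2 * (x * y)) ^ k ≤ 81 * x * u ^ 7 := by
    obtain ⟨n, rfl⟩ : ∃ n, k = n + 1 := ⟨k - 1, by omega⟩
    calc (x ^ 2 + 2 * (x * y)) ^ (n + 1) ≤ (x * (3 * u)) ^ (n + 1) :=
          pow_le_pow_left₀ h0 h1 _
      _ = x * (x ^ n * (3 * u) ^ (n + 1)) := by rw [mul_pow]; ring
      _ ≤ x * (u ^ 3 * (3 * u) ^ 4) := by
          refine mul_le_mul_of_nonneg_left ?_ hx
          refine mul_le_mul ?_ ?_ (by positivity) (by positivity)
          · exact (pow_le_pow_left₀ hx hxu n).trans (pow_le_pow_right₀ hu1 (by omega))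
          · exact pow_le_pow_right₀ (by linarith) hk4
      _ = 81 * x * u ^ 7 := by ring
  have h3 : 81 * u ^ 8 ≤ 10 ^ 9 * Real.exp (x ^ 2 + 3 * y ^ 2 / 4) := by
    have h4 := Real.pow_div_factorial_le_exp (3 * u / 4) (by positivity) 8
    have h5 : Real.exp (3 * u / 4) ≤ 2.7182818286 * Real.exp (x ^ 2 + 3 * y ^ 2 / 4) := by
      calc Real.exp (3 * u / 4) ≤ Real.exp (1 + (x ^ 2 + 3 * y ^ 2 / 4)) := by
            apply Real.exp_le_exp.mpr
            rw [hu]; nlinarith [sq_nonneg x]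
        _ = Real.exp 1 * Real.exp (x ^ 2 + 3 * y ^ 2 / 4) := Real.exp_add _ _
        _ ≤ _ := mul_le_mul_of_nonneg_right Real.exp_one_lt_d9.le (Real.exp_pos _).le
    have h6 : (3 * u / 4) ^ 8 / (Nat.factorial 8 : ℝ) = u ^ 8 * (6561 / 65536 / 40320) := by
      simp only [Nat.factorial]; push_cast; ring
    rw [h6] at h4
    have h7 := h4.trans h5
    have h8 : 0 < Real.exp (x ^ 2 + 3 * y ^ 2 / 4) := Real.exp_pos _
    nlinarith
  have h4 : x / u ≤ x / (1 + x ^ 2) := by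
    apply div_le_div_of_nonneg_left hx (by positivity)
    rw [hu]; nlinarith
  calc Real.exp (-(x ^ 2 + y ^ 2)) * (x ^ 2 + 2 * (x * y)) ^ k
      ≤ Real.exp (-(x ^ 2 + y ^ 2)) * (81 * x * u ^ 7) :=
        mul_le_mul_of_nonneg_left h2 (Real.exp_pos _).le
    _ = (x / u) * ((81 * u ^ 8) * Real.exp (-(x ^ 2 + y ^ 2))) := by
        field_simp
    _ ≤ (x / u) * ((10 ^ 9 * Real.exp (x ^ 2 + 3 * y ^ 2 / 4)) * Real.exp (-(x ^ 2 + y ^ 2))) := by
        have : 0 ≤ x / u := by positivity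
        gcongr
    _ = 10 ^ 9 * (x / u) * Real.exp (-(y ^ 2) / 4) := by
        have : Real.exp (x ^ 2 + 3 * y ^ 2 / 4) * Real.exp (-(x ^ 2 + y ^ 2)) =
            Real.exp (-(y ^ 2) / 4) := by
          rw [← Real.exp_add]; congr 1; ring
        rw [mul_assoc, this]; ring
    _ ≤ 10 ^ 9 * (x / (1 + x ^ 2)) * Real.exp (-(y ^ 2) / 4) := by
        gcongr

/-- the affine map `q ↦ M² π_{z0}(gp p q)` -/
theorem wp2_affine (M : ℝ) (z0 : ℂ) (p q : B2) :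
    ((M ^ 2 : ℝ) : ℂ) * piz z0 (gp p q) =
      ((M ^ 2 : ℝ) : ℂ) * ((p.2.re : ℂ) + I * ((‖p.1‖ ^ 2 : ℝ) : ℂ) - 2 * I * conj z0 * p.1
        + I * ((‖z0‖ ^ 2 : ℝ) : ℂ)) +
      ((((M ^ 2 : ℝ) : ℂ) * (2 * I * conj (p.1 - z0) * (Real.sqrt (rho p) : ℂ))) * q.1 +
        (((M ^ 2 * rho p : ℝ) : ℂ)) * q.2) := by
  unfold piz gp
  simp only [map_sub, ofReal_mul]
  ring

/-- the linear part -/
noncomputable def wp2L (α β : ℂ) : B2 →L[ℝ] ℂ :=
  ((ContinuousLinearMap.mul ℝ ℂ α).comp (ContinuousLinearMap.fst ℝ ℂ ℂ)) +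
    ((ContinuousLinearMap.mul ℝ ℂ β).comp (ContinuousLinearMap.snd ℝ ℂ ℂ))

theorem wp2L_apply (α β : ℂ) (q : B2) : wp2L α β q = α * q.1 + β * q.2 := by
  simp [wp2L]

theorem wp2L_norm (α β : ℂ) : ‖wp2L α β‖ ≤ ‖α‖ + ‖β‖ := by
  refine ContinuousLinearMap.opNorm_le_bound _ (by positivity) fun q => ?_
  rw [wp2L_apply]
  calc ‖α * q.1 + β * q.2‖ ≤ ‖α‖ * ‖q.1‖ + ‖β‖ * ‖q.2‖ := by
        refine (norm_add_le _ _).trans ?_
        rw [norm_mul, norm_mul]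
    _ ≤ ‖α‖ * ‖q‖ + ‖β‖ * ‖q‖ := by
        gcongr
        · exact norm_fst_le q
        · exact norm_snd_le q
    _ = (‖α‖ + ‖β‖) * ‖q‖ := by ring

theorem wp2_gp_q0 (p : B2) : gp p q0 = p := by
  unfold gp q0 rho
  ext
  · simp
  · apply Complex.ext
    · simp
    · simp

theorem wp2_contDiff_gp (p : B2) : ContDiff ℝ ∞ (gp p) := by
  unfold gp
  fun_prop

/-- one term of `PhiW ∘ gp p` -/
theorem wp2_term (ε T M : ℝ) (z0 : ℂ) {C : ℝ} (hε : 0 < ε) (hC0 : 0 ≤ C)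
    (hC : ∀ w : ℂ, 0 ≤ w.im → ∀ k : ℕ, k ≤ 4 →
      ‖iteratedFDeriv ℝ k (vfun ε T) w‖ ≤ C * Real.exp (-w.im)) (hM : 0 < M) {p : B2}
    (hp : p ∈ Dom) {k : ℕ} (hk1 : 1 ≤ k) (hk4 : k ≤ 4) :
    ‖iteratedFDeriv ℝ k (fun q => vfun ε T (((M ^ 2 : ℝ) : ℂ) * piz z0 (gp p q))) q0‖ ≤
      C * (10 ^ 9 * ((M * Real.sqrt (rho p)) / (1 + (M * Real.sqrt (rho p)) ^ 2))
        * Real.exp (-(M ^ 2 * ‖p.1 - z0‖ ^ 2) / 4)) := by
  have hρ : 0 < rho p := hp
  set c : ℂ := ((M ^ 2 : ℝ) : ℂ) * ((p.2.re : ℂ) + I * ((‖p.1‖ ^ 2 : ℝ) : ℂ)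
    - 2 * I * conj z0 * p.1 + I * ((‖z0‖ ^ 2 : ℝ) : ℂ)) with hc
  set α : ℂ := ((M ^ 2 : ℝ) : ℂ) * (2 * I * conj (p.1 - z0) * (Real.sqrt (rho p) : ℂ)) with hα
  set β : ℂ := ((M ^ 2 * rho p : ℝ) : ℂ) with hβ
  have hfun : (fun q => vfun ε T (((M ^ 2 : ℝ) : ℂ) * piz z0 (gp p q))) =
      (fun y => vfun ε T (c + y)) ∘ (wp2L α β) := by
    funext q
    simp only [Function.comp_apply, wp2L_apply]
    rw [wp2_affine]
  have hsm : ContDiff ℝ ∞ (fun y => vfun ε T (c + y)) :=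
    (vfun_contDiff hε).comp (contDiff_const.add contDiff_id)
  rw [hfun, ContinuousLinearMap.iteratedFDeriv_comp_right (wp2L α β) hsm q0
    (i := k) (by exact_mod_cast le_top), iteratedFDeriv_comp_add_left]
  have hpt : c + wp2L α β q0 = ((M ^ 2 : ℝ) : ℂ) * piz z0 p := by
    rw [wp2L_apply, ← wp2_affine, wp2_gp_q0]
  rw [hpt]
  have him : (((M ^ 2 : ℝ) : ℂ) * piz z0 p).im = M ^ 2 * (rho p + ‖p.1 - z0‖ ^ 2) := by
    rw [Complex.im_ofReal_mul, piz_im]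
  set x : ℝ := M * Real.sqrt (rho p) with hx
  set y : ℝ := M * ‖p.1 - z0‖ with hy
  have hx0 : 0 ≤ x := by positivity
  have hy0 : 0 ≤ y := by positivity
  have hx2 : x ^ 2 = M ^ 2 * rho p := by rw [hx, mul_pow, Real.sq_sqrt hρ.le]
  have hy2 : y ^ 2 = M ^ 2 * ‖p.1 - z0‖ ^ 2 := by rw [hy, mul_pow]
  have him2 : (((M ^ 2 : ℝ) : ℂ) * piz z0 p).im = x ^ 2 + y ^ 2 := by
    rw [him, hx2, hy2]; ring
  have hα' : ‖α‖ = 2 * (x * y) := by
    rw [hα, norm_mul, norm_mul, norm_mul, norm_mul, Complex.norm_conj, Complex.norm_I,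
      Complex.norm_real, Complex.norm_real, Real.norm_of_nonneg (sq_nonneg M),
      Real.norm_of_nonneg (Real.sqrt_nonneg _), hx, hy]
    simp
    ring
  have hβ' : ‖β‖ = x ^ 2 := by
    rw [hβ, Complex.norm_real, Real.norm_of_nonneg (by positivity), hx2]
  have hL : ‖wp2L α β‖ ≤ x ^ 2 + 2 * (x * y) := by
    refine (wp2L_norm α β).trans ?_
    rw [hα', hβ']; linarith
  calc ‖(iteratedFDeriv ℝ k (vfun ε T) (((M ^ 2 : ℝ) : ℂ) * piz z0 p)).compContinuousLinearMap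
        fun _ => wp2L α β‖
      ≤ ‖iteratedFDeriv ℝ k (vfun ε T) (((M ^ 2 : ℝ) : ℂ) * piz z0 p)‖ *
        ∏ _i : Fin k, ‖wp2L α β‖ := ContinuousMultilinearMap.norm_compContinuousLinearMap_le _ _
    _ ≤ (C * Real.exp (-(x ^ 2 + y ^ 2))) * (x ^ 2 + 2 * (x * y)) ^ k := by
        rw [Finset.prod_const, Finset.card_univ, Fintype.card_fin]
        have h1 := hC (((M ^ 2 : ℝ) : ℂ) * piz z0 p) (by rw [him2]; positivity) k hk4
        rw [him2] at h1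
        exact mul_le_mul h1 (pow_le_pow_left₀ (norm_nonneg _) hL k) (by positivity)
          (mul_nonneg hC0 (Real.exp_pos _).le)
    _ = C * (Real.exp (-(x ^ 2 + y ^ 2)) * (x ^ 2 + 2 * (x * y)) ^ k) := by ring
    _ ≤ C * (10 ^ 9 * (x / (1 + x ^ 2)) * Real.exp (-(y ^ 2) / 4)) :=
        mul_le_mul_of_nonneg_left (wp2_term_bound hx0 hy0 hk1 hk4) hC0
    _ = _ := by rw [hy2]

theorem PhiW_jet (ε : ℝ) (hε : 0 < ε) (hε1 : ε ≤ 1) : ∃ CW : ℝ, 0 < CW ∧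
    ∀ T M b : ℝ, 3 ≤ T → 2 ≤ b → 256 * T ≤ M ^ 2 → 0 < M → ∀ p ∈ Dom,
      JetB (fun q => PhiW ε T M b (gp p q)) CW := by
  obtain ⟨C, hC0, hC⟩ := vfun_deriv_le ε hε hε1
  obtain ⟨C₁, hC₁0, hC₁⟩ := lat_sum
  refine ⟨C * (10 ^ 9 * (4 * C₁)), by positivity, ?_⟩
  intro T M b hT hb hM hM0 p hp k hk1 hk4
  have hρ : 0 < rho p := hp
  obtain ⟨s, hs⟩ := PhiW_locfin hε hT hb hM hM0 hp
  have hcont : Tendsto (gp p) (𝓝 q0) (𝓝 p) := by
    have h := (wp2_contDiff_gp p).continuous.tendsto q0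
    rwa [wp2_gp_q0] at h
  have hev : (fun q => PhiW ε T M b (gp p q)) =ᶠ[𝓝 q0]
      (fun q => ∑ i ∈ s, wterm ε T (M * b ^ i.1) i.2 (gp p q)) := hcont.eventually hs
  have hb0 : 0 < b := by linarith
  have hMj : ∀ j : ℕ, 0 < M * b ^ j := fun j => by positivity
  rw [(hev.iteratedFDeriv ℝ k).eq_of_nhds]
  -- smoothness and bound of one term
  have hterm : ∀ i : ℕ × (ℤ × ℤ),
      ContDiff ℝ ∞ (fun q => wterm ε T (M * b ^ i.1) i.2 (gp p q)) ∧
      ‖iteratedFDeriv ℝ k (fun q => wterm ε T (M * b ^ i.1) i.2 (gp p q)) q0‖ ≤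
        C * (10 ^ 9 * (((M * b ^ i.1) * Real.sqrt (rho p)) /
          (1 + ((M * b ^ i.1) * Real.sqrt (rho p)) ^ 2))
        * Real.exp (-((M * b ^ i.1) ^ 2 * ‖p.1 - zlat (M * b ^ i.1) i.2‖ ^ 2) / 4)) := by
    intro i
    by_cases h : ‖zlat (M * b ^ i.1) i.2‖ < 1/16
    · have hfun : (fun q => wterm ε T (M * b ^ i.1) i.2 (gp p q)) =
          fun q => vfun ε T ((((M * b ^ i.1) ^ 2 : ℝ) : ℂ) * piz (zlat (M * b ^ i.1) i.2) (gp p q)) := by
        funext q; simp only [wterm, if_pos h]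
      rw [hfun]
      refine ⟨?_, wp2_term ε T (M * b ^ i.1) _ hε hC0.le (fun w hw k' hk' => hC T w hT hw k' hk')
        (hMj i.1) hp hk1 hk4⟩
      refine (vfun_contDiff hε).comp (contDiff_const.mul ?_)
      have h2 : ContDiff ℝ ∞ (piz (zlat (M * b ^ i.1) i.2)) := by
        unfold piz; fun_prop
      exact h2.comp (wp2_contDiff_gp p)
    · have hfun : (fun q => wterm ε T (M * b ^ i.1) i.2 (gp p q)) = fun _ => (0 : ℝ) := by
        funext q; simp only [wterm, if_neg h]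
      rw [hfun]
      refine ⟨contDiff_const, ?_⟩
      have h3 : iteratedFDeriv ℝ k (fun _ : B2 => (0 : ℝ)) q0 = 0 := by
        rw [iteratedFDeriv_const_of_ne (by omega)]; rfl
      rw [h3, norm_zero]
      have := hMj i.1
      positivity
  rw [iteratedFDeriv_sum (fun i _ => (hterm i).1.of_le (by exact_mod_cast le_top)),
    Finset.sum_apply]
  refine (norm_sum_le _ _).trans ?_
  refine (Finset.sum_le_sum fun i _ => (hterm i).2).trans ?_
  rw [← Finset.mul_sum]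
  refine mul_le_mul_of_nonneg_left ?_ hC0.le
  -- the double sum
  set f : ℕ → ℝ := fun j => ((M * b ^ j) * Real.sqrt (rho p)) /
          (1 + ((M * b ^ j) * Real.sqrt (rho p)) ^ 2) with hf
  have hf0 : ∀ j, 0 ≤ f j := fun j => by have := hMj j; simp only [hf]; positivity
  set S2 : Finset (ℤ × ℤ) := s.image Prod.snd with hS2
  obtain ⟨N, hN⟩ : ∃ N : ℕ, ∀ i ∈ s, i.1 < N := by
    refine ⟨(s.sup Prod.fst) + 1, fun i hi => Nat.lt_succ_of_le ?_⟩
    exact Finset.le_sup (f := Prod.fst) hi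
  have hsub : s ⊆ (Finset.range N) ×ˢ S2 := by
    intro i hi
    rw [Finset.mem_product]
    exact ⟨Finset.mem_range.mpr (hN i hi), Finset.mem_image_of_mem _ hi⟩
  calc ∑ i ∈ s, 10 ^ 9 * (((M * b ^ i.1) * Real.sqrt (rho p)) /
          (1 + ((M * b ^ i.1) * Real.sqrt (rho p)) ^ 2))
        * Real.exp (-((M * b ^ i.1) ^ 2 * ‖p.1 - zlat (M * b ^ i.1) i.2‖ ^ 2) / 4)
      ≤ ∑ i ∈ (Finset.range N) ×ˢ S2, 10 ^ 9 * f i.1
        * Real.exp (-((M * b ^ i.1) ^ 2 * ‖p.1 - zlat (M * b ^ i.1) i.2‖ ^ 2) / 4) := by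
        refine Finset.sum_le_sum_of_subset_of_nonneg hsub fun i _ _ => ?_
        have := hf0 i.1
        positivity
    _ = ∑ j ∈ Finset.range N, 10 ^ 9 * (f j * ∑ m ∈ S2,
          Real.exp (-((M * b ^ j) ^ 2 * ‖p.1 - zlat (M * b ^ j) m‖ ^ 2) / 4)) := by
        rw [Finset.sum_product]
        refine Finset.sum_congr rfl fun j _ => ?_
        rw [Finset.mul_sum, Finset.mul_sum]
        refine Finset.sum_congr rfl fun m _ => ?_
        ring
    _ ≤ ∑ j ∈ Finset.range N, 10 ^ 9 * (f j * C₁) := by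
        refine Finset.sum_le_sum fun j _ => ?_
        have h1 := hC₁ (M * b ^ j) p.1 S2 (hMj j)
        have h2 := hf0 j
        gcongr
    _ = 10 ^ 9 * ((∑ j ∈ Finset.range N, f j) * C₁) := by
        rw [Finset.sum_mul, Finset.mul_sum]
    _ ≤ 10 ^ 9 * (4 * C₁) := by
        have h3 : ∑ j ∈ Finset.range N, f j ≤ 4 := by
          have h4 := wp2_geo_sum (b := b) (x := M * Real.sqrt (rho p)) hb (by positivity) N
          refine le_trans (le_of_eq ?_) h4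
          refine Finset.sum_congr rfl fun j _ => ?_
          simp only [hf]
          have : M * b ^ j * Real.sqrt (rho p) = M * Real.sqrt (rho p) * b ^ j := by ring
          rw [this]
        gcongr

end Crest.Agent.R245
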