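import Crest.Agent.R245.WildDefs

/-! TASK WildV3 -/

set_option autoImplicit false

namespace Crest.Agent.R245

open Complex Filter Topology
open scoped ContDiff ComplexConjugate

private theorem summable_exp_abs_int : Summable (fun j : ℤ => Real.exp (-|(j : ℝ)|)) := by
  have h0 : Summable (fun n : ℕ => Real.exp (-(n : ℝ))) := Real.summable_exp_neg_nat
  refine Summable.of_nat_of_neg ?_ ?_
  · simpa using h0
  · simpa using h0

private theorem one_dim : ∃ C : ℝ, 0 < C ∧ ∀ (x : ℝ) (t : Finset ℤ),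
    ∑ n ∈ t, Real.exp (-(x - 4 * n) ^ 2 / 4) ≤ C := by
  refine ⟨∑' j : ℤ, Real.exp (-|(j : ℝ)|), ?_, ?_⟩
  · exact summable_exp_abs_int.tsum_pos (fun _ => (Real.exp_pos _).le) 0 (Real.exp_pos _)
  · intro x t
    set k : ℤ := round (x / 4) with hk
    have hkx : |x / 4 - k| ≤ 1 / 2 := abs_sub_round _
    have key : ∀ n : ℤ, Real.exp (-(x - 4 * n) ^ 2 / 4) ≤ Real.exp (-|((n - k : ℤ) : ℝ)|) := by
      intro n
      apply Real.exp_le_exp.mpr
      have h1 : (x - 4 * n) ^ 2 / 4 = 4 * (x / 4 - n) ^ 2 := by ring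
      have h2 : |((n - k : ℤ) : ℝ)| ≤ 4 * (x / 4 - n) ^ 2 := by
        by_cases hnk : n = k
        · subst hnk
          simp only [sub_self, Int.cast_zero, abs_zero]
          positivity
        · have h3 : (1 : ℝ) ≤ |((n - k : ℤ) : ℝ)| := by
            rw [← Int.cast_abs]
            have : (1 : ℤ) ≤ |n - k| := Int.one_le_abs (sub_ne_zero.mpr hnk)
            exact_mod_cast this
          set a := |((n - k : ℤ) : ℝ)| with ha
          have h4 : a - 1 / 2 ≤ |x / 4 - n| := by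
            have : a ≤ |x / 4 - n| + |x / 4 - k| := by
              have e : ((n - k : ℤ) : ℝ) = (x / 4 - k) - (x / 4 - n) := by push_cast; ring
              rw [ha, e]
              have := abs_sub (x / 4 - (k : ℝ)) (x / 4 - n)
              linarith
            linarith
          have h5 : (a - 1 / 2) ^ 2 ≤ (x / 4 - n) ^ 2 := by
            rw [← sq_abs (x / 4 - (n : ℝ))]
            apply pow_le_pow_left₀ (by linarith) h4
          nlinarith
      have h3 : -(x - 4 * n) ^ 2 / 4 = -(4 * (x / 4 - n) ^ 2) := by ring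
      rw [h3]
      linarith
    calc ∑ n ∈ t, Real.exp (-(x - 4 * n) ^ 2 / 4)
        ≤ ∑ n ∈ t, Real.exp (-|((n - k : ℤ) : ℝ)|) := Finset.sum_le_sum fun n _ => key n
      _ ≤ ∑' n : ℤ, Real.exp (-|((n - k : ℤ) : ℝ)|) := by
          apply Summable.sum_le_tsum
          · intro i _; exact (Real.exp_pos _).le
          · exact (Equiv.subRight k).summable_iff.mpr summable_exp_abs_int
      _ = ∑' j : ℤ, Real.exp (-|(j : ℝ)|) :=
          (Equiv.subRight k).tsum_eq (fun j : ℤ => Real.exp (-|(j : ℝ)|))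

theorem lat_sum : ∃ C : ℝ, 0 < C ∧ ∀ (M : ℝ) (z : ℂ) (s : Finset (ℤ × ℤ)), 0 < M →
    ∑ m ∈ s, Real.exp (-(M ^ 2 * ‖z - zlat M m‖ ^ 2) / 4) ≤ C := by
  obtain ⟨C, hC, h⟩ := one_dim
  refine ⟨C * C, mul_pos hC hC, ?_⟩
  intro M z s hM
  have key : ∀ m : ℤ × ℤ, Real.exp (-(M ^ 2 * ‖z - zlat M m‖ ^ 2) / 4)
      = Real.exp (-(M * z.re - 4 * m.1) ^ 2 / 4) * Real.exp (-(M * z.im - 4 * m.2) ^ 2 / 4) := by
    intro m
    rw [← Real.exp_add]
    congr 1
    have e : ‖z - zlat M m‖ ^ 2 = (z.re - 4 / M * m.1) ^ 2 + (z.im - 4 / M * m.2) ^ 2 := by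
      rw [← Complex.normSq_eq_norm_sq, Complex.normSq_apply]
      have h1 : (z - zlat M m).re = z.re - 4 / M * m.1 := by
        simp only [zlat, Complex.sub_re, Complex.re_ofReal_mul]
        simp
      have h2 : (z - zlat M m).im = z.im - 4 / M * m.2 := by
        simp only [zlat, Complex.sub_im, Complex.im_ofReal_mul]
        simp
      rw [h1, h2]; ring
    rw [e]
    field_simp
    ring
  calc ∑ m ∈ s, Real.exp (-(M ^ 2 * ‖z - zlat M m‖ ^ 2) / 4)
      = ∑ m ∈ s, Real.exp (-(M * z.re - 4 * m.1) ^ 2 / 4) *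
          Real.exp (-(M * z.im - 4 * m.2) ^ 2 / 4) := Finset.sum_congr rfl fun m _ => key m
    _ ≤ ∑ m ∈ (s.image Prod.fst) ×ˢ (s.image Prod.snd),
          Real.exp (-(M * z.re - 4 * m.1) ^ 2 / 4) * Real.exp (-(M * z.im - 4 * m.2) ^ 2 / 4) := by
        apply Finset.sum_le_sum_of_subset_of_nonneg
        · intro m hm
          exact Finset.mem_product.mpr ⟨Finset.mem_image_of_mem _ hm, Finset.mem_image_of_mem _ hm⟩
        · intro i _ _
          positivity
    _ = (∑ n ∈ s.image Prod.fst, Real.exp (-(M * z.re - 4 * n) ^ 2 / 4)) *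
          (∑ n ∈ s.image Prod.snd, Real.exp (-(M * z.im - 4 * n) ^ 2 / 4)) := by
        rw [Finset.sum_mul_sum, Finset.sum_product]
    _ ≤ C * C := by
        apply mul_le_mul (h _ _) (h _ _) _ hC.le
        exact Finset.sum_nonneg fun _ _ => (Real.exp_pos _).le

end Crest.Agent.R245
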