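import Crest.Agent.R245.WildDefs

/-! TASK WildV1 (helper225) -/

set_option autoImplicit false

namespace Crest.Agent.R245

open Complex Filter Topology
open scoped ContDiff ComplexConjugate

theorem vfun_contDiff {ε T : ℝ} (hε : 0 < ε) : ContDiff ℝ ∞ (vfun ε T) := by
  unfold vfun
  have him : ContDiff ℝ ∞ (fun w : ℂ => w.im) := Complex.imCLM.contDiff
  have h1 : ContDiff ℝ ∞ (fun w : ℂ => Real.smoothTransition (T - w.im)) :=
    Real.smoothTransition.contDiff.comp (contDiff_const.sub him)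
  have hexp : ContDiff ℝ ∞ (fun w : ℂ => 1 + Complex.exp (1 + I * w)) := by
    have h : ContDiff ℂ ∞ (fun w : ℂ => 1 + Complex.exp (1 + I * w)) := by
      fun_prop
    exact h.restrict_scalars ℝ
  have h2 : ContDiff ℝ ∞ (fun w : ℂ => ‖1 + Complex.exp (1 + I * w)‖ ^ 2 + ε ^ 2) :=
    (hexp.norm_sq ℝ).add contDiff_const
  have h3 : ContDiff ℝ ∞
      (fun w : ℂ => Real.log (‖1 + Complex.exp (1 + I * w)‖ ^ 2 + ε ^ 2)) :=
    h2.log (fun w => by positivity)
  exact h1.mul (h3.sub contDiff_const)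

theorem vfun_eq_zero {ε T : ℝ} {w : ℂ} (h : T ≤ w.im) : vfun ε T w = 0 := by
  unfold vfun
  rw [Real.smoothTransition.zero_of_nonpos (by linarith), zero_mul]

theorem norm_exp_one_add (w : ℂ) : ‖Complex.exp (1 + I * w)‖ = Real.exp (1 - w.im) := by
  rw [Complex.norm_exp]
  congr 1
  simp
  ring

theorem vfun_le {ε T : ℝ} {w : ℂ} (hε : 0 < ε) (hε1 : ε ≤ 1) (hT : 3 ≤ T) (hw : 0 ≤ w.im) :
    vfun ε T w ≤ 13 * Real.exp (-w.im) := by
  set r : ℝ := Real.exp (1 - w.im) with hr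
  have hr0 : 0 < r := Real.exp_pos _
  have hre : r = Real.exp 1 * Real.exp (-w.im) := by
    rw [hr, ← Real.exp_add]; congr 1
  have he1 : Real.exp 1 < 2.7182818286 := Real.exp_one_lt_d9
  have he0 : 0 < Real.exp (-w.im) := Real.exp_pos _
  have he2 : Real.exp (-w.im) ≤ 1 := Real.exp_le_one_iff.2 (by linarith)
  have hX1 : ‖1 + Complex.exp (1 + I * w)‖ ≤ 1 + r := by
    refine (norm_add_le _ _).trans ?_
    rw [norm_one, norm_exp_one_add]
  have hX : ‖1 + Complex.exp (1 + I * w)‖ ^ 2 ≤ (1 + r) ^ 2 :=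
    pow_le_pow_left₀ (norm_nonneg _) hX1 2
  set X : ℝ := ‖1 + Complex.exp (1 + I * w)‖ ^ 2 with hXdef
  have hX0 : 0 ≤ X := by positivity
  have hε2 : 0 < 1 + ε ^ 2 := by positivity
  have hlog : Real.log (X + ε ^ 2) - Real.log (1 + ε ^ 2) ≤ 13 * Real.exp (-w.im) := by
    rw [← Real.log_div (by positivity) hε2.ne']
    refine (Real.log_le_sub_one_of_pos (by positivity)).trans ?_
    have h1 : (X + ε ^ 2) / (1 + ε ^ 2) - 1 = (X - 1) / (1 + ε ^ 2) := by
      field_simp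
      ring
    rw [h1]
    have h2 : X - 1 ≤ 2 * r + r ^ 2 := by nlinarith
    have h3 : (X - 1) / (1 + ε ^ 2) ≤ 2 * r + r ^ 2 := by
      rw [div_le_iff₀ hε2]
      have : 0 ≤ 2 * r + r ^ 2 := by positivity
      nlinarith [sq_nonneg ε]
    refine h3.trans ?_
    rw [hre]
    have h4 : (Real.exp 1) ^ 2 * Real.exp (-w.im) ^ 2 ≤ (Real.exp 1) ^ 2 * Real.exp (-w.im) := by
      have : Real.exp (-w.im) ^ 2 ≤ Real.exp (-w.im) := by nlinarith
      exact mul_le_mul_of_nonneg_left this (by positivity)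
    have h5 : 2 * Real.exp 1 + (Real.exp 1) ^ 2 ≤ 13 := by
      nlinarith [Real.exp_pos 1]
    nlinarith
  unfold vfun
  rw [← hXdef]
  have hs0 : 0 ≤ Real.smoothTransition (T - w.im) := Real.smoothTransition.nonneg _
  have hs1 : Real.smoothTransition (T - w.im) ≤ 1 := Real.smoothTransition.le_one _
  have hpos : 0 ≤ 13 * Real.exp (-w.im) := by positivity
  rcases le_total 0 (Real.log (X + ε ^ 2) - Real.log (1 + ε ^ 2)) with h | h
  · nlinarith
  · nlinarith

theorem vfun_ge : ∃ C : ℝ, 0 < C ∧ ∀ (ε T : ℝ) (w : ℂ), 0 < ε → ε ≤ 1 → 3 ≤ T → 2 ≤ w.im →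
    -C * Real.exp (-w.im) ≤ vfun ε T w := by
  refine ⟨20, by norm_num, fun ε T w hε hε1 hT hw => ?_⟩
  set r : ℝ := Real.exp (1 - w.im) with hr
  have hr0 : 0 < r := Real.exp_pos _
  have hre : r = Real.exp 1 * Real.exp (-w.im) := by
    rw [hr, ← Real.exp_add]; congr 1
  have he1 : Real.exp 1 < 2.7182818286 := Real.exp_one_lt_d9
  have he0 : 0 < Real.exp (-w.im) := Real.exp_pos _
  have hr1 : r ≤ 0.37 := by
    have h1 : r ≤ Real.exp (-1) := Real.exp_le_exp.2 (by linarith)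
    have h2 := Real.exp_neg_one_lt_d9
    linarith
  have hX1 : 1 - r ≤ ‖1 + Complex.exp (1 + I * w)‖ := by
    have h := norm_sub_norm_le (1 : ℂ) (-Complex.exp (1 + I * w))
    rw [norm_neg, norm_one, norm_exp_one_add, sub_neg_eq_add] at h
    exact h
  have hX : (1 - r) ^ 2 ≤ ‖1 + Complex.exp (1 + I * w)‖ ^ 2 :=
    pow_le_pow_left₀ (by linarith) hX1 2
  set X : ℝ := ‖1 + Complex.exp (1 + I * w)‖ ^ 2 with hXdef
  have hXpos : 0.39 ≤ X := by nlinarith
  have hε2 : 0 < 1 + ε ^ 2 := by positivity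
  have hlog : -(20 * Real.exp (-w.im)) ≤ Real.log (X + ε ^ 2) - Real.log (1 + ε ^ 2) := by
    rw [← Real.log_div (by positivity) hε2.ne']
    have hq : 0 < (X + ε ^ 2) / (1 + ε ^ 2) := by positivity
    refine le_trans ?_ (Real.one_sub_inv_le_log_of_pos hq)
    rw [inv_div]
    have hXe : 0 < X + ε ^ 2 := by positivity
    have h1 : 1 - (1 + ε ^ 2) / (X + ε ^ 2) = (X - 1) / (X + ε ^ 2) := by
      field_simp
      ring
    rw [h1, le_div_iff₀ hXe]
    have h2 : -(2 * r) ≤ X - 1 := by nlinarith [sq_nonneg r]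
    have h3 : r ≤ 2.72 * Real.exp (-w.im) := by rw [hre]; nlinarith
    have h4 : 0.39 ≤ X + ε ^ 2 := by nlinarith [sq_nonneg ε]
    nlinarith
  unfold vfun
  rw [← hXdef]
  have hs0 : 0 ≤ Real.smoothTransition (T - w.im) := Real.smoothTransition.nonneg _
  have hs1 : Real.smoothTransition (T - w.im) ≤ 1 := Real.smoothTransition.le_one _
  rcases le_total 0 (Real.log (X + ε ^ 2) - Real.log (1 + ε ^ 2)) with h | h
  · nlinarith
  · nlinarith

/-- the dips -/
theorem vfun_dip (ε T : ℝ) (hT : 3 ≤ T) (n : ℤ) :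
    vfun ε T (((Real.pi * (2 * n + 1) : ℝ) : ℂ) + I) = 2 * Real.log ε - Real.log (1 + ε ^ 2) := by
  have him : ((((Real.pi * (2 * n + 1) : ℝ) : ℂ) + I).im) = 1 := by simp
  have hexp : Complex.exp (1 + I * (((Real.pi * (2 * n + 1) : ℝ) : ℂ) + I)) = -1 := by
    have h : (1 : ℂ) + I * (((Real.pi * (2 * n + 1) : ℝ) : ℂ) + I)
        = (Real.pi : ℂ) * I + n * (2 * Real.pi * I) := by
      push_cast
      linear_combination I_mul_I
    rw [h, Complex.exp_add, Complex.exp_int_mul_two_pi_mul_I, mul_one, Complex.exp_pi_mul_I]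
  unfold vfun
  rw [him, Real.smoothTransition.one_of_one_le (by linarith), hexp]
  simp [Real.log_pow]

end Crest.Agent.R245
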